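import Vale.Agent.P269.Base.Map
import Vale.Agent.P269.Holo.Act

/-!
# The action on the ambient space: invariance of `base` and `sol`
-/

namespace Vale.Agent.P269

open Set Function Topology Filter Holo Base

set_option linter.unusedSectionVars false

theorem Base.finrank_pi_clm {σ : Type} [Fintype σ] (E F : σ → Type) [∀ s, NormedAddCommGroup (E s)]
    [∀ s, NormedSpace ℂ (E s)] [∀ s, NormedAddCommGroup (F s)] [∀ s, NormedSpace ℂ (F s)]
    [∀ s, FiniteDimensional ℂ (E s)] [∀ s, FiniteDimensional ℂ (F s)] :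
    Module.finrank ℂ (∀ s, E s →L[ℂ] F s) =
      ∑ s, Module.finrank ℂ (E s) * Module.finrank ℂ (F s) := by
  rw [Module.finrank_pi_fintype]
  simp only [finrank_clm]

section Gen

variable {ι σ ν : Type} [Fintype ι] [Fintype σ] [Fintype ν] (E : ι → Type) (F : σ → Type)
  [∀ i, NormedAddCommGroup (E i)] [∀ i, NormedSpace ℂ (E i)]
  [∀ i, NormedAddCommGroup (F i)] [∀ i, NormedSpace ℂ (F i)]

/-- The normed algebra structure of a product of endomorphism algebras. -/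
@[reducible] noncomputable def Base.algA (B : Type) [NormedRing B] [NormedAlgebra ℂ B] :
    @NormedAlgebra ℂ ((∀ i, E i →L[ℂ] E i) × (∀ i, F i →L[ℂ] F i) × B) _
      NormedRing.toSeminormedRing := inferInstance

theorem Base.isAct_gen {W : Type} [NormedAddCommGroup W] [NormedSpace ℂ W]
    {act : (∀ i, E i →L[ℂ] E i) × (∀ i, F i →L[ℂ] F i) × (ν → ι → ℂ) → W → W} {S : Set W}
    (h1 : ∀ x, act 1 x = x) (h2 : ∀ a b x, act (a * b) x = act a (act b x))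
    (h3 : ∀ a, IsUnit a → ∀ x ∈ S, act a x ∈ S)
    (h4 : ∀ q, AnalyticAt ℂ (fun p : _ × W => act p.1 p.2) q) :
    @IsAct _ W _ (algA E F _) _ _ act S :=
  @IsAct.mk _ W _ (algA E F _) _ _ act S (fun x _ => h1 x) (fun a b _ _ x _ => h2 a b x) h3
    fun _ _ _ _ => h4 _

end Gen

namespace Ch

variable {R J K ι ν : Type} [Fintype R] [Fintype J] [Fintype K] [Fintype ι] [DecidableEq ι]
  [Fintype ν] {ch : Ch ι J}

instance : FiniteDimensional ℂ (ch.W ν) :=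
  (fd_prod4 (∀ l, Tens ch.M (ch.a l) →L[ℂ] ch.E l) (ν → V ch.M)
    (Tn ch.M ch.slot →L[ℂ] ch.E none) (∀ j, Tens ch.M (ch.b j) →L[ℂ] ch.E (some j))).1

instance : CompleteSpace (ch.W ν) := FiniteDimensional.complete ℂ _

instance : ProperSpace (ch.W ν) := FiniteDimensional.proper ℂ _

noncomputable instance instNormedRingA : NormedRing (ch.A ν) := inferInstance

noncomputable instance instNormedAlgebraA :
    @NormedAlgebra ℂ (ch.A ν) _ NormedRing.toSeminormedRing := algA _ _ _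

instance : FiniteDimensional ℂ (ch.A ν) := inferInstance

instance : CompleteSpace (ch.A ν) := inferInstance

theorem finrank_W : Module.finrank ℂ (ch.W ν) =
    ∑ l, Module.finrank ℂ (Tens ch.M (ch.a l)) * ch.h l + (Fintype.card ν * ∑ i, ch.M i +
      (Module.finrank ℂ (Tn ch.M ch.slot) * ch.h none +
        ∑ j, Module.finrank ℂ (Tens ch.M (ch.b j)) * ch.h (some j))) := by
  refine (fd_prod4 (∀ l, Tens ch.M (ch.a l) →L[ℂ] ch.E l) (ν → V ch.M)
    (Tn ch.M ch.slot →L[ℂ] ch.E none) (∀ j, Tens ch.M (ch.b j) →L[ℂ] ch.E (some j))).2.trans ?_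
  have h1 := finrank_pi_clm (fun l => Tens ch.M (ch.a l)) ch.E
  have h2 := finrank_pi_clm (fun j => Tens ch.M (ch.b j)) fun j => ch.E (some j)
  have h3 : Module.finrank ℂ (ν → V ch.M) = Fintype.card ν * ∑ i, ch.M i := by
    simp [Module.finrank_pi_fintype]
  rw [h1, h2, h3]
  simp only [finrank_clm, Module.finrank_fin_fun]

theorem finrank_A : Module.finrank ℂ (ch.A ν) =
    ∑ i, ch.M i * ch.M i + (∑ l, ch.h l * ch.h l + Fintype.card ν * Fintype.card ι) := by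
  simp [Module.finrank_prod, Module.finrank_pi_fintype, finrank_clm]

/-- A point of the ambient space from its components. -/
def W.mk' (Q : ∀ l, Tens ch.M (ch.a l) →L[ℂ] ch.E l) (p : ν → V ch.M)
    (Ξ : Tn ch.M ch.slot →L[ℂ] ch.E none) (X : ∀ j, Tens ch.M (ch.b j) →L[ℂ] ch.E (some j)) :
    ch.W ν := (Q, p, Ξ, X)

section Mk

variable (Q : ∀ l, Tens ch.M (ch.a l) →L[ℂ] ch.E l) (p : ν → V ch.M)
  (Ξ : Tn ch.M ch.slot →L[ℂ] ch.E none) (X : ∀ j, Tens ch.M (ch.b j) →L[ℂ] ch.E (some j))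

@[simp] theorem W.mk'_Q : (W.mk' Q p Ξ X).Q = Q := rfl
@[simp] theorem W.mk'_p : (W.mk' Q p Ξ X).p = p := rfl
@[simp] theorem W.mk'_Ξ : (W.mk' Q p Ξ X).Ξ = Ξ := rfl
@[simp] theorem W.mk'_X : (W.mk' Q p Ξ X).X = X := rfl

end Mk

theorem W.mk'_eta (x : ch.W ν) : W.mk' x.Q x.p x.Ξ x.X = x := rfl

@[ext] theorem W.ext {x y : ch.W ν} (h1 : ∀ l, x.Q l = y.Q l) (h2 : ∀ n, x.p n = y.p n)
    (h3 : x.Ξ = y.Ξ) (h4 : ∀ j, x.X j = y.X j) : x = y :=
  Prod.ext (funext h1) (Prod.ext (funext h2) (Prod.ext h3 (funext h4)))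

/-- The projection to a Hilbert point. -/
noncomputable def W.QL (l : Option J) : ch.W ν →L[ℂ] Tens ch.M (ch.a l) →L[ℂ] ch.E l :=
  (ContinuousLinearMap.proj l).comp (ContinuousLinearMap.fst ℂ _ _)

/-- The projection to a marked point. -/
noncomputable def W.pL (n : ν) : ch.W ν →L[ℂ] V ch.M :=
  (ContinuousLinearMap.proj n).comp
    ((ContinuousLinearMap.fst ℂ _ _).comp (ContinuousLinearMap.snd ℂ _ _))

/-- The projection to the tensor `Ξ`. -/
noncomputable def W.XiL : ch.W ν →L[ℂ] Tn ch.M ch.slot →L[ℂ] ch.E none :=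
  (ContinuousLinearMap.fst ℂ _ _).comp
    ((ContinuousLinearMap.snd ℂ _ _).comp (ContinuousLinearMap.snd ℂ _ _))

/-- The projection to a field. -/
noncomputable def W.XL (j : J) : ch.W ν →L[ℂ] Tens ch.M (ch.b j) →L[ℂ] ch.E (some j) :=
  (ContinuousLinearMap.proj j).comp ((ContinuousLinearMap.snd ℂ _ _).comp
    ((ContinuousLinearMap.snd ℂ _ _).comp (ContinuousLinearMap.snd ℂ _ _)))

@[simp] theorem W.QL_apply (l : Option J) (x : ch.W ν) : W.QL l x = x.Q l := rfl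
@[simp] theorem W.pL_apply (n : ν) (x : ch.W ν) : W.pL n x = x.p n := rfl
@[simp] theorem W.XiL_apply (x : ch.W ν) : W.XiL x = x.Ξ := rfl
@[simp] theorem W.XL_apply (j : J) (x : ch.W ν) : W.XL j x = x.X j := rfl

section An

variable {P : Type*} [NormedAddCommGroup P] [NormedSpace ℂ P] {x : P → ch.W ν} {q : P}

theorem W.an_Q (h : AnalyticAt ℂ x q) (l : Option J) : AnalyticAt ℂ (fun y => (x y).Q l) q :=
  analyticAt_pi_iff.1 (analyticAt_fst.comp h) l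

theorem W.an_p (h : AnalyticAt ℂ x q) (n : ν) : AnalyticAt ℂ (fun y => (x y).p n) q :=
  analyticAt_pi_iff.1 (analyticAt_fst.comp (analyticAt_snd.comp h)) n

theorem W.an_Ξ (h : AnalyticAt ℂ x q) : AnalyticAt ℂ (fun y => (x y).Ξ) q :=
  analyticAt_fst.comp (analyticAt_snd.comp (analyticAt_snd.comp h))

theorem W.an_X (h : AnalyticAt ℂ x q) (j : J) : AnalyticAt ℂ (fun y => (x y).X j) q :=
  analyticAt_pi_iff.1 (analyticAt_snd.comp (analyticAt_snd.comp (analyticAt_snd.comp h))) j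

theorem W.an_iff : AnalyticAt ℂ x q ↔ (∀ l, AnalyticAt ℂ (fun y => (x y).Q l) q) ∧
    (∀ n, AnalyticAt ℂ (fun y => (x y).p n) q) ∧ AnalyticAt ℂ (fun y => (x y).Ξ) q ∧
      ∀ j, AnalyticAt ℂ (fun y => (x y).X j) q :=
  ⟨fun h => ⟨W.an_Q h, W.an_p h, W.an_Ξ h, W.an_X h⟩, fun ⟨h1, h2, h3, h4⟩ =>
    (AnalyticAt.pi h1).prod ((AnalyticAt.pi h2).prod (h3.prod (AnalyticAt.pi h4)))⟩

theorem an_sub {s : P → ch.A ν} (h : AnalyticAt ℂ s q) {σ : Type} [Fintype σ] (τ : σ → ι) :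
    AnalyticAt ℂ (fun y => sub (s y) τ) q :=
  analyticAt_of_apply fun μ => by
    have h1 := AnalyticAt.comp (f := fun y => ((fun i => (s y).1 (τ i)), μ)) (x := q)
      ContinuousMultilinearMap.analyticAt_uncurry_compContinuousLinearMap
      ((AnalyticAt.pi fun i => analyticAt_pi_iff.1 (analyticAt_fst.comp h) (τ i)).prod
        analyticAt_const)
    exact h1

theorem an_act {s : P → ch.A ν} (hs : AnalyticAt ℂ s q) (h : AnalyticAt ℂ x q) :
    AnalyticAt ℂ (fun y => act (s y) (x y)) q := by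
  have h1 : ∀ l, AnalyticAt ℂ (fun y => (s y).2.1 l) q := fun l =>
    analyticAt_pi_iff.1 (analyticAt_fst.comp (analyticAt_snd.comp hs)) l
  refine W.an_iff.2 ⟨fun l => an_comp (h1 l) (an_comp (W.an_Q h l) (an_sub hs _)),
    fun n => AnalyticAt.pi fun i => ?_, an_comp (h1 none) (an_comp (W.an_Ξ h) (an_sub hs _)),
    fun j => an_comp (h1 _) (an_comp (W.an_X h j) (an_sub hs _))⟩
  exact (analyticAt_pi_iff.1 (analyticAt_pi_iff.1 (analyticAt_snd.comp (analyticAt_snd.comp hs)) n)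
    i).fun_smul (an_apply (analyticAt_pi_iff.1 (analyticAt_fst.comp hs) i)
      (analyticAt_pi_iff.1 (W.an_p h n) i))

end An

theorem act_Q (s : ch.A ν) (x : ch.W ν) (l : Option J) (μ : Tens ch.M (ch.a l)) :
    (act s x).Q l μ = s.2.1 l (x.Q l (sub s _ μ)) := rfl

theorem act_p (s : ch.A ν) (x : ch.W ν) (n : ν) :
    (act s x).p n = s.2.2 n • fun i => s.1 i (x.p n i) := rfl

theorem act_Ξ (s : ch.A ν) (x : ch.W ν) (μ : Tn ch.M ch.slot) :
    (act s x).Ξ μ = s.2.1 none (x.Ξ (sub s _ μ)) := rfl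

theorem act_X (s : ch.A ν) (x : ch.W ν) (j : J) (μ : Tens ch.M (ch.b j)) :
    (act s x).X j μ = s.2.1 (some j) (x.X j (sub s _ μ)) := rfl

theorem sub_apply (s : ch.A ν) {σ : Type} [Fintype σ] (τ : σ → ι) (μ : Tn ch.M τ)
    (v : ∀ r, Fin (ch.M (τ r)) → ℂ) : sub s τ μ v = μ fun r => s.1 (τ r) (v r) := rfl

theorem sub_one {σ : Type} [Fintype σ] (τ : σ → ι) (μ : Tn ch.M τ) : sub (1 : ch.A ν) τ μ = μ := rfl

theorem sub_mul (s t : ch.A ν) {σ : Type} [Fintype σ] (τ : σ → ι) (μ : Tn ch.M τ) :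
    sub (s * t) τ μ = sub t τ (sub s τ μ) := rfl

theorem act_one (x : ch.W ν) : act 1 x = x :=
  W.ext (fun _ => rfl) (fun _ => funext fun _ => one_smul _ _) rfl fun _ => rfl

theorem act_mul (s t : ch.A ν) (x : ch.W ν) : act (s * t) x = act s (act t x) :=
  W.ext (fun _ => rfl) (fun n => funext fun i => by
    change (s.2.2 n i * t.2.2 n i) • s.1 i (t.1 i (x.p n i)) =
      s.2.2 n i • s.1 i (t.2.2 n i • t.1 i (x.p n i))
    rw [map_smul, smul_smul]) rfl fun _ => rfl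

theorem act_inv_act (u : (ch.A ν)ˣ) (x : ch.W ν) : act (↑u⁻¹ : ch.A ν) (act u x) = x := by
  rw [← act_mul, u.inv_mul, act_one]

theorem act_act_inv (u : (ch.A ν)ˣ) (x : ch.W ν) : act (u : ch.A ν) (act (↑u⁻¹) x) = x := by
  rw [← act_mul, u.mul_inv, act_one]

theorem an_act₂ (q : ch.A ν × ch.W ν) :
    AnalyticAt ℂ (fun p : ch.A ν × ch.W ν => act p.1 p.2) q :=
  an_act analyticAt_fst analyticAt_snd

theorem continuous_act : Continuous fun p : ch.A ν × ch.W ν => act p.1 p.2 :=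
  continuous_iff_continuousAt.2 fun q => (an_act₂ q).continuousAt

/-- The automorphisms of the factors given by a unit. -/
noncomputable def gU (u : (ch.A ν)ˣ) (i : ι) : (Fin (ch.M i) → ℂ) ≃L[ℂ] (Fin (ch.M i) → ℂ) :=
  ContinuousLinearEquiv.equivOfInverse ((u : ch.A ν).1 i) ((↑u⁻¹ : ch.A ν).1 i)
    (fun v => congrArg (fun s : ch.A ν => s.1 i v) u.inv_mul)
    fun v => congrArg (fun s : ch.A ν => s.1 i v) u.mul_inv

/-- The automorphisms of the spaces of sections given by a unit. -/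
noncomputable def eU (u : (ch.A ν)ˣ) (l : Option J) : ch.E l ≃L[ℂ] ch.E l :=
  ContinuousLinearEquiv.equivOfInverse ((u : ch.A ν).2.1 l) ((↑u⁻¹ : ch.A ν).2.1 l)
    (fun v => congrArg (fun s : ch.A ν => s.2.1 l v) u.inv_mul)
    fun v => congrArg (fun s : ch.A ν => s.2.1 l v) u.mul_inv

theorem gV_gU (u : (ch.A ν)ˣ) (c : V ch.M) :
    gV (gU u) c = fun i => (u : ch.A ν).1 i (c i) := rfl

theorem gU_inv (u : (ch.A ν)ˣ) : gU u⁻¹ = fun i => (gU u i).symm := rfl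

theorem tor_mul_inv (u : (ch.A ν)ˣ) (n : ν) (i : ι) :
    (u : ch.A ν).2.2 n i * (↑u⁻¹ : ch.A ν).2.2 n i = 1 :=
  congrArg (fun s : ch.A ν => s.2.2 n i) u.mul_inv

theorem tor_ne (u : (ch.A ν)ˣ) (n : ν) (i : ι) : (u : ch.A ν).2.2 n i ≠ 0 :=
  left_ne_zero_of_mul_eq_one (tor_mul_inv u n i)

theorem isUnit_fst {s : ch.A ν} (hs : IsUnit s) (i : ι) : IsUnit (s.1 i) :=
  (Pi.isUnit_iff.1 (Prod.isUnit_iff.1 hs).1) i

theorem isUnit_E {s : ch.A ν} (hs : IsUnit s) (l : Option J) : IsUnit (s.2.1 l) :=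
  (Pi.isUnit_iff.1 (Prod.isUnit_iff.1 (Prod.isUnit_iff.1 hs).2).1) l

theorem sub_bijective (u : (ch.A ν)ˣ) {σ : Type} [Fintype σ] (τ : σ → ι) :
    Bijective (sub (u : ch.A ν) τ) :=
  bijective_iff_has_inverse.2 ⟨sub (↑u⁻¹ : ch.A ν) τ,
    fun μ => by rw [← sub_mul, u.mul_inv, sub_one], fun μ => by rw [← sub_mul, u.inv_mul, sub_one]⟩

theorem gr_act_iff (u : (ch.A ν)ˣ) {x : ch.W ν} {c : V ch.M} {w : ∀ l, ch.E l →L[ℂ] ℂ} :
    (gV (gU u) c, w) ∈ gr (act (u : ch.A ν) x) ↔ (c, fun l => w l ∘L (u : ch.A ν).2.1 l) ∈ gr x :=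
  and_congr (forall_congr' fun i => gV_ne i) (forall_congr' fun l =>
    ⟨fun h μ => by
      obtain ⟨μ, rfl⟩ := (sub_bijective u _).2 μ
      exact h μ, fun h μ => h (sub (u : ch.A ν) _ μ)⟩)

theorem gr_act {s : ch.A ν} (hs : IsUnit s) {x : ch.W ν} {c : V ch.M} {w : ∀ l, ch.E l →L[ℂ] ℂ} :
    (c, w) ∈ gr x ↔
      ((fun i => s.1 i (c i)), fun l => w l ∘L Ring.inverse (s.2.1 l)) ∈ gr (act s x) := by
  have h := isUnit_E hs
  obtain ⟨u, rfl⟩ := hs
  refine Iff.trans ?_ (gr_act_iff u).symm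
  have : (fun l => (w l ∘L Ring.inverse ((u : ch.A ν).2.1 l)) ∘L (u : ch.A ν).2.1 l) = w :=
    funext fun l => by
      rw [ContinuousLinearMap.comp_assoc]
      exact congrArg (w l ∘L ·) (Ring.inverse_mul_cancel _ (h l))
  rw [this]

theorem crv_actU (u : (ch.A ν)ˣ) (x : ch.W ν) : crv (act (u : ch.A ν) x) = gV (gU u) '' crv x := by
  ext c
  obtain ⟨c, rfl⟩ := (gV (gU u)).surjective c
  rw [(gV (gU u)).injective.mem_set_image, mem_crv, mem_crv]
  exact ⟨fun ⟨_, h⟩ => ⟨_, (gr_act_iff u).1 h⟩, fun ⟨_, h⟩ => ⟨_, (gr_act u.isUnit).1 h⟩⟩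

theorem crv_act {s : ch.A ν} (hs : IsUnit s) (x : ch.W ν) :
    crv (act s x) = (fun (c : V ch.M) i => s.1 i (c i)) '' crv x := by
  obtain ⟨u, rfl⟩ := hs
  exact crv_actU u x

/-- The nodes and the marked points. -/
def Spc (x : ch.W ν) (c : V ch.M) : Prop :=
  IsNode ch.o (crv x) c ∨ ∃ n, ∃ s : ι → ℂ, c = s • x.p n

theorem p_actU (u : (ch.A ν)ˣ) (x : ch.W ν) (n : ν) :
    (act (u : ch.A ν) x).p n = (u : ch.A ν).2.2 n • gV (gU u) (x.p n) := rfl

theorem spc_act (u : (ch.A ν)ˣ) {x : ch.W ν} {c : V ch.M} :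
    Spc (act (u : ch.A ν) x) (gV (gU u) c) ↔ Spc x c := by
  refine or_congr (by rw [crv_actU, isNode_map_iff]) (exists_congr fun n => ?_)
  simp only [p_actU, smul_smul, ← gV_smul, (gV (gU u)).injective.eq_iff]
  refine ⟨fun ⟨s, h⟩ => ⟨_, h⟩, fun ⟨s, h⟩ => ⟨s * ((u : ch.A ν).2.2 n)⁻¹, ?_⟩⟩
  rw [h, mul_smul, mul_smul, inv_smul_smul' (tor_ne u n)]

theorem spc_smul {x : ch.W ν} {c : V ch.M} {s : ι → ℂ} (hs : ∀ i, s i ≠ 0) :
    Spc x (s • c) ↔ Spc x c := by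
  refine or_congr (isNode_smul_iff hs fun t ht c hc => crv_smul hc ht) (exists_congr fun n => ?_)
  refine ⟨fun ⟨t, h⟩ => ⟨s⁻¹ * t, ?_⟩, fun ⟨t, h⟩ => ⟨s * t, by rw [h, mul_smul]⟩⟩
  rw [mul_smul, ← h, inv_smul_smul' hs]

open Classical in
theorem lead_actU (u : (ch.A ν)ˣ) {x : ch.W ν} {γ : ℂ → V ch.M} {ρ : ℂ} :
    Lead (act (u : ch.A ν) x) (fun z => gV (gU u) (γ z)) ρ ↔ Lead x γ ρ := by
  refine exists_congr fun f => and_congr_right fun _ => and_congr_right fun _ =>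
    eventually_congr (Eventually.of_forall fun t => ?_)
  have h1 : (if IsNode ch.o (crv (act (u : ch.A ν) x)) (gV (gU u) (γ 0)) ∨
      ∃ n, ∃ s : ι → ℂ, gV (gU u) (γ 0) = s • (act (u : ch.A ν) x).p n then t else 1) =
      if IsNode ch.o (crv x) (γ 0) ∨ ∃ n, ∃ s : ι → ℂ, γ 0 = s • x.p n then t else 1 :=
    if_congr (spc_act u) rfl rfl
  rw [h1, deriv_gV]
  constructor
  · intro h w hw μ
    obtain ⟨μ, rfl⟩ := (sub_bijective u _).2 μ
    rw [wedge_sub]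
    refine Eq.trans ?_ (h _ ((gr_act u.isUnit).1 hw) μ)
    exact congrArg (w none) (congrArg
      (fun A : ch.E none →L[ℂ] ch.E none => A (x.Ξ (sub (u : ch.A ν) _ μ)))
      (Ring.inverse_mul_cancel _ (isUnit_E u.isUnit none))).symm
  · intro h w hw μ
    exact (h _ ((gr_act_iff u).1 hw) (sub (u : ch.A ν) _ μ)).trans (by rw [wedge_sub]; rfl)

theorem lead_act {s : ch.A ν} (hs : IsUnit s) {x : ch.W ν} {γ : ℂ → V ch.M} {ρ : ℂ} :
    Lead x γ ρ ↔ Lead (act s x) (fun z i => s.1 i (γ z i)) ρ := by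
  obtain ⟨u, rfl⟩ := hs
  exact (lead_actU u).symm

theorem act_mem_base (u : (ch.A ν)ˣ) {x : ch.W ν} (h : x ∈ ch.base ν) :
    act (u : ch.A ν) x ∈ ch.base ν := by
  obtain ⟨h1, h2, h3, h4, h5, h6, h7⟩ := h
  have hb : ∀ c ∈ crv (act (u : ch.A ν) x), gV (fun i => (gU u i).symm) c ∈ crv x := by
    rw [crv_actU]
    rintro _ ⟨c, hc, rfl⟩
    exact ((gV (gU u)).symm_apply_apply c).symm ▸ hc
  have hl : ∀ (γ : ℂ → V ch.M) ρ, Lead (act (u : ch.A ν) x) γ ρ ↔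
      Lead x (fun z => gV (fun i => (gU u i).symm) (γ z)) ρ := fun γ ρ => by
    rw [← lead_actU u (x := x)]
    simp only [← gV_symm, ContinuousLinearEquiv.apply_symm_apply]
  refine ⟨fun l => (eU u l).surjective.comp ((h1 l).comp (sub_bijective u _).2),
    fun l μ h => ?_, by rw [crv_actU]; exact h3.map, fun n => ?_, fun n n' s h => ?_,
    fun γ hγ => ?_, fun c γ₁ γ₂ ρ₁ ρ₂ hc k1 k2 => ?_⟩
  · rw [act_Q, h2 l (sub (u : ch.A ν) _ μ) fun c hc => h (gV (gU u) c)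
      (by rw [crv_actU]; exact mem_image_of_mem _ hc), map_zero]
  · rw [p_actU, isNode_smul_iff (tor_ne u n) fun t ht c hc => crv_smul hc ht]
    refine ⟨crv_smul ?_ (tor_ne u n), ?_⟩
    · rw [crv_actU]
      exact mem_image_of_mem _ (h4 n).1
    · rw [crv_actU, isNode_map_iff]
      exact (h4 n).2
  · simp only [p_actU, smul_smul, ← gV_smul, (gV (gU u)).injective.eq_iff] at h
    refine h5 n n' (((u : ch.A ν).2.2 n)⁻¹ * (s * (u : ch.A ν).2.2 n')) ?_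
    rw [mul_smul, ← h, inv_smul_smul' (tor_ne u n)]
  · obtain ⟨ρ, k1, k2⟩ := h6 _ (hγ.map' hb)
    exact ⟨ρ, k1, (hl γ ρ).2 k2⟩
  · exact h7 _ _ _ _ _ (hc.map' hb) ((hl _ _).1 k1) ((hl _ _).1 k2)

theorem act_mem_sol {T : Tgt R J K} (u : (ch.A ν)ˣ) {x : ch.W ν} (h : x ∈ ch.sol ν T) :
    act (u : ch.A ν) x ∈ ch.sol ν T := by
  refine ⟨act_mem_base u h.1, ?_⟩
  rintro ⟨c, w⟩ hz
  obtain ⟨c, rfl⟩ := (gV (gU u)).surjective c
  obtain ⟨y, h1, h2⟩ := h.2 _ ((gr_act_iff u).1 hz)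
  exact ⟨y, h1, fun j μ => h2 j (sub (u : ch.A ν) _ μ)⟩

end Ch

namespace Base

variable {R J K ι ν : Type} [Fintype R] [Fintype J] [Fintype K] [Fintype ι] [DecidableEq ι]
  [Fintype ν] {ch : Ch ι J}

theorem isAct_of {S : Set (ch.W ν)} (h : ∀ u : (ch.A ν)ˣ, ∀ x ∈ S, Ch.act (u : ch.A ν) x ∈ S) :
    Holo.IsAct Ch.act S :=
  isAct_gen _ _ Ch.act_one Ch.act_mul (by rintro _ ⟨u, rfl⟩; exact h u) Ch.an_act₂

instance isAct_univ : Holo.IsAct (Ch.act : ch.A ν → ch.W ν → ch.W ν) Set.univ :=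
  isAct_of fun _ _ _ => trivial

instance isAct_base : Holo.IsAct Ch.act (ch.base ν) := isAct_of fun u _ => Ch.act_mem_base u

instance isAct_sol (T : Tgt R J K) : Holo.IsAct Ch.act (ch.sol ν T) :=
  isAct_of fun u _ => Ch.act_mem_sol u

end Base

end Vale.Agent.P269
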