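import Vale.Agent.P269.Base.Fld
import Vale.Agent.P269.Holo.Set2

/-!
# Matching conditions at pairs of marked points
-/

set_option linter.unusedSectionVars false

namespace Vale.Agent.P269.Ch

open Set Function Topology Filter Holo Base

variable {J ι ν I κ E : Type} [Fintype J] [Fintype ι] [DecidableEq ι] [Fintype ν] [Fintype I]
  [Fintype κ] [Fintype E] {ch : Ch ι J} {x : ch.W ν} {l : Option J}

theorem gr_tor (τ : ν → ι → ℂ) (x : ch.W ν) : gr (act (1, 1, τ) x) = gr x := rfl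

theorem crv_tor (τ : ν → ι → ℂ) (x : ch.W ν) : crv (act (1, 1, τ) x) = crv x := rfl

theorem val_tor (τ : ν → ι → ℂ) (x : ch.W ν) : Val (act (1, 1, τ) x) = Val x := rfl

theorem fld_tor (τ : ν → ι → ℂ) (x : ch.W ν) : fld (act (1, 1, τ) x) = fld x := rfl

theorem X_tor (τ : ν → ι → ℂ) (x : ch.W ν) : (act (1, 1, τ) x).X = x.X := rfl

theorem p_tor (τ : ν → ι → ℂ) (x : ch.W ν) (n : ν) : (act (1, 1, τ) x).p n = τ n • x.p n := rfl

theorem isUnit_tor {τ : ν → ι → ℂ} (h : ∀ n i, τ n i ≠ 0) : IsUnit ((1, 1, τ) : ch.A ν) :=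
  Cv.isUnit_iff.2 ⟨fun _ => isUnit_one, fun _ => isUnit_one, h⟩

theorem ev_tor {τ : ℂ → ν → ι → ℂ} (h : AnalyticAt ℂ τ 0) (h1 : τ 0 = 1) :
    ∀ᶠ ε in 𝓝 (0 : ℂ), ∀ n i, τ ε n i ≠ 0 :=
  eventually_all.2 fun n => eventually_all.2 fun i =>
    (analyticAt_pi_iff.1 (analyticAt_pi_iff.1 h n) i).continuousAt.eventually_ne (by simp [h1])

theorem an_tor {τ : ℂ → ν → ι → ℂ} (h : AnalyticAt ℂ τ 0) (x : ch.W ν) :
    AnalyticAt ℂ (fun ε => act (1, 1, τ ε) x) 0 :=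
  an_act (s := fun ε => (1, 1, τ ε)) (analyticAt_const.prod (analyticAt_const.prod h))
    analyticAt_const

theorem arc_tor (hx : x ∈ ch.base ν) {τ : ℂ → ν → ι → ℂ} (h : AnalyticAt ℂ τ 0) (h1 : τ 0 = 1) :
    Arc (ch.base ν) x fun ε => act (1, 1, τ ε) x :=
  ⟨an_tor h x, by rw [h1]; exact act_one x,
    (ev_tor h h1).mono fun _ b => Cv.act_mem_base hx (isUnit_tor b)⟩

theorem fld_smul {j : J} {c : V ch.M} (hc : c ∈ crv x) (h : ∃ y, Val x j c y) {t : ι → ℂ}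
    (ht : ∀ i, t i ≠ 0) : fld x (t • c) j = chz (ch.wd j) t * fld x c j :=
  Cv.fld_eq (crv_smul hc ht) ((val_fld h).smul ht)

theorem holOn_rsd (hl : ∀ i, 4 ≤ ch.a l i) (hx : x ∈ ch.base ν) (n : ν) :
    HolOn (ch.base ν) (fun y => rsd y n) x := exists_an_rsd hl hx n

theorem exists_dualC [DecidableEq I] {X : I → ι → ℤ} (h : LinearIndependent ℤ X) :
    ∃ v : I → ι → ℂ, ∀ o o', ∑ i, X o' i * v o i = if o = o' then 1 else 0 := by
  obtain ⟨g, hg⟩ := LinearMap.exists_leftInverse_of_injective _ (LinearMap.ker_eq_bot.2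
    (linearIndependent_iff_injective_fintypeLinearCombination.1
      (linearIndependent_algebraMap_comp_iff (S := ℂ).2 h)))
  refine ⟨fun o i => g (fun j => if i = j then 1 else 0) o, fun o o' => ?_⟩
  have := congrFun (LinearMap.congr_fun hg (Pi.single o' 1)) o
  rw [LinearMap.comp_apply, Fintype.linearCombination_apply_single, one_smul,
    LinearMap.pi_apply_eq_sum_univ] at this
  simpa [Pi.single_apply] using this

theorem chz_exp (χ : ι → ℤ) (v : ι → ℂ) :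
    chz χ (fun i => Complex.exp (v i)) = Complex.exp (∑ i, χ i * v i) := by
  simp [chz, Complex.exp_sum, Complex.exp_int_mul]

section Gen

variable {A : Type*} [NormedAddCommGroup A] [NormedSpace ℂ A] {S Z : Set A} {x : A}
  {q : A → ch.W ν}

theorem holOn_fld (hx : x ∈ S) (hq : HolOn S q x) (h0 : ∀ l, Surjective ((q x).Q l)) {j : J}
    {y : A → V ch.M} (hy : HolOn S y x)
    (h : ∀ᶠ s in 𝓝 x, s ∈ S → y s ∈ crv (q s) ∧ ∃ v, Val (q s) j (y s) v) :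
    HolOn S (fun s => fld (q s) (y s) j) x := by
  obtain ⟨Φ, h1, h2⟩ := exists_an_fld h0 (crv_ne (h.self_of_nhds hx).1) j
  refine ((hq.prod hy).comp_an hx h1).congr ?_
  filter_upwards [(hq.prod hy).ev hx h2, h] with s b1 b2 hs using b1 hs (b2 hs).1 (b2 hs).2

/-- **Matching conditions** for residues and values of fields at pairs of marked points. -/
theorem mfd_match' [CompleteSpace A] (hl : ∀ i, 4 ≤ ch.a l i) {m : ℕ} (h : MfdAt S m x)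
    (hq : HolOn S q x) {φ : I → J} (hb : ∀ᶠ s in 𝓝 x, s ∈ S → q s ∈ ch.base ν ∧
      ∀ i, ∀ c ∈ crv (q s), ∃ y, Val (q s) (φ i) c y)
    (harc : ∀ τ : ℂ → ν → ι → ℂ, AnalyticAt ℂ τ 0 → τ 0 = 1 →
      ∃ c, Arc S x c ∧ ∀ ε, q (c ε) = act (1, 1, τ ε) (q x))
    (hi : LinearIndependent ℤ fun o : Option I => o.elim ch.χ fun i => ch.wd (φ i))
    {n₀ n₁ : E → ν} (h1 : Injective n₁) (h2 : ∀ e e', n₀ e ≠ n₁ e')
    (hne : ∀ e i, fld (q x) ((q x).p (n₁ e)) (φ i) ≠ 0) {a : ℂ} (ha : a ≠ 0)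
    (hZ : ∀ᶠ s in 𝓝 x, s ∈ Z ↔ s ∈ S ∧ ∀ e, rsd (q s) (n₀ e) = a * rsd (q s) (n₁ e) ∧
      ∀ i, fld (q s) ((q s).p (n₀ e)) (φ i) = fld (q s) ((q s).p (n₁ e)) (φ i)) (hx : x ∈ Z) :
    ∃ n, n + Fintype.card E * (1 + Fintype.card I) = m ∧ MfdAt Z n x := by
  classical
  let X : Option I → ι → ℤ := fun o => o.elim ch.χ fun i => ch.wd (φ i)
  obtain ⟨v, hv⟩ := exists_dualC (X := X) hi
  let g : ch.W ν → ν → Option I → ℂ := fun s n o =>
    o.elim (rsd s n) fun i => fld s (s.p n) (φ i)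
  let α : Option I → ℂ := fun o => o.elim a fun _ => 1
  let f : A → E × Option I → ℂ := fun s e =>
    g (q s) (n₀ e.1) e.2 - α e.2 * g (q s) (n₁ e.1) e.2
  obtain ⟨hb0, hb1⟩ := hb.self_of_nhds h.1
  have hg : ∀ n o, HolOn S (fun s => g (q s) n o) x := by
    rintro n (_ | i)
    · exact (holOn_rsd hl hb0 n).comp hq h.1 (hb.mono fun _ b c => (b c).1)
    · exact holOn_fld h.1 hq hb0.1 (hq.comp_an h.1 (W.an_p analyticAt_id n)) (hb.mono fun _ b c =>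
        ⟨((b c).1.2.2.2.1 n).1, (b c).2 i _ ((b c).1.2.2.2.1 n).1⟩)
  have hf : ∀ s, f s = 0 ↔ ∀ e, rsd (q s) (n₀ e) = a * rsd (q s) (n₁ e) ∧
      ∀ i, fld (q s) ((q s).p (n₀ e)) (φ i) = fld (q s) ((q s).p (n₁ e)) (φ i) := fun s => by
    simp [f, g, α, funext_iff, Option.forall, sub_eq_zero]
  have ht : ∀ τ : ν → ι → ℂ, (∀ n i, τ n i ≠ 0) → ∀ n o,
      g (act (1, 1, τ) (q x)) n o = chz (X o) (τ n) * g (q x) n o := by
    rintro τ hτ n (_ | i)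
    · exact rsd_act hb0 (isUnit_tor hτ) n
    · exact fld_smul (hb0.2.2.2.1 n).1 (hb1 i _ (hb0.2.2.2.1 n).1) (hτ n)
  refine (h.sub' (Z := Z) (f := f) (.pi fun e => ((hg (n₀ e.1) e.2).prod
    (hg (n₁ e.1) e.2)).comp_an (G := fun z : ℂ × ℂ => z.1 - α e.2 * z.2) h.1
      (analyticAt_fst.sub (analyticAt_const.mul analyticAt_snd)))
    ((hf x).2 (hZ.self_of_nhds.1 hx).2) (span_of_det (D := Matrix.diagonal fun e =>
      -(α e.2 * g (q x) (n₁ e.1) e.2)) ?_ fun e => ?_)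
    (by simpa only [hf] using hZ)).imp fun n b => ⟨by simpa [add_comm] using b.1, b.2⟩
  · rw [Matrix.det_diagonal]
    refine Finset.prod_ne_zero_iff.2 fun ⟨e, o⟩ _ => neg_ne_zero.2 (mul_ne_zero ?_ ?_) <;> cases o
    exacts [ha, one_ne_zero, rsd_ne hb0 _, hne _ _]
  · let τ : ℂ → ν → ι → ℂ := fun ε n i => Complex.exp ((if n = n₁ e.1 then v e.2 i else 0) * ε)
    obtain ⟨c, hc, h5⟩ := harc τ (analyticAt_pi_iff.2 fun n => analyticAt_pi_iff.2 fun i => by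
      fun_prop) (funext₂ fun n i => by simp [τ])
    refine ⟨c, hc, HasDerivAt.deriv (hasDerivAt_pi.2 fun ⟨e', o⟩ => ?_)⟩
    have h6 : ∀ ε n, chz (X o) (τ ε n) =
        Complex.exp ((if n = n₁ e.1 ∧ e.2 = o then 1 else 0) * ε) := fun ε n => by
      simp only [τ, chz_exp, ← mul_assoc, ← Finset.sum_mul]
      by_cases b : n = n₁ e.1 <;> simp [b, hv]
    simp only [f, h5, fun ε => ht (τ ε) fun _ _ => Complex.exp_ne_zero _, h6, h2, false_and, if_false,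
      h1.eq_iff, zero_mul]
    refine (((((hasDerivAt_id' (0 : ℂ)).const_mul _).cexp.mul_const _).const_mul _).const_sub
      _).congr_deriv ?_
    by_cases h7 : e = (e', o)
    · simp [h7]
    · rw [Matrix.diagonal_apply_ne _ h7, if_neg fun b => h7 (Prod.ext b.1.symm b.2)]
      simp

end Gen

/-- **Matching conditions**, product form. -/
theorem mfd_match {A : Type*} [NormedAddCommGroup A] [NormedSpace ℂ A] [CompleteSpace A]
    (hl : ∀ i, 4 ≤ ch.a l i) {S Z : Set (A × ch.W ν)} {x : A × ch.W ν} {m : ℕ} (h : MfdAt S m x)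
    {φ : I → J} (hb : ∀ᶠ s in 𝓝 x, s ∈ S → s.2 ∈ ch.base ν ∧
      ∀ i, ∀ c ∈ crv s.2, ∃ y, Val s.2 (φ i) c y)
    (harc : ∀ τ : ℂ → ν → ι → ℂ, AnalyticAt ℂ τ 0 → τ 0 = 1 →
      ∃ w : ℂ → A, Arc S x fun ε => (w ε, act (1, 1, τ ε) x.2))
    (hi : LinearIndependent ℤ fun o : Option I => o.elim ch.χ fun i => ch.wd (φ i))
    {n₀ n₁ : E → ν} (h1 : Injective n₁) (h2 : ∀ e e', n₀ e ≠ n₁ e')
    (hne : ∀ e i, fld x.2 (x.2.p (n₁ e)) (φ i) ≠ 0) {a : ℂ} (ha : a ≠ 0)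
    (hZ : ∀ᶠ s in 𝓝 x, s ∈ Z ↔ s ∈ S ∧ ∀ e, rsd s.2 (n₀ e) = a * rsd s.2 (n₁ e) ∧
      ∀ i, fld s.2 (s.2.p (n₀ e)) (φ i) = fld s.2 (s.2.p (n₁ e)) (φ i)) (hx : x ∈ Z) :
    ∃ n, n + Fintype.card E * (1 + Fintype.card I) = m ∧ MfdAt Z n x :=
  mfd_match' hl h (.of_an analyticAt_snd) hb
    (fun τ a b => let ⟨_, c⟩ := harc τ a b; ⟨_, c, fun _ => rfl⟩) hi h1 h2 hne ha hZ hx

theorem li_χ (hχ : ch.χ ≠ 0) (φ : Empty → J) :
    LinearIndependent ℤ fun o : Option Empty => o.elim ch.χ fun i => ch.wd (φ i) :=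
  linearIndependent_unique_iff.2 (by rwa [Subsingleton.elim default none])

theorem mfd_res (hl : ∀ i, 4 ≤ ch.a l i) (hχ : ch.χ ≠ 0) {N : ℕ} (h : MfdAt (ch.base ν) N x)
    {n₀ n₁ : E → ν} (h1 : Injective n₁) (h2 : ∀ e e', n₀ e ≠ n₁ e') {a : ℂ} (ha : a ≠ 0)
    (hx : ∀ e, rsd x (n₀ e) = a * rsd x (n₁ e)) : ∃ n, n + Fintype.card E = N ∧
      MfdAt {s | s ∈ ch.base ν ∧ ∀ e, rsd s (n₀ e) = a * rsd s (n₁ e)} n x := by
  simpa using mfd_match' (q := id) (Z := {s | s ∈ ch.base ν ∧ ∀ e, rsd s (n₀ e) = a * rsd s (n₁ e)})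
    hl h (.of_an analyticAt_id) (.of_forall fun _ b => ⟨b, fun i => i.elim⟩)
    (fun τ a b => ⟨_, arc_tor h.1 a b, fun _ => rfl⟩) (li_χ hχ Empty.elim) h1 h2
    (fun _ i => i.elim) ha (.of_forall fun _ => by simp) ⟨h.1, hx⟩

variable {Λ : Type} [Fintype Λ] {B : Set (Λ → ℂ)} {x : ch.WF ν κ Λ}

theorem mem_baseF : x ∈ ch.baseF ν κ B ↔ x.1 ∈ B ∧ x.2 ∈ ch.base (Mk ν κ) ∧
    ∀ q, rsd x.2 (.inr (q, false)) = (-1) ^ ch.k * rsd x.2 (.inr (q, true)) :=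
  and_congr_right fun _ => and_congr_right fun h => forall_congr' fun _ => rsd_iff h _ _ _

theorem mfd_baseF (hl : ∀ i, 4 ≤ ch.a l i) (hχ : ch.χ ≠ 0) (hx : x ∈ ch.baseF ν κ B) {b N : ℕ}
    (hB : MfdAt B b x.1) (h : MfdAt (ch.base (Mk ν κ)) N x.2) :
    ∃ n, n + Fintype.card κ = b + N ∧ MfdAt (ch.baseF ν κ B) n x := by
  simpa using mfd_match (Z := ch.baseF ν κ B) (n₀ := fun q => .inr (q, false))
    (n₁ := fun q => .inr (q, true)) hl (hB.prod h) (.of_forall fun _ b => ⟨b.2, fun i => i.elim⟩)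
    (fun τ a b => ⟨fun _ => x.1, analyticAt_const.prod (arc_tor h.1 a b).an,
      Prod.ext rfl (arc_tor h.1 a b).zero, (arc_tor h.1 a b).mem.mono fun _ c => ⟨hx.1, c⟩⟩)
    (li_χ hχ Empty.elim) (fun _ _ e => by simpa using e) (by simp) (fun _ i => i.elim)
    (pow_ne_zero ch.k (neg_ne_zero.2 one_ne_zero))
    (.of_forall fun _ => by simp [mem_baseF, and_assoc]) hx

end Vale.Agent.P269.Ch
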