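import Vale.Agent.P269.Base.Mark

/-!
# The smoothing parameter of a node is unique up to a unit
-/

namespace Vale.Agent.P269.Base

open Set Function Topology Filter Holo

variable {ι : Type} [Fintype ι] {M : ι → ℕ} {o : ι}

/-- The constant by which `z₁ z₂` is multiplied under a linear map preserving the axes. -/
noncomputable def ndc (A : ℂ × ℂ →L[ℂ] ℂ × ℂ) : ℂ :=
  (A (1, 0)).1 * (A (0, 1)).2 + (A (1, 0)).2 * (A (0, 1)).1

/-- `A` compares the tangent planes of two charts `σ'`, `σ` at a node, modulo scalars. -/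
def NdCmp (o : ι) (σ σ' : ℂ × ℂ → V M) (A : ℂ × ℂ →L[ℂ] ℂ × ℂ) : Prop :=
  ∀ e, ∃ s : ℂ, fderiv ℂ σ' 0 e o = s • σ 0 o + fderiv ℂ σ 0 (A e) o

namespace NdU

/-- the terms of second order in `u₁ u₂ = g (a ^ 2)` -/
theorem mul_eq_deriv {u : ℂ → ℂ × ℂ} {u' : ℂ × ℂ} {g : ℂ → ℂ} {g' : ℂ} (hu : HasDerivAt u u' 0)
    (hg : HasDerivAt g g' 0) (u0 : u 0 = 0) (g0 : g 0 = 0)
    (h : ∀ᶠ a in 𝓝 0, (u a).1 * (u a).2 = g (a * a)) : u'.1 * u'.2 = g' := by
  have h1 := hasDerivAt_iff_tendsto_slope_zero.1 hu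
  have h2 := hasDerivAt_iff_tendsto_slope_zero.1 hg
  have h3 : Tendsto (fun a : ℂ => a * a) (𝓝[≠] 0) (𝓝[≠] 0) :=
    tendsto_nhdsWithin_iff.2 ⟨((continuous_id.mul continuous_id).tendsto' 0 0
      (mul_zero _)).mono_left nhdsWithin_le_nhds,
      eventually_mem_nhdsWithin.mono fun a ha => mul_ne_zero ha ha⟩
  simp only [zero_add, u0, g0, sub_zero] at h1 h2
  refine tendsto_nhds_unique_of_eventuallyEq (((continuous_fst.tendsto _).comp h1).mul
    ((continuous_snd.tendsto _).comp h1)) (h2.comp h3)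
    ((h.filter_mono nhdsWithin_le_nhds).mono fun a ha => ?_)
  simp only [comp_apply, Prod.smul_fst, Prod.smul_snd, smul_eq_mul, ← ha]
  ring

theorem apply_eq {F : Type*} [NormedAddCommGroup F] [NormedSpace ℂ F] (A : ℂ × ℂ →L[ℂ] F)
    (e : ℂ × ℂ) : A e = e.1 • A (1, 0) + e.2 • A (0, 1) := by
  rw [← map_smul, ← map_smul, ← map_add]
  simp

variable {T P : Type*} [TopologicalSpace T] [NormedAddCommGroup P] [NormedSpace ℂ P]
  [FiniteDimensional ℂ P] {C : T → Set (V M)} {π : T → P} {t₀ : T}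

/-- the transition map between two charts at a node -/
theorem exists_trans {σ σ' : P × (ℂ × ℂ) → V M} {τ τ' : P → ℂ}
    (h : Chart o C π t₀ σ fun p => {z | z.1 * z.2 = τ p})
    (h' : Chart o C π t₀ σ' fun p => {z | z.1 * z.2 = τ' p}) (h0 : τ (π t₀) = 0)
    (h0' : τ' (π t₀) = 0) (hf : LocFam o C π t₀) (he : σ' (π t₀, 0) = σ (π t₀, 0)) :
    ∃ φ : P × (ℂ × ℂ) → ℂ × ℂ, AnalyticAt ℂ φ (π t₀, 0) ∧ φ (π t₀, 0) = 0 ∧
      (∀ᶠ q : T × (ℂ × ℂ) in 𝓝 (t₀, 0), q.2.1 * q.2.2 = τ' (π q.1) →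
        (φ (π q.1, q.2)).1 * (φ (π q.1, q.2)).2 = τ (π q.1)) ∧
      NdCmp o (fun z => σ (π t₀, z)) (fun z => σ' (π t₀, z))
        (fderiv ℂ (fun z => φ (π t₀, z)) 0) ∧
      ∀ e : ℂ × ℂ, e.1 * e.2 = 0 → (fderiv ℂ (fun z => φ (π t₀, z)) 0 e).1 *
        (fderiv ℂ (fun z => φ (π t₀, z)) 0 e).2 = 0 := by
  have hπ := hf.cont.self_of_nhds
  obtain ⟨ρ, h1, h2, -, h3⟩ := h.exists_mem_iff hπ
    (hf.ne_zero.self_of_nhds _ (h.mem0.self_of_nhds (by simp [h0]))) hf.cone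
  have h4 : AnalyticAt ℂ (fun q : P × (ℂ × ℂ) => ρ (q.1, σ' q)) (π t₀, 0) :=
    h1.comp_of_eq (analyticAt_fst.prod h'.an) (by rw [he])
  have h5 : ρ (π t₀, σ' (π t₀, 0)) = (1, 0) := by rw [he, h2]
  have h6 := ((Tendsto.prodMk_nhds continuousAt_fst (he ▸ h'.tendsto hπ)).eventually h3).and h'.mem
  have h7 : AnalyticAt ℂ (fun z => ρ (π t₀, σ' (π t₀, z))) 0 :=
    h4.comp (f := fun z => (π t₀, z)) (analyticAt_const.prod analyticAt_id)
  have h8 := (analyticAt_fst.comp h7).differentiableAt.hasFDerivAt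
  have h9 := (analyticAt_snd.comp h7).differentiableAt.hasFDerivAt
  have key : ∀ e : ℂ × ℂ, e.1 * e.2 = 0 → (∃ s : ℂ, fderiv ℂ (fun z => σ' (π t₀, z)) 0 e o =
      s • σ (π t₀, 0) o + fderiv ℂ (fun z => σ (π t₀, z)) 0
        (fderiv ℂ (fun z => (ρ (π t₀, σ' (π t₀, z))).2) 0 e) o) ∧
      (fderiv ℂ (fun z => (ρ (π t₀, σ' (π t₀, z))).2) 0 e).1 *
        (fderiv ℂ (fun z => (ρ (π t₀, σ' (π t₀, z))).2) 0 e).2 = 0 := fun e h10 => by
    have h11 : HasDerivAt (fun a : ℂ => a • e) e 0 := by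
      simpa using (hasDerivAt_id (0 : ℂ)).smul_const e
    have e0 : (0 : ℂ × ℂ) = (0 : ℂ) • e := (zero_smul _ _).symm
    have h12 : Tendsto (fun a : ℂ => (t₀, a • e)) (𝓝 0) (𝓝 (t₀, 0)) :=
      Continuous.tendsto' (by fun_prop) _ _ (by rw [zero_smul])
    have h13 := (h12.eventually h6).mono fun a ha => ha.1.1 (ha.2 (by
      change (a * e.1) * (a * e.2) = τ' (π t₀)
      rw [h0', mul_mul_mul_comm, h10, mul_zero]))
    have h14 := h9.comp_hasDerivAt_of_eq 0 h11 e0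
    refine ⟨?_, mul_eq_deriv h14 (hasDerivAt_const (0 : ℂ) (0 : ℂ)) (by simp [h5]) rfl
      (h13.mono fun a ha => ha.1.trans h0)⟩
    have h15 := hasDerivAt_smul (h8.comp_hasDerivAt_of_eq 0 h11 e0)
      (h.an0.differentiableAt.hasFDerivAt.comp_hasDerivAt_of_eq 0 h14 (by simp [h5]))
    have h16 := (h'.an0.differentiableAt.hasFDerivAt.comp_hasDerivAt_of_eq 0 h11 e0).unique
      (h15.congr_of_eventuallyEq (h13.mono fun a ha => ha.2))
    simp only [comp_apply, zero_smul, h5, one_smul] at h16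
    exact ⟨_, congrFun h16 o⟩
  refine ⟨fun q => (ρ (q.1, σ' q)).2, analyticAt_snd.comp h4, congrArg Prod.snd h5,
    h6.mono fun q hq e => (hq.1.1 (hq.2 e)).1, fun e => ?_, fun e he => (key e he).2⟩
  obtain ⟨s₁, h10⟩ := (key (1, 0) (mul_zero _)).1
  obtain ⟨s₂, h11⟩ := (key (0, 1) (zero_mul _)).1
  refine ⟨e.1 * s₁ + e.2 * s₂, ?_⟩
  rw [apply_eq _ e, apply_eq (fderiv ℂ (fun z => (ρ (π t₀, σ' (π t₀, z))).2) 0) e, map_add, map_smul,
    map_smul]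
  simp only [Pi.add_apply, Pi.smul_apply, h10, h11]
  module

end NdU

open NdU

/-- N1: one parameter families. -/
theorem Chart.deriv_tau {C : ℂ → Set (V M)} {σ σ' : ℂ × (ℂ × ℂ) → V M} {τ τ' : ℂ → ℂ}
    (h : Chart o C id 0 σ fun p => {z | z.1 * z.2 = τ p})
    (h' : Chart o C id 0 σ' fun p => {z | z.1 * z.2 = τ' p}) (hτ : AnalyticAt ℂ τ 0)
    (hτ' : AnalyticAt ℂ τ' 0) (h0 : τ 0 = 0) (h0' : τ' 0 = 0) (hf : LocFam o C id 0)
    (he : σ' (0, 0) = σ (0, 0)) {A : ℂ × ℂ →L[ℂ] ℂ × ℂ}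
    (hA : NdCmp o (fun z => σ (0, z)) (fun z => σ' (0, z)) A) :
    deriv τ 0 = ndc A * deriv τ' 0 := by
  obtain ⟨φ, h1, h2, h3, h4, h5⟩ := exists_trans h h' h0 h0' hf he
  simp only [id] at h1 h2 h3 h4 h5
  have h6 : ∀ e, fderiv ℂ (fun z => φ (0, z)) 0 e = A e := fun e => by
    obtain ⟨s, h6⟩ := hA e
    obtain ⟨s', h7⟩ := h4 e
    refine sub_eq_zero.1 (h.imm _ (s - s') ?_)
    rw [map_sub, Pi.sub_apply, sub_smul, sub_eq_sub_iff_add_eq_add, add_comm,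
      add_comm (s • _)]
    exact (h7.symm.trans h6).trans (add_comm _ _)
  have h7 : HasDerivAt (fun a : ℂ => a * a) 0 0 := by
    simpa using (hasDerivAt_id (0 : ℂ)).fun_mul (hasDerivAt_id (0 : ℂ))
  have h8 : ContinuousAt (fun a : ℂ => dslope τ' 0 (a * a)) 0 :=
    ContinuousAt.comp_of_eq (continuousAt_dslope_same.2 hτ'.differentiableAt) h7.continuousAt
      (mul_zero _)
  have h9 : HasDerivAt (fun a : ℂ => a * dslope τ' 0 (a * a)) (deriv τ' 0) 0 := by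
    refine hasDerivAt_iff_tendsto_slope_zero.2 ?_
    have := h8.tendsto.mono_left (nhdsWithin_le_nhds (s := {0}ᶜ))
    rw [mul_zero, dslope_same] at this
    exact this.congr' (eventually_mem_nhdsWithin.mono fun a ha => by
      simp only [zero_add, zero_mul, sub_zero, smul_eq_mul]
      rw [inv_mul_cancel_left₀ ha])
  have h10 := h7.prodMk ((hasDerivAt_id (0 : ℂ)).prodMk h9)
  have e0 : ((0 : ℂ), (0 : ℂ × ℂ)) = ((0 : ℂ) * 0, (0 : ℂ), (0 : ℂ) * dslope τ' 0 (0 * 0)) := by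
    rw [zero_mul, zero_mul]
    rfl
  have h11 : Tendsto (fun a : ℂ => (a * a, a, a * dslope τ' 0 (a * a))) (𝓝 0) (𝓝 (0, 0)) :=
    e0 ▸ h10.continuousAt.tendsto
  have h12 := mul_eq_deriv (h1.differentiableAt.hasFDerivAt.comp_hasDerivAt_of_eq 0 h10 e0)
    hτ.differentiableAt.hasDerivAt ((congrArg φ e0.symm).trans h2) h0
    ((h11.eventually h3).mono fun a ha =>
      ha (by simpa [h0', mul_assoc] using sub_smul_dslope τ' 0 (a * a)))
  have h13 := h5 (1, 0) (mul_zero _)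
  have h14 := h5 (0, 1) (zero_mul _)
  rw [← fderiv_inr h1, h6, apply_eq] at h12
  rw [h6] at h13 h14
  rw [← h12, ndc]
  simp only [one_smul, Prod.fst_add, Prod.snd_add, Prod.smul_fst, Prod.smul_snd, smul_eq_mul]
  linear_combination h13 + deriv τ' 0 ^ 2 * h14

variable {T P : Type*} [TopologicalSpace T] [NormedAddCommGroup P] [NormedSpace ℂ P]
  [FiniteDimensional ℂ P] {C : T → Set (V M)} {π : T → P} {t₀ : T}

/-- N2: the comparison map exists, preserves the union of the axes and is invertible. -/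
theorem Chart.exists_ndCmp {σ σ' : P × (ℂ × ℂ) → V M} {τ τ' : P → ℂ}
    (h : Chart o C π t₀ σ fun p => {z | z.1 * z.2 = τ p})
    (h' : Chart o C π t₀ σ' fun p => {z | z.1 * z.2 = τ' p}) (h0 : τ (π t₀) = 0)
    (h0' : τ' (π t₀) = 0) (hf : LocFam o C π t₀) (he : σ' (π t₀, 0) = σ (π t₀, 0)) :
    ∃ A, NdCmp o (fun z => σ (π t₀, z)) (fun z => σ' (π t₀, z)) A ∧ ndc A ≠ 0 ∧
      (A (1, 0)).1 * (A (1, 0)).2 = 0 ∧ (A (0, 1)).1 * (A (0, 1)).2 = 0 := by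
  obtain ⟨φ, -, -, -, h4, h5⟩ := exists_trans h h' h0 h0' hf he
  have h6 := h5 (1, 0) (mul_zero _)
  have h7 := h5 (0, 1) (zero_mul _)
  refine ⟨_, h4, fun e => ?_, h6, h7⟩
  generalize fderiv ℂ (fun z => φ (π t₀, z)) 0 = A at h4 h6 h7 e
  have h8 : ∀ v, A v = 0 → v = 0 := fun v hv => by
    obtain ⟨s, hs⟩ := h4 v
    rw [hv, map_zero, Pi.zero_apply, add_zero] at hs
    exact h'.imm v s (hs.trans (by rw [he]))
  have h9 : (A (1, 0)).1 * (A (0, 1)).2 - (A (1, 0)).2 * (A (0, 1)).1 = 0 :=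
    pow_eq_zero_iff two_ne_zero |>.1 (by
      rw [ndc] at e
      linear_combination ((A (1, 0)).1 * (A (0, 1)).2 + (A (1, 0)).2 * (A (0, 1)).1) * e -
        4 * (A (0, 1)).1 * (A (0, 1)).2 * h6)
  have h10 := h8 ((A (0, 1)).2, -(A (1, 0)).2) (by
    rw [apply_eq]
    refine Prod.ext ?_ ?_
    · simp only [Prod.fst_add, Prod.smul_fst, smul_eq_mul, Prod.fst_zero]
      linear_combination h9
    · simp only [Prod.snd_add, Prod.smul_snd, smul_eq_mul, Prod.snd_zero]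
      ring)
  have h11 := h8 ((A (0, 1)).1, -(A (1, 0)).1) (by
    rw [apply_eq]
    refine Prod.ext ?_ ?_
    · simp only [Prod.fst_add, Prod.smul_fst, smul_eq_mul, Prod.fst_zero]
      ring
    · simp only [Prod.snd_add, Prod.smul_snd, smul_eq_mul, Prod.snd_zero]
      linear_combination -h9)
  exact one_ne_zero (congrArg Prod.fst (h8 (1, 0) (Prod.ext (neg_eq_zero.1 (congrArg Prod.snd h11))
    (neg_eq_zero.1 (congrArg Prod.snd h10)))))

/-- N3: along arcs with the same curves the smoothing parameters are proportional to first order. -/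
theorem NdAt.deriv_arc {c : V M} {τ τ' : P → ℂ} (h : NdAt o C π t₀ c τ) (h' : NdAt o C π t₀ c τ')
    (hf : LocFam o C π t₀) : ∃ a : ℂ, a ≠ 0 ∧ (τ' = τ → a = 1) ∧ ∀ u u' : ℂ → T, u 0 = t₀ →
      u' 0 = t₀ → ContinuousAt u 0 → ContinuousAt u' 0 → AnalyticAt ℂ (fun ε => π (u ε)) 0 →
      AnalyticAt ℂ (fun ε => π (u' ε)) 0 → (∀ᶠ ε in 𝓝 0, C (u ε) = C (u' ε)) →
      deriv (fun ε => τ (π (u ε))) 0 = a * deriv (fun ε => τ' (π (u' ε))) 0 := by
  obtain ⟨σ, h1, h2, h3, h4⟩ := h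
  obtain ⟨σ', A, h5, h6, h7, h8, h9, h10, h11⟩ : ∃ (σ' : P × (ℂ × ℂ) → V M) (A : ℂ × ℂ →L[ℂ] ℂ × ℂ),
      σ' (π t₀, 0) = σ (π t₀, 0) ∧ AnalyticAt ℂ τ' (π t₀) ∧ τ' (π t₀) = 0 ∧
      (Chart o C π t₀ σ' fun p => {z | z.1 * z.2 = τ' p}) ∧
      NdCmp o (fun z => σ (π t₀, z)) (fun z => σ' (π t₀, z)) A ∧ ndc A ≠ 0 ∧
      (τ' = τ → ndc A = 1) := by
    by_cases e : τ' = τ
    · have h5 : ndc (ContinuousLinearMap.id ℂ _) = 1 := by simp [ndc]
      exact ⟨σ, ContinuousLinearMap.id ℂ _, rfl, e ▸ h2, e ▸ h3, e ▸ h4,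
        fun v => ⟨0, by rw [zero_smul, zero_add]; rfl⟩, h5 ▸ one_ne_zero, fun _ => h5⟩
    · obtain ⟨σ', h5, h6, h7, h8⟩ := h'
      obtain ⟨A, h9, h10, -⟩ := h4.exists_ndCmp h8 h3 h7 hf (h5.trans h1.symm)
      exact ⟨σ', A, h5.trans h1.symm, h6, h7, h8, h9, h10, fun e' => absurd e' e⟩
  refine ⟨_, h10, h11, fun u u' e e' c c' a a' hC => ?_⟩
  subst e
  have k : ∀ {v : ℂ → T}, ∀ᶠ t in 𝓝 (0 : ℂ), π (v t) = (fun ε => π (v ε)) (id t) :=
    Eventually.of_forall fun _ => rfl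
  refine Chart.deriv_tau (τ := fun ε => τ (π (u ε))) (τ' := fun ε => τ' (π (u' ε)))
    (h4.comp (π' := id) c a k)
    ((Chart.comp (π' := id) (e'.symm ▸ h8) c' a' k).congr continuousAt_id
      (((continuousAt_fst (p := (0, _))).eventually hC).mono fun q hq => by rw [hq]))
    (h2.comp (f := fun ε => π (u ε)) a) (h6.comp_of_eq a' (by rw [e'])) h3
    ((congrArg (fun t => τ' (π t)) e').trans h7)
    (hf.comp c (Eventually.of_forall fun _ => continuousAt_id) a k)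
    ((congrArg (fun t => σ' (π t, 0)) e').trans h5)
    (show NdCmp o (fun z => σ (π (u 0), z)) (fun z => σ' (π (u' 0), z)) A by rwa [e'])

/-- N4: on a manifold the differentials are proportional on the tangent space. -/
theorem NdAt.fderiv_tan {c : V M} {τ τ' : P → ℂ} (h : NdAt o C π t₀ c τ)
    (h' : NdAt o C π t₀ c τ') (hf : LocFam o C π t₀) {n : ℕ} (hm : IsMfd π n t₀) :
    ∃ a : ℂ, a ≠ 0 ∧ ∀ v ∈ tan π t₀, fderiv ℂ τ (π t₀) v = a * fderiv ℂ τ' (π t₀) v := by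
  obtain ⟨a, h1, -, h2⟩ := h.deriv_arc h' hf
  obtain ⟨-, -, h3, -⟩ := h
  obtain ⟨-, -, h4, -⟩ := h'
  obtain ⟨ψ, hψ, rfl⟩ := hm
  refine ⟨a, h1, fun v hv => ?_⟩
  rw [hψ.tan_eq] at hv
  obtain ⟨e, rfl⟩ := hv
  have h5 : AnalyticAt ℂ (fun a : ℂ => a • e) 0 := analyticAt_id.smul analyticAt_const
  have h6 : HasDerivAt (fun a : ℂ => a • e) e 0 := by
    simpa using (hasDerivAt_id (0 : ℂ)).smul_const e
  have e0 : (0 : ℂ) • e = 0 := zero_smul _ _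
  have h7 := hψ.an.differentiableAt.hasFDerivAt.comp_hasDerivAt_of_eq 0 h6 e0.symm
  have h8 := hψ.lh.cont.comp_of_eq h5.continuousAt e0
  have h9 := hψ.an.comp_of_eq h5 e0
  have h10 := h2 (fun ε => ψ (ε • e)) (fun ε => ψ (ε • e)) (congrArg ψ e0) (congrArg ψ e0) h8 h8 h9 h9
    (Eventually.of_forall fun _ => rfl)
  have e1 : π (ψ 0) = π (ψ ((0 : ℂ) • e)) := by rw [e0]
  exact (h3.differentiableAt.hasFDerivAt.comp_hasDerivAt_of_eq 0 h7 e1).deriv.symm.trans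
    (h10.trans (congrArg (a * ·)
      (h4.differentiableAt.hasFDerivAt.comp_hasDerivAt_of_eq 0 h7 e1).deriv))

/-- N5: on a manifold on which the node is smoothed to first order the ratio is a unit. -/
theorem NdAt.exists_unit {c : V M} {τ τ' : P → ℂ} (h : NdAt o C π t₀ c τ)
    (h' : NdAt o C π t₀ c τ') (hf : LocFam o C π t₀) {n : ℕ} (hm : IsMfd π n t₀)
    (hv : ∃ v ∈ tan π t₀, fderiv ℂ τ' (π t₀) v ≠ 0) : ∃ u : P → ℂ, AnalyticAt ℂ u (π t₀) ∧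
      u (π t₀) ≠ 0 ∧ ∀ᶠ t in 𝓝 t₀, τ (π t) = u (π t) * τ' (π t) := by
  classical
  obtain ⟨a, h1, h2⟩ := h.fderiv_tan h' hf hm
  obtain ⟨v, h3, h4⟩ := hv
  obtain ⟨N, h5, h6, h7⟩ := h'.exists_node hf
  have h8 := ((Tendsto.prodMk_nhds tendsto_id (h6 ▸ h5.continuousAt.tendsto.comp
    hf.cont.self_of_nhds)).eventually (h.tau_zero hf)).and h7
  obtain ⟨-, -, a1, a2, -⟩ := h
  obtain ⟨-, -, a3, a4, -⟩ := h'
  obtain ⟨ψ, hψ, rfl⟩ := id hm
  have h9 : Surjective (fderiv ℂ (fun z => τ' (π (ψ z))) 0) := fun z => by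
    obtain ⟨e, rfl⟩ := hψ.tan_eq.le h3
    refine ⟨(z / fderiv ℂ τ' (π (ψ 0)) (fderiv ℂ (fun z => π (ψ z)) 0 e)) • e, ?_⟩
    rw [fderiv_comp_an (f := fun z => π (ψ z)) a3 hψ.an, map_smul]
    exact div_mul_cancel₀ _ h4
  have h10 := LinearMap.finrank_le_finrank_of_surjective
    (f := (fderiv ℂ (fun z => τ' (π (ψ z))) 0 : (Fin n → ℂ) →ₗ[ℂ] ℂ)) h9
  obtain ⟨σ, -, b1, -, b2, b3⟩ := hψ.submersion (f := fun t => τ' (π t))
    (a3.comp (f := fun z => π (ψ z)) hψ.an) h9 (Nat.sub_add_cancel h10)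
  rw [a4] at b1 b2 b3
  obtain ⟨w, b4, b5, -, b6, b7⟩ := b2.exists_inv
  have b8 := b2.lh.cont.tendsto
  have b9 := b7.cont.tendsto
  have b10 := b2.an
  simp only [b1] at b4 b5 b6 b8 b9
  have b10' : AnalyticAt ℂ (fun p : ℂ × (Fin _ → ℂ) => τ (π (ψ (σ p.swap)))) (0, 0) :=
    (a1.comp_of_eq b10 (by rw [b1])).comp_of_eq (analyticAt_snd.prod analyticAt_fst) rfl
  obtain ⟨g, b11, b12⟩ := exists_div b10'
  have b13 := (tendsto_inl _ _).eventually ((b8.eventually h8).and b3)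
  have b14 : AnalyticAt ℂ (fun x => g (w x).swap) (π (ψ 0)) :=
    b11.comp_of_eq ((analyticAt_snd.comp b4).prod (analyticAt_fst.comp b4)) (by rw [b5]; rfl)
  rw [b5] at b9
  have b15 : ∀ᶠ t in 𝓝 (ψ 0), τ (π t) = g (w (π t)).swap * τ' (π t) := by
    filter_upwards [b6, b9.eventually b3, ((continuous_fst.tendsto _).comp b9).eventually b13]
      with t c1 c2 c3
    have c4 := b12 (w (π t)).swap
    have c5 : τ (π (ψ (σ ((w (π t)).1, 0)))) = 0 := c3.1.1 (c3.1.2 c3.2)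
    simp only [Prod.swap_swap, c1, Prod.swap_prod_mk, Prod.snd_swap, Prod.fst_swap] at c2 c4
    rw [c4, c5, zero_add, c2, smul_eq_mul, mul_comm]
  refine ⟨_, b14, fun e => h1 ((mul_eq_zero.1 ?_).resolve_right h4), b15⟩
  have b16 := hm.fderiv_eq_zero (a1.sub (b14.mul a3)) (b15.mono fun t ht => sub_eq_zero.2 ht) h3
  rw [fderiv_sub a1.differentiableAt (b14.mul a3).differentiableAt,
    fderiv_mul b14.differentiableAt a3.differentiableAt, e, a4] at b16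
  simpa [h2 v h3] using b16

end Vale.Agent.P269.Base
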