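import Vale.Agent.P269.Base.Mfd
import Vale.Agent.P269.Base.NdU
import Vale.Agent.P269.Base.Match

/-!
# Smoothing the nodes with matching residues
-/

namespace Vale.Agent.P269

open Set Function Topology Filter Holo Base

set_option linter.unusedSectionVars false

theorem Holo.Arc.exists_lift {A : Type*} [NormedAddCommGroup A] [NormedSpace ℂ A] {S : Set A}
    {a : A} {c : ℂ → A} (h : Arc S a c) (ha : a ∈ S) : ∃ u : ℂ → S, u 0 = ⟨a, ha⟩ ∧
      ContinuousAt u 0 ∧ AnalyticAt ℂ (fun ε => (u ε).1) 0 ∧ ∀ᶠ ε in 𝓝 0, (u ε).1 = c ε := by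
  classical
  let u : ℂ → S := fun ε => if k : c ε ∈ S then ⟨_, k⟩ else ⟨a, ha⟩
  have e : ∀ᶠ ε in 𝓝 0, (u ε).1 = c ε := h.mem.mono fun ε k => by simp [u, k]
  have e' := h.an.congr (e.mono fun _ => Eq.symm)
  exact ⟨u, Subtype.ext (e.self_of_nhds.trans h.zero),
    IsInducing.subtypeVal.continuousAt_iff.2 e'.continuousAt, e', e⟩

namespace Ch

variable {J ι ν κ E β : Type} [Fintype J] [Fintype ι] [DecidableEq ι] [Fintype ν] [Fintype κ]
  [Fintype E] [Fintype β] {ch : Ch ι J}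

section

variable {x : ch.W ν} {l : Option J}

/-- The first order variation of a smoothing parameter only depends on the family of curves. -/
theorem deriv_tau_eq (hl : ∀ i, 4 ≤ ch.a l i) (hx : x ∈ ch.base ν) {c : V ch.M} {τ : ch.W ν → ℂ}
    (h : NdAt ch.o (fun y : ch.base ν => crv y.1) Subtype.val ⟨x, hx⟩ c τ) {γ γ' : ℂ → ch.W ν}
    (h1 : Arc (ch.base ν) x γ) (h2 : Arc (ch.base ν) x γ')
    (he : ∀ᶠ ε in 𝓝 0, crv (γ ε) = crv (γ' ε)) :
    deriv (fun ε => τ (γ ε)) 0 = deriv (fun ε => τ (γ' ε)) 0 := by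
  obtain ⟨a, -, k1, k2⟩ := h.deriv_arc h (locFam_base hl _)
  obtain ⟨u, u0, u1, u2, u3⟩ := h1.exists_lift hx
  obtain ⟨v, v0, v1, v2, v3⟩ := h2.exists_lift hx
  have := k2 u v u0 v0 u1 v1 u2 v2 (by
    filter_upwards [he, u3, v3] with ε b1 b2 b3 using by rw [b2, b3, b1])
  rwa [k1 rfl, one_mul, EventuallyEq.deriv_eq (u3.mono fun ε b => congrArg τ b),
    EventuallyEq.deriv_eq (v3.mono fun ε b => congrArg τ b)] at this

/-- An arc can be corrected by rescaling marked points so that the residues match. -/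
theorem exists_tor_res (hl : ∀ i, 4 ≤ ch.a l i) (hχ : ch.χ ≠ 0) (hx : x ∈ ch.base ν)
    {n₀ n₁ : E → ν} (h1 : Injective n₁) (h2 : ∀ e e', n₀ e ≠ n₁ e') {a : ℂ}
    (ha : ∀ e, rsd x (n₀ e) = a * rsd x (n₁ e)) {γ : ℂ → ch.W ν} (h : Arc (ch.base ν) x γ) :
    ∃ t : ℂ → ν → ι → ℂ, Arc {s | s ∈ ch.base ν ∧ ∀ e, rsd s (n₀ e) = a * rsd s (n₁ e)} x
      fun ε => act (1, 1, t ε) (γ ε) := by
  classical
  obtain ⟨i₀, hi⟩ := Function.ne_iff.1 hχ
  let r : E → ℂ → ℂ := fun e ε => rsd (γ ε) (n₀ e) / (a * rsd (γ ε) (n₁ e))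
  have r0 : ∀ e, a * rsd (γ 0) (n₁ e) ≠ 0 := fun e => by rw [h.zero, ← ha]; exact rsd_ne hx _
  have r1 : ∀ e, AnalyticAt ℂ (fun ε => a * rsd (γ ε) (n₁ e)) 0 := fun e =>
    analyticAt_const.mul ((holOn_rsd hl hx _).arc h)
  have r2 : ∀ e, r e 0 = 1 := fun e => by
    have := r0 e
    simp only [r, h.zero, ha] at this ⊢
    exact div_self this
  let t : ℂ → ν → ι → ℂ := fun ε n i => Complex.exp
    ((if i = i₀ then (ch.χ i₀ : ℂ)⁻¹ else 0) * ∑ e, if n = n₁ e then Complex.log (r e ε) else 0)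
  have t1 : AnalyticAt ℂ t 0 := analyticAt_pi_iff.2 fun n => analyticAt_pi_iff.2 fun i =>
    (analyticAt_const.mul (Finset.analyticAt_fun_sum _ fun e _ => by
      split_ifs
      · exact (((holOn_rsd hl hx _).arc h).div (r1 e) (r0 e)).clog
          (show r e 0 ∈ _ from r2 e ▸ Complex.one_mem_slitPlane)
      · exact analyticAt_const)).cexp
  have t2 : ∀ ε n, chz ch.χ (t ε n) =
      Complex.exp (∑ e, if n = n₁ e then Complex.log (r e ε) else 0) := fun ε n => by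
    have : (ch.χ i₀ : ℂ) ≠ 0 := Int.cast_ne_zero.2 hi
    simp [t, chz_exp, this]
  refine ⟨t, an_act (s := fun ε => (1, 1, t ε)) (analyticAt_const.prod (analyticAt_const.prod t1))
    h.an, ?_, ?_⟩
  · rw [show t 0 = 1 from funext₂ fun n i => by simp [t, r2], h.zero]
    exact act_one x
  · filter_upwards [h.mem, eventually_all.2 fun e => (r1 e).continuousAt.eventually_ne (r0 e)]
      with ε k1 k2
    have k3 : IsUnit ((1, 1, t ε) : ch.A ν) := isUnit_tor fun _ _ => Complex.exp_ne_zero _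
    refine ⟨Cv.act_mem_base k1 k3, fun e => ?_⟩
    rw [rsd_act k1 k3, rsd_act k1 k3, t2, t2]
    simp only [h2, if_false, h1.eq_iff, Finset.sum_ite_eq, Finset.mem_univ, if_true,
      Finset.sum_const_zero, Complex.exp_zero, one_mul]
    rw [Complex.exp_log (div_ne_zero (rsd_ne k1 _) (k2 e)), mul_left_comm, div_mul_cancel₀ _ (k2 e)]

theorem Num₀.χ_ne (h : Num₀ ch) : ch.χ ≠ 0 := fun e => h.chi (by simp [e])

/-- The nodes are smoothed independently along arcs with matching residues. -/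
theorem Num₀.exists_tau_res (h : Num₀ ch) (hx : x ∈ ch.base ν) {n₀ n₁ : E → ν} (h1 : Injective n₁)
    (h2 : ∀ e e', n₀ e ≠ n₁ e') {a : ℂ} (ha : ∀ e, rsd x (n₀ e) = a * rsd x (n₁ e))
    {c : β → V ch.M} (hc : ∀ e, IsNode ch.o (crv x) (c e))
    (hi : ∀ e e', Orb (c e) (c e') → e = e') : ∃ τ : β → ch.W ν → ℂ,
      (∀ e, NdAt ch.o (fun y : ch.base ν => crv y.1) Subtype.val ⟨x, hx⟩ (c e) (τ e)) ∧
      ∀ t : β → ℂ, ∃ γ, Arc {s | s ∈ ch.base ν ∧ ∀ e, rsd s (n₀ e) = a * rsd s (n₁ e)} x γ ∧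
        (∀ᶠ ε in 𝓝 0, (γ ε).X = x.X) ∧ ∀ e, deriv (fun ε => τ e (γ ε)) 0 = t e := by
  obtain ⟨l, hl⟩ := h.cut
  obtain ⟨τ, k1, k2⟩ := h.exists_tau hx hc hi
  refine ⟨τ, k1, fun t => ?_⟩
  obtain ⟨γ, m1, m2, m3⟩ := k2 t
  obtain ⟨s, m4⟩ := exists_tor_res hl h.χ_ne hx h1 h2 ha m1
  exact ⟨_, m4, m2, fun e => (deriv_tau_eq hl hx (k1 e) ⟨m4.an, m4.zero, m4.mem.mono fun _ b => b.1⟩
    m1 (.of_forall fun _ => rfl)).trans (m3 e)⟩

end

variable {Λ : Type} [Fintype Λ] {B : Set (Λ → ℂ)} {x : ch.WF ν κ Λ}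

/-- The nodes are smoothed independently along arcs in `baseF` with constant parameters and fields;
`T` is any subset of `baseF` that is defined by conditions on the parameters and the fields. -/
theorem Num₀.exists_tauF (h : Num₀ ch) {T : Set (ch.WF ν κ Λ)} (hT : T ⊆ ch.baseF ν κ B)
    (hx : x ∈ T) (hT' : ∀ᶠ y in 𝓝 x, y ∈ ch.baseF ν κ B → y.1 = x.1 → y.2.X = x.2.X → y ∈ T)
    {c : β → V ch.M} (hc : ∀ e, IsNode ch.o (crv x.2) (c e))
    (hi : ∀ e e', Orb (c e) (c e') → e = e') : ∃ τ : β → ch.WF ν κ Λ → ℂ,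
      (∀ e, NdAt ch.o (fun y : T => crv y.1.2) Subtype.val ⟨x, hx⟩ (c e) (τ e)) ∧
      ∀ t : β → ℂ, ∃ γ, Arc T x γ ∧ (∀ᶠ ε in 𝓝 0, (γ ε).1 = x.1 ∧ (γ ε).2.X = x.2.X) ∧
        ∀ e, deriv (fun ε => τ e (γ ε)) 0 = t e := by
  obtain ⟨h1, h2, h3⟩ := mem_baseF.1 (hT hx)
  obtain ⟨τ, k1, k2⟩ := h.exists_tau_res h2 (n₀ := fun q => .inr (q, false))
    (n₁ := fun q => .inr (q, true)) (fun _ _ e => by simpa using e) (by simp) h3 hc hi
  refine ⟨fun e y => τ e y.2, fun e => NdAt.comp (u := fun y : T => (⟨y.1.2, (hT y.2).2.1⟩ :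
    ch.base (Mk ν κ))) (t' := ⟨x, hx⟩) (π' := Subtype.val) (k := Prod.snd) (k1 e)
    (Continuous.continuousAt (by fun_prop)) analyticAt_snd (.of_forall fun _ => rfl), fun t => ?_⟩
  obtain ⟨γ, m1, m2, m3⟩ := k2 t
  have m4 : AnalyticAt ℂ (fun ε => (x.1, γ ε)) 0 := analyticAt_const.prod m1.an
  have m5 : (x.1, γ 0) = x := Prod.ext rfl m1.zero
  refine ⟨_, ⟨m4, m5, ?_⟩, m2.mono fun _ b => ⟨rfl, b⟩, m3⟩
  filter_upwards [(m5 ▸ m4.continuousAt.tendsto).eventually hT', m1.mem, m2] with ε b1 b2 b3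
  exact b1 (mem_baseF.2 ⟨h1, b2⟩) rfl b3

/-- One node, in terms of tangent vectors. -/
theorem Num₀.vers (h : Num₀ ch) {T : Set (ch.WF ν κ Λ)} (hT : T ⊆ ch.baseF ν κ B)
    (hx : x ∈ T) (hT' : ∀ᶠ y in 𝓝 x, y ∈ ch.baseF ν κ B → y.1 = x.1 → y.2.X = x.2.X → y ∈ T)
    {c : V ch.M} (hc : IsNode ch.o (crv x.2) c) : ∃ τ : ch.WF ν κ Λ → ℂ,
      NdAt ch.o (fun y : T => crv y.1.2) Subtype.val ⟨x, hx⟩ c τ ∧
      ∃ v ∈ tan (Subtype.val : T → _) ⟨x, hx⟩, fderiv ℂ τ x v ≠ 0 := by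
  obtain ⟨τ, k1, k2⟩ := h.exists_tauF hT hx hT' (c := fun _ : Unit => c) (fun _ => hc)
    fun _ _ _ => rfl
  obtain ⟨γ, m1, -, m2⟩ := k2 1
  exact ⟨_, k1 (), _, m1.mem_tan hx, ne_of_eq_of_ne ((HasFDerivAt.comp_hasDerivAt_of_eq 0
    (k1 ()).choose_spec.2.1.differentiableAt.hasFDerivAt m1.an.differentiableAt.hasDerivAt
    m1.zero.symm).deriv.symm.trans (m2 ())) one_ne_zero⟩

end Ch

end Vale.Agent.P269
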