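import Vale.Agent.P269.Base.DrB

/-!
# The main stratum is a manifold
-/

set_option linter.unusedSectionVars false

namespace Vale.Agent.P269.Ch

open Set Function Topology Filter Holo Base

variable {S Λ R J K ι ν κ I : Type} [Fintype S] [Fintype Λ] [Fintype R] [Fintype J] [Fintype K]
  [Fintype ι] [DecidableEq ι] [Fintype ν] [Fintype κ] [Fintype I] [DecidableEq I]

/-- The base fields `φ i` are free, and `E` expresses the other base fields that do not vanish as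
monomials in the free ones. -/
structure Gr (ch : Ch ι J) (F : Fam S Λ R J K) (u : ν → J → ℕ) (φ : I → J) (n : J → I → ℤ)
    (ψ : J → (Λ → ℂ) → ℂ) : Prop where
  zer : Disjoint F.zer F.mov
  free : ∀ i, φ i ∉ F.mov ∧ φ i ∉ F.zer ∧ n (φ i) = Pi.single i 1 ∧ ψ (φ i) = 1
  li : LinearIndependent ℤ fun o : Option I => o.elim ch.χ fun i => ch.wd (φ i)
  neg : ∀ j i, n j i < 0 → ∀ m, u m (φ i) = 0
  an : ∀ j, ∀ l ∈ F.B, AnalyticAt ℂ (ψ j) l ∧ ψ j l ≠ 0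
  wd : ∀ j ∉ F.mov, j ∉ F.zer → ch.wd j = ∑ i, n j i • ch.wd (φ i)
  ord : ∀ j ∉ F.mov, j ∉ F.zer → ∀ m, (u m j : ℤ) = ∑ i, n j i * u m (φ i)
  E : ∀ l ∈ F.B, ∀ y : J → ℂ, (∀ j ∈ F.zer, y j = 0) → (∀ j i, n j i < 0 → y (φ i) ≠ 0) →
    ((l, y) ∈ F.E ↔ ∀ j ∉ F.mov, j ∉ F.zer → y j = ψ j l * ∏ i, y (φ i) ^ n j i)

variable {ch : Ch ι J} {F : Fam S Λ R J K} {u : ν → J → ℕ} {φ : I → J} {n : J → I → ℤ}
  {ψ : J → (Λ → ℂ) → ℂ} {l : Option J}

theorem fld_ne {x : ch.W ν} {j : J} {U : ν → ℤ} {c : V ch.M} (hx : x ∈ ch.base ν)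
    (h : ∀ c ∈ crv x, ∃ y, Val x j c y)
    (ht : Triv ch.o (crv x) (ch.wd j) x.p U fun c => fld x c j) (hc : c ∈ crv x)
    (h0 : ∀ m, Orb (x.p m) c → U m = 0) : fld x c j ≠ 0 := by
  by_cases ho : Off x.p c
  · exact ht.ne c hc ho
  obtain ⟨m, hm⟩ := not_forall_not.1 ho
  obtain ⟨γ, hγ⟩ := hx.2.2.1.nod.exists_loc hc
  obtain rfl := hγ.zero true
  exact ht.exact m _ _ (hγ.br true) hm (h0 m hm ▸ .of_an (an_fld hx h (hγ.br true)))

/-- The main stratum without matching conditions. -/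
structure Pre (F : Fam S Λ R J K) (u : ν → J → ℕ) (x : (Λ → ℂ) × ch.W ν) : Prop where
  par : x.1 ∈ F.B
  base : x.2 ∈ ch.base ν
  val : ∀ j ∉ F.mov, ∀ c ∈ crv x.2, ∃ y, Val x.2 j c y
  zer : ∀ j ∈ F.zer, x.2.X j = 0
  triv : ∀ j ∉ F.mov, j ∉ F.zer →
    Triv ch.o (crv x.2) (ch.wd j) x.2.p (fun m => u m j) fun c => fld x.2 c j

variable (ch F u) in
/-- The same with the condition `E`. -/
def main₀ : Set ((Λ → ℂ) × ch.W ν) := {x | Pre F u x ∧ ∀ c ∈ crv x.2, (x.1, fld x.2 c) ∈ F.E}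

section Pre

variable {x : (Λ → ℂ) × ch.W ν} {c : V ch.M}

theorem Pre.mem_E (h : Pre F u x) (hG : Gr ch F u φ n ψ) (hc : c ∈ crv x.2) :
    (x.1, fld x.2 c) ∈ F.E ↔
      ∀ j ∉ F.mov, j ∉ F.zer → fld x.2 c j = ψ j x.1 * ∏ i, fld x.2 c (φ i) ^ n j i :=
  hG.E _ h.par _ (fun j hj => fld_of_zero hc (h.zer j hj)) fun j i b => fld_ne h.base
    (h.val _ (hG.free i).1) (h.triv _ (hG.free i).1 (hG.free i).2.1) hc fun m _ => by
      simp [hG.neg j i b m]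

/-- It is enough to check the condition `E` off the marked points. -/
theorem Pre.main₀ (h : Pre F u x) (hG : Gr ch F u φ n ψ) (e : ∀ c ∈ crv x.2, Off x.2.p c →
    ∀ j ∉ F.mov, j ∉ F.zer → fld x.2 c j = ψ j x.1 * ∏ i, fld x.2 c (φ i) ^ n j i) :
    x ∈ ch.main₀ F u := by
  refine ⟨h, fun c hc => (h.mem_E hG hc).2 fun j h1 h2 => ?_⟩
  obtain ⟨γ, hγ⟩ := h.base.2.2.1.nod.exists_loc hc
  obtain rfl := hγ.zero true
  have h3 := fun j hj => (an_fld h.base (h.val j hj) (hγ.br true)).continuousAt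
  refine tendsto_nhds_unique_of_eventuallyEq ((h3 j h1).tendsto.mono_left nhdsWithin_le_nhds)
    ((tendsto_const_nhds.mul (tendsto_finsetProd _ fun i _ => ContinuousAt.zpow₀
      (h3 _ (hG.free i).1) _ (or_iff_not_imp_right.2 fun b => ?_))).mono_left nhdsWithin_le_nhds)
    (((hγ.br true).eventually_off' h.base.2.2.1.nod).mono fun t b => e _ b.1 b.2 j h1 h2)
  exact fld_ne h.base (h.val _ (hG.free i).1) (h.triv _ (hG.free i).1 (hG.free i).2.1) hc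
    fun m _ => by simp [hG.neg j i (not_le.1 b) m]

theorem main₀_tor (h : x ∈ ch.main₀ F u) {τ : ν → ι → ℂ} (hτ : ∀ m i, τ m i ≠ 0) :
    (x.1, act (1, 1, τ) x.2) ∈ ch.main₀ F u :=
  ⟨⟨h.1.par, Cv.act_mem_base h.1.base (isUnit_tor hτ), h.1.val, h.1.zer,
    fun j a b => (h.1.triv j a b).orb fun m => .smul _ (hτ m)⟩, h.2⟩

theorem deriv_smul_id {B : Type*} [NormedAddCommGroup B] [NormedSpace ℂ B] (v : B) :
    deriv (fun ε : ℂ => ε • v) 0 = v :=
  ((hasDerivAt_id' (0 : ℂ)).smul_const v).deriv.trans (one_smul ℂ _)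

/-- Replace the fields. -/
def setX (x : ch.W ν) (X : ∀ j, Tens ch.M (ch.b j) →L[ℂ] ch.E (some j)) : ch.W ν :=
  W.mk' x.Q x.p x.Ξ X

open Classical in
theorem mfd_main₀ (hl : ∀ i, 4 ≤ ch.a l i) (ha : ∀ l, ch.a l ≠ 0) (hG : Gr ch F u φ n ψ)
    (hx : x ∈ ch.main₀ F u) {b N : ℕ} (hB : MfdAt F.B b x.1) (hN : MfdAt (ch.base ν) N x.2) :
    ∃ d : ℕ, (d + ∑ j with j ∉ F.mov, Module.finrank ℂ (Tens ch.M (ch.b j)) * ch.h (some j) : ℤ) =
      b + N + Fintype.card I * (1 - ch.g) ∧ MfdAt (ch.main₀ F u) d x := by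
  obtain ⟨r, y, hy⟩ := exists_evB hl hx.1.base (fun i => ch.wd (φ i)) fun i m => u m (φ i)
  have hT := fun t (h : Pre (ch := ch) F u t) i => h.triv _ (hG.free i).1 (hG.free i).2.1
  obtain ⟨d, hd, h1⟩ := mfd_DR hl ha hN hG.li (hT x hx.1) hy
  set D := DR (fun i => ch.wd (φ i)) (fun i m => u m (φ i)) y
  let A := (Λ → ℂ) × (I → Fin r → ℂ) × ch.W ν
  let f : A → I → V ch.M → ℂ := fun s i => epsilon fun f =>
    Mer ch.o (crv s.2.2) (ch.wd (φ i)) s.2.2.p (fun m => u m (φ i)) f ∧ ∀ k, f (y k s.2.2) = s.2.1 i k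
  have hf : ∀ s ∈ F.B ×ˢ D, ∀ i, Mer ch.o (crv s.2.2) (ch.wd (φ i)) s.2.2.p (fun m => u m (φ i))
      (f s i) ∧ ∀ k, f s i (y k s.2.2) = s.2.1 i k := fun s hs i => epsilon_spec (hs.2.2 i)
  let g : A → J → V ch.M → ℂ := fun s j c => if j ∈ F.zer then 0 else ψ j s.1 * ∏ i, f s i c ^ n j i
  let X : A → ∀ j, Tens ch.M (ch.b j) →L[ℂ] ch.E (some j) := fun s j =>
    epsilon fun X => IndOff s.2.2 j X s.2.2.p (g s j)
  let P : (Λ → ℂ) × ch.W ν → ch.W ν → A := fun t s => (t.1, fun i k => fld t.2 (y k s) (φ i), s)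
  let p : ch.W ν → Prop := fun s => ∀ i f f', Mer ch.o (crv s) (ch.wd (φ i)) s.p
    (fun m => u m (φ i)) f → Mer ch.o (crv s) (ch.wd (φ i)) s.p (fun m => u m (φ i)) f' →
      (∀ k, f (y k s) = f' (y k s)) → ∀ c ∈ crv s, Off s.p c → f c = f' c
  have hp : ∀ᶠ s in 𝓝 x.2, s ∈ ch.base ν → p s :=
    (eventually_all.2 fun i => (hy i).ev_eq).mono fun s a b i => a i b
  have k1 : ∀ t ∈ ch.main₀ F u, ∀ Y, P t (setX t.2 Y) ∈ F.B ×ˢ D := fun t ht Y =>
    ⟨ht.1.par, ht.1.base, fun i => ⟨_, (hT t ht.1 i).toMer, fun _ => rfl⟩⟩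
  have k2 : ∀ t ∈ ch.main₀ F u, ∀ Y, p (setX t.2 Y) → ∀ c ∈ crv t.2, Off t.2.p c →
      (∀ i, f (P t (setX t.2 Y)) i c = fld t.2 c (φ i)) ∧
      ∀ j ∉ F.mov, g (P t (setX t.2 Y)) j c = fld t.2 c j := fun t ht Y a c hc ho => by
    have e := fun i => a i _ _ (hf _ (k1 t ht Y) i).1 (hT t ht.1 i).toMer (hf _ (k1 t ht Y) i).2 c hc ho
    refine ⟨e, fun j hj => ?_⟩
    simp only [g]
    split_ifs with h
    · exact (fld_of_zero hc (ht.1.zer j h)).symm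
    · rw [(ht.1.mem_E hG hc).1 (ht.2 c hc) j hj h]
      exact congrArg _ (Finset.prod_congr rfl fun i _ => congrArg (· ^ _) (e i))
  have k3 : ∀ t ∈ ch.main₀ F u, ∀ Y, p (setX t.2 Y) → ∀ j ∉ F.mov,
      X (P t (setX t.2 Y)) j = t.2.X j := fun t ht Y a j hj => by
    have e : IndOff (setX t.2 Y) j (t.2.X j) t.2.p (g (P t (setX t.2 Y)) j) := fun c w hw ho μ =>
      ((k2 t ht Y a c ⟨_, hw, rfl⟩ ho).2 j hj).symm ▸ indOff_fld (ht.1.val j hj) c w hw ho μ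
    exact IndOff.unique (x := setX t.2 Y) ht.1.base (epsilon_spec (p := fun X => IndOff _ j X _ _)
      ⟨_, e⟩) e
  have p0 : p (setX x.2 x.2.X) := hp.self_of_nhds hx.1.base
  have h0 : P x x.2 ∈ F.B ×ˢ D := k1 x hx _
  have h2 : MfdAt (F.B ×ˢ D) (b + d) (P x x.2) := hB.prod h1
  have hn := hx.1.base.2.2.1.nod
  have a0 : HolAt (Subtype.val : F.B ×ˢ D → A) (fun t => t.1.2.2) ⟨_, h0⟩ :=
    .of_an (Φ := fun s : A => s.2.2) (analyticAt_snd.comp analyticAt_snd)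
  have a1 : ∀ᶠ t : F.B ×ˢ D in 𝓝 ⟨_, h0⟩, t.1.2.2 ∈ ch.base ν := .of_forall fun t => t.2.2.1
  have a2 := locFam_of_hol hl (.of_forall fun _ => continuous_subtype_val.continuousAt) a0 a1
  obtain ⟨σ, a3, a4⟩ := exists_pts a2 a0 a1
  have a5 := fun i => EvB.fmer (x := fun t : F.B ×ˢ D => t.1.2.2) (t₀ := ⟨_, h0⟩) (hy i) a2 a0 a1 a3
    a4 (f := fun t => f t.1 i) (.of_forall fun t => (hf _ t.2 i).1) fun k =>
      (((HolAt.self.snd'.fst').proj i).proj k).congr (.of_forall fun t => ((hf _ t.2 i).2 k).symm)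
  have a6 : ∀ j ∉ F.mov, FMer ch.o (fun t : F.B ×ˢ D => crv t.1.2.2) Subtype.val ⟨_, h0⟩ (ch.wd j) σ
      (fun m => u m j) fun t => g t.1 j := fun j hj => by
    by_cases h : j ∈ F.zer
    · simpa only [g, if_pos h] using FMer.zero
    simp only [g, if_neg h]
    refine ((FMer.prod Finset.univ fun i _ => (a5 i).zpow a2 a3 ?_ (n j i)).smul 
      (HolAt.self.fst'.comp_an (hG.an j _ hx.1.par).1)).cast
      (hG.wd j hj h).symm (funext fun m => by simp [hG.ord j hj h m])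
    exact a4.self_of_nhds ▸ (hT x hx.1 i).congr hn (hf _ h0 i).1.hom
      fun c hc ho => (k2 x hx _ p0 c hc ho).1 i
  have a7 : ∀ᶠ s in 𝓝 (P x x.2), s ∈ F.B ×ˢ D → ∀ j ∉ F.mov,
      Mer ch.o (crv s.2.2) (ch.wd j) s.2.2.p (fun m => u m j) (g s j) ∧
      IndOff s.2.2 j (X s j) s.2.2.p (g s j) ∧ (j ∉ F.zer →
        Triv ch.o (crv s.2.2) (ch.wd j) s.2.2.p (fun m => u m j) (g s j)) := by
    refine (ev_sub h0).1 <| eventually_all.2 fun j => eventually_imp_distrib_left.2 fun hj => ?_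
    filter_upwards [(a6 j hj).eventually_mer a2 a3, a4, eventually_imp_distrib_left.2
      fun h : j ∉ F.zer => (a6 j hj).eventually_triv a2 a3 (a4.self_of_nhds ▸
        (hx.1.triv j hj h).congr hn ((a6 j hj).mer a2 a3).hom
          fun c hc ho => (k2 x hx _ p0 c hc ho).2 j hj)] with t b1 b2 b3
    rw [b2] at b1 b3
    exact ⟨b1, epsilon_spec (exists_indOff t.2.2.1 (ha _) (spt_p t.2.2.1) b1
      fun _ => Nat.cast_nonneg _), b3⟩
  have a8 : ∀ j ∉ F.mov, HolOn (F.B ×ˢ D) (fun s => X s j) (P x x.2) := fun j hj =>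
    (holOn_iff h0).2 (holAt_X a2 a0 a1 (ha _) a3 (a6 j hj) (by
      filter_upwards [(ev_sub h0).2 a7, a4] with t b1 b2 using b2 ▸ (b1 j hj).2.1))
  let e : A → ∀ j : {j // j ∉ F.mov}, Tens ch.M (ch.b j) →L[ℂ] ch.E (some j.1) := fun s j =>
    s.2.2.X j - X s j
  have he : ∀ s, e s = 0 ↔ ∀ j ∉ F.mov, s.2.2.X j = X s j := fun s =>
    funext_iff.trans (Subtype.forall.trans (forall₂_congr fun j _ => sub_eq_zero (b := X s j)))
  obtain ⟨d', h3, h4⟩ := h2.sub' (f := e) (Z := {s | s ∈ F.B ×ˢ D ∧ e s = 0})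
    (.pi fun j => (holOn_iff h0).2 ((a0.comp_an (W.an_X analyticAt_id j.1)).sub
      ((holOn_iff h0).1 (a8 j j.2))))
    ((he _).2 fun j hj => (k3 x hx _ p0 j hj).symm) (fun v _ => Submodule.subset_span (by
      let Y : ℂ → ∀ j, Tens ch.M (ch.b j) →L[ℂ] ch.E (some j) := fun ε j =>
        x.2.X j + ε • if h : j ∈ F.mov then 0 else v ⟨j, h⟩
      have hc : Arc (ch.base ν) x.2 fun ε => setX x.2 (Y ε) :=
        ⟨W.an_iff.2 ⟨fun _ => analyticAt_const, fun _ => analyticAt_const, analyticAt_const,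
          fun _ => analyticAt_const.add (an_smul_clm analyticAt_id analyticAt_const)⟩,
          W.ext (fun _ => rfl) (fun _ => rfl) rfl fun j =>
            (congrArg (x.2.X j + ·) (zero_smul ℂ _)).trans (add_zero _),
          .of_forall fun _ => hx.1.base⟩
      have h5 := arc_DR hx.1.base (fun i => (hT x hx.1 i).toMer) hy hc
        (.of_forall fun _ => ⟨rfl, fun _ => .refl _⟩)
      refine ⟨fun ε => P x (setX x.2 (Y ε)), ⟨analyticAt_const.prod h5.an, Prod.ext rfl h5.zero,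
        .of_forall fun _ => k1 x hx _⟩, (EventuallyEq.deriv_eq (f := fun ε => ε • v) ?_).trans
          (deriv_smul_id v)⟩
      filter_upwards [hc.ev hp] with ε a
      exact funext fun j => (congrArg (Y ε j - ·) (k3 x hx _ a j j.2)).trans
        ((add_sub_cancel_left (x.2.X j) _).trans (congrArg (ε • ·) (dif_neg j.2)))))
    (.of_forall fun _ => Iff.rfl)
  refine ⟨d', ?_, h4.iso' (F := fun s => (s.1, s.2.2)) (G := fun t => P t t.2)
    (.of_an (analyticAt_fst.prod (analyticAt_snd.comp analyticAt_snd)))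
    (.prod (.of_an analyticAt_fst) (.prod (.pi fun i => .pi fun k => holOn_fld hx
      (.of_an analyticAt_snd) hx.1.base.1 (.of_an (((hy i).an k).comp analyticAt_snd)) ?_)
      (.of_an analyticAt_snd))) ?_ ?_⟩
  · rw [finrank_pi_clm, ← Nat.cast_inj (R := ℤ)] at h3
    rw [Finset.sum_subtype (p := (· ∉ F.mov)) _ (by simp), add_assoc, ← hd]
    simpa using h3
  · filter_upwards [continuousAt_snd.eventually (hy i).ev] with t a ht
    exact ⟨((a ht.1.base).1 k).1, ht.1.val _ (hG.free i).1 _ ((a ht.1.base).1 k).1⟩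
  · filter_upwards [a7, (continuous_snd.comp continuous_snd).continuousAt.eventually
      (eventually_all.2 fun i => (hy i).ev)] with s b1 b2 ⟨hs, b3⟩
    have hb := hs.2.1
    have b4 : ∀ j ∉ F.mov, IndOff s.2.2 j (s.2.2.X j) s.2.2.p (g s j) := fun j hj =>
      (he s).1 b3 j hj ▸ (b1 hs j hj).2.1
    have b5 := fun j hj => (b4 j hj).val hb (spt_p hb) (b1 hs j hj).1 fun _ => Nat.cast_nonneg _
    have b6 : ∀ c ∈ crv s.2.2, Off s.2.2.p c → ∀ i, fld s.2.2 c (φ i) = f s i c := fun c hc ho i => by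
      rw [(b5 _ (hG.free i).1).2 c hc ho]
      simp only [g, if_neg (hG.free i).2.1, (hG.free i).2.2, Pi.one_apply, one_mul]
      rw [Fintype.prod_eq_single i fun i' h => by simp [h]]
      simp
    refine ⟨Pre.main₀ ⟨hs.1, hb, fun j hj => (b5 j hj).1, fun j hj => (b4 j (hG.zer.notMem_of_mem_left
      hj)).unique hb fun c w _ _ μ => by simp [g, hj], fun j hj h => ((b1 hs j hj).2.2 h).congr
        hb.2.2.1.nod (mer_fld (z := s.2.2.p) hb (b5 j hj).1).hom (b5 j hj).2⟩ hG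
          fun c hc ho j hj h => ?_, Prod.ext rfl (Prod.ext (funext₂ fun i k => ?_) rfl)⟩
    · simp only [(b5 j hj).2 c hc ho, b6 c hc ho, g, if_neg h]
    · exact (b6 _ ((b2 i hb).1 k).1 ((b2 i hb).1 k).2 i).trans ((hf s hs i).2 k)
  · filter_upwards [continuousAt_snd.eventually hp] with t a ht
    exact ⟨⟨k1 t ht _, (he _).2 fun j hj => (k3 t ht _ (a ht.1.base) j hj).symm⟩, rfl⟩

end Pre

variable {x : ch.WF ν κ Λ}

theorem mem_main_iff : x ∈ ch.main κ F u ↔ x ∈ ch.adm ν κ F ∧ ∀ j ∉ F.mov, j ∉ F.zer →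
    Triv ch.o (crv x.2) (ch.wd j) x.2.p (Sum.elim (fun m => u m j) 0) fun c => fld x.2 c j := by
  refine and_congr_right fun h => forall₃_congr fun j hj _ => ?_
  rw [show (Sum.elim (fun m => (u m j : ℤ)) 0 : Mk ν κ → ℤ) =
    fun m => ((Sum.elim (fun m => u m j) 0 m : ℕ) : ℤ) from funext fun m => by cases m <;> rfl,
    triv_fld_iff h.1.2.1 (h.2.1 j hj)]
  simp [Fintype.sum_sum_type]

theorem Gr.ext (h : Gr ch F u φ n ψ) : Gr ch F (Sum.elim u 0 : Mk ν κ → J → ℕ) φ n ψ :=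
  { h with
    neg := fun j i a m => by cases m; exacts [h.neg j i a _, rfl]
    ord := fun j a b m => by cases m; exacts [h.ord j a b _, by simp] }

theorem mem_main_iff₀ (hG : Gr ch F u φ n ψ) : x ∈ ch.main κ F u ↔
    x ∈ ch.main₀ F (Sum.elim u 0 : Mk ν κ → J → ℕ) ∧
      ∀ q, rsd x.2 (.inr (q, false)) = (-1) ^ ch.k * rsd x.2 (.inr (q, true)) ∧ ∀ i,
        fld x.2 (x.2.p (.inr (q, false))) (φ i) = fld x.2 (x.2.p (.inr (q, true))) (φ i) := by
  have e : ∀ j, (Sum.elim (fun m => (u m j : ℤ)) 0 : Mk ν κ → ℤ) =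
      fun m => ((Sum.elim u 0 : Mk ν κ → J → ℕ) m j : ℤ) := fun j => funext fun m => by
    cases m <;> rfl
  simp only [mem_main_iff, e]
  refine ⟨fun ⟨⟨a, b, c, d, f⟩, g⟩ => ⟨⟨⟨a.1, a.2.1, b, d, g⟩, c⟩,
    fun q => ⟨(mem_baseF.1 a).2.2 q, fun i => f _ (hG.free i).1 q⟩⟩, fun ⟨⟨a, b⟩, c⟩ =>
      ⟨⟨mem_baseF.2 ⟨a.par, a.base, fun q => (c q).1⟩, a.val, b, a.zer, fun j hj q => ?_⟩, a.triv⟩⟩
  have hm := fun m => (a.base.2.2.2.1 m).1
  by_cases h : j ∈ F.zer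
  · rw [fld_of_zero (hm _) (a.zer j h), fld_of_zero (hm _) (a.zer j h)]
  · simp only [(a.mem_E hG.ext (hm _)).1 (b _ (hm _)) j hj h, (c q).2]

open Classical in
theorem mfd_main (hl : ∀ i, 4 ≤ ch.a l i) (ha : ∀ l, ch.a l ≠ 0) (hG : Gr ch F u φ n ψ)
    (hx : x ∈ ch.main κ F u) {b N : ℕ} (hB : MfdAt F.B b x.1)
    (hN : MfdAt (ch.base (Mk ν κ)) N x.2) : ∃ d : ℕ,
      (d + ∑ j with j ∉ F.mov, Module.finrank ℂ (Tens ch.M (ch.b j)) * ch.h (some j) +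
        Fintype.card κ * (1 + Fintype.card I) : ℤ) = b + N + Fintype.card I * (1 - ch.g) ∧
      MfdAt (ch.main κ F u) d x := by
  have h0 := ((mem_main_iff₀ hG).1 hx).1
  obtain ⟨d, h1, h2⟩ := mfd_main₀ hl ha hG.ext h0 hB hN
  obtain ⟨d', h3, h4⟩ := mfd_match (Z := ch.main κ F u) (n₀ := fun q => .inr (q, false))
    (n₁ := fun q => .inr (q, true)) hl h2
    (.of_forall fun _ a => ⟨a.1.base, fun i => a.1.val _ (hG.free i).1⟩)
    (fun τ a b => ⟨fun _ => x.1, analyticAt_const.prod (an_tor a _),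
      Prod.ext rfl (arc_tor h0.1.base a b).zero, (ev_tor a b).mono fun _ c => main₀_tor h0 c⟩)
    hG.li (fun _ _ e => by simpa using e) (by simp)
    (fun q i => fld_ne h0.1.base (h0.1.val _ (hG.free i).1) (h0.1.triv _ (hG.free i).1
      (hG.free i).2.1) (h0.1.base.2.2.2.1 _).1 fun m a => by
        rw [(spt_p h0.1.base).inj _ _ a]; rfl)
    (pow_ne_zero ch.k (neg_ne_zero.2 one_ne_zero)) (.of_forall fun _ => mem_main_iff₀ hG) hx
  refine ⟨d', ?_, h4⟩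
  rw [← h1, ← h3]
  push_cast
  ring

end Vale.Agent.P269.Ch
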