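import Vale.Agent.P269.Base.Mfd
import Vale.Agent.P269.Pt.Std

/-!
# The base of a standard chart
-/

namespace Vale.Agent.P269

open Holo

set_option linter.unusedSectionVars false

variable {S Λ R J K ν : Type} [Fintype S] [Fintype Λ] [Fintype R] [DecidableEq R] [Fintype J]
  [Fintype K] [Fintype ν] {F : Fam S Λ R J K} {k D : ℕ}

theorem Fam.Big.two_le (h : F.Big k) : 2 ≤ k := by
  obtain ⟨_, _, -, h⟩ := h
  omega

theorem Fam.num₀ (hk : 2 ≤ k) (hD : F.BigD k D) (g : ℤ) (n : ℕ) (d : R → ℤ) :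
    (F.chart g n d k D).Num₀ where
  a_ne := Cv.chart_a_ne g n d (by have := hD.le; omega)
  cut := ⟨none, fun _ => hD.le⟩
  k_ne := show k ≠ 0 by omega
  m_ne e := by
    have := Int.eq_one_of_mul_eq_one_right (Nat.cast_nonneg k) ((add_zero _).symm.trans e)
    omega
  M_eq _ := rfl
  chi := ne_of_eq_of_ne (Cv.sum_χ g n d hD) one_ne_zero

theorem Fam.mfdAt_base (hk : 2 ≤ k) (hD : F.BigD k D) {g : ℤ} {n : ℕ} {d : R → ℤ}
    {x : (F.chart g n d k D).W ν} (hx : x ∈ (F.chart g n d k D).base ν) :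
    ∃ N : ℕ, (N : ℤ) = 3 * g - 3 + Fintype.card ν + Fintype.card R * (g - 1) +
      Module.finrank ℂ ((F.chart g n d k D).A ν) + (∑ j, Module.finrank ℂ
        (Tens (F.chart g n d k D).M ((F.chart g n d k D).b j)) * (F.chart g n d k D).h (some j) : ℕ) ∧
      MfdAt ((F.chart g n d k D).base ν) N x := by
  obtain ⟨N, h1, h2⟩ := (Fam.num₀ hk hD g n d).mfdAt hx
  refine ⟨N, ?_, h2⟩
  rw [h1, Ch.dimB, Fintype.card_option, Nat.cast_succ, add_sub_cancel_right]
  rfl

end Vale.Agent.P269
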