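import Vale.Agent.P269.Base.Defs

/-!
# Local families of nodal curves: retraction, recentring, openness, compactness
-/

namespace Vale.Agent.P269.Base

open Set Function Topology Filter Holo

variable {ι : Type} [Fintype ι] {M : ι → ℕ}

section Smul

variable {Y : Type*} [NormedAddCommGroup Y] [NormedSpace ℂ Y]

theorem an_smul {s : Y → ι → ℂ} {v : Y → V M} {y : Y} (hs : AnalyticAt ℂ s y)
    (hv : AnalyticAt ℂ v y) : AnalyticAt ℂ (fun x => s x • v x) y :=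
  analyticAt_pi_iff.2 fun i => (analyticAt_pi_iff.1 hs i).smul (analyticAt_pi_iff.1 hv i)

omit [Fintype ι] in
theorem fderiv_smul_apply {s : Y → ι → ℂ} {v : Y → V M} {y : Y} (hs : DifferentiableAt ℂ s y)
    (hv : DifferentiableAt ℂ v y) (e : Y) :
    fderiv ℂ (fun x => s x • v x) y e = fderiv ℂ s y e • v y + s y • fderiv ℂ v y e := by
  have h : HasFDerivAt (fun x => s x • v x) (ContinuousLinearMap.pi fun i =>
      s y i • (ContinuousLinearMap.proj i).comp (fderiv ℂ v y) +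
        ((ContinuousLinearMap.proj i).comp (fderiv ℂ s y)).smulRight (v y i)) y :=
    hasFDerivAt_pi.2 fun i => (hasFDerivAt_pi'.1 hs.hasFDerivAt i).smul
      (hasFDerivAt_pi'.1 hv.hasFDerivAt i)
  rw [h.fderiv]
  funext i
  simp [add_comm]

omit [Fintype ι] in
theorem hasDerivAt_smul {s : ℂ → ι → ℂ} {v : ℂ → V M} {s' : ι → ℂ} {v' : V M} {y : ℂ}
    (hs : HasDerivAt s s' y) (hv : HasDerivAt v v' y) :
    HasDerivAt (fun x => s x • v x) (s' • v y + s y • v') y :=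
  hasDerivAt_pi.2 fun i => by
    simpa [add_comm] using (hasDerivAt_pi.1 hs i).fun_smul (hasDerivAt_pi.1 hv i)

end Smul

theorem tendsto_pm {X Y Z : Type*} [TopologicalSpace X] [TopologicalSpace Y] [TopologicalSpace Z]
    {u : X → Y} {x : X} (hu : ContinuousAt u x) (z : Z) :
    Tendsto (fun q : X × Z => (u q.1, q.2)) (𝓝 (x, z)) (𝓝 (u x, z)) :=
  hu.prodMap continuousAt_id

omit [Fintype ι] in
theorem tendsto_smul {α : Type*} {l : Filter α} {s : α → ι → ℂ} {v : α → V M} {s₀ : ι → ℂ}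
    {v₀ : V M} (hs : Tendsto s l (𝓝 s₀)) (hv : Tendsto v l (𝓝 v₀)) :
    Tendsto (fun x => s x • v x) l (𝓝 (s₀ • v₀)) :=
  tendsto_pi_nhds.2 fun i => (tendsto_pi_nhds.1 hs i).smul (tendsto_pi_nhds.1 hv i)

omit [Fintype ι] in
theorem smul_ne {s : ι → ℂ} {c : V M} (hs : ∀ i, s i ≠ 0) (hc : ∀ i, c i ≠ 0) (i : ι) :
    (s • c) i ≠ 0 := smul_ne_zero (hs i) (hc i)

omit [Fintype ι] in
theorem ne_of_smul_ne {s : ι → ℂ} {c : V M} (h : ∀ i, (s • c) i ≠ 0) (i : ι) : s i ≠ 0 :=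
  fun e => h i (by rw [Pi.smul_apply', e, zero_smul])

omit [Fintype ι] in
theorem inv_smul_smul' {s : ι → ℂ} (hs : ∀ i, s i ≠ 0) (c : V M) : s⁻¹ • s • c = c :=
  funext fun i => inv_smul_smul₀ (hs i) (c i)

omit [Fintype ι] in
theorem smul_inv_smul' {s : ι → ℂ} (hs : ∀ i, s i ≠ 0) (c : V M) : s • s⁻¹ • c = c :=
  funext fun i => smul_inv_smul₀ (hs i) (c i)

theorem eventually_ne {c : V M} (hc : ∀ i, c i ≠ 0) : ∀ᶠ y in 𝓝 c, ∀ i, y i ≠ 0 :=
  eventually_all.2 fun i => (continuous_apply i).continuousAt.eventually_ne (hc i)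

omit [Fintype ι] in
theorem isCompact_sph : IsCompact {c : V M | ∀ i, ‖c i‖ = 1} := by
  have : {c : V M | ∀ i, ‖c i‖ = 1} = Set.pi univ fun _ => Metric.sphere 0 1 := by
    ext c
    simp
  rw [this]
  exact isCompact_univ_pi fun _ => isCompact_sphere _ _

theorem li_pair {F : Type*} [AddCommGroup F] [Module ℂ F] {c d : F} (hc : c ≠ 0)
    (h : ∀ e s : ℂ, e • d = s • c → e = 0) : LinearIndependent ℂ ![c, d] := by
  refine LinearIndependent.pair_iff.2 fun a b hab => ?_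
  have hb : b = 0 := h b (-a) (by rw [neg_smul]; exact eq_neg_of_add_eq_zero_right hab)
  rw [hb, zero_smul, add_zero] at hab
  exact ⟨(smul_eq_zero.1 hab).resolve_right hc, hb⟩

theorem li_triple {F : Type*} [AddCommGroup F] [Module ℂ F] {c d d' : F} (hc : c ≠ 0)
    (h : ∀ e e' s : ℂ, e • d + e' • d' = s • c → e = 0 ∧ e' = 0) :
    LinearIndependent ℂ ![c, d, d'] := by
  refine Fintype.linearIndependent_iff.2 fun g hg => ?_
  simp only [Fin.sum_univ_three, Matrix.cons_val_zero, Matrix.cons_val_one, Matrix.cons_val] at hg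
  obtain ⟨h1, h2⟩ := h (g 1) (g 2) (-g 0) (by
    rw [neg_smul]
    exact eq_neg_of_add_eq_zero_right (by rw [← add_assoc]; exact hg))
  rw [h1, h2, zero_smul, zero_smul, add_zero, add_zero] at hg
  intro i
  fin_cases i
  exacts [(smul_eq_zero.1 hg).resolve_right hc, h1, h2]

theorem of_li_pair {F : Type*} [AddCommGroup F] [Module ℂ F] {c d : F}
    (h : LinearIndependent ℂ ![c, d]) {e s : ℂ} (he : e • d = s • c) : e = 0 :=
  (LinearIndependent.pair_iff.1 h (-s) e (by rw [he, neg_smul, neg_add_cancel])).2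

theorem of_li_triple {F : Type*} [AddCommGroup F] [Module ℂ F] {c d d' : F}
    (h : LinearIndependent ℂ ![c, d, d']) {e e' s : ℂ} (he : e • d + e' • d' = s • c) :
    e = 0 ∧ e' = 0 := by
  have := Fintype.linearIndependent_iff.1 h ![-s, e, e'] (by
    simp only [Fin.sum_univ_three, Matrix.cons_val_zero, Matrix.cons_val_one, Matrix.cons_val]
    rw [add_assoc, he, neg_smul, neg_add_cancel])
  exact ⟨this 1, this 2⟩

/-- Three vectors in a plane are dependent. -/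
theorem not_li_triple {F : Type*} [AddCommGroup F] [Module ℂ F] (c d : F) (a₁ e₁ a₂ e₂ : ℂ) :
    ¬ LinearIndependent ℂ ![c, a₁ • c + e₁ • d, a₂ • c + e₂ • d] := fun h => by
  obtain ⟨h1, h2⟩ := of_li_triple h (e := e₂) (e' := -e₁) (s := e₂ * a₁ - e₁ * a₂) (by module)
  have h3 : e₁ = 0 := neg_eq_zero.1 h2
  exact one_ne_zero (of_li_triple h (e := 1) (e' := 0) (s := a₁) (by rw [h3]; module)).1

variable {T P E : Type*} [TopologicalSpace T] [NormedAddCommGroup P] [NormedSpace ℂ P]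
  [NormedAddCommGroup E] [NormedSpace ℂ E] {o : ι} {C : T → Set (V M)} {π : T → P} {t₀ : T}
  {σ : P × E → V M} {X : P → Set E}

omit [Fintype ι] in
/-- The compactness engine. -/
theorem eventually_forall_ne {p : T × V M → Prop}
    (hp : ∀ c : V M, (∀ i, c i ≠ 0) → ∀ᶠ q in 𝓝 (t₀, c), p q)
    (hinv : ∀ᶠ t in 𝓝 t₀, ∀ s : ι → ℂ, (∀ i, s i ≠ 0) → ∀ c : V M, (∀ i, c i ≠ 0) →
      p (t, s • c) → p (t, c)) : ∀ᶠ t in 𝓝 t₀, ∀ c : V M, (∀ i, c i ≠ 0) → p (t, c) := by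
  have h1 := (isCompact_sph (M := M)).eventually_forall_of_forall_eventually (x₀ := t₀)
    (P := fun t c => p (t, c)) fun c hc => hp c fun i e => by simpa [e] using hc i
  filter_upwards [h1, hinv] with t h2 h3 c hc
  have h4 : ∀ i, ((‖c i‖ : ℂ))⁻¹ ≠ 0 := fun i => by simpa using hc i
  refine h3 (fun i => ((‖c i‖ : ℂ))⁻¹) h4 c hc (h2 _ fun i => ?_)
  rw [Pi.smul_apply', norm_smul, norm_inv, Complex.norm_real, norm_norm,
    inv_mul_cancel₀ (norm_ne_zero_iff.2 (hc i))]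

theorem LocFam.compact (h : LocFam o C π t₀) {p : T × V M → Prop}
    (hp : ∀ c ∈ C t₀, ∀ᶠ q in 𝓝 (t₀, c), q.2 ∈ C q.1 → p q)
    (hinv : ∀ᶠ t in 𝓝 t₀, ∀ s : ι → ℂ, (∀ i, s i ≠ 0) → ∀ c ∈ C t, p (t, s • c) → p (t, c)) :
    ∀ᶠ t in 𝓝 t₀, ∀ c ∈ C t, p (t, c) := by
  have h1 := eventually_forall_ne (t₀ := t₀) (p := fun q => q.2 ∈ C q.1 → p q) (fun c hc => by
    by_cases h2 : c ∈ C t₀
    · exact hp c h2
    · exact (h.usc c hc h2).mono fun q hq h3 => absurd h3 hq) (by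
    filter_upwards [hinv, h.cone] with t h2 h3 s hs c _ h4 h5
    exact h2 s hs c h5 (h4 (h3 s hs c h5)))
  filter_upwards [h1, h.ne_zero] with t h2 h3 c hc using h2 c (h3 c hc) hc

theorem Chart.tendsto (h : Chart o C π t₀ σ X) (hπ : ContinuousAt π t₀) :
    Tendsto (fun q : T × E => σ (π q.1, q.2)) (𝓝 (t₀, 0)) (𝓝 (σ (π t₀, 0))) :=
  h.an.continuousAt.tendsto.comp (hπ.prodMap continuousAt_id)

theorem Chart.an0 (h : Chart o C π t₀ σ X) : AnalyticAt ℂ (fun z => σ (π t₀, z)) 0 :=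
  h.an.comp (f := fun z => (π t₀, z)) (analyticAt_const.prod analyticAt_id)

theorem Chart.mem0 (h : Chart o C π t₀ σ X) : ∀ᶠ z in 𝓝 (0 : E), z ∈ X (π t₀) → σ (π t₀, z) ∈ C t₀ :=
  (tendsto_inr t₀ (0 : E)).eventually h.mem

theorem Chart.sub' (h : Chart o C π t₀ σ X) (hπ : ContinuousAt π t₀)
    (hne : ∀ i, σ (π t₀, 0) i ≠ 0) : ∀ U ∈ 𝓝 ((1 : ι → ℂ), (0 : E)),
      ∀ᶠ q : T × V M in 𝓝 (t₀, σ (π t₀, 0)), q.2 ∈ C q.1 →
        ∃ w ∈ U, w.2 ∈ X (π q.1) ∧ q.2 = w.1 • σ (π q.1, w.2) := by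
  intro U hU
  choose l hl using fun i => Function.ne_iff.1 (hne i)
  have h1 : Tendsto (fun r : (T × V M) × E => σ (π r.1.1, r.2)) (𝓝 ((t₀, σ (π t₀, 0)), 0))
      (𝓝 (σ (π t₀, 0))) :=
    (h.tendsto hπ).comp (tendsto_pm (continuousAt_fst (p := (t₀, σ (π t₀, 0)))) 0)
  have h2 : ∀ i, Tendsto (fun r : (T × V M) × E => σ (π r.1.1, r.2) i (l i))
      (𝓝 ((t₀, σ (π t₀, 0)), 0)) (𝓝 (σ (π t₀, 0) i (l i))) :=
    fun i => tendsto_pi_nhds.1 (tendsto_pi_nhds.1 h1 i) (l i)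
  have h3 : Tendsto (fun r : (T × V M) × E =>
      ((fun i => r.1.2 i (l i) / σ (π r.1.1, r.2) i (l i)), r.2)) (𝓝 ((t₀, σ (π t₀, 0)), 0))
      (𝓝 (1, 0)) := by
    refine Tendsto.prodMk_nhds (tendsto_pi_nhds.2 fun i => ?_) continuousAt_snd
    have h4 : Continuous fun r : (T × V M) × E => r.1.2 i (l i) := by fun_prop
    have := (h4.tendsto ((t₀, σ (π t₀, 0)), 0)).div (h2 i) (hl i)
    rwa [div_self (hl i)] at this
  have h4 := (h3.eventually hU).and (eventually_all.2 fun i => (h2 i).eventually_ne (hl i))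
  rw [nhds_prod_eq] at h4
  obtain ⟨A, hA, B, hB, h5⟩ := eventually_prod_iff.1 h4
  filter_upwards [hA, h.sub _ hB] with q h6 h7 h8
  obtain ⟨s, z, hz, h9, h10⟩ := h7 h8
  obtain ⟨h11, h12⟩ := h5 h6 hz
  have h13 : s = fun i => q.2 i (l i) / σ (π q.1, z) i (l i) := funext fun i => by
    rw [eq_div_iff (h12 i), h10]
    rfl
  exact ⟨(s, z), h13 ▸ h11, h9, h10⟩

theorem Chart.smul (h : Chart o C π t₀ σ X)
    (hcone : ∀ᶠ t in 𝓝 t₀, ∀ s : ι → ℂ, (∀ i, s i ≠ 0) → ∀ c ∈ C t, s • c ∈ C t) {s : ι → ℂ}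
    (hs : ∀ i, s i ≠ 0) : Chart o C π t₀ (fun q => s • σ q) X := by
  refine ⟨an_smul analyticAt_const h.an, fun e r he => ?_, ?_, fun U hU => ?_⟩
  · rw [fderiv_smul_apply (differentiableAt_const _) h.an0.differentiableAt] at he
    simp only [fderiv_fun_const, Pi.zero_apply, zero_apply, zero_smul, zero_add,
      Pi.smul_apply'] at he
    rw [smul_comm] at he
    exact h.imm e r (smul_right_injective _ (hs o) he)
  · filter_upwards [h.mem, continuousAt_fst.eventually hcone] with q h1 h2 h3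
    exact h2 s hs _ (h1 h3)
  · have h1 : Tendsto (fun q : T × V M => (q.1, s⁻¹ • q.2)) (𝓝 (t₀, s • σ (π t₀, 0)))
        (𝓝 (t₀, σ (π t₀, 0))) := by
      have := tendsto_smul (tendsto_const_nhds (x := s⁻¹))
        (continuousAt_snd (p := (t₀, s • σ (π t₀, 0))))
      rw [inv_smul_smul' hs] at this
      exact Tendsto.prodMk_nhds continuousAt_fst this
    filter_upwards [h1.eventually (h.sub U hU), continuousAt_fst.eventually hcone] with q h2 h3 h4
    obtain ⟨s', z, hz, h5, h6⟩ := h2 (h3 _ (fun i => inv_ne_zero (hs i)) _ h4)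
    refine ⟨s', z, hz, h5, ?_⟩
    rw [smul_comm, ← h6, smul_inv_smul' hs]

section Comp

variable {T' P' : Type*} [TopologicalSpace T'] [NormedAddCommGroup P'] [NormedSpace ℂ P']
  {u : T' → T} {t' : T'} {π' : T' → P'} {k : P' → P}

theorem Chart.comp (h : Chart o C π (u t') σ X) (hu : ContinuousAt u t')
    (hk : AnalyticAt ℂ k (π' t')) (he : ∀ᶠ t in 𝓝 t', π (u t) = k (π' t)) :
    Chart o (fun t => C (u t)) π' t' (fun q => σ (k q.1, q.2)) fun p => X (k p) := by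
  have e0 := he.self_of_nhds
  refine ⟨?_, ?_, ?_, fun U hU => ?_⟩
  · exact AnalyticAt.comp (f := fun q : P' × E => (k q.1, q.2)) (by simpa only [← e0] using h.an)
      ((hk.comp (f := Prod.fst) (x := (π' t', 0)) analyticAt_fst).prod analyticAt_snd)
  · simpa only [← e0] using h.imm
  · filter_upwards [(tendsto_pm hu 0).eventually h.mem,
      continuousAt_fst.eventually he] with q h1 h2
    simpa only [← h2] using h1
  · simp only [← e0]
    filter_upwards [(tendsto_pm hu _).eventually (h.sub U hU),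
      continuousAt_fst.eventually he] with q h1 h2
    simpa only [← h2] using h1

theorem SmAt.comp {c : V M} (h : SmAt o C π (u t') c) (hu : ContinuousAt u t')
    (hk : AnalyticAt ℂ k (π' t')) (he : ∀ᶠ t in 𝓝 t', π (u t) = k (π' t)) :
    SmAt o (fun t => C (u t)) π' t' c := by
  obtain ⟨σ, h1, h2⟩ := h
  exact ⟨_, by simpa only [← he.self_of_nhds] using h1, h2.comp hu hk he⟩

theorem NdAt.comp {c : V M} {τ : P → ℂ} (h : NdAt o C π (u t') c τ) (hu : ContinuousAt u t')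
    (hk : AnalyticAt ℂ k (π' t')) (he : ∀ᶠ t in 𝓝 t', π (u t) = k (π' t)) :
    NdAt o (fun t => C (u t)) π' t' c (τ ∘ k) := by
  obtain ⟨σ, h1, h2, h3, h4⟩ := h
  have e0 := he.self_of_nhds
  exact ⟨_, by simpa only [← e0] using h1, AnalyticAt.comp (e0 ▸ h2) hk,
    (congrArg τ e0.symm).trans h3, h4.comp hu hk he⟩

theorem LocFam.comp (h : LocFam o C π (u t')) (hu : ContinuousAt u t')
    (hπ : ∀ᶠ t in 𝓝 t', ContinuousAt π' t) (hk : AnalyticAt ℂ k (π' t'))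
    (he : ∀ᶠ t in 𝓝 t', π (u t) = k (π' t)) : LocFam o (fun t => C (u t)) π' t' :=
  ⟨hπ, hu.eventually h.ne_zero, hu.eventually h.cone,
    fun c hc h1 => (tendsto_pm hu c).eventually (h.usc c hc h1),
    fun c hc => (h.chart c hc).imp (fun h1 => h1.comp hu hk he)
      fun ⟨_, h1⟩ => ⟨_, h1.comp hu hk he⟩⟩

end Comp

theorem SmAt.smul {c : V M} (h : SmAt o C π t₀ c)
    (hcone : ∀ᶠ t in 𝓝 t₀, ∀ s : ι → ℂ, (∀ i, s i ≠ 0) → ∀ c ∈ C t, s • c ∈ C t) {s : ι → ℂ}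
    (hs : ∀ i, s i ≠ 0) : SmAt o C π t₀ (s • c) := by
  obtain ⟨σ, rfl, h2⟩ := h
  exact ⟨_, rfl, h2.smul hcone hs⟩

theorem NdAt.smul {c : V M} {τ : P → ℂ} (h : NdAt o C π t₀ c τ)
    (hcone : ∀ᶠ t in 𝓝 t₀, ∀ s : ι → ℂ, (∀ i, s i ≠ 0) → ∀ c ∈ C t, s • c ∈ C t) {s : ι → ℂ}
    (hs : ∀ i, s i ≠ 0) : NdAt o C π t₀ (s • c) τ := by
  obtain ⟨σ, rfl, h2, h3, h4⟩ := h
  exact ⟨_, rfl, h2, h3, h4.smul hcone hs⟩

/-- Change of the fibre coordinates. -/
theorem Chart.reparam {E' : Type*} [NormedAddCommGroup E'] [NormedSpace ℂ E']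
    (h : Chart o C π t₀ σ X) (hπ : ContinuousAt π t₀) {ψ : P × E' → E} {X' : P → Set E'}
    (hψ : AnalyticAt ℂ ψ (π t₀, 0)) (h0 : ψ (π t₀, 0) = 0)
    (hi : ∀ e, fderiv ℂ (fun z => ψ (π t₀, z)) 0 e = 0 → e = 0)
    (hm : ∀ᶠ q : P × E' in 𝓝 (π t₀, 0), q.2 ∈ X' q.1 → ψ q ∈ X q.1)
    (hs : ∀ U ∈ 𝓝 (0 : E'), ∀ᶠ q : P × E in 𝓝 (π t₀, 0), q.2 ∈ X q.1 →
      ∃ e ∈ U, e ∈ X' q.1 ∧ q.2 = ψ (q.1, e)) :
    Chart o C π t₀ (fun q => σ (q.1, ψ q)) X' := by
  have hψ0 : AnalyticAt ℂ (fun z => ψ (π t₀, z)) 0 :=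
    hψ.comp (f := fun z => (π t₀, z)) (analyticAt_const.prod analyticAt_id)
  have hp : Tendsto (fun q : T × E' => (π q.1, q.2)) (𝓝 (t₀, 0)) (𝓝 (π t₀, 0)) :=
    hπ.prodMap continuousAt_id
  refine ⟨?_, fun e s he => ?_, ?_, fun U hU => ?_⟩
  · exact AnalyticAt.comp (f := fun q => (q.1, ψ q)) (by simpa only [h0] using h.an)
      (analyticAt_fst.prod hψ)
  · rw [fderiv_comp_an (g := fun z => σ (π t₀, z)) (by simpa only [h0] using h.an0) hψ0] at he
    simp only [h0] at he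
    exact hi e (h.imm _ s he)
  · have h1 : Tendsto (fun q : T × E' => (q.1, ψ (π q.1, q.2))) (𝓝 (t₀, 0)) (𝓝 (t₀, 0)) :=
      Tendsto.prodMk_nhds continuousAt_fst (h0 ▸ hψ.continuousAt.tendsto.comp hp)
    filter_upwards [h1.eventually h.mem, hp.eventually hm] with q h2 h3 h4 using h2 (h3 h4)
  · have h1 := hs U hU
    rw [nhds_prod_eq] at h1
    obtain ⟨A, hA, B, hB, h2⟩ := eventually_prod_iff.1 h1
    simp only [h0]
    filter_upwards [h.sub _ hB, (hπ.comp continuousAt_fst).eventually hA] with q h3 h4 h5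
    obtain ⟨s, z, hz, h6, h7⟩ := h3 h5
    obtain ⟨e, h8, h9, h10⟩ := h2 h4 hz h6
    exact ⟨s, e, h8, h9, h7.trans (congrArg (fun y => s • σ (π q.1, y)) h10)⟩

/-- Exchange of the two coordinates. -/
theorem Chart.swap {σ : P × (ℂ × ℂ) → V M} {X : P → Set (ℂ × ℂ)} (h : Chart o C π t₀ σ X)
    (hπ : ContinuousAt π t₀) :
    Chart o C π t₀ (fun q : P × ℂ × ℂ => σ (q.1, q.2.swap)) fun p =>
      {e : ℂ × ℂ | e.swap ∈ X p} := by
  let l : (ℂ × ℂ) ≃L[ℂ] (ℂ × ℂ) := ContinuousLinearEquiv.prodComm ℂ ℂ ℂ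
  refine h.reparam hπ (ψ := fun q => l q.2) (X' := fun p => {e : ℂ × ℂ | e.swap ∈ X p}) ((l.analyticAt _).comp analyticAt_snd) rfl
    (fun e he => ?_) (Eventually.of_forall fun q hq => hq) fun U hU => ?_
  · rw [l.fderiv] at he
    exact l.map_eq_zero_iff.1 he
  · have : Tendsto (fun q : P × (ℂ × ℂ) => q.2.swap) (𝓝 (π t₀, 0)) (𝓝 0) :=
      (continuous_swap.comp continuous_snd).tendsto' _ _ rfl
    exact (this.eventually hU).mono fun q h1 h2 => ⟨q.2.swap, h1, h2, rfl⟩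

theorem Chart.swap_node {σ : P × (ℂ × ℂ) → V M} {τ : P → ℂ}
    (h : Chart o C π t₀ σ fun p => {z | z.1 * z.2 = τ p}) (hπ : ContinuousAt π t₀) :
    Chart o C π t₀ (fun q : P × ℂ × ℂ => σ (q.1, q.2.swap)) fun p =>
      {z : ℂ × ℂ | z.1 * z.2 = τ p} := by
  have e : (fun p => {z : ℂ × ℂ | z.1 * z.2 = τ p}) = fun p =>
      {e : ℂ × ℂ | e.swap ∈ {z : ℂ × ℂ | z.1 * z.2 = τ p}} :=
    funext fun p => Set.ext fun z => by
      change z.1 * z.2 = τ p ↔ z.2 * z.1 = τ p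
      rw [mul_comm]
  rw [e]
  exact h.swap hπ

theorem Chart.isBranch0 {σ : P × ℂ → V M} (h : Chart o C π t₀ σ fun _ => univ)
    (hne : σ (π t₀, 0) o ≠ 0) : IsBranch o (C t₀) fun z => σ (π t₀, z) :=
  ⟨h.an0, h.mem0.mono fun _ hz => hz trivial, li_pair hne fun e s he => h.imm e s (by
    rw [← he, fderiv_eq_smul_deriv]; rfl)⟩

theorem deriv_inl {F : Type*} [NormedAddCommGroup F] [NormedSpace ℂ F] {f : ℂ × ℂ → F}
    (hf : AnalyticAt ℂ f 0) : deriv (fun z => f (z, 0)) 0 = fderiv ℂ f 0 (1, 0) :=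
  fderiv_inl (x := 0) (y := 0) hf 1

theorem deriv_inr {F : Type*} [NormedAddCommGroup F] [NormedSpace ℂ F] {f : ℂ × ℂ → F}
    (hf : AnalyticAt ℂ f 0) : deriv (fun z => f (0, z)) 0 = fderiv ℂ f 0 (0, 1) :=
  fderiv_inr (x := 0) (y := 0) hf 1

theorem Chart.isCross {σ : P × (ℂ × ℂ) → V M} {τ : P → ℂ}
    (h : Chart o C π t₀ σ fun p => {z | z.1 * z.2 = τ p}) (hτ : τ (π t₀) = 0)
    (hne : σ (π t₀, 0) o ≠ 0) : IsCross o (C t₀) (σ (π t₀, 0)) (fun z => σ (π t₀, (z, 0)))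
      fun z => σ (π t₀, (0, z)) := by
  have h1 := deriv_inl h.an0
  have h2 := deriv_inr h.an0
  have h3 : ∀ e e' s : ℂ, e • deriv (fun z => σ (π t₀, (z, 0))) 0 o +
      e' • deriv (fun z => σ (π t₀, (0, z))) 0 o = s • σ (π t₀, 0) o → e = 0 ∧ e' = 0 := by
    intro e e' s he
    refine Prod.mk.inj (h.imm (e, e') s ?_)
    rw [← he, h1, h2, show (e, e') = e • ((1 : ℂ), (0 : ℂ)) + e' • ((0 : ℂ), (1 : ℂ)) by simp,
      map_add, map_smul, map_smul]
    rfl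
  refine ⟨⟨h.an0.comp (f := fun z => (z, (0 : ℂ))) (analyticAt_id.prod analyticAt_const), ?_,
    li_pair hne fun e s he => (h3 e 0 s (by rw [zero_smul, add_zero]; exact he)).1⟩,
    ⟨h.an0.comp (f := fun z => ((0 : ℂ), z)) (analyticAt_const.prod analyticAt_id), ?_,
    li_pair hne fun e s he => (h3 0 e s (by rw [zero_smul, zero_add]; exact he)).2⟩,
    rfl, rfl, li_triple hne h3⟩
  · exact ((tendsto_inl (0 : ℂ) (0 : ℂ)).eventually h.mem0).mono fun z hz => hz (by simp [hτ])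
  · exact ((tendsto_inr (0 : ℂ) (0 : ℂ)).eventually h.mem0).mono fun z hz => hz (by simp [hτ])

theorem SmAt.mem {c : V M} (h : SmAt o C π t₀ c) : c ∈ C t₀ := by
  obtain ⟨σ, rfl, h⟩ := h
  exact h.mem0.self_of_nhds trivial

theorem NdAt.mem {c : V M} {τ : P → ℂ} (h : NdAt o C π t₀ c τ) : c ∈ C t₀ := by
  obtain ⟨σ, rfl, -, h1, h⟩ := h
  exact h.mem0.self_of_nhds (by simp [h1])

theorem NdAt.isNode {c : V M} {τ : P → ℂ} (h : NdAt o C π t₀ c τ) (hf : LocFam o C π t₀) :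
    IsNode o (C t₀) c := by
  have h0 := hf.ne_zero.self_of_nhds c h.mem o
  obtain ⟨σ, rfl, -, h1, h⟩ := h
  exact ⟨_, _, h.isCross h1 h0⟩

theorem LocFam.nod (h : LocFam o C π t₀) : Nod o (C t₀) := by
  refine ⟨h.ne_zero.self_of_nhds, fun c hc h1 => by_contra fun h2 => ?_, h.cone.self_of_nhds,
    fun c hc => ?_⟩
  · exact (mem_closure_iff_frequently.1 hc) ((tendsto_inr t₀ c).eventually (h.usc c h1 h2))
  · have h0 := h.ne_zero.self_of_nhds c hc o
    rcases h.chart c hc with ⟨σ, rfl, h1⟩ | ⟨τ, σ, rfl, -, h2, h1⟩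
    · refine ⟨_, _, Or.inl ⟨h1.isBranch0 h0, rfl, rfl⟩, fun ε hε => ?_⟩
      refine eventually_nhdsWithin_iff.2 (((tendsto_inr t₀ _).eventually
        (h1.sub _ (Metric.ball_mem_nhds 0 hε))).mono fun y hy h3 => ?_)
      obtain ⟨s, z, h4, -, h5⟩ := hy h3
      exact ⟨s, z, mem_ball_zero_iff.1 h4, Or.inl h5⟩
    · refine ⟨_, _, Or.inr (h1.isCross h2 h0), fun ε hε => ?_⟩
      refine eventually_nhdsWithin_iff.2 (((tendsto_inr t₀ _).eventually
        (h1.sub _ (Metric.ball_mem_nhds 0 hε))).mono fun y hy h3 => ?_)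
      obtain ⟨s, ⟨z, w⟩, h4, h5, h6⟩ := hy h3
      have h7 := mem_ball_zero_iff.1 h4
      rcases mul_eq_zero.1 (h5.trans h2) with rfl | rfl
      · exact ⟨s, w, (norm_snd_le _).trans_lt h7, Or.inr h6⟩
      · exact ⟨s, z, (norm_fst_le _).trans_lt h7, Or.inl h6⟩

theorem Nod.locFam {C₀ : Set (V M)} (h : Nod o C₀) (π : T → P)
    (hπ : ∀ᶠ t in 𝓝 t₀, ContinuousAt π t) : LocFam o (fun _ => C₀) π t₀ := by
  refine ⟨hπ, Eventually.of_forall fun _ => h.ne_zero, Eventually.of_forall fun _ => h.cone,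
    fun c hc h1 => ?_, fun c hc => ?_⟩
  · exact continuousAt_snd.eventually (not_frequently.1 fun h2 =>
      h1 (h.closed c (mem_closure_iff_frequently.2 h2) hc))
  · obtain ⟨γ₁, γ₂, h1, h2⟩ := h.nodal c hc
    have h3 : ∀ ε > 0, ∀ᶠ q : T × V M in 𝓝 (t₀, c), q.2 ∈ C₀ → ∃ (t : ι → ℂ) (z : ℂ),
        ‖z‖ < ε ∧ (q.2 = t • γ₁ z ∨ q.2 = t • γ₂ z) := fun ε hε =>
      (continuousAt_snd (p := (t₀, c))).eventually (eventually_nhdsWithin_iff.1 (h2 ε hε))
    rcases h1 with ⟨h1, rfl, rfl⟩ | ⟨h4, h5, rfl, h6, h7⟩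
    · refine Or.inl ⟨fun q => γ₂ q.2, rfl, h1.holo.comp (f := Prod.snd) analyticAt_snd,
        fun e s he => ?_,
        ((continuousAt_snd (p := (t₀, (0 : ℂ)))).eventually h1.mem).mono fun z hz _ => hz,
        fun U hU => ?_⟩
      · rw [fderiv_eq_smul_deriv] at he
        exact of_li_pair h1.imm he
      · obtain ⟨ε, hε, h8⟩ := Metric.mem_nhds_iff.1 hU
        refine (h3 ε hε).mono fun q hq h9 => ?_
        obtain ⟨s, z, h10, h11⟩ := hq h9
        exact ⟨s, z, h8 (mem_ball_zero_iff.2 h10), trivial, h11.elim id id⟩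
    · have e0 : γ₁ 0 + γ₂ 0 - γ₁ 0 = γ₁ 0 := by rw [h6, add_sub_cancel_right]
      refine Or.inr ⟨fun _ => 0, fun q => γ₁ q.2.1 + γ₂ q.2.2 - γ₁ 0, e0, analyticAt_const, rfl,
        ((h4.holo.comp (f := fun q : P × ℂ × ℂ => q.2.1) (analyticAt_fst.comp analyticAt_snd)).add
          (h5.holo.comp (f := fun q : P × ℂ × ℂ => q.2.2)
            (analyticAt_snd.comp analyticAt_snd))).sub analyticAt_const,
        fun e s he => ?_, ?_, fun U hU => ?_⟩
      · have h8 := (((HasFDerivAt.comp (f := Prod.fst) (0 : ℂ × ℂ)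
          h4.holo.differentiableAt.hasDerivAt.hasFDerivAt hasFDerivAt_fst).add
          (HasFDerivAt.comp (f := Prod.snd) (0 : ℂ × ℂ)
          h5.holo.differentiableAt.hasDerivAt.hasFDerivAt hasFDerivAt_snd)).sub_const (γ₁ 0)).fderiv
        erw [h8] at he
        simp only [Prod.fst_zero, Prod.snd_zero, e0] at he
        exact Prod.ext_iff.2 (of_li_triple h7 (by simpa using he))
      · have h8 : Tendsto (fun q : T × ℂ × ℂ => q.2.1) (𝓝 (t₀, 0)) (𝓝 0) :=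
          (continuous_fst.comp continuous_snd).tendsto' _ _ rfl
        have h9 : Tendsto (fun q : T × ℂ × ℂ => q.2.2) (𝓝 (t₀, 0)) (𝓝 0) :=
          (continuous_snd.comp continuous_snd).tendsto' _ _ rfl
        filter_upwards [h8.eventually h4.mem, h9.eventually h5.mem] with q h10 h11 h12
        rcases mul_eq_zero.1 h12 with e | e
        · simpa only [e, add_sub_cancel_left] using h11
        · simpa only [e, h6, add_sub_cancel_right] using h10
      · obtain ⟨ε, hε, h8⟩ := Metric.mem_nhds_iff.1 hU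
        simp only [Prod.fst_zero, Prod.snd_zero, e0]
        refine (h3 ε hε).mono fun q hq h9 => ?_
        obtain ⟨s, z, h10, h11 | h11⟩ := hq h9
        · exact ⟨s, (z, 0), h8 (by simpa using h10), by simp,
            by simpa only [h6, add_sub_cancel_right] using h11⟩
        · exact ⟨s, (0, z), h8 (by simpa using h10), by simp,
            by simpa only [add_sub_cancel_left] using h11⟩

variable [FiniteDimensional ℂ P] [FiniteDimensional ℂ E]

theorem Chart.exists_retr (h : Chart o C π t₀ σ X) (hne : ∀ i, σ (π t₀, 0) i ≠ 0) :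
    ∃ ρ : P × V M → (ι → ℂ) × E, AnalyticAt ℂ ρ (π t₀, σ (π t₀, 0)) ∧
      ∀ᶠ q : P × (ι → ℂ) × E in 𝓝 (π t₀, 1, 0), ρ (q.1, q.2.1 • σ (q.1, q.2.2)) = q.2 := by
  let l : P × (ι → ℂ) × E →L[ℂ] P × E := (ContinuousLinearMap.fst ℂ _ _).prod
    ((ContinuousLinearMap.snd ℂ _ _).comp (ContinuousLinearMap.snd ℂ _ _))
  let m : P × (ι → ℂ) × E →L[ℂ] (ι → ℂ) :=
    (ContinuousLinearMap.fst ℂ _ _).comp (ContinuousLinearMap.snd ℂ _ _)
  have h1 : AnalyticAt ℂ (fun q => σ (l q)) (π t₀, 1, 0) :=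
    AnalyticAt.comp (g := σ) (f := l) h.an (l.analyticAt _)
  have h2 : AnalyticAt ℂ (fun q => m q • σ (l q)) (π t₀, 1, 0) := an_smul (m.analyticAt _) h1
  obtain ⟨g, h3, h4⟩ := exists_leftInv (analyticAt_fst.prod h2) (by
    refine (injective_iff_map_eq_zero _).2 ?_
    rintro ⟨a, b, e⟩ he
    rw [differentiableAt_fst.fderiv_prodMk h2.differentiableAt, fderiv_fst] at he
    obtain ⟨rfl, h5⟩ : a = 0 ∧ fderiv ℂ (fun q => m q • σ (l q)) (π t₀, 1, 0) (a, b, e) = 0 :=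
      Prod.mk.inj he
    rw [fderiv_smul_apply m.differentiableAt h1.differentiableAt, m.fderiv,
      fderiv_comp_an (g := σ) (f := l) h.an (l.analyticAt _), l.fderiv] at h5
    change b • σ (π t₀, 0) + (1 : ι → ℂ) • fderiv ℂ σ (π t₀, 0) (0, e) = 0 at h5
    rw [one_smul, ← fderiv_inr h.an] at h5
    obtain rfl : e = 0 := h.imm e (-b o) (by
      rw [neg_smul]
      exact eq_neg_of_add_eq_zero_right (congrFun h5 o))
    rw [map_zero, add_zero] at h5
    obtain rfl : b = 0 := funext fun i => (smul_eq_zero.1 (congrFun h5 i)).resolve_right (hne i)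
    rfl)
  refine ⟨fun y => (g y).2, analyticAt_snd.comp ?_, h4.mono fun q hq => congrArg Prod.snd hq⟩
  simpa [l, m] using h3

/-- Points of a chart in the same orbit of the torus are equal. -/
theorem Chart.inj (h : Chart o C π t₀ σ X) (hne : ∀ i, σ (π t₀, 0) i ≠ 0) :
    ∀ᶠ q : P × E × E in 𝓝 (π t₀, 0, 0), ∀ s : ι → ℂ, σ (q.1, q.2.2) = s • σ (q.1, q.2.1) →
      s = 1 ∧ q.2.1 = q.2.2 := by
  obtain ⟨ρ, -, hρ⟩ := h.exists_retr hne
  choose l hl using fun i => Function.ne_iff.1 (hne i)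
  have h1 : Tendsto (fun q : P × E × E => σ (q.1, q.2.1)) (𝓝 (π t₀, 0, 0)) (𝓝 (σ (π t₀, 0))) :=
    h.an.continuousAt.tendsto.comp ((by fun_prop : Continuous fun q : P × E × E =>
      (q.1, q.2.1)).tendsto' _ _ rfl)
  have h2 : Tendsto (fun q : P × E × E => σ (q.1, q.2.2)) (𝓝 (π t₀, 0, 0)) (𝓝 (σ (π t₀, 0))) :=
    h.an.continuousAt.tendsto.comp ((by fun_prop : Continuous fun q : P × E × E =>
      (q.1, q.2.2)).tendsto' _ _ rfl)
  have h3 := fun i => tendsto_pi_nhds.1 (tendsto_pi_nhds.1 h1 i) (l i)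
  have h4 : Tendsto (fun q : P × E × E => (q.1,
      (fun i => σ (q.1, q.2.2) i (l i) / σ (q.1, q.2.1) i (l i)), q.2.1)) (𝓝 (π t₀, 0, 0))
      (𝓝 (π t₀, 1, 0)) := by
    refine Tendsto.prodMk_nhds continuousAt_fst (Tendsto.prodMk_nhds (tendsto_pi_nhds.2 fun i => ?_)
      ((continuous_fst.comp continuous_snd).tendsto' _ _ rfl))
    have := (tendsto_pi_nhds.1 (tendsto_pi_nhds.1 h2 i) (l i)).div (h3 i) (hl i)
    rwa [div_self (hl i)] at this
  have h5 : Tendsto (fun q : P × E × E => (q.1, (1 : ι → ℂ), q.2.2)) (𝓝 (π t₀, 0, 0))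
      (𝓝 (π t₀, 1, 0)) := (by fun_prop : Continuous fun q : P × E × E =>
        (q.1, (1 : ι → ℂ), q.2.2)).tendsto' _ _ rfl
  filter_upwards [h4.eventually hρ, h5.eventually hρ,
    eventually_all.2 fun i => (h3 i).eventually_ne (hl i)] with q h6 h7 h8 s hs
  have h9 : (fun i => σ (q.1, q.2.2) i (l i) / σ (q.1, q.2.1) i (l i)) = s := funext fun i => by
    rw [div_eq_iff (h8 i), hs]
    rfl
  simp only [h9, ← hs] at h6
  simp only [one_smul, h6] at h7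
  exact Prod.mk.inj h7

/-- Description of the family by the retraction. -/
theorem Chart.exists_mem_iff (h : Chart o C π t₀ σ X) (hπ : ContinuousAt π t₀)
    (hne : ∀ i, σ (π t₀, 0) i ≠ 0)
    (hcone : ∀ᶠ t in 𝓝 t₀, ∀ s : ι → ℂ, (∀ i, s i ≠ 0) → ∀ c ∈ C t, s • c ∈ C t) :
    ∃ ρ : P × V M → (ι → ℂ) × E, AnalyticAt ℂ ρ (π t₀, σ (π t₀, 0)) ∧
      ρ (π t₀, σ (π t₀, 0)) = (1, 0) ∧
      (∀ᶠ q : P × (ι → ℂ) × E in 𝓝 (π t₀, 1, 0), ρ (q.1, q.2.1 • σ (q.1, q.2.2)) = q.2) ∧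
      ∀ᶠ q : T × V M in 𝓝 (t₀, σ (π t₀, 0)), q.2 ∈ C q.1 ↔ (ρ (π q.1, q.2)).2 ∈ X (π q.1) ∧
        q.2 = (ρ (π q.1, q.2)).1 • σ (π q.1, (ρ (π q.1, q.2)).2) := by
  obtain ⟨ρ, h1, h2⟩ := h.exists_retr hne
  have h3 : ρ (π t₀, σ (π t₀, 0)) = (1, 0) := by simpa using h2.self_of_nhds
  refine ⟨ρ, h1, h3, h2, ?_⟩
  have h4 := h2
  rw [nhds_prod_eq] at h4
  obtain ⟨A, hA, B, hB, h5⟩ := eventually_prod_iff.1 h4
  have h6 : Tendsto (fun q : T × V M => ρ (π q.1, q.2)) (𝓝 (t₀, σ (π t₀, 0))) (𝓝 (1, 0)) :=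
    h3 ▸ h1.continuousAt.tendsto.comp (hπ.prodMap continuousAt_id)
  have h7 : Tendsto (fun q : T × V M => (q.1, (ρ (π q.1, q.2)).2)) (𝓝 (t₀, σ (π t₀, 0)))
      (𝓝 (t₀, 0)) := Tendsto.prodMk_nhds continuousAt_fst (continuous_snd.continuousAt.tendsto.comp h6)
  filter_upwards [h.sub' hπ hne _ hB, (hπ.comp continuousAt_fst).eventually hA,
    h7.eventually h.mem, continuousAt_fst.eventually hcone,
    continuousAt_snd.eventually (eventually_ne hne)] with q h8 h9 h10 h11 h12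
  refine ⟨fun hq => ?_, fun hq => ?_⟩
  · obtain ⟨w, h13, h14, h15⟩ := h8 hq
    have h16 : ρ (π q.1, q.2) = w := by
      rw [h15]
      exact h5 h9 h13
    rw [h16]
    exact ⟨h14, h15⟩
  · rw [hq.2] at h12 ⊢
    exact h11 _ (ne_of_smul_ne h12) _ (h10 hq.1)

omit [FiniteDimensional ℂ P] in
theorem Chart.eventually_imm (h : Chart o C π t₀ σ X) (hne : σ (π t₀, 0) o ≠ 0) :
    ∀ᶠ q : P × E in 𝓝 (π t₀, 0), ∀ (e : E) (s : ℂ),
      fderiv ℂ σ q (0, e) o = s • σ q o → e = 0 := by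
  let m : P × E → E × ℂ →L[ℂ] (Fin (M o) → ℂ) := fun q =>
    (((ContinuousLinearMap.proj o).comp (fderiv ℂ σ q)).comp (ContinuousLinearMap.inr ℂ P E)).coprod
      (-(ContinuousLinearMap.id ℂ ℂ).smulRight (σ q o))
  have hm : ∀ q e s, m q (e, s) = fderiv ℂ σ q (0, e) o - s • σ q o := fun q e s => by
    simp [m, sub_eq_add_neg]
  have h1 : AnalyticAt ℂ m (π t₀, 0) := analyticAt_of_apply fun v => by
    simp only [show ∀ q, m q v = _ from fun q => hm q v.1 v.2]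
    exact (analyticAt_pi_iff.1 (an_apply h.an.fderiv analyticAt_const) o).sub
      (analyticAt_const.fun_smul (analyticAt_pi_iff.1 h.an o))
  have h2 := eventually_injective h1.continuousAt ((injective_iff_map_eq_zero _).2 (by
    rintro ⟨e, s⟩ he
    rw [hm, sub_eq_zero, ← fderiv_inr h.an] at he
    obtain rfl := h.imm e s he
    rw [map_zero] at he
    rw [(smul_eq_zero.1 he.symm).resolve_right hne]
    rfl))
  refine h2.mono fun q hq e s he => ?_
  exact congrArg Prod.fst ((injective_iff_map_eq_zero _).1 hq (e, s) (by rw [hm, he, sub_self]))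

/-- Recentring of a chart at nearby points. -/
theorem Chart.shift (h : Chart o C π t₀ σ X) (hπ : ∀ᶠ t in 𝓝 t₀, ContinuousAt π t)
    (hne : ∀ i, σ (π t₀, 0) i ≠ 0)
    (hcone : ∀ᶠ t in 𝓝 t₀, ∀ s : ι → ℂ, (∀ i, s i ≠ 0) → ∀ c ∈ C t, s • c ∈ C t) :
    ∀ᶠ q : T × E in 𝓝 (t₀, 0),
      Chart o C π q.1 (fun r => σ (r.1, q.2 + r.2)) fun p => {e | q.2 + e ∈ X p} := by
  have hπ0 := hπ.self_of_nhds
  obtain ⟨ρ, h1, -, h2, h3⟩ := h.exists_mem_iff hπ0 hne hcone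
  have hp : Tendsto (fun q : T × E => (π q.1, q.2)) (𝓝 (t₀, 0)) (𝓝 (π t₀, 0)) :=
    hπ0.prodMap continuousAt_id
  have h4 : Tendsto (fun q : T × E => (q.1, σ (π q.1, q.2))) (𝓝 (t₀, 0))
      (𝓝 (t₀, σ (π t₀, 0))) := Tendsto.prodMk_nhds continuousAt_fst (h.tendsto hπ0)
  have h5 : Tendsto (fun q : T × E => (π q.1, σ (π q.1, q.2))) (𝓝 (t₀, 0))
      (𝓝 (π t₀, σ (π t₀, 0))) := Tendsto.prodMk_nhds (hπ0.comp continuousAt_fst) (h.tendsto hπ0)
  have h6 : Tendsto (fun q : T × E => (π q.1, (1 : ι → ℂ), q.2)) (𝓝 (t₀, 0)) (𝓝 (π t₀, 1, 0)) :=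
    Tendsto.prodMk_nhds (hπ0.comp continuousAt_fst)
      (Tendsto.prodMk_nhds tendsto_const_nhds continuousAt_snd)
  filter_upwards [hp.eventually h.an.eventually_analyticAt, hp.eventually (h.eventually_imm (hne o)),
    h.mem.eventually_nhds, h4.eventually h3.eventually_nhds, h5.eventually h1.eventually_analyticAt,
    h6.eventually h2, continuousAt_fst.eventually hπ] with q k1 k2 k3 k4 k5 k6 k7
  obtain ⟨t, z⟩ := q
  have k8 : AnalyticAt ℂ (fun r : P × E => σ (r.1, z + r.2)) (π t, 0) :=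
    AnalyticAt.comp (f := fun r : P × E => (r.1, z + r.2)) (by simpa using k1)
      (analyticAt_fst.prod (analyticAt_const.add analyticAt_snd))
  refine ⟨k8, fun e s he => k2 e s ?_, ?_, fun U hU => ?_⟩
  · have k9 := fderiv_comp_add_left (𝕜 := ℂ) (f := fun y => σ (π t, y)) z (x := 0)
    rw [add_zero] at k9
    rw [← fderiv_inr k1, ← k9]
    simpa using he
  · exact ((by fun_prop : Continuous fun r : T × E => (r.1, z + r.2)).tendsto' (t, 0) (t, z)
      (by simp)).eventually k3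
  · simp only [one_smul] at k6
    have k9 : Tendsto (fun r : T × V M => (ρ (π r.1, r.2)).2 - z) (𝓝 (t, σ (π t, z))) (𝓝 0) := by
      have := (continuous_snd.continuousAt.tendsto.comp (k5.continuousAt.tendsto.comp
        (tendsto_pm k7 _))).sub_const z
      simpa only [k6, sub_self, Function.comp_apply] using this
    simp only [add_zero]
    filter_upwards [k4, k9.eventually hU] with r k10 k11 k12
    obtain ⟨k13, k14⟩ := k10.1 k12
    exact ⟨_, _, k11, by simpa using k13, by simpa using k14⟩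

omit [FiniteDimensional ℂ E] in
theorem Chart.isBranch {σ : P × ℂ → V M} (h : Chart o C π t₀ σ fun _ => univ)
    (hf : LocFam o C π t₀) :
    ∀ᶠ q : T × ℂ in 𝓝 (t₀, 0), IsBranch o (C q.1) fun z => σ (π q.1, q.2 + z) := by
  have hne := hf.ne_zero.self_of_nhds _ (h.mem0.self_of_nhds trivial)
  filter_upwards [h.shift hf.cont hne hf.cone,
    (h.tendsto hf.cont.self_of_nhds).eventually (eventually_ne hne)] with q h1 h2
  exact Chart.isBranch0 h1 (by simpa using h2 o)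

/-- Holomorphic discs in the curve factor through the chart. -/
theorem Chart.factor (h : Chart o C π t₀ σ X) (hπ : ContinuousAt π t₀)
    (hne : ∀ i, σ (π t₀, 0) i ≠ 0)
    (hcone : ∀ᶠ t in 𝓝 t₀, ∀ s : ι → ℂ, (∀ i, s i ≠ 0) → ∀ c ∈ C t, s • c ∈ C t) {δ : ℂ → V M}
    (hδ : AnalyticAt ℂ δ 0) (h0 : δ 0 = σ (π t₀, 0)) (hm : ∀ᶠ z in 𝓝 0, δ z ∈ C t₀) :
    ∃ (s : ℂ → ι → ℂ) (φ : ℂ → E), AnalyticAt ℂ s 0 ∧ AnalyticAt ℂ φ 0 ∧ s 0 = 1 ∧ φ 0 = 0 ∧
      (∀ᶠ z in 𝓝 0, φ z ∈ X (π t₀) ∧ δ z = s z • σ (π t₀, φ z)) ∧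
      deriv δ 0 = deriv s 0 • σ (π t₀, 0) + fderiv ℂ (fun z => σ (π t₀, z)) 0 (deriv φ 0) := by
  obtain ⟨ρ, h1, h2, -, h3⟩ := h.exists_mem_iff hπ hne hcone
  have h4 : AnalyticAt ℂ (fun z => ρ (π t₀, δ z)) 0 :=
    AnalyticAt.comp (f := fun z => (π t₀, δ z)) (by simpa only [h0] using h1)
      (analyticAt_const.prod hδ)
  have h5 : Tendsto (fun z => (t₀, δ z)) (𝓝 0) (𝓝 (t₀, σ (π t₀, 0))) :=
    Tendsto.prodMk_nhds tendsto_const_nhds (h0 ▸ hδ.continuousAt)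
  have h6 : ∀ᶠ z in 𝓝 0, (ρ (π t₀, δ z)).2 ∈ X (π t₀) ∧
      δ z = (ρ (π t₀, δ z)).1 • σ (π t₀, (ρ (π t₀, δ z)).2) := by
    filter_upwards [h5.eventually h3, hm] with z h7 h8 using h7.1 h8
  have h7 : AnalyticAt ℂ (fun z => (ρ (π t₀, δ z)).1) 0 := analyticAt_fst.comp h4
  have h8 : AnalyticAt ℂ (fun z => (ρ (π t₀, δ z)).2) 0 := analyticAt_snd.comp h4
  have e1 : (ρ (π t₀, δ 0)).1 = 1 := by rw [h0, h2]
  have e2 : (ρ (π t₀, δ 0)).2 = 0 := by rw [h0, h2]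
  refine ⟨_, _, h7, h8, e1, e2, h6, ?_⟩
  have h9 := hasDerivAt_smul h7.differentiableAt.hasDerivAt
    (HasFDerivAt.comp_hasDerivAt_of_eq 0 h.an0.differentiableAt.hasFDerivAt
      h8.differentiableAt.hasDerivAt e2.symm)
  rw [EventuallyEq.deriv_eq (h6.mono fun z hz => hz.2)]
  refine h9.deriv.trans ?_
  simp only [Function.comp_apply, e1, e2, one_smul]

omit [FiniteDimensional ℂ E] in
theorem SmAt.not_isNode {c : V M} (h : SmAt o C π t₀ c) (hf : LocFam o C π t₀) :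
    ¬ IsNode o (C t₀) c := by
  have hne := hf.ne_zero.self_of_nhds c h.mem
  obtain ⟨σ, rfl, h⟩ := h
  rintro ⟨γ₁, γ₂, h1, h2, h3, h4, h5⟩
  obtain ⟨s₁, φ₁, -, -, -, -, -, e1⟩ := h.factor hf.cont.self_of_nhds hne hf.cone h1.holo h3 h1.mem
  obtain ⟨s₂, φ₂, -, -, -, -, -, e2⟩ := h.factor hf.cont.self_of_nhds hne hf.cone h2.holo h4 h2.mem
  rw [fderiv_eq_smul_deriv] at e1 e2
  rw [e1, e2] at h5
  exact not_li_triple _ _ _ _ _ _ h5

omit [FiniteDimensional ℂ E] in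
theorem SmAt.eventually {c : V M} (h : SmAt o C π t₀ c) (hf : LocFam o C π t₀) :
    ∀ᶠ q : T × V M in 𝓝 (t₀, c), q.2 ∈ C q.1 → SmAt o C π q.1 q.2 := by
  have hne := hf.ne_zero.self_of_nhds c h.mem
  obtain ⟨σ, rfl, h⟩ := h
  have h1 := h.shift hf.cont hne hf.cone
  rw [nhds_prod_eq] at h1
  obtain ⟨A, hA, B, hB, h2⟩ := eventually_prod_iff.1 h1
  filter_upwards [h.sub _ hB, continuousAt_fst.eventually hA,
    continuousAt_fst.eventually hf.cone.eventually_nhds,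
    continuousAt_snd.eventually (eventually_ne hne)] with q h3 h4 h5 h6 h7
  obtain ⟨s, z, h8, -, h9⟩ := h3 h7
  rw [h9] at h6 ⊢
  exact SmAt.smul ⟨_, by simp, h2 h4 h8⟩ h5 (ne_of_smul_ne h6)

omit [FiniteDimensional ℂ P] [FiniteDimensional ℂ E] in
/-- The disc through a point `(u, v)`, `u ≠ 0`, of a node chart. -/
theorem Chart.disc {σ : P × (ℂ × ℂ) → V M} {τ : P → ℂ} {z : ℂ × ℂ}
    (h : Chart o C π t₀ (fun r => σ (r.1, z + r.2)) fun p => {e | (z + e).1 * (z + e).2 = τ p})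
    (hπ : ContinuousAt π t₀) (hτ : AnalyticAt ℂ τ (π t₀)) (hz : z.1 * z.2 = τ (π t₀))
    (h0 : z.1 ≠ 0) :
    Chart o C π t₀ (fun r => σ (r.1, (z.1 + r.2, τ r.1 / (z.1 + r.2)))) fun _ => univ := by
  have h1 : AnalyticAt ℂ (fun q : P × ℂ => τ q.1 / (z.1 + q.2) - z.2) (π t₀, 0) :=
    ((hτ.comp (f := Prod.fst) (x := (π t₀, 0)) analyticAt_fst).div
      (analyticAt_const.add analyticAt_snd) (by simpa using h0)).sub analyticAt_const
  have h2 := h.reparam hπ (ψ := fun q : P × ℂ => (q.2, τ q.1 / (z.1 + q.2) - z.2))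
    (X' := fun _ => univ) (analyticAt_snd.prod h1)
    (by simp [← hz, mul_div_cancel_left₀ _ h0]) (fun e he => by
      have k := ((hasFDerivAt_id (0 : ℂ)).prodMk (h1.comp (f := fun y => (π t₀, y))
        (analyticAt_const.prod analyticAt_id)).differentiableAt.hasFDerivAt).fderiv
      exact congrArg Prod.fst ((congrArg (· e) k).symm.trans he))
    (by
      have : ∀ᶠ q : P × ℂ in 𝓝 (π t₀, 0), z.1 + q.2 ≠ 0 :=
        (by fun_prop : Continuous fun q : P × ℂ => z.1 + q.2).continuousAt.eventually_ne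
          (by simpa using h0)
      refine this.mono fun q hq _ => ?_
      simp only [mem_ofPred_eq, Prod.fst_add, Prod.snd_add, add_sub_cancel]
      exact mul_div_cancel₀ _ hq)
    (fun U hU => by
      have k1 : ∀ᶠ q : P × ℂ × ℂ in 𝓝 (π t₀, 0), z.1 + q.2.1 ≠ 0 :=
        (by fun_prop : Continuous fun q : P × ℂ × ℂ => z.1 + q.2.1).continuousAt.eventually_ne
          (by simpa using h0)
      have k2 : Tendsto (fun q : P × ℂ × ℂ => q.2.1) (𝓝 (π t₀, 0)) (𝓝 0) :=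
        (continuous_fst.comp continuous_snd).tendsto' _ _ rfl
      filter_upwards [k1, k2.eventually hU] with q k3 k4 k5
      refine ⟨q.2.1, k4, trivial, Prod.ext rfl ?_⟩
      simp only [Prod.fst_add, Prod.snd_add] at k5
      simp only [← k5, mul_div_cancel_left₀ _ k3, add_sub_cancel_left])
  convert h2 using 4 with r
  exact Prod.ext rfl (by simp)

omit [FiniteDimensional ℂ E] in
/-- The discs `w ↦ σ (p, (u + w, τ p / (u + w)))` are charts at the points `(u, v)`, `u ≠ 0`. -/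
theorem Chart.eventually_disc {σ : P × (ℂ × ℂ) → V M} {τ : P → ℂ}
    (h : Chart o C π t₀ σ fun p => {z | z.1 * z.2 = τ p}) (hτ : AnalyticAt ℂ τ (π t₀))
    (h0 : τ (π t₀) = 0) (hf : LocFam o C π t₀) :
    ∀ᶠ q : T × ℂ × ℂ in 𝓝 (t₀, 0), q.2.1 * q.2.2 = τ (π q.1) → q.2.1 ≠ 0 →
      Chart o C π q.1 (fun r => σ (r.1, (q.2.1 + r.2, τ r.1 / (q.2.1 + r.2)))) fun _ => univ := by
  have hne := hf.ne_zero.self_of_nhds _ (h.mem0.self_of_nhds (by simp [h0]))
  filter_upwards [h.shift hf.cont hne hf.cone, continuousAt_fst.eventually hf.cont,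
    (hf.cont.self_of_nhds.comp continuousAt_fst).eventually hτ.eventually_analyticAt]
    with q h1 h2 h3 h4 h5
  exact Chart.disc h1 h2 h3 h4 h5

omit [FiniteDimensional ℂ E] in
/-- The points of a node chart different from the origin are smooth points. -/
theorem Chart.eventually_smAt {σ : P × (ℂ × ℂ) → V M} {τ : P → ℂ}
    (h : Chart o C π t₀ σ fun p => {z | z.1 * z.2 = τ p}) (hτ : AnalyticAt ℂ τ (π t₀))
    (h0 : τ (π t₀) = 0) (hf : LocFam o C π t₀) :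
    ∀ᶠ q : T × ℂ × ℂ in 𝓝 (t₀, 0), q.2.1 * q.2.2 = τ (π q.1) → q.2 ≠ 0 →
      SmAt o C π q.1 (σ (π q.1, q.2)) := by
  have h1 : Tendsto (fun q : T × ℂ × ℂ => (q.1, q.2.swap)) (𝓝 (t₀, 0)) (𝓝 (t₀, 0)) :=
    (by fun_prop : Continuous fun q : T × ℂ × ℂ => (q.1, q.2.swap)).tendsto' _ _ rfl
  filter_upwards [h.eventually_disc hτ h0 hf,
    h1.eventually ((h.swap_node hf.cont.self_of_nhds).eventually_disc hτ h0 hf)] with q h2 h3 h4 h5
  by_cases h6 : q.2.1 = 0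
  · have h7 : q.2.2 ≠ 0 := fun e => h5 (Prod.ext h6 e)
    refine ⟨_, ?_, h3 (by simpa [mul_comm] using h4) h7⟩
    simp [← h4, mul_div_cancel_right₀ _ h7]
  · refine ⟨_, ?_, h2 h4 h6⟩
    simp [← h4, mul_div_cancel_left₀ _ h6]

omit [FiniteDimensional ℂ E] in
theorem Chart.eventually_node {σ : P × (ℂ × ℂ) → V M} {τ : P → ℂ}
    (h : Chart o C π t₀ σ fun p => {z | z.1 * z.2 = τ p}) (h0 : τ (π t₀) = 0)
    (hf : LocFam o C π t₀) :
    ∀ᶠ t in 𝓝 t₀, Chart o C π t σ fun p => {z | z.1 * z.2 = τ p} := by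
  have hne := hf.ne_zero.self_of_nhds _ (h.mem0.self_of_nhds (by simp [h0]))
  refine ((tendsto_inl t₀ (0 : ℂ × ℂ)).eventually (h.shift hf.cont hne hf.cone)).mono fun t ht => ?_
  simpa using ht

omit [FiniteDimensional ℂ E] in
theorem NdAt.eventually {σ : P × (ℂ × ℂ) → V M} {τ : P → ℂ}
    (h : Chart o C π t₀ σ fun p => {z | z.1 * z.2 = τ p}) (hτ : AnalyticAt ℂ τ (π t₀))
    (h0 : τ (π t₀) = 0) (hf : LocFam o C π t₀) :
    ∀ᶠ q : T × V M in 𝓝 (t₀, σ (π t₀, 0)), q.2 ∈ C q.1 → SmAt o C π q.1 q.2 ∨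
      (τ (π q.1) = 0 ∧ (∃ s : ι → ℂ, q.2 = s • σ (π q.1, 0)) ∧ NdAt o C π q.1 q.2 τ) := by
  have hne := hf.ne_zero.self_of_nhds _ (h.mem0.self_of_nhds (by simp [h0]))
  have h1 := h.eventually_smAt hτ h0 hf
  rw [nhds_prod_eq] at h1
  obtain ⟨A, hA, B, hB, h2⟩ := eventually_prod_iff.1 h1
  filter_upwards [h.sub _ hB, continuousAt_fst.eventually hA,
    continuousAt_fst.eventually hf.cone.eventually_nhds,
    continuousAt_snd.eventually (eventually_ne hne),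
    continuousAt_fst.eventually (h.eventually_node h0 hf),
    (hf.cont.self_of_nhds.comp continuousAt_fst).eventually hτ.eventually_analyticAt]
    with q h3 h4 h5 h6 h10 h11 h7
  obtain ⟨s, z, h8, h12, h9⟩ := h3 h7
  rw [h9] at h6 ⊢
  by_cases hz : z = 0
  · subst hz
    have h13 : τ (π q.1) = 0 := by simpa using h12.symm
    exact Or.inr ⟨h13, ⟨s, rfl⟩, NdAt.smul (π := π) (t₀ := q.1) ⟨σ, rfl, h11, h13, h10⟩ h5
      (ne_of_smul_ne h6)⟩
  · exact Or.inl ((h2 h4 h8 h12 hz).smul h5 (ne_of_smul_ne h6))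

/-- The complement of the family is open near the centre of a chart. -/
theorem Chart.eventually_usc (h : Chart o C π t₀ σ X) (hf : LocFam o C π t₀)
    (hne : ∀ i, σ (π t₀, 0) i ≠ 0)
    (hX : ∀ᶠ q : P × E in 𝓝 (π t₀, 0), q.2 ∉ X q.1 → ∀ᶠ r in 𝓝 q, r.2 ∉ X r.1) :
    ∀ᶠ q : T × V M in 𝓝 (t₀, σ (π t₀, 0)), q.2 ∉ C q.1 → ∀ᶠ r in 𝓝 q, r.2 ∉ C r.1 := by
  have hπ := hf.cont.self_of_nhds
  obtain ⟨ρ, h1, h2, -, h3⟩ := h.exists_mem_iff hπ hne hf.cone
  have h4 : Tendsto (fun q : T × V M => (π q.1, q.2)) (𝓝 (t₀, σ (π t₀, 0)))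
      (𝓝 (π t₀, σ (π t₀, 0))) := hπ.prodMap continuousAt_id
  have h5 : Tendsto (fun q : T × V M => (π q.1, (ρ (π q.1, q.2)).2)) (𝓝 (t₀, σ (π t₀, 0)))
      (𝓝 (π t₀, 0)) := Tendsto.prodMk_nhds (hπ.comp continuousAt_fst)
        (continuous_snd.continuousAt.tendsto.comp (h2 ▸ h1.continuousAt.tendsto.comp h4))
  filter_upwards [h3.eventually_nhds, h4.eventually h1.eventually_analyticAt, h5.eventually hX,
    h5.eventually h.an.eventually_analyticAt, continuousAt_fst.eventually hf.cont]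
    with q k1 k2 k3 k4 k5 k6
  have k7 : Tendsto (fun r : T × V M => ρ (π r.1, r.2)) (𝓝 q) (𝓝 (ρ (π q.1, q.2))) :=
    k2.continuousAt.tendsto.comp (k5.prodMap' continuousAt_id)
  have k8 : Tendsto (fun r : T × V M => (π r.1, (ρ (π r.1, r.2)).2)) (𝓝 q)
      (𝓝 (π q.1, (ρ (π q.1, q.2)).2)) := Tendsto.prodMk_nhds (k5.comp continuousAt_fst)
        (continuous_snd.continuousAt.tendsto.comp k7)
  rcases not_and_or.1 (fun e => k6 (k1.self_of_nhds.2 e)) with k9 | k9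
  · filter_upwards [k1, k8.eventually (k3 k9)] with r k10 k11 k12 using k11 (k10.1 k12).1
  · have k10 := (continuousAt_snd (p := q)).tendsto.sub (tendsto_smul
      (continuous_fst.continuousAt.tendsto.comp k7) (k4.continuousAt.tendsto.comp k8))
    filter_upwards [k1, k10.eventually_ne (sub_ne_zero.2 k9)] with r k11 k12 k13
    exact k12 (sub_eq_zero.2 (k11.1 k13).2)

omit [FiniteDimensional ℂ E] in
theorem LocFam.eventually (h : LocFam o C π t₀) : ∀ᶠ t in 𝓝 t₀, LocFam o C π t := by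
  have h1 : ∀ᶠ t in 𝓝 t₀, ∀ c : V M, (∀ i, c i ≠ 0) → c ∉ C t →
      ∀ᶠ r : T × V M in 𝓝 (t, c), r.2 ∉ C r.1 := by
    refine eventually_forall_ne
      (p := fun q => q.2 ∉ C q.1 → ∀ᶠ r : T × V M in 𝓝 q, r.2 ∉ C r.1) (fun c hc => ?_) ?_
    · by_cases h2 : c ∈ C t₀
      · rcases h.chart c h2 with ⟨σ, rfl, h3⟩ | ⟨τ, σ, rfl, h4, -, h3⟩
        · exact h3.eventually_usc h hc (Eventually.of_forall fun q hq => absurd trivial hq)
        · refine h3.eventually_usc h hc ((continuousAt_fst.eventually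
            h4.eventually_analyticAt).mono fun q hq h5 => ?_)
          have h6 : ContinuousAt (fun r : P × ℂ × ℂ => r.2.1 * r.2.2 - τ r.1) q :=
            (by fun_prop : Continuous fun r : P × ℂ × ℂ => r.2.1 * r.2.2).continuousAt.sub
              (hq.continuousAt.comp continuousAt_fst)
          exact (h6.eventually_ne (sub_ne_zero.2 h5)).mono fun r hr e => hr (sub_eq_zero.2 e)
      · exact (h.usc c hc h2).eventually_nhds.mono fun q hq _ => hq
    · filter_upwards [h.cone.eventually_nhds] with t h2 s hs c _ h3 h4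
      have h5 : Tendsto (fun r : T × V M => (r.1, s • r.2)) (𝓝 (t, c)) (𝓝 (t, s • c)) :=
        Tendsto.prodMk_nhds continuousAt_fst (tendsto_smul tendsto_const_nhds continuousAt_snd)
      have h6 := h3 fun e => h4 (by
        simpa only [inv_smul_smul' hs] using h2.self_of_nhds s⁻¹ (fun i => inv_ne_zero (hs i)) _ e)
      filter_upwards [h5.eventually h6, continuousAt_fst.eventually h2] with r h7 h8 h9
      exact h7 (h8 s hs _ h9)
  have h2 : ∀ᶠ t in 𝓝 t₀, ∀ c ∈ C t, SmAt o C π t c ∨ ∃ τ, NdAt o C π t c τ := by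
    refine h.compact (p := fun q => SmAt o C π q.1 q.2 ∨ ∃ τ, NdAt o C π q.1 q.2 τ)
      (fun c hc => ?_) ?_
    · rcases h.chart c hc with h3 | ⟨τ, σ, rfl, h4, h5, h3⟩
      · exact (h3.eventually h).mono fun q hq h6 => Or.inl (hq h6)
      · exact (NdAt.eventually h3 h4 h5 h).mono fun q hq h6 =>
          (hq h6).imp id fun h7 => ⟨τ, h7.2.2⟩
    · filter_upwards [h.cone.eventually_nhds] with t h2 s hs c _ h3
      have h4 := fun i => inv_ne_zero (hs i)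
      rw [← inv_smul_smul' hs c]
      exact h3.imp (fun h5 => h5.smul h2 h4) fun ⟨τ, h5⟩ => ⟨τ, h5.smul h2 h4⟩
  filter_upwards [h.cont.eventually_nhds, h.ne_zero.eventually_nhds, h.cone.eventually_nhds, h1, h2]
    with t k1 k2 k3 k4 k5 using ⟨k1, k2, k3, k4, k5⟩

end Vale.Agent.P269.Base
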