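import Vale.Agent.P269.Base.Defs

/-!
# Multihomogeneous polynomial functions
-/

namespace Vale.Agent.P269.Base

open Set Function Topology Filter

set_option linter.unusedSectionVars false

variable {ι : Type} [Fintype ι] {M : ι → ℕ} {a b : ι → ℕ}

instance finiteDimensional_Tn {σ : Type} [Fintype σ] (τ : σ → ι) : FiniteDimensional ℂ (Tn M τ) :=
  FiniteDimensional.of_injective ContinuousMultilinearMap.toMultilinearMapLinear
    ContinuousMultilinearMap.toMultilinearMap_injective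

/-- Evaluation of forms at a point. -/
noncomputable def evL (a : ι → ℕ) (c : V M) : Tens M a →L[ℂ] ℂ :=
  ContinuousMultilinearMap.apply ℂ _ ℂ fun s => c s.1

@[simp] theorem evL_apply (c : V M) (μ : Tens M a) : evL a c μ = val μ c := rfl

/-- The polynomial function of a form. -/
noncomputable def valL (M : ι → ℕ) (a : ι → ℕ) : Tens M a →ₗ[ℂ] (V M → ℂ) where
  toFun := val
  map_add' _ _ := rfl
  map_smul' _ _ := rfl

@[simp] theorem val_add (μ μ' : Tens M a) (c : V M) : val (μ + μ') c = val μ c + val μ' c := rfl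

@[simp] theorem val_sub (μ μ' : Tens M a) (c : V M) : val (μ - μ') c = val μ c - val μ' c := rfl

@[simp] theorem val_smul' (s : ℂ) (μ : Tens M a) (c : V M) : val (s • μ) c = s * val μ c := rfl

@[simp] theorem val_zero (c : V M) : val (0 : Tens M a) c = 0 := rfl

theorem val_sum {β : Type*} (S : Finset β) (μ : β → Tens M a) (c : V M) :
    val (∑ j ∈ S, μ j) c = ∑ j ∈ S, val (μ j) c :=
  map_sum (evL a c) μ S

theorem analyticAt_val₂ (p : Tens M a × V M) :
    AnalyticAt ℂ (fun p : Tens M a × V M => val p.1 p.2) p :=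
  (ContinuousLinearMap.id ℂ (Tens M a)).analyticAt_uncurry_of_multilinear.comp
    (f := fun p : Tens M a × V M => (p.1, fun s : Σ i, Fin (a i) => p.2 s.1))
    (analyticAt_fst.prod (AnalyticAt.pi fun s =>
      ((ContinuousLinearMap.proj s.1 : V M →L[ℂ] _).analyticAt _).comp analyticAt_snd))

theorem an_val {P : Type*} [NormedAddCommGroup P] [NormedSpace ℂ P] {μ : P → Tens M a}
    {c : P → V M} {p : P} (hμ : AnalyticAt ℂ μ p) (hc : AnalyticAt ℂ c p) :
    AnalyticAt ℂ (fun q => val (μ q) (c q)) p :=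
  (analyticAt_val₂ _).comp (f := fun q => (μ q, c q)) (hμ.prod hc)

theorem analyticAt_val (μ : Tens M a) (c : V M) : AnalyticAt ℂ (val μ) c :=
  an_val analyticAt_const analyticAt_id

theorem analyticAt_evL (c : V M) : AnalyticAt ℂ (evL a : V M → _) c :=
  Holo.analyticAt_of_apply fun μ => analyticAt_val μ c

theorem continuous_val₂ : Continuous fun p : Tens M a × V M => val p.1 p.2 :=
  continuous_iff_continuousAt.2 fun p => (analyticAt_val₂ p).continuousAt

/-- The character of multidegree `a` of the torus. -/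
noncomputable def chr (a : ι → ℕ) (t : ι → ℂ) : ℂ := ∏ i, t i ^ a i

theorem chr_ne_zero {t : ι → ℂ} (ht : ∀ i, t i ≠ 0) : chr a t ≠ 0 :=
  Finset.prod_ne_zero_iff.2 fun i _ => pow_ne_zero _ (ht i)

theorem chr_add (t : ι → ℂ) : chr (a + b) t = chr a t * chr b t := by
  simp [chr, pow_add, Finset.prod_mul_distrib]

@[simp] theorem chr_one : chr a (1 : ι → ℂ) = 1 := by simp [chr]

@[simp] theorem chr_zero (t : ι → ℂ) : chr (0 : ι → ℕ) t = 1 := by simp [chr]

theorem chr_mul (s t : ι → ℂ) : chr a (s * t) = chr a s * chr a t := by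
  simp [chr, mul_pow, Finset.prod_mul_distrib]

theorem analyticAt_chr (t : ι → ℂ) : AnalyticAt ℂ (chr a) t :=
  Finset.analyticAt_fun_prod _ fun i _ =>
    ((ContinuousLinearMap.proj i : (ι → ℂ) →L[ℂ] ℂ).analyticAt _).pow _

theorem val_smul (μ : Tens M a) (t : ι → ℂ) (c : V M) : val μ (t • c) = chr a t * val μ c := by
  have := μ.map_smul_univ (fun s => t s.1) fun s => c s.1
  rw [Fintype.prod_sigma] at this
  simp only [Finset.prod_const, Finset.card_univ, Fintype.card_fin] at this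
  exact this

/-- The polynomial functions of multidegree `a`. -/
noncomputable def Pol (M : ι → ℕ) (a : ι → ℕ) : Submodule ℂ (V M → ℂ) :=
  LinearMap.range (valL M a)

theorem mem_Pol {f : V M → ℂ} : f ∈ Pol M a ↔ ∃ μ : Tens M a, val μ = f := Iff.rfl

theorem val_mem (μ : Tens M a) : val μ ∈ Pol M a := ⟨μ, rfl⟩

theorem prod_lin_mem (ℓ : ∀ s : Σ i, Fin (a i), (Fin (M s.1) → ℂ) →L[ℂ] ℂ) :
    (fun c : V M => ∏ s, ℓ s (c s.1)) ∈ Pol M a :=
  ⟨(ContinuousMultilinearMap.mkPiAlgebra ℂ _ ℂ).compContinuousLinearMap ℓ, rfl⟩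

theorem Pol_eq_span : Pol M a = Submodule.span ℂ (range
    fun (ℓ : ∀ s : Σ i, Fin (a i), (Fin (M s.1) → ℂ) →L[ℂ] ℂ) (c : V M) => ∏ s, ℓ s (c s.1)) := by
  classical
  refine le_antisymm ?_ (Submodule.span_le.2 (by rintro _ ⟨ℓ, rfl⟩; exact prod_lin_mem ℓ))
  rintro _ ⟨μ, rfl⟩
  have : valL M a μ = ∑ r : ∀ s : Σ i, Fin (a i), Fin (M s.1),
      μ (fun s => Pi.single (r s) 1) • fun c : V M => ∏ s, c s.1 (r s) := by
    funext c
    have h1 : (fun s : Σ i, Fin (a i) => c s.1) =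
        fun s => ∑ j, c s.1 j • (Pi.single j 1 : Fin (M s.1) → ℂ) :=
      funext fun s => pi_eq_sum_univ' _
    change μ (fun s => c s.1) = _
    rw [h1, μ.map_sum]
    simp [μ.map_smul_univ, mul_comm]
  rw [this]
  exact Submodule.sum_mem _ fun r _ => Submodule.smul_mem _ _
    (Submodule.subset_span ⟨fun s => ContinuousLinearMap.proj (r s), rfl⟩)

namespace Pol

variable {f g : V M → ℂ}

theorem an (h : f ∈ Pol M a) (c : V M) : AnalyticAt ℂ f c := by
  obtain ⟨μ, rfl⟩ := h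
  exact analyticAt_val μ c

theorem cont (h : f ∈ Pol M a) : Continuous f :=
  continuous_iff_continuousAt.2 fun c => (an h c).continuousAt

theorem hom (h : f ∈ Pol M a) (t : ι → ℂ) (c : V M) : f (t • c) = chr a t * f c := by
  obtain ⟨μ, rfl⟩ := h
  exact val_smul μ t c

theorem mul (hf : f ∈ Pol M a) (hg : g ∈ Pol M b) : f * g ∈ Pol M (a + b) := by
  rw [Pol_eq_span] at hf hg
  have := Submodule.mul_mem_mul hf hg
  rw [Submodule.span_mul_span] at this
  refine Submodule.span_le.2 ?_ this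
  rintro _ ⟨_, ⟨ℓ, rfl⟩, _, ⟨ℓ', rfl⟩, rfl⟩
  refine (congrArg (· ∈ Pol M (a + b)) (funext fun c => ?_)).mp (prod_lin_mem (a := a + b) fun s =>
    Fin.addCases (m := a s.1) (n := b s.1) (fun k => ℓ ⟨s.1, k⟩) (fun k => ℓ' ⟨s.1, k⟩) s.2)
  simp only [Pi.mul_apply, Fintype.prod_sigma, ← Finset.prod_mul_distrib]
  refine Finset.prod_congr rfl fun i _ => ?_
  exact (Fin.prod_univ_add (a := a i) (b := b i) _).trans (by simp)

theorem mul' {d : ι → ℕ} (hf : f ∈ Pol M a) (hg : g ∈ Pol M b) (h : a + b = d) :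
    (fun c => f c * g c) ∈ Pol M d :=
  h ▸ mul hf hg

theorem one : (1 : V M → ℂ) ∈ Pol M 0 := by
  convert prod_lin_mem (M := M) (a := 0) fun s => s.2.elim0 using 1
  funext c
  simp [Fintype.prod_sigma]

theorem pow (hf : f ∈ Pol M a) : ∀ n : ℕ, f ^ n ∈ Pol M (n • a)
  | 0 => by simpa using one
  | n + 1 => by rw [pow_succ, succ_nsmul]; exact mul (pow hf n) hf

theorem prod {β : Type*} (S : Finset β) {F : β → V M → ℂ} {d : β → ι → ℕ}
    (h : ∀ j ∈ S, F j ∈ Pol M (d j)) : ∏ j ∈ S, F j ∈ Pol M (∑ j ∈ S, d j) := by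
  classical
  induction S using Finset.induction_on with
  | empty => simpa using one
  | insert i S hi ih =>
    rw [Finset.prod_insert hi, Finset.sum_insert hi]
    exact mul (h i (by simp)) (ih fun j hj => h j (by simp [hj]))

theorem lin [DecidableEq ι] (i : ι) (ℓ : (Fin (M i) → ℂ) →L[ℂ] ℂ) :
    (fun c : V M => ℓ (c i)) ∈ Pol M (Pi.single i 1) := by
  convert prod_lin_mem (M := M) (a := Pi.single i 1) fun s =>
    (ℓ.comp (ContinuousLinearMap.proj i : V M →L[ℂ] _)).comp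
      (ContinuousLinearMap.single ℂ (fun i => Fin (M i) → ℂ) s.1) using 1
  funext c
  rw [Fintype.prod_sigma, Finset.prod_eq_single i (fun j _ hj => by simp [hj]) (by simp)]
  simp

/-- The monomial `∏ ζ_i^(a i)`. -/
theorem mono (ζ : ∀ i, (Fin (M i) → ℂ) →L[ℂ] ℂ) (a : ι → ℕ) :
    (fun c : V M => ∏ i, ζ i (c i) ^ a i) ∈ Pol M a := by
  convert prod_lin_mem (a := a) fun s => ζ s.1 using 1
  funext c
  rw [Fintype.prod_sigma]
  exact Finset.prod_congr rfl fun i _ => (Fin.prod_const _ _).symm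

/-- Euler's identity. -/
theorem euler (h : f ∈ Pol M a) (c : V M) (s : ι → ℂ) :
    fderiv ℂ f c (s • c) = (∑ i, a i * s i) * f c := by
  have h1 : HasDerivAt (fun z : ℂ => (fun i => 1 + z * s i) • c) (s • c) 0 := by
    refine hasDerivAt_pi.2 fun i => ?_
    simpa using (((hasDerivAt_id (0 : ℂ)).mul_const (s i)).const_add 1).smul_const (c i)
  have h2 : HasFDerivAt f (fderiv ℂ f c) ((fun i => 1 + (0 : ℂ) * s i) • c) := by
    rw [show (fun i => 1 + (0 : ℂ) * s i) = 1 from funext fun i => by simp, one_smul]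
    exact (an h c).differentiableAt.hasFDerivAt
  have h3 := h2.comp_hasDerivAt (0 : ℂ) h1
  have h4 : HasDerivAt (fun z : ℂ => chr a (fun i => 1 + z * s i) * f c)
      ((∑ i, a i * s i) * f c) 0 := by
    classical
    refine HasDerivAt.mul_const ?_ _
    have := HasDerivAt.fun_finsetProd (u := Finset.univ) (x := (0 : ℂ))
      fun i _ => (((hasDerivAt_id (0 : ℂ)).mul_const (s i)).const_add 1).fun_pow (a i)
    simpa [chr] using this
  exact h3.unique (h4.congr_of_eventuallyEq (Eventually.of_forall fun z => hom h _ _))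

end Pol

/-- Finitely many nonzero vectors lie outside a hyperplane. -/
theorem exists_lin_ne_zero {n : ℕ} {β : Type*} [Finite β] (v : β → Fin n → ℂ)
    (K : Submodule ℂ ((Fin n → ℂ) →L[ℂ] ℂ)) (h : ∀ j, ∃ ℓ ∈ K, ℓ (v j) ≠ 0) :
    ∃ ℓ ∈ K, ∀ j, ℓ (v j) ≠ 0 := by
  by_contra hn
  push Not at hn
  obtain ⟨j, hj⟩ := Subspace.exists_eq_top_of_iUnion_eq_univ (k := ℂ) (E := K)
    (p := fun j => LinearMap.ker
      ((ContinuousLinearMap.apply ℂ ℂ (v j)).toLinearMap ∘ₗ K.subtype))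
    (eq_univ_of_forall fun ℓ => by
      obtain ⟨j, hj⟩ := hn ℓ ℓ.2
      exact mem_iUnion.2 ⟨j, hj⟩)
  obtain ⟨ℓ, h1, h2⟩ := h j
  have : (⟨ℓ, h1⟩ : K) ∈ LinearMap.ker
      ((ContinuousLinearMap.apply ℂ ℂ (v j)).toLinearMap ∘ₗ K.subtype) := hj ▸ Submodule.mem_top
  exact h2 this

end Vale.Agent.P269.Base
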