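import Vale.Agent.P269.Base.Eqs
import Vale.Agent.P269.Prop.Wedge

/-!
# Families of curves whose equations extend holomorphically are local families
-/

namespace Vale.Agent.P269.Base

open Set Function Topology Filter Holo Module

set_option linter.unusedSectionVars false

variable {ι : Type} [Fintype ι] [DecidableEq ι] {M : ι → ℕ} {o : ι} {c : V M} {a : ι → ℕ} {g : ℤ}
  {m : ι → ℤ} {T P E : Type*} [TopologicalSpace T] [NormedAddCommGroup P] [NormedSpace ℂ P]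
  [FiniteDimensional ℂ P] [NormedAddCommGroup E] [NormedSpace ℂ E] [FiniteDimensional ℂ E]

theorem exists_quot (K : Submodule ℂ E) : ∃ (r : ℕ) (η : E →L[ℂ] Fin r → ℂ), Surjective η ∧
    (∀ v, η v = 0 ↔ v ∈ K) ∧ r + finrank ℂ K = finrank ℂ E :=
  ⟨_, ((finBasis ℂ (E ⧸ K)).equivFun.toLinearMap ∘ₗ K.mkQ).toContinuousLinearMap,
    (finBasis ℂ (E ⧸ K)).equivFun.surjective.comp K.mkQ_surjective, fun v => by simp,
    K.finrank_quotient_add_finrank⟩

theorem exists_ball {t₀ : T} {p : T × E → Prop} (h : ∀ᶠ q in 𝓝 (t₀, 0), p q) :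
    ∃ r > 0, ∀ᶠ t in 𝓝 t₀, ∀ z, ‖z‖ < r → p (t, z) := by
  rw [nhds_prod_eq] at h
  obtain ⟨p1, h1, p2, h2, h3⟩ := eventually_prod_iff.1 h
  obtain ⟨r, hr, h4⟩ := Metric.eventually_nhds_iff.1 h2
  exact ⟨r, hr, h1.mono fun t ht z hz => h3 ht (h4 (by simpa using hz))⟩

/-- The span of the orbit directions and two more vectors. -/
def tg (c v w : V M) : Submodule ℂ (V M) where
  carrier := {u | ∃ (s : ι → ℂ) (x y : ℂ), u = s • c + (x • v + y • w)}
  add_mem' := by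
    rintro _ _ ⟨s, x, y, rfl⟩ ⟨s', x', y', rfl⟩
    exact ⟨s + s', x + x', y + y', by simp only [add_smul]; abel⟩
  zero_mem' := ⟨0, 0, 0, by simp⟩
  smul_mem' := by
    rintro r _ ⟨s, x, y, rfl⟩
    exact ⟨r • s, r * x, r * y, by simp only [smul_add, smul_assoc, mul_smul]⟩

theorem _root_.Vale.Agent.P269.IsCurve.exists_eqs {C : Set (V M)} (h : IsCurve o g m C)
    (ha : ∀ i, 3 ≤ a i) {γ : Bool → ℂ → V M} (hγ : Loc o C c γ) :
    ∃ (r : ℕ) (f : Fin r → Tens M a), (∀ l, ∀ y ∈ C, val (f l) y = 0) ∧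
      Surjective (fderiv ℂ (vals f) c) ∧
      ∀ v, fderiv ℂ (vals f) c v = 0 ↔ v ∈ tg c (deriv (γ true) 0) (deriv (γ false) 0) := by
  obtain ⟨r, η, h1, h2, -⟩ := exists_quot (tg c (deriv (γ true) 0) (deriv (γ false) 0))
  choose f h3 h4 using fun l => h.cut_fderiv ha hγ ((ContinuousLinearMap.proj l).comp η)
    (fun s => congrFun ((h2 _).2 ⟨s, 0, 0, by simp⟩) l) fun j => congrFun ((h2 _).2 (by
      cases j
      exacts [⟨0, 0, 1, by simp⟩, ⟨0, 1, 0, by simp⟩])) l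
  have : fderiv ℂ (vals f) c = η := ContinuousLinearMap.ext fun v => funext fun l => by
    rw [fderiv_vals, h4]
    rfl
  exact ⟨r, f, h3, this ▸ h1, this ▸ h2⟩

theorem _root_.Vale.Agent.P269.IsCurve.spread {C : Set (V M)} (h : IsCurve o g m C) {D : Set ℂ}
    (hD : IsPreconnected D) {κ : ℂ → V M} (hκ : AnalyticOnNhd ℂ κ D)
    (hne : ∀ w ∈ D, ∀ i, κ w i ≠ 0) {z : ℂ} (hz : z ∈ D) (hm : κ z ∈ C)
    (hφ : ∀ U ∈ 𝓝 z, ∀ᶠ y in 𝓝[C] (κ z), ∃ s : ι → ℂ, ∃ w ∈ U, y = s • κ w) :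
    ∀ w ∈ D, κ w ∈ C := fun w hw => by
  by_contra hn
  obtain ⟨μ, h1, h2⟩ := h.cut (a := fun _ => 3) (fun _ => le_rfl) (hne w hw) hn
  refine h2 (AnalyticOnNhd.eqOn_zero_of_preconnected_of_frequently_eq_zero
    (f := fun w => val μ (κ w)) (fun w hw => (analyticAt_val _ _).comp (hκ w hw)) hD hz
    (frequently_iff.2 fun {U} hU => ?_) hw)
  obtain ⟨U', h3, h4⟩ := mem_nhdsWithin_iff_exists_mem_nhds_inter.1 hU
  obtain ⟨y, h5, ⟨s, x, h6, h7⟩, h8⟩ := ((h.nod.frequently_not_orb (fun _ : Unit => κ z)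
    hm).and_eventually ((hφ U' h3).and self_mem_nhdsWithin)).exists
  have h9 := Orb.of_smul (h.ne_zero y h8) h7
  exact ⟨x, h4 ⟨h6, fun e => h5 () (by rwa [show x = z from e] at h9)⟩, h1 _ (h.nod.orb h8 h9.symm)⟩

theorem Chart.loc {Y : T → Set (V M)} {π : T → P} {t : T} {σ : P × ℂ → V M}
    (h : Chart o Y π t σ fun _ => univ) (hπ : ContinuousAt π t) (hne : ∀ i, σ (π t, 0) i ≠ 0)
    {C : Set (V M)} (hC : C ⊆ Y t) (hm : ∀ᶠ w in 𝓝 0, σ (π t, w) ∈ C) :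
    Loc o C (σ (π t, 0)) fun _ w => σ (π t, w) := by
  refine ⟨fun _ => ⟨h.an0, hm, (h.isBranch0 (hne o)).imm⟩, fun _ => rfl, hne, .inl rfl,
    fun p hp => ?_⟩
  filter_upwards [mem_nhdsWithin_of_mem_nhds ((tendsto_inr t _).eventually
    (h.sub' hπ hne _ (hp true))), self_mem_nhdsWithin] with y h1 h2
  obtain ⟨w, h3, -, h4⟩ := h1 (hC h2)
  exact (show y = _ from h4) ▸ h3

theorem isPreconnected_annulus {r R : ℝ} (hr : 0 ≤ r) :
    IsPreconnected {u : ℂ | r < ‖u‖ ∧ ‖u‖ < R} := by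
  have : {u : ℂ | r < ‖u‖ ∧ ‖u‖ < R} =
      (fun p : ℝ × ℝ => (p.1 : ℂ) * Complex.exp (p.2 * Complex.I)) '' (Ioo r R ×ˢ univ) := by
    ext u
    refine ⟨fun h => ⟨(‖u‖, u.arg), ⟨h, trivial⟩, Complex.norm_mul_exp_arg_mul_I u⟩, ?_⟩
    rintro ⟨p, ⟨h, -⟩, rfl⟩
    simpa [Complex.norm_exp_ofReal_mul_I, abs_of_pos (hr.trans_lt h.1)] using h
  rw [this]
  exact (isPreconnected_Ioo.prod isPreconnected_univ).image _ (by fun_prop)

variable {C : T → Set (V M)} {π : T → P} {t₀ : T}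

/-- The equations of degree `a` of `C t₀` extend holomorphically. -/
structure Ext (o : ι) (g : ℤ) (m : ι → ℤ) (a : ι → ℕ) (C : T → Set (V M)) (π : T → P) (t₀ : T) :
    Prop where
  deg : ∀ i, 4 ≤ a i
  cont : ∀ᶠ t in 𝓝 t₀, ContinuousAt π t
  curve : ∀ᶠ t in 𝓝 t₀, IsCurve o g m (C t)
  ext : ∀ μ₀ : Tens M a, (∀ c ∈ C t₀, val μ₀ c = 0) → ∃ μ : P → Tens M a,
    AnalyticAt ℂ μ (π t₀) ∧ μ (π t₀) = μ₀ ∧ ∀ᶠ t in 𝓝 t₀, ∀ c ∈ C t, val (μ (π t)) c = 0

namespace Ext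

theorem deg3 (h : Ext o g m a C π t₀) (i : ι) : 3 ≤ a i := (by norm_num : 3 ≤ 4).trans (h.deg i)

theorem usc (h : Ext o g m a C π t₀) (hc : ∀ i, c i ≠ 0) (hn : c ∉ C t₀) :
    ∀ᶠ q : T × V M in 𝓝 (t₀, c), q.2 ∉ C q.1 := by
  obtain ⟨μ₀, h1, h2⟩ := h.curve.self_of_nhds.cut h.deg3 hc hn
  obtain ⟨μ, h3, rfl, h4⟩ := h.ext μ₀ h1
  filter_upwards [continuousAt_fst.tendsto.eventually h4, ContinuousAt.eventually_ne
    (g := fun q : T × V M => val (μ (π q.1)) q.2) (continuous_val₂.continuousAt.comp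
      (f := fun q : T × V M => (μ (π q.1), q.2)) (((h3.continuousAt.comp
        h.cont.self_of_nhds).comp_of_eq continuousAt_fst rfl).prodMk continuousAt_snd)) h2]
    with q h5 h6 h7
  exact h6 (h5 _ h7)

theorem chart (h : Ext o g m a C π t₀) {γ : Bool → ℂ → V M} (hγ : Loc o (C t₀) c γ)
    {σ₀ : E → V M} (hσ : AnalyticAt ℂ σ₀ 0) (h0 : σ₀ 0 = c)
    (imm : ∀ (e : E) (s : ℂ), fderiv ℂ σ₀ 0 e o = s • σ₀ 0 o → e = 0)
    (hk : ∀ v, (∃ x y : ℂ, v = x • deriv (γ true) 0 + y • deriv (γ false) 0) ↔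
      ∃ e, v = fderiv ℂ σ₀ 0 e) :
    ∃ (Y : P → Set (V M)) (σ : P × E → V M), Chart o Y id (π t₀) σ (fun _ => univ) ∧
      (∀ p (s : ι → ℂ), (∀ i, s i ≠ 0) → ∀ y ∈ Y p, s • y ∈ Y p) ∧ (∀ᶠ t in 𝓝 t₀, C t ⊆ Y (π t)) ∧
      (∀ᶠ e in 𝓝 0, σ₀ e ∈ C t₀ → σ (π t₀, e) = σ₀ e) ∧
      fderiv ℂ (fun e => σ (π t₀, e)) 0 = fderiv ℂ σ₀ 0 := by
  obtain ⟨r, f₀, h1, h2, h3⟩ := h.curve.self_of_nhds.exists_eqs h.deg3 hγ
  choose f h4 h5 h6 using fun l => h.ext _ (h1 l)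
  obtain rfl : f₀ = fun l => f l (π t₀) := funext fun l => (h5 l).symm
  have h7 : ∀ᶠ t in 𝓝 t₀, C t ⊆ Zs fun l => f l (π t) := by
    filter_upwards [eventually_all.2 h6, h.curve] with t e1 e2 y hy
    exact ⟨e2.ne_zero y hy, funext fun l => e1 l y hy⟩
  subst h0
  obtain ⟨σ, h8, h9, h10⟩ := chart_zs (o := o) (f := fun p l => f l p) (AnalyticAt.pi h4) hσ
    (h7.self_of_nhds hγ.mem) imm h2 fun v => (h3 v).trans ⟨fun ⟨s, x, y, e⟩ =>
      ((hk _).1 ⟨x, y, rfl⟩).elim fun e' he => ⟨s, e', he ▸ e⟩, fun ⟨s, e', he⟩ =>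
      ((hk _).2 ⟨e', rfl⟩).elim fun x ⟨y, e⟩ => ⟨s, x, y, e ▸ he⟩⟩
  exact ⟨_, σ, h8, fun p => Zs.cone, h7, h9.mono fun e he h' => he (h7.self_of_nhds h'), h10⟩

theorem disc (h : Ext o g m a C π t₀) {γ : ℂ → V M} (hγ : Loc o (C t₀) c fun _ => γ) :
    ∃ (Y : T → Set (V M)) (σ : P × ℂ → V M) (r : ℝ), Chart o Y π t₀ σ (fun _ => univ) ∧
      (∀ t (s : ι → ℂ), (∀ i, s i ≠ 0) → ∀ y ∈ Y t, s • y ∈ Y t) ∧ (∀ᶠ t in 𝓝 t₀, C t ⊆ Y t) ∧
      (∀ᶠ e in 𝓝 0, σ (π t₀, e) = γ e) ∧ 0 < r ∧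
      ∀ᶠ t in 𝓝 t₀, ∀ z, ‖z‖ < r → σ (π t, z) ∈ C t →
        (Loc o (C t) (σ (π t, z)) fun _ w => σ (π t, z + w)) ∧
        ∀ w, ‖w‖ < r → σ (π t, w) ∈ C t := by
  have hπ := h.cont.self_of_nhds
  obtain ⟨Y, σ, h1, h2, h3, h4, -⟩ := h.chart hγ (hγ.an true) (hγ.zero true)
    (fun e s he => of_li_pair (hγ.br true).imm (by rwa [fderiv_eq_smul] at he)) fun v =>
      ⟨fun ⟨x, y, e⟩ => ⟨x + y, by rw [fderiv_eq_smul, add_smul, e]⟩,
        fun ⟨x, e⟩ => ⟨x, 0, by rw [e, fderiv_eq_smul, zero_smul, add_zero]⟩⟩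
  have h5 : ∀ᶠ e in 𝓝 0, σ (π t₀, e) = γ e := (h4.and (hγ.br true).mem).mono fun e he => he.1 he.2
  have h6 : Chart o (fun t => Y (π t)) π t₀ σ fun _ => univ :=
    h1.comp (u := π) (k := id) hπ analyticAt_id (.of_forall fun _ => rfl)
  have h7 : ∀ i, σ (π t₀, 0) i ≠ 0 := by rw [h5.self_of_nhds, hγ.zero true]; exact hγ.ne
  obtain ⟨r, hr, h8⟩ := exists_ball ((h6.shift h.cont h7 (.of_forall fun t => h2 _)).and
    (((tendsto_pm hπ 0).eventually h6.an.eventually_analyticAt).and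
      ((h6.tendsto hπ).eventually (eventually_ne h7))))
  refine ⟨_, σ, r, h6, fun t => h2 _, h3, h5, hr, ?_⟩
  filter_upwards [h8, h3, h.curve, h.cont] with t e1 e2 e3 e4 z hz hm
  have e5 : ∀ w, ‖w‖ < r → σ (π t, w) ∈ C t := fun w hw => e3.spread (convex_ball 0 r).isPreconnected
    (κ := fun w => σ (π t, w)) (fun w hw => (e1 w (mem_ball_zero_iff.1 hw)).2.1.comp_of_eq
      (analyticAt_const.prod analyticAt_id) rfl) (fun w hw => (e1 w (mem_ball_zero_iff.1 hw)).2.2)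
    (mem_ball_zero_iff.2 hz) hm (fun U hU => by
      have := (tendsto_inr t _).eventually ((e1 z hz).1.sub ((z + ·) ⁻¹' U)
        ((continuous_const_add z).continuousAt.preimage_mem_nhds (by rwa [add_zero])))
      simp only [add_zero] at this
      filter_upwards [mem_nhdsWithin_of_mem_nhds this, self_mem_nhdsWithin] with y k1 k2
      obtain ⟨s, x, k3, -, k4⟩ := k1 (e2 k2)
      exact ⟨s, _, k3, k4⟩) w (mem_ball_zero_iff.2 hw)
  refine ⟨?_, e5⟩
  simpa only [add_zero] using Chart.loc (σ := fun r => σ (r.1, z + r.2)) (e1 z hz).1 e4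
    (by simpa using (e1 z hz).2.2) e2 (((continuous_const_add z).norm.continuousAt.eventually_lt
      continuousAt_const (by simpa using hz)).mono fun w hw => e5 _ hw)

theorem smAt (h : Ext o g m a C π t₀) (hc : c ∈ C t₀) (hn : ¬IsNode o (C t₀) c) :
    SmAt o C π t₀ c := by
  classical
  have hπ := h.cont.self_of_nhds
  have h0 := h.curve.self_of_nhds
  obtain ⟨lam, l1, l2, -⟩ := h0.nod.exists_simp_at hc hn (β := Empty) (y := nofun) nofun nofun
  have hl := val_mem lam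
  obtain ⟨n, z, hz⟩ := (nzd_of_simp h0.nod (Pol.isSec hl) l2).exists_reps h0.nod (Pol.isSec hl)
  have l3 := fun k => l2 _ (hz.mem k) (hz.prop k)
  choose γ u u1 u2 u3 u4 using fun k => (l3 k).exists_loc h0.nod (Pol.isSec hl)
  choose Y σ r y1 y2 y3 y4 y5 y6 using fun k => h.disc (u1 k)
  have e0 : ∀ k, σ k (π t₀, 0) = z k := fun k => (y4 k).self_of_nhds.trans ((u1 k).zero true)
  have a1 : ∀ k, AnalyticAt ℂ (fun q : P × ℂ => val lam (σ k q)) (π t₀, 0) := fun k =>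
    (analyticAt_val _ _).comp (y1 k).an
  have d1 : ∀ k, deriv (fun w => val lam (σ k (π t₀, w))) 0 ≠ 0 := fun k => by
    rw [EventuallyEq.deriv_eq ((y4 k).mono fun e he => congrArg (val lam) he)]
    exact (l3 k).deriv_ne h0.nod (Pol.isSec hl) ((u1 k).br true) ((u1 k).zero true)
  choose κ k1 k2 k3 using fun k => implicit (f := fun x : ℂ × P => val lam (σ k (x.2, x.1)))
    (x := 0) (w := π t₀) ((a1 k).comp_of_eq (analyticAt_snd.prod analyticAt_fst) rfl)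
    (bijective_of_injective _ ((injective_iff_map_eq_zero _).2 fun e he => by
      rw [fderiv_eq_smul] at he
      exact (smul_eq_zero.1 he).resolve_right (d1 k)) rfl)
  simp only [e0, hz.prop] at k3
  have t1 : ∀ k, Tendsto (fun t => κ k (π t)) (𝓝 t₀) (𝓝 0) := fun k =>
    (k2 k ▸ (k1 k).continuousAt.tendsto :).comp hπ
  have h1 : ∀ᶠ t in 𝓝 t₀, ∀ y : V M, (∀ i, y i ≠ 0) → y ∈ C t → val lam y = 0 →
      ∃ k, Orb (σ k (π t, κ k (π t))) y := by
    refine eventually_forall_ne (p := fun q => q.2 ∈ C q.1 → val lam q.2 = 0 →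
      ∃ k, Orb (σ k (π q.1, κ k (π q.1))) q.2) (fun y hy => ?_) (h.curve.mono
        fun t ht s hs y hy h1 h2 h3 => (h1 (ht.cone s hs y h2) (by
          rw [val_smul, h3, mul_zero])).imp fun k hk => hk.trans (Orb.symm ⟨s, hs, rfl⟩))
    by_cases h1 : y ∈ C t₀
    swap
    · exact (h.usc hy h1).mono fun q hq h2 => absurd h2 hq
    by_cases h2 : val lam y = 0
    swap
    · exact (continuousAt_snd.tendsto.eventually
        ((Pol.cont hl).continuousAt.eventually_ne h2)).mono fun q hq _ h3 => absurd h3 hq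
    obtain ⟨k, s, hs, rfl⟩ := hz.ex y h1 h2
    have h3 := k3 k
    rw [nhds_prod_eq] at h3
    obtain ⟨p1, h4, p2, h5, h6⟩ := eventually_prod_iff.1 h3
    have h7 := ((y1 k).smul (.of_forall (y2 k)) hs).sub _ h4
    simp only [e0] at h7
    filter_upwards [h7, continuousAt_fst.tendsto.eventually ((y3 k).and (hπ.eventually h5)),
      continuousAt_snd.tendsto.eventually (eventually_ne hy)] with q e1 e2 e3 e4 e5
    obtain ⟨s', w, e6, -, e7⟩ := e1 (e2.1 e4)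
    rw [smul_smul] at e7
    have e8 := Orb.of_smul e3 e7
    exact ⟨k, (h6 e6 e2.2).1 (((Pol.hm hl).orb (mem_univ _) e8).1 e5) ▸ e8⟩
  obtain ⟨k₀, s, hs, rfl⟩ := hz.ex c hc l1
  refine SmAt.smul ⟨σ k₀, e0 k₀, (y1 k₀).an, (y1 k₀).imm, ?_, fun U hU => ?_⟩
    (h.curve.mono fun t ht => ht.cone) hs
  swap
  · filter_upwards [(y1 k₀).sub U hU, continuousAt_fst.tendsto.eventually (y3 k₀)] with q e1 e2 e3
    exact e1 (e2 e3)
  have h2 : ∀ᶠ t in 𝓝 t₀, σ k₀ (π t, κ k₀ (π t)) ∈ C t := by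
    filter_upwards [h1, h.curve, eventually_all.2 y6, eventually_all.2 fun k =>
      (t1 k).norm.eventually_lt tendsto_const_nhds (by simpa using y5 k),
      eventually_all.2 fun k => ((t1 k).prodMk_nhds hπ).eventually (k3 k),
      eventually_all.2 fun k => (hπ.prodMk_nhds (t1 k)).eventually
        ((an_iteratedDeriv (a1 k) 1).continuousAt.eventually_ne (by simpa using d1 k))]
      with t e1 e2 e3 e4 e5 e6
    by_contra hn
    have e7 : ∀ y ∈ C t, val lam y = 0 → Simp o (C t) (val lam) y := fun y hy e7 => by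
      obtain ⟨k, hk⟩ := e1 y (e2.ne_zero y hy) hy e7
      have e8 := (e3 k _ (e4 k) (e2.nod.orb hy hk.symm)).1
      refine Simp.orb ⟨fun e => e8.isNode_iff.1 e rfl, (e5 k).2 rfl, _, e8.br true, e8.zero true,
        ?_⟩ e2.nod (Pol.hm hl) hk
      rw [deriv_comp_const_add (fun w => val lam (σ k (π t, w))), add_zero]
      simpa using e6 k
    obtain ⟨n', z', hz'⟩ := (nzd_of_simp e2.nod (Pol.isSec hl) e7).exists_reps e2.nod (Pol.isSec hl)
    choose φ hφ using fun j => e1 _ (e2.ne_zero _ (hz'.mem j)) (hz'.mem j) (hz'.prop j)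
    have e8 := Fintype.card_lt_of_injective_of_notMem φ
      (fun j j' e => hz'.inj _ _ ((hφ j).symm.trans (e ▸ hφ j'))) (b := k₀)
      fun ⟨j, e⟩ => hn (e2.nod.orb (hz'.mem j) (e ▸ (hφ j).symm))
    have e9 := e2.card_simp hl hz' fun j => e7 _ (hz'.mem j) (hz'.prop j)
    have e10 := h0.card_simp hl hz l3
    omega
  filter_upwards [continuousAt_fst.tendsto.eventually (h2.and ((y6 k₀).and
    ((t1 k₀).norm.eventually_lt tendsto_const_nhds (by simpa using y5 k₀)))),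
    (continuous_snd.norm.continuousAt (x := (t₀, (0 : ℂ)))).eventually_lt continuousAt_const
      (by simpa using y5 k₀)] with q e1 e2 _
  exact (e1.2.1 _ e1.2.2 e1.1).2 _ e2

theorem neck (h : Ext o g m a C π t₀) {Y : T → Set (V M)} {σ : P × ℂ × ℂ → V M} {τ : P → ℂ}
    (h1 : Chart o Y π t₀ σ fun p => {z | z.1 * z.2 = τ p})
    (h2 : ∀ t (s : ι → ℂ), (∀ i, s i ≠ 0) → ∀ y ∈ Y t, s • y ∈ Y t)
    (h3 : ∀ᶠ t in 𝓝 t₀, C t ⊆ Y t) (hne : ∀ i, σ (π t₀, 0) i ≠ 0)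
    (h4 : ∃ᶠ u in 𝓝[≠] 0, SmAt o C π t₀ (σ (π t₀, (u, 0)))) :
    ∃ r > 0, ∀ᶠ t in 𝓝 t₀, ∀ z : ℂ × ℂ, ‖z‖ < r → z.1 * z.2 = τ (π t) → z.1 ≠ 0 →
      σ (π t, z) ∈ C t := by
  have hπ := h.cont.self_of_nhds
  obtain ⟨r, hr, h5⟩ := exists_ball ((h1.shift h.cont hne (.of_forall h2)).and
    (((tendsto_pm hπ 0).eventually h1.an.eventually_analyticAt).and
      ((h1.tendsto hπ).eventually (eventually_ne hne))))
  obtain ⟨u, ⟨σ', s1, s2⟩, hu, hu0⟩ := (h4.and_eventually (((continuous_norm.continuousAt.eventually_lt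
    continuousAt_const (by simpa using hr)).filter_mono nhdsWithin_le_nhds).and
      self_mem_nhdsWithin)).exists
  have hU : {e : ℂ × ℂ | ‖(u, 0) + e‖ < r ∧ ((u, 0) + e).1 ≠ 0} ∈ 𝓝 0 :=
    ((continuous_const_add ((u, 0) : ℂ × ℂ)).norm.continuousAt.eventually_lt continuousAt_const
      (by simpa using hu)).and ((continuous_const_add ((u, 0) : ℂ × ℂ)).fst.continuousAt.eventually_ne
        (by simpa using hu0))
  have h6 := (h5.self_of_nhds (u, 0) (by simpa using hu)).1.sub _ hU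
  simp only [add_zero, ← s1] at h6
  have t1 : Tendsto (fun t => (t, σ' (π t, 0))) (𝓝 t₀) (𝓝 (t₀, σ' (π t₀, 0))) :=
    tendsto_id.prodMk_nhds ((s2.tendsto hπ).comp (tendsto_inl t₀ 0))
  refine ⟨r, hr, ?_⟩
  filter_upwards [h5, h3, h.curve, t1.eventually h6, (tendsto_inl t₀ 0).eventually s2.mem]
    with t e1 e2 e3 e4 e5 z hz e6 e7
  obtain ⟨s, x, e8, e9, e10⟩ := e4 (e2 (e5 trivial))
  have k1 : ∀ z : ℂ × ℂ, ‖z‖ < r → z.1 * z.2 = τ (π t) → z.1 ≠ 0 →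
      z.1 ∈ {u : ℂ | ‖τ (π t)‖ / r < ‖u‖ ∧ ‖u‖ < r} ∧ (z.1, τ (π t) / z.1) = z :=
    fun z hz e6 e7 => ⟨⟨by
      rw [div_lt_iff₀ hr, ← e6, norm_mul]
      exact mul_lt_mul_of_pos_left ((norm_snd_le z).trans_lt hz) (norm_pos_iff.2 e7),
      (norm_fst_le z).trans_lt hz⟩, by rw [← e6, mul_div_cancel_left₀ _ e7]⟩
  have k2 : ∀ w ∈ {u : ℂ | ‖τ (π t)‖ / r < ‖u‖ ∧ ‖u‖ < r}, w ≠ 0 ∧ ‖(w, τ (π t) / w)‖ < r :=
    fun w hw => by
      have k3 : 0 < ‖w‖ := (by positivity : 0 ≤ ‖τ (π t)‖ / r).trans_lt hw.1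
      refine ⟨norm_pos_iff.1 k3, max_lt hw.2 ?_⟩
      rw [norm_div, div_lt_iff₀ k3, mul_comm, ← div_lt_iff₀ hr]
      exact hw.1
  obtain ⟨k3, k4⟩ := k1 _ e8.1 e9 e8.2
  rw [← (k1 z hz e6 e7).2]
  refine e3.spread (isPreconnected_annulus (by positivity)) (κ := fun w => σ (π t, w, τ (π t) / w))
    (fun w hw => (e1 _ (k2 w hw).2).2.1.comp_of_eq (analyticAt_const.prod (analyticAt_id.prod
      (analyticAt_const.div analyticAt_id (k2 w hw).1))) rfl)
    (fun w hw => (e1 _ (k2 w hw).2).2.2) k3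
    (by rw [k4]; exact e3.nod.orb (e5 trivial) (Orb.of_smul (e3.ne_zero _ (e5 trivial)) e10).symm)
    (fun U hU => ?_) _ (k1 z hz e6 e7).1
  have := (tendsto_inr t _).eventually ((e1 _ e8.1).1.sub
    {e | ((u, 0) + x + e).1 ∈ U ∧ ((u, 0) + x + e).1 ≠ 0}
    (Eventually.and ((continuous_const_add ((u, 0) + x)).fst.continuousAt.eventually_mem
      (by rwa [add_zero])) ((continuous_const_add ((u, 0) + x)).fst.continuousAt.eventually_ne
        (by rw [add_zero]; exact e8.2))))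
  simp only [add_zero] at this
  rw [k4]
  filter_upwards [mem_nhdsWithin_of_mem_nhds this, self_mem_nhdsWithin] with y k5 k6
  obtain ⟨s', x', k7, k8, k9⟩ := k5 (e2 k6)
  exact ⟨s', _, k7.1, by rw [k9, ← show _ = τ (π t) from k8, mul_div_cancel_left₀ _ k7.2]⟩

theorem ndAt (h : Ext o g m a C π t₀) (hc : c ∈ C t₀) (hn : IsNode o (C t₀) c) :
    ∃ τ, NdAt o C π t₀ c τ := by
  have hπ := h.cont.self_of_nhds
  have h0 := h.curve.self_of_nhds
  obtain ⟨γ, hγ⟩ := h0.nod.exists_loc hc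
  have he := hγ.isNode_iff.1 hn
  have a3 : AnalyticAt ℂ (fun q : ℂ × ℂ => γ true q.1 + γ false q.2 - c) (0, 0) :=
    (((hγ.an true).comp_of_eq analyticAt_fst rfl).add
      ((hγ.an false).comp_of_eq analyticAt_snd rfl)).sub analyticAt_const
  have d3 : ∀ e : ℂ × ℂ, fderiv ℂ (fun q : ℂ × ℂ => γ true q.1 + γ false q.2 - c) 0 e =
      e.1 • deriv (γ true) 0 + e.2 • deriv (γ false) 0 := fun e => by
    refine (fderiv_prod_apply a3 e.1 e.2).trans ?_
    simp only [fderiv_eq_smul, deriv_sub_const, deriv_add_const, deriv_const_add]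
  obtain ⟨Y, σ', h1, h2, h3, h4, h5⟩ := h.chart hγ a3 (by simp [hγ.zero]) (fun e s hs => by
      rw [d3] at hs
      exact Prod.ext_iff.2 (of_li_triple (hγ.alt.resolve_left he) (s := s) (by simpa [hγ.zero] using hs)))
    fun v => ⟨fun ⟨x, y, e⟩ => ⟨(x, y), e.trans (d3 (x, y)).symm⟩, fun ⟨e, he⟩ => ⟨_, _, he.trans (d3 e)⟩⟩
  have e1 : ∀ᶠ u in 𝓝 0, σ' (π t₀, (u, 0)) = γ true u := by
    filter_upwards [(tendsto_inl (0 : ℂ) (0 : ℂ)).eventually h4, (hγ.br true).mem] with u k1 k2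
    simpa [hγ.zero] using k1 (by simpa [hγ.zero] using k2)
  have e2 : ∀ᶠ u in 𝓝 0, σ' (π t₀, (0, u)) = γ false u := by
    filter_upwards [(tendsto_inr (0 : ℂ) (0 : ℂ)).eventually h4, (hγ.br false).mem] with u k1 k2
    simpa [hγ.zero] using k1 (by simpa [hγ.zero] using k2)
  have e3 : σ' (π t₀, 0) = c := e1.self_of_nhds.trans (hγ.zero true)
  obtain ⟨μ₀, m1, m2⟩ := h0.cut_hess h.deg hγ he
  obtain ⟨μ, m3, rfl, m4⟩ := h.ext μ₀ m1
  have a4 : AnalyticAt ℂ (fun q => σ' (π t₀, q)) 0 := h1.an0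
  obtain ⟨b, b1, b2⟩ := exists_div_axes ((analyticAt_val (μ (π t₀)) _).comp a4)
    ((e1.and (hγ.br true).mem).mono fun u hu => m1 _ (mem_of_eq_of_mem hu.1 hu.2))
    ((e2.and (hγ.br false).mem).mono fun u hu => m1 _ (mem_of_eq_of_mem hu.1 hu.2))
  have a5 : AnalyticAt ℂ (fun t : ℂ => (t, t)) 0 := analyticAt_id.prod analyticAt_id
  have b3 : b (0, 0) = 1 := by
    have a6 := b1.comp_of_eq a5 rfl
    have := m2 _ (a4.comp_of_eq a5 rfl) e3 1 1 0 (by
      rw [(a4.differentiableAt.hasFDerivAt.comp_hasDerivAt_of_eq (0 : ℂ)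
        ((hasDerivAt_id' (0 : ℂ)).prodMk (hasDerivAt_id' 0)) rfl).deriv, h5, d3]
      simp)
    have := Dv.cancel (k := 2) (n := 1) (u := fun _ => 1) (this.congr
      ((a5.continuousAt.tendsto.eventually b2).mono fun t ht => by
        simp only [comp_apply] at ht ⊢
        rw [ht]
        change _ = t ^ 2 * 1 * (b (t, t) - 1)
        ring)) analyticAt_const one_ne_zero (a6.sub analyticAt_const)
    exact sub_eq_zero.1 this.eq_zero
  have a7 : AnalyticAt ℂ (fun q : ℂ × ℂ => (q.1, q.2 * b q)) 0 :=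
    analyticAt_fst.prod (analyticAt_snd.mul b1)
  obtain ⟨σ, τ, s1, s2, s3, -, s4, -⟩ := chart_node h1 (e3 ▸ hγ.ne) m3 a7 (by simp [Prod.ext_iff])
    (by
      have := (hasFDerivAt_fst.prodMk (hasFDerivAt_mul_zero (l := ContinuousLinearMap.snd ℂ ℂ ℂ)
        b1)).fderiv
      rw [show b 0 = 1 from b3, one_smul] at this
      exact (show fderiv ℂ (fun q : ℂ × ℂ => (q.1, q.2 * b q)) 0 = _ from this) ▸ bijective_id) (b2.mono fun q hq => hq.trans (mul_assoc _ _ _))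
  have s5 : Chart o (fun t => Y (π t) ∩ {y | val (μ (π t)) y = 0}) π t₀ σ
      fun p => {z | z.1 * z.2 = τ p} :=
    s3.comp (u := π) (k := id) hπ analyticAt_id (.of_forall fun _ => rfl)
  have s6 : σ (π t₀, 0) = c := e3 ▸ by simpa [Prod.mk_zero_zero] using s4.self_of_nhds
  have s7 : ∀ t (s : ι → ℂ), (∀ i, s i ≠ 0) → ∀ y ∈ Y (π t) ∩ {y | val (μ (π t)) y = 0},
      s • y ∈ Y (π t) ∩ {y | val (μ (π t)) y = 0} := fun t s hs y hy =>
    ⟨h2 _ s hs y hy.1, by rw [mem_ofPred_eq, val_smul, hy.2, mul_zero]⟩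
  have s8 : ∀ᶠ t in 𝓝 t₀, C t ⊆ Y (π t) ∩ {y | val (μ (π t)) y = 0} :=
    (h3.and m4).mono fun t ht y hy => ⟨ht.1 hy, ht.2 y hy⟩
  have s9 : ∀ j, ∀ᶠ u in 𝓝[≠] 0, SmAt o C π t₀ (γ j u) := fun j => by
    filter_upwards [mem_nhdsWithin_of_mem_nhds ((tendsto_inr (1 : ι → ℂ) (0 : ℂ)).eventually
      (hγ.nearby h0.nod j)), self_mem_nhdsWithin] with u k1 k2
    have k3 := k1 (.inl k2)
    simp only [one_smul] at k3
    exact h.smAt k3.mem fun e => k3.isNode_iff.1 e rfl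
  obtain ⟨r, hr, r1⟩ := h.neck s5 s7 s8 (s6 ▸ hγ.ne) (Eventually.frequently (by
    filter_upwards [s9 true, mem_nhdsWithin_of_mem_nhds (e1.and
      ((tendsto_inl (0 : ℂ) (0 : ℂ)).eventually s4))] with u k1 k2
    have := k2.2
    simp only [zero_mul] at this
    rwa [this, k2.1]))
  obtain ⟨r', hr', r2⟩ := h.neck (s5.swap_node hπ) s7 s8 (s6 ▸ hγ.ne) (by
    have c1 : ContinuousAt (fun u : ℂ => b (0, u)) 0 :=
      b1.continuousAt.comp_of_eq (by fun_prop) rfl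
    have t2 : Tendsto (fun u => u * b (0, u)) (𝓝[≠] 0) (𝓝[≠] 0) := by
      refine tendsto_nhdsWithin_iff.2 ⟨tendsto_nhdsWithin_of_tendsto_nhds (by
        simpa using (continuousAt_id.fun_mul c1).tendsto), ?_⟩
      filter_upwards [mem_nhdsWithin_of_mem_nhds (c1.eventually_ne (b3 ▸ one_ne_zero)),
        self_mem_nhdsWithin] with u k1 k2
      exact mul_ne_zero k2 k1
    refine t2.frequently (Eventually.frequently ?_)
    filter_upwards [s9 false, mem_nhdsWithin_of_mem_nhds (e2.and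
      ((tendsto_inr (0 : ℂ) (0 : ℂ)).eventually s4))] with u k1 k2
    rwa [Prod.swap_prod_mk, k2.2, k2.1])
  refine ⟨τ, σ, s6, s1, s2, s5.an, s5.imm, ?_, fun U hU => ?_⟩
  · filter_upwards [continuousAt_fst.tendsto.eventually (r1.and (r2.and h.curve)),
      (continuous_snd.norm.continuousAt (x := (t₀, (0 : ℂ × ℂ)))).eventually_lt continuousAt_const
        (show _ < min r r' by simpa using ⟨hr, hr'⟩), (tendsto_pm hπ 0).eventually
        s5.an.eventually_continuousAt, (s5.tendsto hπ).eventually (eventually_ne (s6 ▸ hγ.ne))]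
      with q k1 k2 k3 k4 k5
    by_cases k6 : q.2.1 = 0
    swap
    · exact k1.1 _ (k2.trans_le (min_le_left _ _)) k5 k6
    by_cases k7 : q.2.2 = 0
    swap
    · exact k1.2.1 q.2.swap (by simpa [Prod.norm_def, max_comm] using k2.trans_le (min_le_right _ _))
        ((mul_comm _ _).trans k5) k7
    have k8 : q.2 = (0, 0) := Prod.ext k6 k7
    rw [k8] at k3 k4 k5 ⊢
    refine k1.2.2.closed _ (mem_closure_of_tendsto (b := 𝓝[≠] 0) (tendsto_nhdsWithin_of_tendsto_nhds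
      (k3.tendsto.comp ((tendsto_inr _ _).comp (tendsto_inl (0 : ℂ) (0 : ℂ))))) ?_) k4
    filter_upwards [mem_nhdsWithin_of_mem_nhds (continuous_norm.continuousAt.eventually_lt
      continuousAt_const (by simpa using hr)), self_mem_nhdsWithin] with u k9 k10
    exact k1.1 (u, 0) (by simpa using k9) (by simpa using k5) k10
  · filter_upwards [s5.sub U hU, continuousAt_fst.tendsto.eventually s8] with q e1 e2 e3
    exact e1 (e2 e3)

theorem locFam (h : Ext o g m a C π t₀) : LocFam o C π t₀ :=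
  ⟨h.cont, h.curve.mono fun _ ht => ht.ne_zero, h.curve.mono fun _ ht => ht.cone,
    fun _ => h.usc, fun _ hc => (em _).elim (fun hn => .inr (h.ndAt hc hn))
      fun hn => .inl (h.smAt hc hn)⟩

end Ext

/-- holomorphic projections on the kernels of a family of surjections -/
theorem exists_proj_ker {A B : Type*} [NormedAddCommGroup A] [NormedSpace ℂ A]
    [NormedAddCommGroup B] [NormedSpace ℂ B] [FiniteDimensional ℂ B] {Q : P → A →L[ℂ] B} {p₀ : P}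
    (hQ : AnalyticAt ℂ Q p₀) {S : B →L[ℂ] A} (hS : ∀ y, Q p₀ (S y) = y) (μ : A) :
    AnalyticAt ℂ (fun p => ((Q p).comp S).inverse (Q p μ)) p₀ ∧
      ∀ᶠ p in 𝓝 p₀, Q p (μ - S (((Q p).comp S).inverse (Q p μ))) = 0 := by
  have h1 : Bijective ((Q p₀).comp S) := ⟨fun a b e => by simpa [hS] using e, fun y => ⟨y, hS y⟩⟩
  have h2 := an_comp hQ (analyticAt_const (v := S))
  refine ⟨an_apply ((analyticAt_clm_inverse h1).comp_of_eq h2 rfl) (an_apply hQ analyticAt_const),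
    (eventually_bijective h2.continuousAt h1).mono fun p hp => ?_⟩
  rw [map_sub, ← ContinuousLinearMap.comp_apply (Q p) S,
    (isInvertible_of_bijective hp).self_apply_inverse, sub_self]

theorem ext_of_hilb {Q : P → Tens M a →L[ℂ] E} (ha : ∀ i, 4 ≤ a i)
    (hπ : ∀ᶠ t in 𝓝 t₀, ContinuousAt π t) (hQ : AnalyticAt ℂ Q (π t₀))
    (hs : Surjective (Q (π t₀))) (h0 : ∀ μ, (∀ c ∈ C t₀, val μ c = 0) → Q (π t₀) μ = 0)
    (hC : ∀ᶠ t in 𝓝 t₀, IsCurve o g m (C t) ∧ ∀ μ, Q (π t) μ = 0 → ∀ c ∈ C t, val μ c = 0) :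
    Ext o g m a C π t₀ := by
  refine ⟨ha, hπ, hC.mono fun _ h => h.1, fun μ hμ => ?_⟩
  obtain ⟨S, hS⟩ := exists_rightInv hs
  obtain ⟨h1, h2⟩ := exists_proj_ker hQ hS μ
  exact ⟨_, analyticAt_const.sub ((S.analyticAt _).comp h1), by simp [h0 μ hμ],
    (hC.and (hπ.self_of_nhds.eventually h2)).mono fun t ht => ht.1.2 _ ht.2⟩

end Vale.Agent.P269.Base

namespace Vale.Agent.P269.Ch

open Set Function Topology Filter Holo Base

set_option linter.unusedSectionVars false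

variable {J ι ν : Type} [Fintype J] [Fintype ι] [DecidableEq ι] [Fintype ν] {ch : Ch ι J}

/-- The Hilbert point as a linear function on the ambient space. -/
noncomputable def QL (l : Option J) : ch.W ν →L[ℂ] Tens ch.M (ch.a l) →L[ℂ] ch.E l :=
  (ContinuousLinearMap.proj l).comp (ContinuousLinearMap.fst ℂ _ _)

theorem an_Q (l : Option J) (x : ch.W ν) : AnalyticAt ℂ (fun y : ch.W ν => y.Q l) x := by
  exact ContinuousLinearMap.analyticAt (𝕜 := ℂ) (E := ch.W ν)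
    (F := Tens ch.M (ch.a l) →L[ℂ] ch.E l) (QL l) x

theorem val_eq_zero {x : ch.W ν} {l : Option J} {μ : Tens ch.M (ch.a l)} (h : x.Q l μ = 0)
    {c : V ch.M} (hc : c ∈ crv x) : val μ c = 0 := by
  obtain ⟨u, hu⟩ := mem_crv.1 hc
  rw [← hu.2 l μ, h, map_zero]

theorem ext_base [FiniteDimensional ℂ (ch.W ν)] {l : Option J} (hl : ∀ i, 4 ≤ ch.a l i)
    (x : ch.base ν) :
    Ext ch.o ch.g ch.m (ch.a l) (fun y : ch.base ν => crv y.1) Subtype.val x :=
  ext_of_hilb (Q := fun y : ch.W ν => y.Q l) hl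
    (.of_forall fun _ => continuous_subtype_val.continuousAt) (an_Q l _) (x.2.1 l) (x.2.2.1 l)
    (.of_forall fun y => ⟨y.2.2.2.1, fun _ h _ => val_eq_zero h⟩)

/-- The universal curve over the base is a holomorphic family of nodal curves. -/
theorem locFam_base [FiniteDimensional ℂ (ch.W ν)] {l : Option J} (hl : ∀ i, 4 ≤ ch.a l i)
    (x : ch.base ν) : LocFam ch.o (fun y : ch.base ν => crv y.1) Subtype.val x :=
  (ext_base hl x).locFam

end Vale.Agent.P269.Ch
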