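import Vale.Agent.P269.Base.ML

/-!
# Jets, counting zeros, evaluation points; forms of large degree cut out the curve
-/

namespace Vale.Agent.P269.Base

open Set Function Topology Filter Holo Module

set_option linter.unusedSectionVars false

variable {ι : Type} [Fintype ι] {M : ι → ℕ} {o : ι} {C : Set (V M)} {c : V M} {a b d e : ι → ℕ}
  {l s f : V M → ℂ} {g : ℤ} {m : ι → ℤ} {γ : Bool → ℂ → V M}

/-- The jet of order `n` at `0`. -/
noncomputable def jet (n : ℕ) (u : ℂ → ℂ) : Fin n → ℂ := fun i => iteratedDeriv i u 0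

section
variable {n : ℕ} {u v : ℂ → ℂ}

theorem dv_iff_le (h : AnalyticAt ℂ u 0) : Dv n u ↔ n ≤ analyticOrderAt u 0 := by
  simp [Dv, natCast_le_analyticOrderAt h]

theorem dv_iff_jet (h : AnalyticAt ℂ u 0) : Dv n u ↔ jet n u = 0 := by
  rw [dv_iff_le h, natCast_le_analyticOrderAt_iff_iteratedDeriv_eq_zero h]
  exact ⟨fun h => funext fun i => h i i.2, fun h i hi => congrFun h ⟨i, hi⟩⟩

theorem jet_congr (h : u =ᶠ[𝓝 0] v) : jet n u = jet n v := funext fun i => h.iteratedDeriv_eq i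

theorem jet_add (h : AnalyticAt ℂ u 0) (h' : AnalyticAt ℂ v 0) :
    jet n (fun t => u t + v t) = jet n u + jet n v :=
  funext fun _ => iteratedDeriv_add h.contDiffAt h'.contDiffAt

theorem jet_sub (h : AnalyticAt ℂ u 0) (h' : AnalyticAt ℂ v 0) :
    jet n (fun t => u t - v t) = jet n u - jet n v :=
  funext fun _ => iteratedDeriv_sub h.contDiffAt h'.contDiffAt

theorem jet_smul (r : ℂ) : jet n (fun t => r * u t) = r • jet n u :=
  funext fun _ => iteratedDeriv_const_smul_field r u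

theorem jet_eq_iff (h : AnalyticAt ℂ u 0) (h' : AnalyticAt ℂ v 0) :
    jet n u = jet n v ↔ Dv n fun t => u t - v t := by
  rw [dv_iff_jet (h.fun_sub h'), jet_sub h h', sub_eq_zero]

theorem exists_jet_eq (w : Fin n → ℂ) : ∃ q, AnalyticAt ℂ q 0 ∧ jet n q = w := by
  have h : ∀ i : Fin n, AnalyticAt ℂ (fun t : ℂ => w i / (i : ℕ).factorial * t ^ (i : ℕ)) 0 :=
    fun i => analyticAt_const.mul (analyticAt_id.pow _)
  refine ⟨_, Finset.analyticAt_fun_sum Finset.univ fun i _ => h i, funext fun k => ?_⟩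
  rw [jet, iteratedDeriv_fun_sum fun i _ => (h i).contDiffAt, Finset.sum_eq_single k
    (fun i _ hi => ?_) (by simp)]
  · rw [iteratedDeriv_const_mul_field, iteratedDeriv_fun_pow_zero, if_pos rfl]
    exact div_mul_cancel₀ _ (Nat.cast_ne_zero.2 (Nat.factorial_ne_zero _))
  · rw [iteratedDeriv_const_mul_field, iteratedDeriv_fun_pow_zero,
      if_neg fun e => hi (Fin.ext e.symm), Nat.cast_zero, mul_zero]

theorem Dv.cancel {k : ℕ} (h : Dv (k + n) fun t => t ^ k * u t * v t)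
    (hu : AnalyticAt ℂ u 0) (h0 : u 0 ≠ 0) (hv : AnalyticAt ℂ v 0) : Dv n v := by
  have h1 : AnalyticAt ℂ (fun t : ℂ => t ^ k * u t) 0 := (analyticAt_id.pow k).mul hu
  have h2 : analyticOrderAt (fun t : ℂ => t ^ k * u t) 0 = k :=
    h1.analyticOrderAt_eq_natCast.2 ⟨u, hu, h0, .of_forall fun t => by simp⟩
  have h3 := (dv_iff_le h.an).1 h
  rw [show (fun t => t ^ k * u t * v t) = (fun t => t ^ k * u t) * v from rfl,
    analyticOrderAt_mul h1 hv, h2, Nat.cast_add] at h3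
  exact (dv_iff_le hv).2 ((ENat.add_le_add_iff_left (ENat.natCast_ne_top k)).1 h3)

theorem Dv.deriv_eq_zero (h : Dv 2 u) : deriv u 0 = 0 := by
  simpa [jet] using congrFun ((dv_iff_jet h.an).1 h) 1

variable {P : Type*} [NormedAddCommGroup P] [NormedSpace ℂ P] {p : P}

theorem an_iteratedDeriv {F : P × ℂ → ℂ} {x : ℂ} (h : AnalyticAt ℂ F (p, x)) : ∀ n : ℕ,
    AnalyticAt ℂ (fun q : P × ℂ => iteratedDeriv n (fun t => F (q.1, t)) q.2) (p, x)
  | 0 => by simpa using h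
  | n + 1 => by
    have h1 := an_iteratedDeriv h n
    refine (an_apply h1.fderiv (analyticAt_const (v := (0, 1)))).congr
      (h1.eventually_analyticAt.mono fun q hq => ?_)
    simp only [iteratedDeriv_succ]
    rw [← fderiv_inr (x := q.1) (y := q.2) hq, fderiv_apply_one_eq_deriv]

theorem an_jet {F : P × ℂ → ℂ} (h : AnalyticAt ℂ F (p, 0)) (n : ℕ) :
    AnalyticAt ℂ (fun q => jet n fun t => F (q, t)) p :=
  AnalyticAt.pi fun i => (an_iteratedDeriv h i).comp_of_eq (analyticAt_id.prod analyticAt_const) rfl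

end

theorem exists_dual_of_li {F κ : Type*} [AddCommGroup F] [Module ℂ F] {v : κ → F}
    (h : LinearIndependent ℂ v) (w : κ → ℂ) : ∃ ℓ : F →ₗ[ℂ] ℂ, ∀ i, ℓ (v i) = w i := by
  obtain ⟨ℓ, hℓ⟩ := ((Basis.span h).constr ℂ w).exists_extend
  refine ⟨ℓ, fun i => ?_⟩
  have := LinearMap.congr_fun hℓ (Basis.span h i)
  rwa [Basis.constr_basis, LinearMap.comp_apply, Submodule.subtype_apply, Basis.span_apply] at this

theorem Loc.ld' (h : Loc o C c γ) (hl : BH γ b l) (hs : BH γ d s)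
    (h1 : ∀ j, ∃ r, AnalyticAt ℂ r 0 ∧ r 0 = 0 ∧ ∀ᶠ t in 𝓝 0, s (γ j t) = l (γ j t) * r t) :
    LD C l s c := by
  have key : ∀ δ ∈ range γ, ∃ r, AnalyticAt ℂ r 0 ∧ r 0 = 0 ∧
      ∀ᶠ t in 𝓝 0, s (δ t) = l (δ t) * r t := by
    rintro _ ⟨j, rfl⟩
    exact h1 j
  choose! R h5 h6 h7 using key
  exact h.ld hl hs (r := fun j => R (γ j)) (fun j => h5 _ ⟨j, rfl⟩)
    ((h6 _ ⟨_, rfl⟩).trans (h6 _ ⟨_, rfl⟩).symm) (fun e => by rw [e]) fun j => h7 _ ⟨j, rfl⟩

theorem BH.div (h : BH γ (a + b) f) (h' : BH γ b s) : BH γ a fun y => f y / s y := fun j => by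
  filter_upwards [h j, h' j, ev_ne_one] with w h1 h2 h3
  rw [h1, h2, chr_add, mul_comm (chr a _), mul_assoc, mul_div_mul_left _ _ (chr_ne_zero h3),
    mul_div_assoc]

/-- At a smooth point divisibility is a condition on the order of vanishing. -/
theorem Loc.ld_of_dv {γ : ℂ → V M} (h : Loc o C c fun _ => γ) (hl : BH (fun _ => γ) b l)
    (hs : BH (fun _ => γ) d s) {n : ℕ} {u : ℂ → ℂ} (hu : AnalyticAt ℂ u 0) (h0 : u 0 ≠ 0)
    (h1 : ∀ᶠ t in 𝓝 0, l (γ t) = t ^ n * u t) (h2 : Dv n fun t => s (γ t)) : LD C l s c := by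
  obtain ⟨v, h3, h4⟩ := h2
  refine h.ld hl hs (r := fun _ => v / u) (fun _ => h3.div hu h0) rfl (fun _ => .rfl) fun _ => ?_
  filter_upwards [h1, h4, hu.continuousAt.eventually_ne h0] with t e1 e2 e3
  rw [e1, e2, Pi.div_apply]
  field_simp

theorem LD.dv (h : LD C l s c) {δ : ℂ → V M} (hδ : IsBranch o C δ) (h0 : δ 0 = c) {n : ℕ}
    (hl : Dv n fun t => l (δ t)) : Dv n fun t => s (δ t) := by
  obtain ⟨q, h1, h2⟩ := h
  exact (hl.mul_an (h1.comp_of_eq hδ.holo h0)).congr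
    ((h0 ▸ hδ.tendsto :).eventually h2 |>.mono fun _ h => h.symm)

theorem nzd_of_ord (hC : Nod o C) (hl : Hom C b l) {β : Type*} {z : β → V M} {γ : β → ℂ → V M}
    (hz : ∀ c ∈ C, l c = 0 → ∃ k, Orb (z k) c) (hγ : ∀ k, Loc o C (z k) fun _ => γ k) {n : β → ℕ}
    {u : β → ℂ → ℂ} (hu : ∀ k, AnalyticAt ℂ (u k) 0 ∧ u k 0 ≠ 0 ∧
      ∀ᶠ t in 𝓝 0, l (γ k t) = t ^ n k * u k t) : Nzd C l := fun c hc hn => by
  obtain ⟨k, t, ht, rfl⟩ := hz c hc (not_not.1 (hn.self_of_nhdsWithin hc))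
  obtain ⟨x, ⟨e1, e2, e3, e4⟩, hx⟩ := (((((((hγ k).smul hC ht).tendsto true).eventually hn).and
    ((hu k).2.2.and (((hu k).1.continuousAt.eventually_ne (hu k).2.1).and
      ((hγ k).br true).mem))).filter_mono (nhdsWithin_le_nhds (s := {0}ᶜ))).and
      self_mem_nhdsWithin).exists
  exact e1 (ne_of_eq_of_ne (hl t ht _ e4) (mul_ne_zero (chr_ne_zero ht)
    (ne_of_eq_of_ne e2 (mul_ne_zero (pow_ne_zero _ hx) e3))))

theorem Nod.frequently_not_orb (h : Nod o C) {β : Type*} [Finite β] (z : β → V M) (hc : c ∈ C) :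
    ∃ᶠ y in 𝓝[C] c, ∀ k, ¬Orb (z k) y := by
  obtain ⟨γ, hγ⟩ := h.exists_loc hc
  obtain ⟨s, x, -, -, -, h1⟩ := hγ.exists_coord
  have h2 : ∀ k, ∀ᶠ t in 𝓝[≠] 0, ¬Orb (z k) (γ true t) := fun k => by
    by_contra hn
    have h3 : ∃ᶠ t in 𝓝[≠] 0, Orb (z k) (γ true t) := by simpa using hn
    obtain ⟨t₀, h4⟩ := h3.exists
    by_cases h5 : Orb (z k) c
    · obtain ⟨ζ, hζ⟩ := exists_lin_one hγ.ne
      have c1 : Tendsto (fun t => (fun i => (ζ i (γ true t i))⁻¹, t)) (𝓝 0) (𝓝 (1, 0)) := by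
        refine Tendsto.prodMk_nhds (tendsto_pi_nhds.2 fun i => ?_) tendsto_id
        simpa [hγ.zero, hζ] using (((ζ i).continuous.continuousAt.comp
          ((continuous_apply i).continuousAt.comp (hγ.an true).continuousAt)).tendsto.inv₀
            (by simp [hγ.zero, hζ]))
      obtain ⟨t, h6, h7, ht⟩ := (h3.and_eventually (((c1.eventually (h1 true)).filter_mono
        nhdsWithin_le_nhds).and self_mem_nhdsWithin)).exists
      obtain ⟨r, hr, e⟩ := h5.symm.trans h6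
      have e1 : (fun i => (ζ i (γ true t i))⁻¹) • γ true t = c := funext fun i => by
        simp [e, Pi.smul_apply', hζ, smul_smul, hr i]
      have e2 := (h1 true).self_of_nhds.2.1
      simp only [one_smul, hγ.zero] at e2
      exact ht (by simpa [e1, e2] using h7.2.1.symm)
    · obtain ⟨i, ℓ, h6, h7⟩ := exists_sep (fun i => by
        obtain ⟨r, hr, e⟩ := h4.symm
        by_contra h0
        exact h5 (absurd (show ∀ᶠ t in 𝓝[≠] 0, ¬Orb (z k) (γ true t) from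
          (((continuous_apply i).continuousAt.comp (hγ.an true).continuousAt).eventually_ne
            (by rw [comp_apply, hγ.zero]; exact hγ.ne i)).filter_mono nhdsWithin_le_nhds |>.mono
            fun t ht ⟨r, _, e⟩ => ht (by simp [e, Pi.smul_apply', h0])) hn)) hγ.ne h5
      obtain ⟨t, ⟨r, -, e⟩, h8⟩ := (h3.and_eventually (((ℓ.continuous.continuousAt.comp
        ((continuous_apply i).continuousAt.comp (hγ.an true).continuousAt)).eventually_ne
          (by rwa [comp_apply, comp_apply, hγ.zero])).filter_mono nhdsWithin_le_nhds)).exists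
      exact h8 (by simp [e, Pi.smul_apply', h6])
  exact (hγ.tendsto true).frequently ((eventually_all.2 h2).frequently.filter_mono
    nhdsWithin_le_nhds)

theorem Nod.frequently_not_node (h : Nod o C) {β : Type*} [Finite β] (z : β → V M) (hc : c ∈ C) :
    ∃ᶠ y in 𝓝[C] c, (∀ k, ¬Orb (z k) y) ∧ ¬IsNode o C y := by
  obtain ⟨n, x, hx⟩ := h.exists_nodes
  refine ((h.frequently_not_orb (Sum.elim z x) hc).and_eventually self_mem_nhdsWithin).mono
    fun y hy => ⟨fun k => hy.1 (.inl k), fun hn => ?_⟩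
  obtain ⟨k, hk⟩ := hx.ex y hy.2 hn
  exact hy.1 (.inr k) hk

theorem Nod.residual_nzd {E : Type*} [NormedAddCommGroup E] [NormedSpace ℂ E]
    [FiniteDimensional ℂ E] (hC : Nod o C) (K : E →L[ℂ] Tens M b)
    (h : ∀ c ∈ C, ∃ᶠ y in 𝓝[C] c, ∃ μ, val (K μ) y ≠ 0) :
    ∀ᶠ μ in residual E, Nzd C (val (K μ)) := by
  refine residual_forall fun c hc => ?_
  obtain ⟨γ, hγ⟩ := hC.exists_loc hc
  have key : ∀ j, ∃ r > 0, ∀ᶠ μ in residual E, ∀ z : ℂ, ‖z‖ < r → ∀ s : ι → ℂ, (∀ i, s i ≠ 0) →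
      ∃ᶠ y in 𝓝[C] (s • γ j z), val (K μ) y ≠ 0 := fun j => by
    obtain ⟨r, hr, h1⟩ := Metric.eventually_nhds_iff_ball.1 (((tendsto_inr (1 : ι → ℂ) (0 : ℂ)).eventually
      (hγ.nearby hC j)).and ((hγ.an j).eventually_analyticAt.and (hγ.br j).mem))
    have h2 : ((r / 2 : ℝ) : ℂ) ∈ Metric.ball (0 : ℂ) r := by
      rw [mem_ball_zero_iff, Complex.norm_real, Real.norm_of_nonneg (by positivity)]
      linarith
    have h3 := (h1 _ h2).1 (.inl (Complex.ofReal_ne_zero.2 (by positivity)))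
    obtain ⟨t, ht, μ, h4⟩ : ∃ t ∈ Metric.ball (0 : ℂ) r, ∃ μ, val (K μ) (γ j t) ≠ 0 := by
      by_contra hn
      push Not at hn
      refine h _ h3.mem (h3.ev _ fun _ => ?_)
      have : Tendsto (fun w : (ι → ℂ) × ℂ => ((r / 2 : ℝ) : ℂ) + w.2) (𝓝 (1, 0))
          (𝓝 ((r / 2 : ℝ) : ℂ)) := Continuous.tendsto' (by fun_prop) _ _ (by simp)
      filter_upwards [this.eventually (Metric.isOpen_ball.mem_nhds h2)] with w hw ⟨μ, hμ⟩
      exact hμ (by rw [val_smul, one_smul, hn _ hw, mul_zero])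
    refine ⟨r, hr, (residual_val_ne K ⟨μ, h4⟩).mono fun μ hμ z hz s hs hn => hμ ?_⟩
    have hz' := mem_ball_zero_iff.2 hz
    have h5 : Tendsto (fun t => s • γ j t) (𝓝 z) (𝓝[C] (s • γ j z)) := tendsto_nhdsWithin_iff.2
      ⟨(an_smul analyticAt_const (h1 z hz').2.1).continuousAt, Eventually.mono
        (Metric.isOpen_ball.mem_nhds hz') fun t ht => hC.cone s hs _ (h1 t ht).2.2⟩
    refine AnalyticOnNhd.eqOn_zero_of_preconnected_of_eventuallyEq_zero
      (f := fun t => val (K μ) (γ j t)) (fun t ht => (analyticAt_val _ _).comp (h1 t ht).2.1)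
      (convex_ball _ _).isPreconnected hz' ((h5.eventually hn).mono fun t ht => ?_) ht
    simpa [val_smul, chr_ne_zero hs] using ht
  choose r hr h1 using key
  refine ⟨_, hγ.ev (fun y => ∃ (j : Bool) (s : ι → ℂ) (z : ℂ), ‖z‖ < r j ∧ y = s • γ j z ∧
    ∀ i, s i ≠ 0) fun j => ?_, ?_⟩
  · filter_upwards [ev_ne_one, (continuous_snd.norm.continuousAt
      (x := ((1 : ι → ℂ), (0 : ℂ)))).eventually_lt continuousAt_const (by simpa using hr j)]
      with w e2 e3
    exact ⟨j, w.1, w.2, e3, rfl, e2⟩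
  · filter_upwards [eventually_all.2 h1] with μ e1 y ⟨j, s, z, e2, e3, e4⟩
    exact e3 ▸ e1 j z e2 s e4

/-- The derivative of forms at `c` in the direction `v`. -/
noncomputable def dvL (a : ι → ℕ) (c v : V M) : Tens M a →L[ℂ] ℂ := fderiv ℂ (evL a) c v

theorem dvL_apply (c v : V M) (μ : Tens M a) : dvL a c v μ = fderiv ℂ (val μ) c v := by
  have := ((ContinuousLinearMap.apply ℂ ℂ μ).hasFDerivAt.comp c
    (analyticAt_evL (a := a) c).differentiableAt.hasFDerivAt).fderiv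
  exact (congrArg (fun L : V M →L[ℂ] ℂ => L v) this).symm

theorem deriv_comp_an {δ : ℂ → V M} {t : ℂ} (hf : AnalyticAt ℂ f (δ t)) (hδ : AnalyticAt ℂ δ t) :
    deriv (fun z => f (δ z)) t = fderiv ℂ f (δ t) (deriv δ t) :=
  (hf.differentiableAt.hasFDerivAt.comp_hasDerivAt t hδ.differentiableAt.hasDerivAt).deriv

variable [DecidableEq ι]

theorem Pol.lin_mul (i : ι) (ℓ : (Fin (M i) → ℂ) →L[ℂ] ℂ) (ζ : ∀ i, (Fin (M i) → ℂ) →L[ℂ] ℂ) :
    (fun y : V M => ℓ (y i) * ∏ j ∈ Finset.univ.erase i, ζ j (y j)) ∈ Pol M 1 := by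
  have := Pol.mul' (Pol.lin i ℓ) (Pol.prod (Finset.univ.erase i) fun j _ => Pol.lin j (ζ j))
    ((Finset.add_sum_erase _ (fun j => Pi.single j 1) (Finset.mem_univ i)).trans
      (Finset.univ_sum_single (1 : ι → ℕ)))
  simpa only [Finset.prod_apply] using this

theorem exists_pol_sep {y : V M} (hc : ∀ i, c i ≠ 0) (hy : ∀ i, y i ≠ 0) (h : ¬Orb c y) :
    ∃ μ : Tens M 1, val μ c = 0 ∧ val μ y ≠ 0 := by
  obtain ⟨i, ℓ, h1, h2⟩ := exists_sep hc hy h
  obtain ⟨ζ, hζ⟩ := exists_lin_one hy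
  obtain ⟨μ, hμ⟩ := mem_Pol.1 (Pol.lin_mul i ℓ ζ)
  exact ⟨μ, by simp [hμ, h1], by simp [hμ, h2, hζ]⟩

theorem exists_pol_ne {β : Type*} [Finite β] {y : β → V M} (hy : ∀ k i, y k i ≠ 0) (a : ι → ℕ) :
    ∃ F ∈ Pol M a, ∀ k, F (y k) ≠ 0 := by
  choose ζ _ hζ using fun i => exists_lin_ne_zero (fun k => y k i) ⊤ fun k =>
    (SeparatingDual.exists_ne_zero (R := ℂ) (hy k i)).imp fun _ h => ⟨trivial, h⟩
  exact ⟨_, Pol.mono ζ a, fun k => chr_ne_zero fun i => hζ i k⟩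

theorem exists_pol_one (hc : ∀ i, c i ≠ 0) (a : ι → ℕ) : ∃ μ : Tens M a, val μ c = 1 := by
  obtain ⟨ζ, hζ⟩ := exists_lin_one hc
  obtain ⟨μ, hμ⟩ := mem_Pol.1 (Pol.mono ζ a)
  exact ⟨μ, by simp [hμ, hζ]⟩

theorem exists_pol_fderiv (hc : ∀ i, c i ≠ 0) (η : V M →L[ℂ] ℂ) (h : ∀ s : ι → ℂ, η (s • c) = 0) :
    ∃ μ : Tens M 1, val μ c = 0 ∧ fderiv ℂ (val μ) c = η := by
  obtain ⟨ζ, hζ⟩ := exists_lin_one hc
  let A := fun i => η.comp (ContinuousLinearMap.single ℂ (fun i => Fin (M i) → ℂ) i)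
  have h1 : ∀ i, A i (c i) = 0 := fun i => (congrArg η (funext fun j => by
    by_cases e : j = i
    · subst e; simp [Pi.smul_apply']
    · simp [e, Pi.smul_apply'])).trans (h (Pi.single i 1))
  obtain ⟨μ, hμ⟩ := mem_Pol.1 (Submodule.sum_mem _ fun i (_ : i ∈ Finset.univ) =>
    Pol.lin_mul i (A i) ζ)
  refine ⟨μ, by simp [hμ, h1], ?_⟩
  have h2 : ∀ i, HasFDerivAt (fun y : V M => A i (y i) * ∏ j ∈ Finset.univ.erase i, ζ j (y j))
      ((A i).comp (ContinuousLinearMap.proj i)) c := fun i => by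
    have := ((A i).comp (ContinuousLinearMap.proj i : V M →L[ℂ] _)).hasFDerivAt.fun_mul
      (Finset.analyticAt_fun_prod (Finset.univ.erase i) fun j _ =>
        Pol.an (Pol.lin j (ζ j)) c).differentiableAt.hasFDerivAt
    refine this.congr_fderiv (ContinuousLinearMap.ext fun v => ?_)
    simp [h1, hζ]
  rw [hμ, (HasFDerivAt.sum fun i _ => h2 i).fderiv]
  refine ContinuousLinearMap.ext fun v => ?_
  conv_rhs => rw [← Finset.univ_sum_single v, map_sum]
  simp [A]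

/-- The projection on the forms vanishing at `c`. -/
theorem exists_proj (hc : ∀ i, c i ≠ 0) (a : ι → ℕ) : ∃ K : Tens M a →L[ℂ] Tens M a,
    (∀ μ, val (K μ) c = 0) ∧ ∀ μ, val μ c = 0 → K μ = μ := by
  obtain ⟨μ₀, h⟩ := exists_pol_one hc a
  exact ⟨.id _ _ - (evL a c).smulRight μ₀, fun μ => by simp [h], fun μ hμ => by simp [hμ]⟩

theorem exists_pol_dv {v : V M} (hc : ∀ i, c i ≠ 0) (h : LinearIndependent ℂ ![c o, v o]) :
    ∃ μ : Tens M 1, val μ c = 0 ∧ fderiv ℂ (val μ) c v ≠ 0 := by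
  obtain ⟨ℓ, h1, h2⟩ := Submodule.exists_dual_map_eq_bot_of_notMem (p := ℂ ∙ c o) (x := v o)
    (fun hv => by
      obtain ⟨r, hr⟩ := Submodule.mem_span_singleton.1 hv
      exact one_ne_zero ((li_pair_iff.1 h).2 1 r (by rw [hr, one_smul]))) inferInstance
  have h3 : ℓ (c o) = 0 := h2.le (Submodule.mem_map_of_mem (Submodule.mem_span_singleton_self _))
  obtain ⟨μ, h4, h5⟩ := exists_pol_fderiv hc (ℓ.toContinuousLinearMap.comp
    (ContinuousLinearMap.proj o)) fun s => by simp [Pi.smul_apply', h3]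
  exact ⟨μ, h4, by simpa [h5] using h1⟩

/-- A form with simple zeros only, through a given smooth point, avoiding finitely many points. -/
theorem Nod.exists_simp_at (hC : Nod o C) (hc : c ∈ C) (hn : ¬IsNode o C c) {β : Type*} [Finite β]
    {y : β → V M} (hy : ∀ k i, y k i ≠ 0) (hy' : ∀ k, ¬Orb c (y k)) :
    ∃ μ : Tens M 1, val μ c = 0 ∧ (∀ x ∈ C, val μ x = 0 → Simp o C (val μ) x) ∧
      ∀ k, val μ (y k) ≠ 0 := by
  have h0 := hC.ne_zero c hc
  obtain ⟨μ, h⟩ := hC.exists_simp (LinearMap.ker (evL 1 c).toLinearMap) (fun x hx h1 => by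
    have h2 : Orb c x := by
      by_contra h2
      obtain ⟨μ, h3, h4⟩ := exists_pol_sep h0 (hC.ne_zero x hx) h2
      exact h4 (h1 μ h3)
    obtain ⟨γ, hγ⟩ := hC.exists_loc hc
    obtain ⟨μ, h3, h4⟩ := exists_pol_dv h0 (hγ.zero true ▸ (hγ.br true).imm :)
    refine ⟨μ, h3, Simp.orb ⟨hn, h3, _, hγ.br true, hγ.zero true, ?_⟩ hC (Pol.hm (val_mem μ)) h2⟩
    rwa [deriv_comp_an (analyticAt_val _ _) (hγ.an true), hγ.zero])
    fun k => exists_pol_sep h0 (hy k) (hy' k)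
  exact ⟨μ, h⟩

theorem Loc.exists_lin (hγ : Loc o C c γ) (hC : Nod o C) : ∃ l ∈ Pol M 1, Nzd C l ∧
    ∀ j, ∃ u, AnalyticAt ℂ u 0 ∧ u 0 ≠ 0 ∧ ∀ᶠ t in 𝓝 0, l (γ j t) = t ^ 1 * u t := by
  obtain ⟨K, h1, h2⟩ := exists_proj hγ.ne 1
  obtain ⟨μ, -, h3, h4⟩ := exists_of_residual ((hC.residual_nzd K fun x hx =>
    ((hC.frequently_not_orb (fun _ : Unit => c) hx).and_eventually self_mem_nhdsWithin).mono
      fun y hy => by
        obtain ⟨μ, h3, h4⟩ := exists_pol_sep hγ.ne (hC.ne_zero y hy.2) (hy.1 ())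
        exact ⟨μ, by rwa [h2 μ h3]⟩).and (eventually_all.2 fun j => residual_ne
      (l := ((dvL 1 c (deriv (γ j) 0)).comp K).toLinearMap) (fun e => by
        obtain ⟨μ, h3, h4⟩ := exists_pol_dv hγ.ne (hγ.zero j ▸ (hγ.br j).imm :)
        exact h4 (by simpa [h2 μ h3, dvL_apply] using LinearMap.congr_fun e μ)) 0))
    (e₀ := 0) univ_mem
  refine ⟨_, val_mem _, h3, fun j => ?_⟩
  have h5 := (analyticAt_val (K μ) _).comp (hγ.an j)
  refine (h5.analyticOrderAt_eq_natCast.1 (h5.analyticOrderAt_eq_one_of_zero_deriv_ne_zero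
    (by simp [hγ.zero, h1]) ?_)).imp fun u hu => ⟨hu.1, hu.2.1, by simpa using hu.2.2⟩
  rw [comp_def, deriv_comp_an (analyticAt_val _ _) (hγ.an j), hγ.zero, ← dvL_apply]
  exact h4 j

end Vale.Agent.P269.Base

namespace Vale.Agent.P269.IsCurve

open Set Function Topology Filter Holo Module Base

variable {ι : Type} [Fintype ι] {M : ι → ℕ} {o : ι} {C : Set (V M)} {c : V M} {a b d e : ι → ℕ}
  {l s f : V M → ℂ} {g : ℤ} {m : ι → ℤ}

section
variable {β : Type*} [Fintype β] {z : β → V M} {γ : β → ℂ → V M} {n : β → ℕ}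

theorem exists_jet (h : IsCurve o g m C) (ha : a ≠ 0) (hn : Nzd C l) (hl : l ∈ Pol M b)
    (hγ : ∀ k, Loc o C (z k) fun _ => γ k) (hz : ∀ k k', Orb (z k) (z k') → k = k')
    (h0 : ∀ k, Dv (n k) fun t => l (γ k t)) {q : β → ℂ → ℂ} (hq : ∀ k, AnalyticAt ℂ (q k) 0) :
    ∃ S ∈ Pol M (a + b), (∀ k, Dv (n k) fun t => S (γ k t) - q k t) ∧
      ∀ y ∈ C, (∀ k, ¬Orb (z k) y) → LD C l S y := by
  obtain ⟨S, h1, h2, h3⟩ := h.ml_br ha hn hl hγ hz (q := fun k _ => q k) (fun k _ => hq k)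
    (fun _ => rfl) fun _ _ => .rfl
  refine ⟨S, h1, fun k => ?_, h3⟩
  obtain ⟨ρ, h4, h5⟩ := h2 k
  exact ((h0 k).mul_an (h4.comp_of_eq ((hγ k).an true) ((hγ k).zero true))).congr
    ((h5 true).mono fun t ht => by simp [ht])

/-- The number of zeros of a form is its degree. -/
theorem count (h : IsCurve o g m C) (hl : l ∈ Pol M b)
    (hz : ∀ c ∈ C, l c = 0 → ∃ k, Orb (z k) c) (hz' : ∀ k k', Orb (z k) (z k') → k = k')
    (hγ : ∀ k, Loc o C (z k) fun _ => γ k) {u : β → ℂ → ℂ}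
    (hu : ∀ k, AnalyticAt ℂ (u k) 0 ∧ u k 0 ≠ 0 ∧ ∀ᶠ t in 𝓝 0, l (γ k t) = t ^ n k * u k t) :
    (∑ k, n k : ℤ) = dg m b := by
  have hn := nzd_of_ord h.nod (Pol.hm hl) hz hγ hu
  have ha : (1 : ι → ℕ) ≠ 0 := fun e => one_ne_zero (congrFun e o)
  have a1 : ∀ (μ : Tens M (1 + b)) k, AnalyticAt ℂ (fun t => val μ (γ k t)) 0 := fun μ k =>
    (analyticAt_val μ _).comp ((hγ k).an true)
  have a2 : ∀ k, Dv (n k) fun t => l (γ k t) := fun k => ⟨_, (hu k).1, (hu k).2.2⟩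
  let J : Tens M (1 + b) →ₗ[ℂ] ∀ k, Fin (n k) → ℂ :=
    { toFun := fun μ k => jet (n k) fun t => val μ (γ k t)
      map_add' := fun μ μ' => funext fun k => jet_add (a1 μ k) (a1 μ' k)
      map_smul' := fun r μ => funext fun k => jet_smul r }
  rw [← h.finrank_of_ker ha hn hl (J := J) (fun w => ?_) fun μ => ⟨fun h1 => ?_, fun h1 => ?_⟩]
  · simp [finrank_pi_fintype]
  · choose q h1 h2 using fun k => exists_jet_eq (w k)
    obtain ⟨_, ⟨μ, rfl⟩, h3, -⟩ := h.exists_jet ha hn hl hγ hz' a2 h1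
    exact ⟨μ, funext fun k => ((jet_eq_iff (a1 μ k) (h1 k)).2 (h3 k)).trans (h2 k)⟩
  · refine h.div ha hn (Pol.isSec hl) (Pol.isSec (val_mem μ)) fun c hc h0 => ?_
    obtain ⟨k, hk⟩ := hz c hc h0
    exact ((hγ k).ld_of_dv (Pol.bh hl) (Pol.bh (val_mem μ)) (hu k).1 (hu k).2.1 (hu k).2.2
      ((dv_iff_jet (a1 μ k)).2 (congrFun h1 k))).orb h.nod (Pol.hm hl) (Pol.hm (val_mem μ)) hk
  · obtain ⟨q, h2, h3⟩ := h1
    exact funext fun k => (dv_iff_jet (a1 μ k)).1 (LD.dv ⟨q, Pol.an h2 _,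
      eventually_mem_nhdsWithin.mono h3⟩ ((hγ k).br true) ((hγ k).zero true) (a2 k))

theorem card_simp (h : IsCurve o g m C) (hl : l ∈ Pol M b) (hz : Reps C (fun c => l c = 0) z)
    (hs : ∀ k, Simp o C l (z k)) : (Fintype.card β : ℤ) = dg m b := by
  choose γ u h1 h2 using fun k => (hs k).exists_loc h.nod (Pol.isSec hl)
  simpa using h.count (n := fun _ => 1) hl hz.ex hz.inj h1 (by simpa using h2)

end

theorem exists_ev' (h : IsCurve o g m C) (ha : a ≠ 0) {n : ℕ} (hn : (n : ℤ) = dg m a + 1 - g)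
    {p : V M → Prop} (hp : ∀ c ∈ C, ∃ᶠ y in 𝓝[C] c, p y) :
    ∃ y : Fin n → V M, (∀ k, y k ∈ C ∧ p (y k)) ∧
      Surjective (fun (μ : Tens M a) k => val μ (y k)) ∧
      ∀ μ : Tens M a, (∀ k, val μ (y k) = 0) → ∀ c ∈ C, val μ c = 0 := by
  let ev : C → Dual ℂ (Hs C a) := fun c => LinearMap.proj c ∘ₗ (Hs C a).subtype
  have h1 : Submodule.span ℂ (ev '' {c | p c}) = ⊤ := Submodule.span_eq_top_of_ne_zero
    fun φ hφ => by
      by_contra h2
      push Not at h2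
      obtain ⟨F, h3, h4⟩ := mem_Hs.1 φ.2
      refine hφ (Subtype.ext (funext fun c => (h4 c).trans ?_))
      by_contra h5
      obtain ⟨y, h6, h7, h8⟩ := ((hp c c.2).and_eventually
        (((Pol.cont h3).continuousWithinAt.eventually_ne h5).and self_mem_nhdsWithin)).exists
      exact h7 ((h4 ⟨y, h8⟩).symm.trans (h2 _ ⟨⟨y, h8⟩, h6, rfl⟩))
  obtain ⟨B, h2, h3, h4⟩ := exists_linearIndependent ℂ (ev '' {c | p c})
  have hr : finrank ℂ (Hs C a) = n := by have := h.finrank_Hs ha; omega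
  let e := (Basis.mk h4 (by rw [Subtype.range_coe, h3, h1])).indexEquiv
    (finBasisOfFinrankEq ℂ _ (Subspace.dual_finrank_eq.trans hr))
  choose y h5 h6 using fun k => h2 (e.symm k).2
  let L : Hs C a →ₗ[ℂ] Fin n → ℂ := LinearMap.pi fun k => ev (y k)
  have h7 : Injective L := (injective_iff_map_eq_zero _).2 fun φ hφ =>
    (forall_dual_apply_eq_zero_iff ℂ φ).1 fun ψ => by
      refine Submodule.span_induction (p := fun ψ _ => ψ φ = 0) (fun x hx => ?_) rfl
        (fun _ _ _ _ h h' => by simp [h, h']) (fun _ _ _ h => by simp [h])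
        (show ψ ∈ Submodule.span ℂ B from (h3.trans h1).symm ▸ trivial)
      have := h6 (e ⟨x, hx⟩)
      rw [e.symm_apply_apply] at this
      exact (LinearMap.congr_fun this φ).symm.trans (congrFun hφ _)
  refine ⟨fun k => y k, fun k => ⟨(y k).2, h5 k⟩, fun w => ?_, fun μ hμ c hc =>
    congrFun (congrArg Subtype.val (h7 (a₁ := ⟨_, μ, rfl⟩) (a₂ := 0) (funext hμ))) ⟨c, hc⟩⟩
  obtain ⟨⟨_, μ, rfl⟩, hw⟩ := (LinearMap.injective_iff_surjective_of_finrank_eq_finrank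
    (by simp [hr])).1 h7 w
  exact ⟨μ, hw⟩

theorem exists_ev (h : IsCurve o g m C) (ha : a ≠ 0) {n : ℕ} (hn : (n : ℤ) = dg m a + 1 - g) :
    ∃ y : Fin n → V M, (∀ k, y k ∈ C ∧ ¬IsNode o C (y k)) ∧
      Surjective (fun (μ : Tens M a) k => val μ (y k)) ∧
      ∀ μ : Tens M a, (∀ k, val μ (y k) = 0) → ∀ c ∈ C, val μ c = 0 :=
  h.exists_ev' ha hn fun _ hc => (h.nod.frequently_not_node (β := Empty) nofun hc).mono
    fun _ h => h.2

variable [DecidableEq ι] {γ : Bool → ℂ → V M}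

/-- A form vanishing to some order along the curve agrees on the curve with a form vanishing to the
same order in the ambient space. -/
theorem ord (h : IsCurve o g m C) (hγ : Loc o C c γ) : ∀ (r : ℕ) {d : ι → ℕ} {s : V M → ℂ},
    (∀ i, r + 2 ≤ d i) → s ∈ Pol M d → (∀ j, Dv (r + 1) fun t => s (γ j t)) →
      ∃ s' ∈ Pol M d, (∀ y ∈ C, s' y = s y) ∧
        ∀ δ : ℂ → V M, AnalyticAt ℂ δ 0 → δ 0 = c → Dv (r + 1) fun t => s' (δ t)
  | 0, d, s, _, hs, h1 => ⟨s, hs, fun _ _ => rfl, fun δ h2 h3 => .one ((Pol.an hs _).comp h2)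
      (by simpa [h3, hγ.zero] using (h1 true).eq_zero)⟩
  | r + 1, d, s, hd, hs, h1 => by
    classical
    obtain ⟨l, hl, hn, h2⟩ := hγ.exists_lin h.nod
    choose u h2 h3 h4 using h2
    have hc : l c = 0 := by simpa [hγ.zero] using (h4 true).self_of_nhds
    obtain ⟨n, z, hz⟩ := hn.exists_reps h.nod (Pol.isSec (o := o) hl)
    obtain ⟨K, h5, h6⟩ := exists_proj hγ.ne 1
    obtain ⟨μ, -, h7⟩ := exists_of_residual (eventually_all.2 fun k : {k // ¬Orb c (z k)} =>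
      residual_val_ne K ((exists_pol_sep hγ.ne (h.ne_zero _ (hz.mem k)) k.2).imp fun μ hμ =>
        (h6 μ hμ.1).symm ▸ hμ.2)) (e₀ := 0) univ_mem
    have hE := Pol.pow (val_mem (K μ)) (r + 1)
    choose δ hδ using fun k => h.nod.exists_loc (hz.mem k)
    have e1 : d - (r + 2) • 1 + 1 + (r + 1) • 1 = d := funext fun i => by
      have := hd i; simp; omega
    have e2 : d - 1 + 1 = d := funext fun i => by have := hd i; simp; omega
    obtain ⟨S, h8, h9, h10⟩ := h.ml (a := d - (r + 2) • 1) (fun e => by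
        have := congrFun e o; have := hd o; simp at *; omega) hn hl
      (fun k : {k // ¬Orb c (z k)} => hδ k) (fun k k' e => Subtype.ext (hz.inj _ _ e))
      (F := fun _ y => s y / (val (K μ) ^ (r + 1)) y)
      (fun k => (Pol.an hs _).div (Pol.an hE _) (pow_ne_zero _ (h7 k)))
      fun k => BH.div (Pol.bh (e1.symm ▸ hs)) (Pol.bh hE)
    have h11 := sub_mem hs (Pol.mul' h8 hE e1)
    have h12 : ∀ δ : ℂ → V M, AnalyticAt ℂ δ 0 → δ 0 = c →
        Dv (r + 1 + 1) fun t => S (δ t) * (val (K μ) ^ (r + 1)) (δ t) := fun δ a1 a2 => by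
      have := (Dv.one ((Pol.an h8 _).comp a1) (by
        rw [comp_apply, a2]
        exact (h10 c hγ.mem fun k e => k.2 e.symm).eq_zero hγ.mem hc)).mul
        ((Dv.one ((analyticAt_val (K μ) _).comp a1) (by rw [comp_apply, a2, h5])).pow (r + 1))
      rwa [mul_one, add_comm] at this
    have h13 := fun j => (h1 j).sub (h12 _ (hγ.an j) (hγ.zero j))
    obtain ⟨q, h14, h15⟩ := h.div (a := d - 1) (fun e => by
        have := congrFun e o; have := hd o; simp at *; omega) hn (Pol.isSec hl)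
      (Pol.isSec (e2.symm ▸ h11)) fun y hy h0 => by
        obtain ⟨k, hk⟩ := hz.ex y hy h0
        by_cases h14 : Orb c (z k)
        · refine (hγ.ld' (Pol.bh hl) (Pol.bh h11) fun j => ?_).orb h.nod (Pol.hm hl) (Pol.hm h11)
            (h14.trans hk)
          obtain ⟨v, h15, h16⟩ := (h13 j).mono (r' := 2) (by omega)
          refine ⟨fun t => t * v t / u j t, (analyticAt_id.mul h15).div (h2 j) (h3 j), by simp, ?_⟩
          filter_upwards [h4 j, h16, (h2 j).continuousAt.eventually_ne (h3 j)] with t k1 k2 k3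
          rw [k1, Pi.sub_apply, k2]
          field_simp
        · refine (((h9 ⟨k, h14⟩).mul (Pol.an hE _).neg).congr ?_).orb h.nod (Pol.hm hl)
            (Pol.hm h11) hk
          filter_upwards [mem_nhdsWithin_of_mem_nhds ((Pol.cont hE).continuousAt.eventually_ne
            (pow_ne_zero _ (h7 ⟨k, h14⟩)))] with w hw
          rw [Pi.sub_apply, Pi.neg_apply]
          field_simp
          ring
    obtain ⟨q', h16, h17, h18⟩ := ord h hγ r (d := d - 1) (fun i => by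
      have := hd i; simp; omega) h14 fun j => Dv.cancel (k := 1) (by
        rw [add_comm]
        refine (h13 j).congr ?_
        filter_upwards [h4 j, (hγ.br j).mem] with t k1 k2
        rw [← k1, ← h15 _ k2, Pi.sub_apply]) (h2 j) (h3 j) ((Pol.an h14 _).comp (hγ.an j))
    refine ⟨_, add_mem (Pol.mul' h8 hE e1) (Pol.mul' h16 hl e2), fun y hy => ?_, fun δ a1 a2 =>
      (h12 δ a1 a2).add ((h18 δ a1 a2).mul (.one ((Pol.an hl _).comp a1) (by simp [a2, hc])))⟩
    have := h15 y hy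
    rw [Pi.sub_apply] at this
    rw [Pi.add_apply, h17 y hy]
    linear_combination -this

/-- Forms of degree at least three cut out the curve as a set. -/
theorem cut (h : IsCurve o g m C) (ha : ∀ i, 3 ≤ a i) (hc : ∀ i, c i ≠ 0) (hn : c ∉ C) :
    ∃ μ : Tens M a, (∀ y ∈ C, val μ y = 0) ∧ val μ c ≠ 0 := by
  obtain ⟨K, h1, h2⟩ := exists_proj hc 1
  have h3 : ∀ y ∈ C, ∃ μ, val (K μ) y ≠ 0 := fun y hy =>
    (exists_pol_sep hc (h.ne_zero y hy) fun e => hn (h.nod.orb hy e.symm)).imp fun μ hμ => by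
      rw [h2 μ hμ.1]; exact hμ.2
  obtain ⟨μ₁, -, h4⟩ := exists_of_residual (h.nod.residual_nzd K fun _ hy =>
    ((h.nod.frequently_not_orb (β := Empty) nofun hy).and_eventually self_mem_nhdsWithin).mono
      fun y hy => h3 y hy.2) (e₀ := 0) univ_mem
  obtain ⟨n, z, hz⟩ := h4.exists_reps h.nod (Pol.isSec (o := o) (val_mem _))
  obtain ⟨μ₂, -, h5⟩ := exists_of_residual (eventually_all.2 fun k =>
    residual_val_ne K (h3 _ (hz.mem k))) (e₀ := 0) univ_mem
  have e1 : a - 2 • 1 + 1 + 1 = a := funext fun i => by have := ha i; simp; omega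
  obtain ⟨μ, hμ⟩ := exists_pol_one hc a
  obtain ⟨s₁, h6, s₂, h7, h8⟩ := h.pencil (s := val μ) (a := a - 2 • 1) (fun e => by
      have := congrFun e o; have := ha o; simp at *; omega) h4 (val_mem _) (val_mem (K μ₂))
    (fun y hy h0 e => by
      obtain ⟨k, hk⟩ := hz.ex y hy h0
      exact h5 k (((Pol.hm (val_mem _)).orb (hz.mem k) hk).1 e)) (by rw [e1]; exact val_mem μ)
  obtain ⟨ν, hν⟩ := mem_Pol.1 (sub_mem (val_mem μ) (add_mem (Pol.mul' h6 (val_mem (K μ₂)) e1)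
    (Pol.mul' h7 (val_mem (K μ₁)) e1)))
  exact ⟨ν, fun y hy => by simp [hν, h8 y hy, mul_comm], by simp [hν, h1, hμ]⟩

/-- The differentials of the equations span the conormal space. -/
theorem cut_fderiv (h : IsCurve o g m C) (ha : ∀ i, 3 ≤ a i) (hγ : Loc o C c γ)
    (η : V M →L[ℂ] ℂ) (h1 : ∀ s : ι → ℂ, η (s • c) = 0) (h2 : ∀ j, η (deriv (γ j) 0) = 0) :
    ∃ μ : Tens M a, (∀ y ∈ C, val μ y = 0) ∧ fderiv ℂ (val μ) c = η := by
  obtain ⟨Λ, h3, h4⟩ := exists_pol_fderiv hγ.ne η h1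
  obtain ⟨U, hU⟩ := exists_pol_one hγ.ne (a - 1)
  have h5 := Pol.mul' (val_mem U) (val_mem Λ) (d := a) (funext fun i => by
    have := ha i; simp; omega)
  obtain ⟨s, h6, h7, h8⟩ := h.ord hγ 1 ha h5 fun j => Dv.an_mul (by
    have a1 := (analyticAt_val Λ _).comp (hγ.an j)
    refine (dv_iff_jet a1).2 (funext fun i => ?_)
    fin_cases i
    · simp [jet, hγ.zero, h3]
    · simp [jet, comp_def, deriv_comp_an (analyticAt_val _ _) (hγ.an j), hγ.zero, h4, h2])
    ((analyticAt_val U _).comp (hγ.an j))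
  obtain ⟨ν, hν⟩ := mem_Pol.1 (sub_mem h5 h6)
  refine ⟨ν, fun y hy => by simp [hν, h7 y hy], ?_⟩
  rw [hν, (((analyticAt_val U c).differentiableAt.hasFDerivAt.fun_mul
    (analyticAt_val Λ c).differentiableAt.hasFDerivAt).sub
      (Pol.an h6 c).differentiableAt.hasFDerivAt).fderiv]
  refine ContinuousLinearMap.ext fun v => ?_
  have a1 : AnalyticAt ℂ (fun t : ℂ => c + t • v) 0 := by fun_prop
  have := (h8 _ a1 (by simp)).deriv_eq_zero
  rw [deriv_comp_an (Pol.an h6 _) a1] at this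
  simpa [hU, h3, h4, deriv_smul_const] using this

/-- At a node some equation has vanishing differential and nondegenerate Hessian. -/
theorem cut_hess (h : IsCurve o g m C) (ha : ∀ i, 4 ≤ a i) (hγ : Loc o C c γ)
    (hn : γ true ≠ γ false) : ∃ μ : Tens M a, (∀ y ∈ C, val μ y = 0) ∧
      ∀ δ : ℂ → V M, AnalyticAt ℂ δ 0 → δ 0 = c → ∀ (x y : ℂ) (s : ι → ℂ),
        deriv δ 0 = x • deriv (γ true) 0 + y • deriv (γ false) 0 + s • c →
          Dv 3 fun t => val μ (δ t) - x * y * t ^ 2 := by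
  have h1 : ∀ j, ∃ μ : Tens M 1, val μ c = 0 ∧ (∀ s : ι → ℂ, fderiv ℂ (val μ) c (s • c) = 0) ∧
      fderiv ℂ (val μ) c (deriv (γ j) 0) = 1 ∧ fderiv ℂ (val μ) c (deriv (γ (!j)) 0) = 0 := by
    intro j
    obtain ⟨ℓ, hℓ⟩ := exists_dual_of_li (hγ.alt.resolve_left hn)
      (bif j then ![0, 1, 0] else ![0, 0, 1])
    obtain ⟨μ, h4, h5⟩ := exists_pol_fderiv hγ.ne (ℓ.toContinuousLinearMap.comp
      (ContinuousLinearMap.proj o)) fun s => by
        have := hℓ 0
        cases j <;> simp_all [Pi.smul_apply']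
    refine ⟨μ, h4, fun s => by rw [(val_mem μ |> Pol.euler) c s, h4, mul_zero], ?_⟩
    have := hℓ 1
    have := hℓ 2
    cases j <;> simp_all
  choose x h1 h2 h3 h4 using h1
  obtain ⟨U, hU⟩ := exists_pol_one hγ.ne (a - 2 • 1)
  have h5 := Pol.mul' (val_mem U) (Pol.mul (val_mem (x true)) (val_mem (x false))) (d := a)
    (funext fun i => by have := ha i; simp; omega)
  have h6 : ∀ j (δ : ℂ → V M), AnalyticAt ℂ δ 0 → δ 0 = c →
      Dv 2 fun t => val (x j) (δ t) - fderiv ℂ (val (x j)) c (deriv δ 0) * t := fun j δ a1 a2 => by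
    have a3 := (analyticAt_val (x j) _).comp a1
    refine (jet_eq_iff a3 (analyticAt_const.mul analyticAt_id)).1 (funext fun i => ?_)
    fin_cases i
    · simp [jet, a2, h1]
    · simp [jet, comp_def, deriv_comp_an (analyticAt_val _ _) a1, a2]
  have h7 : ∀ δ : ℂ → V M, AnalyticAt ℂ δ 0 → δ 0 = c → Dv 3 fun t => val U (δ t) *
      (val (x true) * val (x false)) (δ t) - fderiv ℂ (val (x true)) c (deriv δ 0) *
        fderiv ℂ (val (x false)) c (deriv δ 0) * t ^ 2 := fun δ a1 a2 => by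
    have d1 : ∀ j, Dv 1 fun t => val (x j) (δ t) := fun j =>
      .one ((analyticAt_val _ _).comp a1) (by simp [a2, h1])
    have d2 : Dv 1 fun t => val U (δ t) - 1 :=
      .one (((analyticAt_val _ _).comp a1).sub analyticAt_const) (by simp [a2, hU])
    have d3 : ∀ r : ℂ, Dv 1 fun t => r * t := fun r =>
      .one (analyticAt_const.mul analyticAt_id) (by simp)
    exact (((d2.mul ((d1 true).mul (d1 false))).add ((h6 true δ a1 a2).mul (d1 false))).add
      ((d3 (fderiv ℂ (val (x true)) c (deriv δ 0))).mul (h6 false δ a1 a2))).congr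
      (.of_forall fun t => by simp only [Pi.mul_apply]; ring)
  obtain ⟨s, h8, h9, h10⟩ := h.ord hγ 2 ha h5 fun j => (h7 _ (hγ.an j) (hγ.zero j)).congr
    (.of_forall fun t => by
      have := h4 true
      have := h4 false
      cases j <;> simp_all)
  obtain ⟨ν, hν⟩ := mem_Pol.1 (sub_mem h5 h8)
  refine ⟨ν, fun y hy => by simp [hν, h9 y hy], fun δ a1 a2 x' y' s' e =>
    ((h7 δ a1 a2).sub (h10 δ a1 a2)).congr (.of_forall fun t => ?_)⟩
  have e1 := h4 true
  have e2 := h4 false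
  simp only [Bool.not_true, Bool.not_false] at e1 e2
  simp only [hν, Pi.sub_apply, e, map_add, map_smul, h2, h3, e1, e2, smul_eq_mul]
  ring

end Vale.Agent.P269.IsCurve
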