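import Vale.Agent.P269.Base.OpenA
import Vale.Agent.P269.Base.Cut

/-!
# Openness of `IsCurve` in local families; moving evaluation points; analytic forms
-/

namespace Vale.Agent.P269.Base

open Set Function Topology Filter Holo Module

variable {ι : Type} [Fintype ι] {M : ι → ℕ} {a : ι → ℕ} {g : ℤ} {m : ι → ℤ} {o : ι}
  {T P : Type*} [TopologicalSpace T] [NormedAddCommGroup P] [NormedSpace ℂ P]
  [FiniteDimensional ℂ P] {C : T → Set (V M)} {π : T → P} {t₀ : T}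

theorem LocFam.exists_ev' (h : LocFam o C π t₀) (h0 : IsCurve o g m (C t₀)) (ha : a ≠ 0) {n : ℕ}
    (hn : (n : ℤ) = dg m a + 1 - g) {p : V M → Prop}
    (hp : ∀ c ∈ C t₀, ∃ᶠ y in 𝓝[C t₀] c, p y ∧ ¬IsNode o (C t₀) y) :
    ∃ y : Fin n → P → V M,
      (∀ k, AnalyticAt ℂ (y k) (π t₀) ∧ ¬IsNode o (C t₀) (y k (π t₀)) ∧ p (y k (π t₀))) ∧
      ∀ᶠ t in 𝓝 t₀, (∀ k, y k (π t) ∈ C t) ∧
        Surjective (fun (μ : Tens M a) k => val μ (y k (π t))) ∧
        ∀ s, IsSec o (C t) a s → (∀ k, s (y k (π t)) = 0) → ∀ c ∈ C t, s c = 0 := by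
  obtain ⟨z, h1, h2, h3⟩ := h0.exists_ev' ha hn hp
  obtain ⟨y, h4, h5⟩ := h.move_ev (fun k => ⟨(h1 k).1, (h1 k).2.2⟩) h2 fun s hs h4 c hc => by
    obtain ⟨μ, hμ⟩ := h0.normal a ha s hs
    exact (hμ c hc).trans (h3 μ (fun k => (hμ _ (h1 k).1).symm.trans (h4 k)) c hc)
  exact ⟨y, fun k => ⟨(h4 k).1, (h4 k).2 ▸ (h1 k).2.symm⟩, h5⟩

theorem LocFam.exists_ev (h : LocFam o C π t₀) (h0 : IsCurve o g m (C t₀)) (ha : a ≠ 0) {n : ℕ}
    (hn : (n : ℤ) = dg m a + 1 - g) :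
    ∃ y : Fin n → P → V M, (∀ k, AnalyticAt ℂ (y k) (π t₀) ∧ ¬IsNode o (C t₀) (y k (π t₀))) ∧
      ∀ᶠ t in 𝓝 t₀, (∀ k, y k (π t) ∈ C t) ∧
        Surjective (fun (μ : Tens M a) k => val μ (y k (π t))) ∧
        ∀ s, IsSec o (C t) a s → (∀ k, s (y k (π t)) = 0) → ∀ c ∈ C t, s c = 0 := by
  obtain ⟨y, h1, h2⟩ := h.exists_ev' h0 ha hn (p := fun _ => True) fun _ hc =>
    (h.nod.frequently_not_node (β := Empty) nofun hc).mono fun _ h => ⟨trivial, h.2⟩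
  exact ⟨y, fun k => ⟨(h1 k).1, (h1 k).2.1⟩, h2⟩

theorem LocFam.isCurve (h : LocFam o C π t₀) (h0 : IsCurve o g m (C t₀)) :
    ∀ᶠ t in 𝓝 t₀, IsCurve o g m (C t) := by
  classical
  have hne : ∀ j : ι, (Pi.single j 1 : ι → ℕ) ≠ 0 := fun j e => by simpa using congrFun e j
  have h1 : ∀ i, ∃ μ : Tens M (Pi.single i 1),
      ∀ c ∈ C t₀, val μ c = 0 → Simp o (C t₀) (val μ) c := fun i => by
    obtain ⟨μ, -, hμ, -⟩ := h.nod.exists_simp (b := Pi.single i 1) ⊤ (fun c hc h1 => by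
      obtain ⟨ζ, hζ⟩ := exists_lin_one (h0.ne_zero c hc)
      obtain ⟨μ, hμ⟩ := Pol.lin i (ζ i)
      exact absurd ((hζ i).symm.trans ((congrFun hμ c).symm.trans (h1 μ trivial))) one_ne_zero)
      (β := Empty) (y := nofun) nofun
    exact ⟨μ, hμ⟩
  choose l hl using h1
  have h2 : ∀ i, Nzd (C t₀) (val (l i)) := fun i =>
    nzd_of_simp h.nod (Pol.isSec (val_mem _)) (hl i)
  choose n z hz using fun i => (h2 i).exists_reps h.nod (Pol.isSec (o := o) (val_mem _))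
  have hs : ∀ i k, Simp o (C t₀) (val (l i)) (z i k) := fun i k =>
    hl i _ ((hz i).mem k) ((hz i).prop k)
  have hn : ∀ i, (n i : ℤ) = m i := fun i => by
    simpa [dg_single] using h0.card_simp (val_mem _) (hz i) (hs i)
  choose σ h3 h4 using fun i => h.zeros (lam := fun _ => l i) analyticAt_const (hz i) (hs i)
  have h5 : ∀ i j, ∀ᶠ t in 𝓝 t₀, Surjective
      fun (μ : Tens M (Pi.single j 1 + Pi.single i 1)) k => val μ (σ i k (π t, 0)) := fun i j =>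
    eventually_surj (fun k => (h3 i k).2.an.continuousAt.comp_of_eq
      (h.cont.self_of_nhds.prodMk continuousAt_const) rfl) fun v => by
        obtain ⟨_, ⟨μ, rfl⟩, h5, -⟩ :=
          h0.exists_val (hne j) (h2 i) (val_mem _) (hz i).mem (hz i).inj (hz i).prop v
        exact ⟨μ, funext fun k => (congrArg (val μ) (h3 i k).1).trans (h5 k)⟩
  have h6 : ∀ j, ∀ᶠ t in 𝓝 t₀, Deg o g m (C t) (Pi.single j 1) := fun j => by
    obtain ⟨y, -, h6⟩ := h.exists_ev h0 (hne j) (h0.finrank_Hs (hne j))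
    exact h6.mono fun t ht => deg_of_ev (h0.finrank_Hs (hne j)) ht.1 ht.2.1 ht.2.2
  filter_upwards [h.eventually, eventually_all.2 h4,
    eventually_all.2 fun i => eventually_all.2 (h5 i), eventually_all.2 h6] with t b1 b2 b3 b4
  exact b1.nod.isCurve b4 (fun i => val_mem (l i)) hn (fun i => (b2 i).1) (fun i => (b2 i).2) b3

theorem LocFam.exists_form (h : LocFam o C π t₀) (h0 : IsCurve o g m (C t₀)) (ha : a ≠ 0)
    {s : T → V M → ℂ} (hs : ∀ᶠ t in 𝓝 t₀, IsSec o (C t) a (s t)) {p : V M → Prop}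
    (hp : ∀ c ∈ C t₀, ∃ᶠ y in 𝓝[C t₀] c, p y ∧ ¬IsNode o (C t₀) y)
    (han : ∀ y : P → V M, AnalyticAt ℂ y (π t₀) → p (y (π t₀)) → (∀ᶠ t in 𝓝 t₀, y (π t) ∈ C t) →
      ∃ F : P → ℂ, AnalyticAt ℂ F (π t₀) ∧ ∀ᶠ t in 𝓝 t₀, s t (y (π t)) = F (π t)) :
    ∃ μ : P → Tens M a, AnalyticAt ℂ μ (π t₀) ∧
      ∀ᶠ t in 𝓝 t₀, ∀ c ∈ C t, s t c = val (μ (π t)) c := by
  obtain ⟨y, h1, h2⟩ := h.exists_ev' h0 ha (h0.finrank_Hs ha) hp
  choose F h3 h4 using fun k => han (y k) (h1 k).1 (h1 k).2.2 (h2.mono fun t ht => ht.1 k)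
  obtain ⟨i, hi⟩ := exists_rightInv (l := evP a fun k => y k (π t₀)) h2.self_of_nhds.2.1
  have h5 : AnalyticAt ℂ (fun q => (evP a fun k => y k q).comp i) (π t₀) :=
    an_comp ((analyticAt_evP _).comp (f := fun q k => y k q) (AnalyticAt.pi fun k => (h1 k).1))
      analyticAt_const
  have h6 : Bijective ((evP a fun k => y k (π t₀)).comp i) :=
    ⟨fun u v e => (hi u).symm.trans (e.trans (hi v)), fun u => ⟨u, hi u⟩⟩
  refine ⟨fun q => i (((evP a fun k => y k q).comp i).inverse fun k => F k q),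
    (i.analyticAt _).comp (an_apply ((analyticAt_clm_inverse h6).comp
      (f := fun q => (evP a fun k => y k q).comp i) h5) (AnalyticAt.pi h3)), ?_⟩
  filter_upwards [h2, hs, eventually_all.2 h4,
    h.cont.self_of_nhds.eventually (eventually_bijective h5.continuousAt h6)] with t b1 b2 b3 b4
  exact fun c hc => sub_eq_zero.1 (b1.2.2 _ (b2.sub (Pol.isSec (val_mem _))) (fun k =>
    sub_eq_zero.2 ((b3 k).trans (congrFun
      ((isInvertible_of_bijective b4).self_apply_inverse fun k => F k (π t)) k).symm)) c hc)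

end Vale.Agent.P269.Base
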