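import Vale.Agent.P269.Base.MerD

/-!
# Meromorphic sections on one curve
-/

namespace Vale.Agent.P269.Base

open Set Function Topology Filter Holo Module

set_option linter.unusedSectionVars false

variable {ι : Type} [Fintype ι] {M : ι → ℕ} {β β' κ : Type*} {o : ι} {C : Set (V M)} {c : V M}
  {χ χ' : ι → ℤ} {z : β → V M} {z' : β' → V M} {u u' : β → ℤ} {f f' e : V M → ℂ} {a b : ι → ℕ}
  {g : ℤ} {m : ι → ℤ}

theorem chz_ne_zero {s : ι → ℂ} (hs : ∀ i, s i ≠ 0) : chz χ s ≠ 0 :=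
  Finset.prod_ne_zero_iff.2 fun i _ => zpow_ne_zero _ (hs i)

theorem chz_add {s : ι → ℂ} (hs : ∀ i, s i ≠ 0) : chz (χ + χ') s = chz χ s * chz χ' s := by
  simp only [chz, Pi.add_apply, ← Finset.prod_mul_distrib]
  exact Finset.prod_congr rfl fun i _ => zpow_add₀ (hs i) _ _

theorem chz_neg (s : ι → ℂ) : chz (-χ) s = (chz χ s)⁻¹ := by simp [chz]

theorem chz_smul (n : ℤ) (s : ι → ℂ) : chz (n • χ) s = chz χ s ^ n := by
  simp only [chz, Pi.smul_apply, smul_eq_mul, ← Finset.prod_zpow]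
  exact Finset.prod_congr rfl fun i _ => by rw [mul_comm, zpow_mul]

theorem chz_nat (s : ι → ℂ) : chz (fun i => (a i : ℤ)) s = chr a s := by simp [chz, chr]

theorem chz_mul (s s' : ι → ℂ) : chz χ (s * s') = chz χ s * chz χ s' := by
  simp [chz, mul_zpow, Finset.prod_mul_distrib]

@[simp] theorem chz_one : chz χ (1 : ι → ℂ) = 1 := by simp [chz]

@[simp] theorem chz_zero (s : ι → ℂ) : chz (0 : ι → ℤ) s = 1 := by simp [chz]

theorem analyticAt_chz {s : ι → ℂ} (hs : ∀ i, s i ≠ 0) : AnalyticAt ℂ (chz χ) s :=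
  Finset.analyticAt_fun_prod _ fun i _ =>
    ((ContinuousLinearMap.proj i : (ι → ℂ) →L[ℂ] ℂ).analyticAt _).zpow (hs i)

theorem chz_zpow {x : ℂ} (hx : x ≠ 0) (v : ι → ℤ) : chz χ (fun i => x ^ v i) = x ^ dgz v χ := by
  classical
  unfold chz dgz
  induction (Finset.univ : Finset ι) using Finset.induction_on with
  | empty => simp
  | insert i S hi ih =>
    rw [Finset.prod_insert hi, Finset.sum_insert hi, ih, zpow_add₀ hx, mul_comm (χ i), zpow_mul]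

theorem dgz_add : dgz m (χ + χ') = dgz m χ + dgz m χ' := by
  simp [dgz, add_mul, Finset.sum_add_distrib]

theorem dgz_neg : dgz m (-χ) = -dgz m χ := by simp [dgz]

theorem dgz_smul (n : ℤ) : dgz m (n • χ) = n * dgz m χ := by
  simp [dgz, Finset.mul_sum, mul_assoc]

theorem dgz_nat : dgz m (fun i => (a i : ℤ)) = dg m a := rfl

theorem off_sum : Off (Sum.elim z z') c ↔ Off z c ∧ Off z' c := Sum.forall

theorem Off.orb (h : Off z c) {y : V M} (hy : Orb c y) : Off z y :=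
  fun k hk => h k (hk.trans hy.symm)

theorem Off.eventually [Finite β] (h : Off z c) (hc : ∀ i, c i ≠ 0) :
    ∀ᶠ y in 𝓝 c, Off z y := by
  refine eventually_all.2 fun k => ?_
  by_cases hk : ∀ i, z k i ≠ 0
  · exact ev_not_orb tendsto_const_nhds tendsto_id hk hc (h k)
  · push Not at hk
    obtain ⟨i, hi⟩ := hk
    filter_upwards [(continuous_apply i).continuousAt.eventually_ne (hc i)] with y hy ⟨s, _, e⟩
    exact hy (by rw [e, Pi.smul_apply', hi, smul_zero])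

namespace Vz

variable {w w' : ℤ} {p q : ℂ → ℂ} {x y : ℂ}

theorem unique (h : Vz w p x) (h' : Vz w p y) : x = y := by
  obtain ⟨r, h1, rfl, h2⟩ := h
  obtain ⟨r', h1', rfl, h2'⟩ := h'
  refine tendsto_nhds_unique_of_eventuallyEq (l := 𝓝[≠] 0)
    (h1.continuousAt.tendsto.mono_left nhdsWithin_le_nhds)
    (h1'.continuousAt.tendsto.mono_left nhdsWithin_le_nhds) ?_
  filter_upwards [h2, h2', self_mem_nhdsWithin] with t e1 e2 ht
  exact mul_left_cancel₀ (zpow_ne_zero w ht) (e1.symm.trans e2)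

theorem congr (h : Vz w p x) (e : ∀ᶠ t in 𝓝[≠] (0 : ℂ), p t = q t) : Vz w q x := by
  obtain ⟨r, h1, h2, h3⟩ := h
  exact ⟨r, h1, h2, (h3.and e).mono fun t ht => ht.2 ▸ ht.1⟩

theorem of_an (h : AnalyticAt ℂ p 0) : Vz 0 p (p 0) :=
  ⟨p, h, rfl, .of_forall fun t => by simp⟩

theorem mul (h : Vz w p x) (h' : Vz w' q y) : Vz (w + w') (fun t => p t * q t) (x * y) := by
  obtain ⟨r, h1, rfl, h2⟩ := h
  obtain ⟨r', h1', rfl, h2'⟩ := h'
  refine ⟨fun t => r t * r' t, h1.mul h1', rfl, ?_⟩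
  filter_upwards [h2, h2', self_mem_nhdsWithin] with t e1 e2 ht
  rw [e1, e2, zpow_add₀ ht]
  ring

theorem add (h : Vz w p x) (h' : Vz w q y) : Vz w (fun t => p t + q t) (x + y) := by
  obtain ⟨r, h1, rfl, h2⟩ := h
  obtain ⟨r', h1', rfl, h2'⟩ := h'
  refine ⟨fun t => r t + r' t, h1.add h1', rfl, ?_⟩
  filter_upwards [h2, h2'] with t e1 e2
  rw [e1, e2, mul_add]

theorem inv (h : Vz w p x) (h0 : x ≠ 0) : Vz (-w) (fun t => (p t)⁻¹) x⁻¹ := by
  obtain ⟨r, h1, rfl, h2⟩ := h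
  refine ⟨fun t => (r t)⁻¹, h1.inv h0, rfl, h2.mono fun t e1 => ?_⟩
  simp only [e1, mul_inv, zpow_neg]

theorem an_mul (h : Vz w p x) (h' : AnalyticAt ℂ q 0) : Vz w (fun t => q t * p t) (q 0 * x) := by
  simpa only [zero_add] using (of_an h').mul h

theorem const_mul (h : Vz w p x) (y : ℂ) : Vz w (fun t => y * p t) (y * x) :=
  h.an_mul (q := fun _ => y) analyticAt_const

theorem of_add (n : ℕ) (h : Vz (w + n) p x) : Vz w p (0 ^ n * x) := by
  obtain ⟨r, h1, rfl, h2⟩ := h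
  refine ⟨fun t => t ^ n * r t, (analyticAt_id.pow n).mul h1, rfl, ?_⟩
  filter_upwards [h2, self_mem_nhdsWithin] with t e1 ht
  rw [e1, zpow_add₀ ht, zpow_natCast, mul_assoc]

theorem mono (h : Vz w p x) (hw : w' ≤ w) : ∃ y, Vz w' p y := by
  obtain ⟨n, rfl⟩ := Int.le.dest hw
  exact ⟨_, h.of_add n⟩

theorem lt (h : Vz w p x) (hw : w' < w) : Vz w' p 0 := by
  obtain ⟨n, rfl⟩ := Int.lt.dest hw
  simpa using of_add (n + 1) h

theorem succ (h : Vz w p 0) : ∃ y, Vz (w + 1) p y := by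
  obtain ⟨r, h1, h0, h2⟩ := h
  obtain ⟨v, h3, h4⟩ := Dv.one h1 h0
  refine ⟨_, v, h3, rfl, ?_⟩
  filter_upwards [h2, self_mem_nhdsWithin, mem_nhdsWithin_of_mem_nhds h4] with t e1 ht e2
  rw [e1, e2, zpow_add_one₀ ht, pow_one, mul_assoc]

theorem comp (h : Vz w p x) {φ : ℂ → ℂ} (hφ : AnalyticAt ℂ φ 0) (h0 : φ 0 = 0)
    (hd : deriv φ 0 ≠ 0) : Vz w (fun t => p (φ t)) (deriv φ 0 ^ w * x) := by
  obtain ⟨r, h1, rfl, h2⟩ := h
  have h3 : AnalyticAt ℂ (dslope φ 0) 0 := by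
    obtain ⟨_, hp⟩ := hφ
    exact ⟨_, hp.has_fpower_series_dslope_fslope⟩
  have h4 : ∀ t, φ t = t * dslope φ 0 t := fun t => by
    simpa [h0] using (sub_smul_dslope φ 0 t).symm
  have h5 : dslope φ 0 0 ≠ 0 := by rwa [dslope_same]
  have h6 : Tendsto φ (𝓝[≠] 0) (𝓝[≠] 0) := by
    refine tendsto_nhdsWithin_iff.2 ⟨tendsto_nhdsWithin_of_tendsto_nhds
      (by simpa [h0] using hφ.continuousAt.tendsto), ?_⟩
    filter_upwards [self_mem_nhdsWithin,
      mem_nhdsWithin_of_mem_nhds (h3.continuousAt.eventually_ne h5)] with t ht e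
    exact ne_of_eq_of_ne (h4 t) (mul_ne_zero ht e)
  refine ⟨fun t => dslope φ 0 t ^ w * r (φ t), (h3.zpow h5).mul (h1.comp_of_eq hφ h0),
    by simp only [dslope_same, h0], (h6.eventually h2).mono fun t e => ?_⟩
  beta_reduce
  rw [e, ← mul_assoc, ← mul_zpow, ← h4]

theorem eventually_ne (h : Vz w p x) (h0 : x ≠ 0) : ∀ᶠ t in 𝓝[≠] (0 : ℂ), p t ≠ 0 := by
  obtain ⟨r, h1, rfl, h2⟩ := h
  filter_upwards [h2, self_mem_nhdsWithin,
    mem_nhdsWithin_of_mem_nhds (h1.continuousAt.eventually_ne h0)] with t e1 ht e2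
  exact ne_of_eq_of_ne e1 (mul_ne_zero (zpow_ne_zero _ ht) e2)

theorem ev_of_an {n : ℕ} {r : ℂ → ℂ} (ha : AnalyticAt ℂ p 0) (hr : AnalyticAt ℂ r 0)
    (h : ∀ᶠ t in 𝓝[≠] (0 : ℂ), p t = t ^ (n : ℤ) * r t) : ∀ᶠ t in 𝓝 (0 : ℂ), p t = t ^ n * r t :=
  (ha.frequently_eq_iff_eventually_eq ((analyticAt_id.pow n).mul hr)).1
    (h.mono fun t e => by simpa using e).frequently

theorem dv {n : ℕ} (h : Vz n p x) (ha : AnalyticAt ℂ p 0) : Dv n p := by
  obtain ⟨r, h1, -, h2⟩ := h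
  exact ⟨r, h1, ev_of_an ha h1 h2⟩

theorem of_dv {n : ℕ} (h : Dv n p) : ∃ x, Vz n p x := by
  obtain ⟨r, h1, h2⟩ := h
  exact ⟨_, r, h1, rfl, (h2.filter_mono nhdsWithin_le_nhds).mono fun t e => by simpa using e⟩

theorem order {n : ℕ} (ha : AnalyticAt ℂ p 0) :
    analyticOrderAt p 0 = n ↔ ∃ x ≠ 0, Vz n p x := by
  rw [ha.analyticOrderAt_eq_natCast]
  constructor
  · rintro ⟨r, h1, h2, h3⟩
    exact ⟨_, h2, r, h1, rfl, (h3.filter_mono nhdsWithin_le_nhds).mono fun t e => by simpa using e⟩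
  · rintro ⟨_, h0, r, h1, rfl, h2⟩
    exact ⟨r, h1, h0, (ev_of_an ha h1 h2).mono fun t e => by simpa using e⟩

/-- A function of order `0` with the right value at `0` is holomorphic. -/
theorem an (h : Vz 0 p (p 0)) : AnalyticAt ℂ p 0 := by
  obtain ⟨r, h1, h2, h3⟩ := h
  refine h1.congr ((eventually_nhdsWithin_iff.1 h3).mono fun t e => ?_)
  by_cases ht : t = 0
  · rw [ht, h2]
  · simpa using (e ht).symm

end Vz

theorem Spt.sum (h : Spt o C z) (h' : Spt o C z') (hz : ∀ k, Off z (z' k)) :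
    Spt o C (Sum.elim z z') := by
  refine ⟨Sum.rec h.mem h'.mem, Sum.rec h.sm h'.sm, ?_⟩
  rintro (k | k) (k' | k') e
  exacts [congrArg _ (h.inj k k' e), absurd e (hz k' k), absurd e.symm (hz k k'),
    congrArg _ (h'.inj k k' e)]

/-- Along a branch the nearby points are off the special orbits. -/
theorem _root_.Vale.Agent.P269.IsBranch.eventually_off [Finite β] {γ : ℂ → V M}
    (h : IsBranch o C γ) (hC : Nod o C) : ∀ᶠ t in 𝓝[≠] (0 : ℂ), Off z (γ t) := by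
  have hne := hC.ne_zero _ h.mem.self_of_nhds
  refine eventually_all.2 fun k => ?_
  by_cases hk : Orb (z k) (γ 0)
  · obtain ⟨ρ, -, h2⟩ := exists_retr (o := o) h.holo hne
      fun e s hs => (li_pair_iff.1 h.imm).2 e s (by rwa [fderiv_eq_smul] at hs)
    obtain ⟨ζ, hζ⟩ := exists_lin_one hne
    have c1 : Tendsto (fun t => (fun i => (ζ i (γ t i))⁻¹, t)) (𝓝 0) (𝓝 (1, 0)) := by
      refine Tendsto.prodMk_nhds (tendsto_pi_nhds.2 fun i => ?_) tendsto_id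
      simpa [hζ] using (((ζ i).continuous.continuousAt.comp
        ((continuous_apply i).continuousAt.comp h.holo.continuousAt)).tendsto.inv₀ (by simp [hζ]))
    filter_upwards [mem_nhdsWithin_of_mem_nhds (c1.eventually h2), self_mem_nhdsWithin]
      with t h7 ht h6
    obtain ⟨r, hr, e⟩ := hk.symm.trans h6
    have e1 : (fun i => (ζ i (γ t i))⁻¹) • γ t = γ 0 := funext fun i => by
      simp [e, Pi.smul_apply', hζ, smul_smul, hr i]
    have e2 := h2.self_of_nhds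
    simp only [one_smul] at e2
    simp only [e1, e2] at h7
    exact ht (congrArg Prod.snd h7).symm
  · exact ((h.holo.continuousAt.tendsto.eventually (Off.eventually (z := fun _ : Unit => z k)
      (fun _ => hk) hne)).filter_mono nhdsWithin_le_nhds).mono fun t ht => ht ()

/-- At a smooth point the order and the leading coefficient do not depend on the branch. -/
theorem Nod.vz (hC : Nod o C)
    (hom : ∀ s : ι → ℂ, (∀ i, s i ≠ 0) → ∀ c ∈ C, f (s • c) = chz χ s * f c) {γ δ : ℂ → V M}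
    (hγ : IsBranch o C γ) (hδ : IsBranch o C δ) (hn : ¬IsNode o C (δ 0)) {s : ι → ℂ}
    (hs : ∀ i, s i ≠ 0) (h0 : δ 0 = s • γ 0) : ∃ r : ℂ, r ≠ 0 ∧ ∀ w x,
      Vz w (fun t => f (γ t)) x → Vz w (fun t => f (δ t)) (chz χ s * (r ^ w * x)) := by
  obtain ⟨j, s', ψ, e1, e2, e3, e4, e5, e6, -⟩ :=
    (hC.loc_of_branch (hγ.smul hC hs) (h0 ▸ hn)).reparam hδ h0
  refine ⟨_, e5, fun w x hx => ?_⟩
  have t1 : Tendsto ψ (𝓝 0) (𝓝 0) := by simpa [e4] using e2.continuousAt.tendsto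
  have a1 : AnalyticAt ℂ (fun t => chz χ (s' t)) 0 :=
    (analyticAt_chz (s := 1) fun _ => one_ne_zero).comp_of_eq e1 e3
  have := ((hx.comp e2 e4 e5).const_mul (chz χ s)).an_mul a1
  rw [e3, chz_one, one_mul] at this
  refine this.congr (mem_nhdsWithin_of_mem_nhds ?_)
  filter_upwards [e6, t1.eventually hγ.mem, eventually_all.2 fun i =>
    (continuousAt_pi.1 e1.continuousAt i).eventually_ne (y := 0) (by simp [e3])] with t k1 k2 k3
  rw [k1, hom _ k3 _ (hC.cone s hs _ k2), hom s hs _ k2]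

namespace Mer

theorem hol (h : Mer o C χ z u f) (hC : Nod o C) (hc : c ∈ C) (ho : Off z c) :
    ∃ q, AnalyticAt ℂ q c ∧ ∀ᶠ y in 𝓝[C] c, f y = q y := by
  obtain ⟨γ, hγ⟩ := hC.exists_loc hc
  obtain ⟨q, h1, h2⟩ := hγ.ext₂ (q := fun j t => f (γ j t))
    (fun j => h.reg _ (hγ.br j) ((hγ.zero j).symm ▸ ho)) (by simp only [hγ.zero])
    (fun e => by rw [e]) (analyticAt_chz (χ := χ) (s := 1) fun _ => one_ne_zero)
  refine ⟨q, h1, hγ.ev _ fun j => ?_⟩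
  filter_upwards [h2 j, ev_ne_one, continuousAt_snd.tendsto.eventually (hγ.br j).mem]
    with w e1 e2 e3
  rw [e1, h.hom _ e2 _ e3, smul_eq_mul]

/-- It is enough to test one branch at each special point. -/
theorem of_loc (hC : Nod o C) (hz : Spt o C z)
    (hom : ∀ s : ι → ℂ, (∀ i, s i ≠ 0) → ∀ c ∈ C, f (s • c) = chz χ s * f c)
    (reg : ∀ c ∈ C, Off z c → ∃ c', Orb c' c ∧ ∃ q, AnalyticAt ℂ q c' ∧ ∀ᶠ y in 𝓝[C] c', f y = q y)
    (ord : ∀ k, ∃ γ, IsBranch o C γ ∧ Orb (z k) (γ 0) ∧ ∃ x, Vz (u k) (fun t => f (γ t)) x) :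
    Mer o C χ z u f := by
  refine ⟨hom, fun γ hγ ho => ?_, fun k δ hδ hk => ?_⟩
  · obtain ⟨c', h1, q, h2, h3⟩ := reg _ hγ.mem.self_of_nhds ho
    obtain ⟨s, hs, rfl⟩ := h1.symm
    have h4 := hγ.smul hC hs
    refine ((analyticAt_const (v := (chz χ s)⁻¹)).mul (h2.comp_of_eq h4.holo rfl)).congr ?_
    filter_upwards [h4.tendsto.eventually h3, hγ.mem] with t e1 e2
    rw [Pi.mul_apply, comp_apply, ← e1, hom s hs _ e2, inv_mul_cancel_left₀ (chz_ne_zero hs)]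
  · obtain ⟨γ, hγ, h1, x, hx⟩ := ord k
    obtain ⟨s, hs, h0⟩ := h1.symm.trans hk
    obtain ⟨r, -, h2⟩ := hC.vz hom hγ hδ (fun hn => hz.sm k (hC.isNode_orb hn hk.symm)) hs h0
    exact ⟨_, h2 _ _ hx⟩

theorem triv (h : Mer o C χ z u f) (hC : Nod o C) (hz : Spt o C z)
    (ne : ∀ c ∈ C, Off z c → f c ≠ 0)
    (ex : ∀ k, ∃ γ, IsBranch o C γ ∧ Orb (z k) (γ 0) ∧ ∃ x ≠ 0, Vz (u k) (fun t => f (γ t)) x) :
    Triv o C χ z u f := by
  refine ⟨h, ne, fun k δ y hδ hk hy => ?_⟩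
  obtain ⟨γ, hγ, h1, x, h3, hx⟩ := ex k
  obtain ⟨s, hs, h0⟩ := h1.symm.trans hk
  obtain ⟨r, hr, h2⟩ := hC.vz h.hom hγ hδ (fun hn => hz.sm k (hC.isNode_orb hn hk.symm)) hs h0
  exact ne_of_eq_of_ne (hy.unique (h2 _ _ hx))
    (mul_ne_zero (chz_ne_zero hs) (mul_ne_zero (zpow_ne_zero _ hr) h3))

theorem congr [Finite β] (h : Mer o C χ z u f) (hC : Nod o C)
    (hom : ∀ s : ι → ℂ, (∀ i, s i ≠ 0) → ∀ c ∈ C, f' (s • c) = chz χ s * f' c)
    (e : ∀ c ∈ C, Off z c → f' c = f c) : Mer o C χ z u f' := by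
  refine ⟨hom, fun γ hγ ho => (h.reg γ hγ ho).congr ?_, fun k γ hγ hk =>
    (h.ord k γ hγ hk).imp fun x hx => hx.congr ?_⟩
  · filter_upwards [hγ.mem, hγ.holo.continuousAt.tendsto.eventually
      (ho.eventually (hC.ne_zero _ hγ.mem.self_of_nhds))] with t e1 e2
    exact (e _ e1 e2).symm
  · filter_upwards [mem_nhdsWithin_of_mem_nhds hγ.mem, hγ.eventually_off (z := z) hC] with t e1 e2
    exact (e _ e1 e2).symm

theorem orb {y : β → V M} (h : Mer o C χ z u f) (hy : ∀ k, Orb (z k) (y k)) : Mer o C χ y u f :=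
  ⟨h.hom, fun γ hγ ho => h.reg γ hγ fun k hk => ho k ((hy k).symm.trans hk),
    fun k γ hγ hk => h.ord k γ hγ ((hy k).trans hk)⟩

theorem mul (h : Mer o C χ z u f) (h' : Mer o C χ' z u' f') :
    Mer o C (χ + χ') z (u + u') fun c => f c * f' c := by
  refine ⟨fun s hs c hc => ?_, fun γ hγ ho => (h.reg γ hγ ho).mul (h'.reg γ hγ ho),
    fun k γ hγ hk => ?_⟩
  · rw [h.hom s hs c hc, h'.hom s hs c hc, chz_add hs]
    ring
  · obtain ⟨x, hx⟩ := h.ord k γ hγ hk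
    obtain ⟨y, hy⟩ := h'.ord k γ hγ hk
    exact ⟨_, hx.mul hy⟩

theorem add (h : Mer o C χ z u f) (h' : Mer o C χ z u f') :
    Mer o C χ z u fun c => f c + f' c := by
  refine ⟨fun s hs c hc => ?_, fun γ hγ ho => (h.reg γ hγ ho).add (h'.reg γ hγ ho),
    fun k γ hγ hk => ?_⟩
  · rw [h.hom s hs c hc, h'.hom s hs c hc, mul_add]
  · obtain ⟨x, hx⟩ := h.ord k γ hγ hk
    obtain ⟨y, hy⟩ := h'.ord k γ hγ hk
    exact ⟨_, hx.add hy⟩

theorem smul (h : Mer o C χ z u f) (x : ℂ) : Mer o C χ z u fun c => x * f c :=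
  ⟨fun s hs c hc => by rw [h.hom s hs c hc, mul_left_comm],
    fun γ hγ ho => analyticAt_const.mul (h.reg γ hγ ho),
    fun k γ hγ hk => (h.ord k γ hγ hk).elim fun _ hy => ⟨_, hy.const_mul x⟩⟩

theorem sub (h : Mer o C χ z u f) (h' : Mer o C χ z u f') :
    Mer o C χ z u fun c => f c - f' c := by
  simpa only [neg_one_mul, ← sub_eq_add_neg] using h.add (h'.smul (-1))

theorem zero : Mer o C χ z u fun _ => 0 :=
  ⟨fun _ _ _ _ => (mul_zero _).symm, fun _ _ _ => analyticAt_const,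
    fun _ _ _ _ => ⟨0, fun _ => 0, analyticAt_const, rfl, .of_forall fun _ => (mul_zero _).symm⟩⟩

theorem sum (S : Finset κ) {F : κ → V M → ℂ} (h : ∀ i ∈ S, Mer o C χ z u (F i)) :
    Mer o C χ z u fun c => ∑ i ∈ S, F i c := by
  classical
  induction S using Finset.induction_on with
  | empty => simpa using zero
  | insert i S hi ih =>
    simp only [Finset.sum_insert hi]
    exact (h i (by simp)).add (ih fun j hj => h j (by simp [hj]))

theorem mono (h : Mer o C χ z u f) (hu : u' ≤ u) : Mer o C χ z u' f :=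
  ⟨h.hom, h.reg, fun k γ hγ hk => (h.ord k γ hγ hk).elim fun _ hx => hx.mono (hu k)⟩

theorem cast (h : Mer o C χ z u f) (h1 : χ = χ') (h2 : u = u') : Mer o C χ' z u' f :=
  h1 ▸ h2 ▸ h

/-- More special points. -/
theorem ext (h : Mer o C χ z u f) (hz : ∀ k, Off z (z' k)) :
    Mer o C χ (Sum.elim z z') (Sum.elim u 0) f := by
  refine ⟨h.hom, fun γ hγ ho => h.reg γ hγ (off_sum.1 ho).1, ?_⟩
  rintro (k | k) γ hγ hk
  exacts [h.ord k γ hγ hk, ⟨_, Vz.of_an (h.reg γ hγ ((hz k).orb hk))⟩]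

/-- Removable singularities. -/
theorem remove [Finite β] [Finite β'] {w : β' → ℤ}
    (h : Mer o C χ (Sum.elim z z') (Sum.elim u w) f) (hC : Nod o C)
    (hz : Spt o C (Sum.elim z z')) (hw : 0 ≤ w) :
    ∃ f', Mer o C χ z u f' ∧ (∀ c, Off z' c → f' c = f c) ∧
      ∀ k γ, IsBranch o C γ → Orb (z' k) (γ 0) → Vz 0 (fun t => f (γ t)) (f' (γ 0)) := by
  classical
  have h1 : ∀ k, ∃ γ x, IsBranch o C γ ∧ γ 0 = z' k ∧ Vz 0 (fun t => f (γ t)) x := fun k => by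
    obtain ⟨γ, hγ⟩ := hC.exists_loc (hz.mem (.inr k))
    obtain ⟨x, hx⟩ := h.ord (.inr k) _ (hγ.br true) ((hγ.zero true).symm ▸ Orb.refl _)
    obtain ⟨y, hy⟩ := hx.mono (hw k)
    exact ⟨_, y, hγ.br true, hγ.zero true, hy⟩
  choose γ x h2 h3 h4 using h1
  obtain ⟨F, hF, hF'⟩ : ∃ F : V M → ℂ, (∀ c, Off z' c → F c = f c) ∧
      ∀ k s, (∀ i, s i ≠ 0) → F (s • z' k) = chz χ s * x k := by
    refine ⟨fun c => if H : ∃ p : β' × (ι → ℂ), (∀ i, p.2 i ≠ 0) ∧ c = p.2 • z' p.1 then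
      chz χ H.choose.2 * x H.choose.1 else f c, fun c hc => dif_neg fun ⟨p, hp⟩ => hc p.1 ⟨p.2, hp⟩,
      fun k s hs => ?_⟩
    have H : ∃ p : β' × (ι → ℂ), (∀ i, p.2 i ≠ 0) ∧ s • z' k = p.2 • z' p.1 := ⟨(k, s), hs, rfl⟩
    simp only [dif_pos H]
    obtain ⟨e1, e2⟩ := H.choose_spec
    have e3 : H.choose.1 = k := Sum.inr_injective (hz.inj (.inr _) (.inr k)
      (Orb.trans ⟨_, e1, e2⟩ (Orb.symm ⟨s, hs, rfl⟩)))
    rw [e3] at e2 ⊢
    rw [show H.choose.2 = s from funext fun i => (smul_left_injective ℂ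
      (hC.ne_zero _ (hz.mem (.inr k)) i) (congrFun e2 i)).symm]
  have h5 : ∀ k δ, IsBranch o C δ → Orb (z' k) (δ 0) → Vz 0 (fun t => f (δ t)) (F (δ 0)) := by
    intro k δ hδ hk
    obtain ⟨s, hs, h0⟩ := hk
    obtain ⟨r, -, h6⟩ := hC.vz h.hom (h2 k) hδ (fun hn => hz.sm (.inr k)
      (hC.isNode_orb hn (Orb.symm ⟨s, hs, h0⟩))) hs (by rw [h3, h0])
    simpa only [zpow_zero, one_mul, h0, hF' k s hs] using h6 _ _ (h4 k)
  have h6 : ∀ δ, IsBranch o C δ → ∀ᶠ t in 𝓝[≠] (0 : ℂ), f (δ t) = F (δ t) := fun δ hδ =>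
    (hδ.eventually_off (z := z') hC).mono fun t ht => (hF _ ht).symm
  refine ⟨F, ⟨fun s hs c hc => ?_, fun δ hδ ho => Vz.an (Vz.congr ?_ (h6 δ hδ)),
    fun k δ hδ hk => (h.ord (.inl k) δ hδ hk).imp fun _ hx => hx.congr (h6 δ hδ)⟩, hF, h5⟩
  · by_cases h0 : Off z' c
    · rw [hF _ h0, hF _ (h0.orb ⟨s, hs, rfl⟩), h.hom s hs c hc]
    · obtain ⟨k, s', hs', rfl⟩ : ∃ k, Orb (z' k) c := by simpa [Off] using h0
      rw [smul_smul, hF' k s' hs', hF' k (s * s') fun i => mul_ne_zero (hs i) (hs' i), chz_mul,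
        mul_assoc]
  · by_cases h0 : Off z' (δ 0)
    · rw [hF _ h0]
      exact Vz.of_an (h.reg δ hδ (off_sum.2 ⟨ho, h0⟩))
    · obtain ⟨k, hk⟩ : ∃ k, Orb (z' k) (δ 0) := by simpa [Off] using h0
      exact h5 k δ hδ hk

theorem of_isSec (h : IsSec o C a f) : Mer o C (fun i => a i) z 0 f :=
  ⟨fun s hs c hc => by rw [chz_nat, h.hm s hs c hc], fun γ hγ _ => h.holo γ hγ,
    fun _ γ hγ _ => ⟨_, Vz.of_an (h.holo γ hγ)⟩⟩

theorem of_dv (h : IsSec o C a f) (hC : Nod o C) (hz : Spt o C z) {n : β → ℕ}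
    (hn : ∀ k, ∃ γ, IsBranch o C γ ∧ Orb (z k) (γ 0) ∧ Dv (n k) fun t => f (γ t)) :
    Mer o C (fun i => a i) z (fun k => n k) f :=
  of_loc hC hz (of_isSec (z := z) h).hom (fun c hc _ => ⟨c, .refl c, h.hol hC hc⟩)
    fun k => (hn k).imp fun _ hγ => ⟨hγ.1, hγ.2.1, Vz.of_dv hγ.2.2⟩

theorem isSec [Finite β] (h : Mer o C (fun i => a i) z u f) (hC : Nod o C) (hz : Spt o C z)
    (hu : 0 ≤ u) : ∃ s, IsSec o C a s ∧ (∀ c, Off z c → s c = f c) ∧
      ∀ k γ, IsBranch o C γ → Orb (z k) (γ 0) → Dv (u k).toNat fun t => s (γ t) := by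
  obtain ⟨s, h1, h2, -⟩ := remove (z := (nofun : Empty → V M)) (u := nofun) (z' := z) (w := u)
    ⟨h.hom, fun γ hγ ho => h.reg γ hγ (off_sum.1 ho).2, Sum.rec nofun h.ord⟩ hC
    (Spt.sum ⟨nofun, nofun, nofun⟩ hz fun _ => nofun) hu
  have h3 : IsSec o C a s := isSec_of_hol (fun t ht c hc => by rw [h1.hom t ht c hc, chz_nat])
    fun c hc => h1.hol hC hc nofun
  refine ⟨s, h3, h2, fun k γ hγ hk => ?_⟩
  obtain ⟨x, hx⟩ := h.ord k γ hγ hk
  rw [← Int.toNat_of_nonneg (hu k)] at hx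
  exact (hx.congr ((hγ.eventually_off (z := z) hC).mono fun t ht => (h2 _ ht).symm)).dv
    (h3.holo γ hγ)

/-- Sections without poles are polynomial. -/
theorem pol [Finite β] (h : Mer o C (fun i => a i) z u f) (hC : IsCurve o g m C) (ha : a ≠ 0)
    (hz : Spt o C z) (hu : 0 ≤ u) : ∃ μ : Tens M a, (∀ c ∈ C, Off z c → val μ c = f c) ∧
      ∀ k γ, IsBranch o C γ → Orb (z k) (γ 0) → Dv (u k).toNat fun t => val μ (γ t) := by
  obtain ⟨s, h1, h2, h3⟩ := h.isSec hC.nod hz hu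
  obtain ⟨μ, hμ⟩ := hC.normal a ha s h1
  exact ⟨μ, fun c hc ho => (hμ c hc).symm.trans (h2 c ho),
    fun k γ hγ hk => (h3 k γ hγ hk).congr (hγ.mem.mono fun t ht => hμ _ ht)⟩

/-- The identity principle. -/
theorem eq_of_off [Finite β] [Finite β'] (h : Mer o C χ z u f) (h' : Mer o C χ' z u' f')
    (hC : Nod o C) (e : ∀ c ∈ C, Off z c → Off z' c → f c = f' c) :
    ∀ c ∈ C, Off z c → f c = f' c := fun c hc ho => by
  obtain ⟨γ, hγ⟩ := hC.exists_loc hc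
  have h1 := hγ.br true
  rw [← hγ.zero true] at ho ⊢
  refine ((Vz.of_an (h.reg _ h1 ho)).congr ?_).unique (Vz.of_an (h'.reg _ h1 ho))
  filter_upwards [mem_nhdsWithin_of_mem_nhds h1.mem, h1.eventually_off (z := z) hC,
    h1.eventually_off (z := z') hC] with t e1 e2 e3
  exact e _ e1 e2 e3

end Mer

end Vale.Agent.P269.Base
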