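import Vale.Agent.P269.Base.VDef
import Vale.Agent.P269.Base.MerA

/-!
# Extension of sections across punctures
-/

namespace Vale.Agent.P269.Base

open Set Function Topology Filter Holo

variable {ι : Type} [Fintype ι] {M : ι → ℕ} {o : ι} {a : ι → ℕ} {C : Set (V M)}

theorem tendsto_punct {φ : ℂ → ℂ} (hφ : AnalyticAt ℂ φ 0) (h0 : φ 0 = 0) (hd : deriv φ 0 ≠ 0) :
    Tendsto φ (𝓝[≠] 0) (𝓝[≠] 0) := by
  refine tendsto_nhdsWithin_iff.2 ⟨tendsto_nhdsWithin_of_tendsto_nhds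
    (by simpa [h0] using hφ.continuousAt.tendsto), ?_⟩
  exact hφ.differentiableAt.hasDerivAt.eventually_ne hd |>.mono fun t ht => h0 ▸ ht

/-- A homogeneous function that is holomorphic along all branches is a section. -/
theorem Nod.isSec_of_holo (hC : Nod o C) {f : V M → ℂ} (h : Hom C a f)
    (hf : ∀ γ, IsBranch o C γ → AnalyticAt ℂ (fun t => f (γ t)) 0) : IsSec o C a f :=
  isSec_of_hol h fun c hc => by
    obtain ⟨γ, hγ⟩ := hC.exists_loc hc
    simpa [LD] using hγ.ld (Pol.bh Pol.one) (h.bh hγ) (fun j => hf _ (hγ.br j))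
      (by simp [hγ.zero]) (fun e => by rw [e]) fun j => .of_forall fun t => by simp

/-- A function with limits along all branches, equal at the nodes, extends to a section. -/
theorem Nod.ext_punct (h : Nod o C) {F : V M → ℂ}
    (h1 : ∀ γ, IsBranch o C γ → ∀ᶠ t in 𝓝[≠] 0, ∀ s : ι → ℂ, (∀ i, s i ≠ 0) →
      F (s • γ t) = chr a s * F (γ t))
    (h2 : ∀ c ∈ C, ∃ c' γ, Orb c' c ∧ Loc o C c' γ ∧ ∃ r : Bool → ℂ → ℂ,
      (∀ j, AnalyticAt ℂ (r j) 0) ∧ r true 0 = r false 0 ∧ ∀ j, ∀ᶠ t in 𝓝[≠] 0, F (γ j t) = r j t) :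
    ∃ f, IsSec o C a f ∧ ∀ γ, IsBranch o C γ → ∀ᶠ t in 𝓝[≠] 0, f (γ t) = F (γ t) := by
  have h3 : ∀ c ∈ C, ∃ x : ℂ, ∀ s : ι → ℂ, (∀ i, s i ≠ 0) → ∀ δ, IsBranch o C δ → δ 0 = s • c →
      Vz 0 (fun t => F (δ t)) (chr a s * x) := fun c hc => by
    obtain ⟨c', γ, ⟨s₀, hs₀, rfl⟩, hγ, r, e1, e2, e3⟩ := h2 c hc
    refine ⟨chr a s₀ * r true 0, fun s hs δ hδ h0 => ?_⟩
    have hs' : ∀ i, (s * s₀) i ≠ 0 := fun i => mul_ne_zero (hs i) (hs₀ i)
    obtain ⟨j, s', ψ, k1, k2, k3, k4, k5, k6, -⟩ :=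
      (hγ.smul h hs').reparam hδ (h0.trans (smul_smul _ _ _))
    refine ⟨fun t => chr a (s' t * (s * s₀)) * r j (ψ t),
      ((analyticAt_chr _).comp (f := fun t => s' t * (s * s₀)) (k1.mul analyticAt_const)).mul
        ((e1 j).comp_of_eq k2 k4), ?_, ?_⟩
    · have : r j 0 = r true 0 := by cases j; exacts [e2.symm, rfl]
      simp only [k3, k4, one_mul, chr_mul, this, mul_assoc]
    · filter_upwards [mem_nhdsWithin_of_mem_nhds k6, (tendsto_punct k2 k4 k5).eventually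
        ((h1 _ (hγ.br j)).and (e3 j)), mem_nhdsWithin_of_mem_nhds (eventually_all.2 fun i =>
          (continuousAt_pi.1 k1.continuousAt i).eventually_ne (y := 0) (by simp [k3]))]
        with t m1 m2 m3
      rw [m1, smul_smul, m2.1 (s' t * (s * s₀)) fun i => mul_ne_zero (m3 i) (hs' i), m2.2,
        zpow_zero, one_mul]
  choose! f hf using h3
  have h4 : ∀ δ, IsBranch o C δ → Vz 0 (fun t => F (δ t)) (f (δ 0)) := fun δ hδ => by
    simpa using hf _ hδ.mem.self_of_nhds 1 (fun _ => one_ne_zero) δ hδ (one_smul _ _).symm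
  have h5 : ∀ γ, IsBranch o C γ → ∀ᶠ t in 𝓝[≠] 0, f (γ t) = F (γ t) := fun γ hγ => by
    obtain ⟨r, e1, -, e2⟩ := h4 γ hγ
    filter_upwards [mem_nhdsWithin_of_mem_nhds (hγ.nearby h), self_mem_nhdsWithin,
      mem_nhdsWithin_of_mem_nhds e1.eventually_analyticAt,
      mem_nhdsWithin_of_mem_nhds (eventually_nhdsWithin_iff.1 e2).eventually_nhds]
      with t m1 m2 m3 m4
    have m5 : Tendsto (fun z => t + z) (𝓝 0) (𝓝 t) :=
      Continuous.tendsto' (by fun_prop) _ _ (by simp)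
    have m6 := h4 _ (m1 1 fun _ => one_ne_zero)
    simp only [one_smul, add_zero] at m6
    refine m6.unique (Vz.congr (p := fun z => r (t + z)) ?_ (mem_nhdsWithin_of_mem_nhds ?_))
    · have := Vz.of_an (p := fun z => r (t + z))
        (m3.comp_of_eq (analyticAt_const.add analyticAt_id) (add_zero t))
      simpa [m4.self_of_nhds m2] using this
    · filter_upwards [m5.eventually m4, m5.eventually_ne m2] with z m7 m8
      simp [m7 m8]
  refine ⟨f, h.isSec_of_holo (fun s hs c hc => ?_) fun γ hγ =>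
    Vz.an ((h4 γ hγ).congr ((h5 γ hγ).mono fun t ht => ht.symm)), h5⟩
  obtain ⟨γ, hγ⟩ := h.exists_loc (h.cone s hs c hc)
  exact (hγ.zero true ▸ h4 _ (hγ.br true) :).unique (hf c hc s hs _ (hγ.br true) (hγ.zero true))

end Vale.Agent.P269.Base
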