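import Vale.Agent.P269.Base.Along
import Vale.Agent.P269.Base.Punct
import Vale.Agent.P269.Prop.Wedge

/-!
# The tensor `Ξ` as a quotient of the `k`-th power of a vector field
-/

namespace Vale.Agent.P269.Ch

open Set Function Topology Filter Base Holo

set_option linter.unusedSectionVars false

variable {J ι ν κ : Type} [Fintype J] [Fintype ι] [DecidableEq ι] [Fintype ν] [Fintype κ]
  {ch : Ch ι J} {w b : ι → ℕ} {ξ : V ch.M → V ch.M} {z : κ → V ch.M}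

/-- `F Ξ = (c ∧ ξ)^k` on the curve. -/
def Rel (x : ch.W ν) (ξ : V ch.M → V ch.M) (F : V ch.M → ℂ) : Prop :=
  ∀ c u, (c, u) ∈ gr x → ∀ μ, F c * u none (x.Ξ μ) = wedge μ c (ξ c)

namespace Rel

open Classical in
/-- The coordinate at a special point, and `1` elsewhere. -/
noncomputable def ez (P : Prop) (t : ℂ) : ℂ := if P then t else 1

theorem ez_pos {P : Prop} (h : P) (t : ℂ) : ez P t = t := if_pos h

theorem ez_neg {P : Prop} (h : ¬P) (t : ℂ) : ez P t = 1 := if_neg h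

theorem an_ez (P : Prop) : AnalyticAt ℂ (ez P) 0 := by
  by_cases h : P
  · rw [funext (ez_pos h)]
    exact analyticAt_id
  · rw [funext (ez_neg h)]
    exact analyticAt_const

theorem ez_ne (P : Prop) {t : ℂ} (ht : t ≠ 0) : ez P t ≠ 0 := by
  by_cases h : P
  · rwa [ez_pos h]
  · rw [ez_neg h]
    exact one_ne_zero

theorem eq_zero {f g : ℂ → ℂ} (hf : AnalyticAt ℂ f 0) (hg : AnalyticAt ℂ g 0)
    (h : ∀ᶠ t in 𝓝[≠] 0, f t = g t) : f 0 = g 0 :=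
  ((hf.frequently_eq_iff_eventually_eq hg).1 h.frequently).self_of_nhds

/-- Nodes and marked points. -/
def Sp (C : Set (V ch.M)) (p : ν → V ch.M) (c : V ch.M) : Prop :=
  IsNode ch.o C c ∨ ∃ n, ∃ s : ι → ℂ, c = s • p n

theorem lead_iff {x : ch.W ν} {γ : ℂ → V ch.M} {ρ : ℂ} : Lead x γ ρ ↔
    ∃ f : ℂ → ℂ, AnalyticAt ℂ f 0 ∧ f 0 = ρ ∧ ∀ᶠ t in 𝓝 0, ∀ u, (γ t, u) ∈ gr x → ∀ μ,
      u none (x.Ξ μ) = f t * ez (Sp (crv x) x.p (γ 0)) t ^ ch.k * wedge μ (γ t) (deriv γ t) := by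
  unfold Lead ez Sp
  congr!

variable {C : Set (V ch.M)} {p : ν → V ch.M} {γ : ℂ → V ch.M} {φ : ℂ → ℂ}

theorem wedge_along (h : Along ξ γ φ) : ∀ᶠ t in 𝓝 0, ∀ μ : Tn ch.M ch.slot,
    wedge μ (γ t) (ξ (γ t)) = φ t ^ ch.k * wedge μ (γ t) (deriv γ t) := by
  filter_upwards [h.2] with t ⟨α, h1⟩ μ
  exact wedge_of_eq μ _ _ _ (a := α ch.o) (by rw [h1]; rfl)

theorem an_wedge' (h : IsBranch ch.o C γ) (μ : Tn ch.M ch.slot) :
    AnalyticAt ℂ (fun t => wedge μ (γ t) (deriv γ t)) 0 :=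
  an_wedge analyticAt_const h.holo h.holo.deriv

theorem wedge_hom {z : κ → V ch.M} (h : VF ch.o C w ξ z) {c : V ch.M} (hc : c ∈ C) {s : ι → ℂ}
    (hs : ∀ i, s i ≠ 0) (μ : Tn ch.M ch.slot) : wedge μ (s • c) (ξ (s • c)) =
      chr (ch.k • w + ch.bω + Pi.single ch.o (2 * ch.k)) s * wedge μ c (ξ c) := by
  obtain ⟨α, hα⟩ := h.hom c hc s hs
  rw [wedge_smul μ s c (ξ c) _ (a := α ch.o) (b := chr w s * s ch.o)
    (by rw [hα, mul_smul]; rfl), chr_add, chr_add]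
  have e1 : chr (ch.k • w) s = chr w s ^ ch.k := by
    simp only [chr, Pi.smul_apply, smul_eq_mul, ← Finset.prod_pow, ← pow_mul, mul_comm]
  have e2 : chr (Pi.single ch.o (2 * ch.k)) s = s ch.o ^ (2 * ch.k) := by
    rw [chr, Finset.prod_eq_single ch.o (fun j _ hj => by simp [hj]) (by simp)]
    simp
  rw [e1, e2]
  ring

/-- The vector field along a branch. -/
theorem vf (hC : Nod ch.o C) (h : VF ch.o C w ξ (Sum.elim z p)) (hγ : IsBranch ch.o C γ)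
    (hφ : Along ξ γ φ) : ∃ u, AnalyticAt ℂ u 0 ∧ u 0 ≠ 0 ∧
      (∀ᶠ t in 𝓝 0, φ t = ez (∃ j, Orb (z j) (γ 0)) t * (ez (Sp C p (γ 0)) t * u t)) ∧
      (Sp C p (γ 0) → (¬∃ j, Orb (z j) (γ 0)) ∧ u 0 = deriv φ 0) := by
  have hne := hC.ne_zero _ hγ.mem.self_of_nhds
  have key : Sp C p (γ 0) → ¬∃ j, Orb (z j) (γ 0) := by
    rintro (hn | ⟨n, s, hs⟩) ⟨j, hj⟩
    · exact (h.mem (.inl j)).2 (hC.isNode_orb hn hj.symm)
    · exact Sum.inl_ne_inr (h.inj (.inl j) (.inr n) (hj.trans (Orb.of_smul hne hs).symm))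
  by_cases hc : Sp C p (γ 0) ∨ ∃ j, Orb (z j) (γ 0)
  · obtain ⟨u, h1, h2, h3⟩ := h.van γ hγ (by
      rcases hc with (hn | ⟨n, s, hs⟩) | ⟨j, hj⟩
      exacts [.inl hn, .inr ⟨.inr n, Orb.of_smul hne hs⟩, .inr ⟨.inl j, hj⟩])
    have h4 := hφ.unique h3 hγ
    refine ⟨u, h1, h2, h4.mono fun t ht => ?_, fun hs => ⟨key hs, ?_⟩⟩
    · rcases hc with hs | hz
      · rw [ez_neg (key hs), ez_pos hs, one_mul, ht]
      · rw [ez_pos hz, ez_neg fun hs => key hs hz, one_mul, ht]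
    · rw [h4.deriv_eq, ((hasDerivAt_id' (0 : ℂ)).fun_mul h1.differentiableAt.hasDerivAt).deriv]
      simp
  · have h1 := mt Or.inl hc
    have h2 := mt Or.inr hc
    refine ⟨φ, hφ.1, h.ne_zero hγ hφ (fun hn => h1 (.inl hn)) ?_, .of_forall fun t => ?_,
      fun hs => absurd hs h1⟩
    · rintro (j | n) hj
      · exact h2 ⟨j, hj⟩
      · obtain ⟨s, -, hs⟩ := hj
        exact h1 (.inr ⟨n, s, hs⟩)
    · rw [ez_neg h1, ez_neg h2, one_mul, one_mul]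

/-- The quotient of the `k`-th power of the vector field by a form with divisor `k z`. -/
theorem quot (hC : Nod ch.o C) (h : VF ch.o C w ξ (Sum.elim z p)) {F : Tens ch.M b}
    (hF : Dvs ch.o C (val F) z ch.k) (hγ : IsBranch ch.o C γ) (hφ : Along ξ γ φ) :
    ∃ f, AnalyticAt ℂ f 0 ∧ f 0 ≠ 0 ∧ (∀ᶠ t in 𝓝[≠] 0, val F (γ t) ≠ 0) ∧
      (∀ᶠ t in 𝓝 0, φ t ^ ch.k = val F (γ t) * (f t * ez (Sp C p (γ 0)) t ^ ch.k)) ∧
      (Sp C p (γ 0) → val F (γ 0) ≠ 0 ∧ f 0 = deriv φ 0 ^ ch.k / val F (γ 0)) := by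
  obtain ⟨u, h1, h2, h3, h4⟩ := vf hC h hγ hφ
  obtain ⟨v, k1, k2, k3⟩ : ∃ v, AnalyticAt ℂ v 0 ∧ v 0 ≠ 0 ∧
      ∀ᶠ t in 𝓝 0, val F (γ t) = ez (∃ j, Orb (z j) (γ 0)) t ^ ch.k * v t := by
    by_cases hz : ∃ j, Orb (z j) (γ 0)
    · simp only [ez_pos hz]
      obtain ⟨j, hj⟩ := hz
      exact hF.ord γ j hγ hj
    · exact ⟨fun t => val F (γ t), an_val analyticAt_const hγ.holo,
        hF.ne _ hγ.mem.self_of_nhds fun j hj => hz ⟨j, hj⟩, .of_forall fun t => by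
          rw [ez_neg hz, one_pow, one_mul]⟩
  have k4 := k1.continuousAt.eventually_ne k2
  refine ⟨fun t => u t ^ ch.k / v t, (h1.pow _).div k1 k2, div_ne_zero (pow_ne_zero _ h2) k2,
    ?_, ?_, fun hs => ?_⟩
  · filter_upwards [mem_nhdsWithin_of_mem_nhds k3, mem_nhdsWithin_of_mem_nhds k4,
      self_mem_nhdsWithin] with t e1 e2 e3
    exact ne_of_eq_of_ne e1 (mul_ne_zero (pow_ne_zero _ (ez_ne _ e3)) e2)
  · filter_upwards [h3, k3, k4] with t e1 e2 e3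
    rw [e1, e2]
    field_simp
    ring
  · have e1 := k3.self_of_nhds
    rw [ez_neg (h4 hs).1, one_pow, one_mul] at e1
    rw [e1, ← (h4 hs).2]
    exact ⟨k2, rfl⟩

theorem exists_ne {x : ch.W ν} (hγ : IsBranch ch.o (crv x) γ) : ∀ᶠ t in 𝓝 0,
    ∃ u, (γ t, u) ∈ gr x ∧ ∃ μ : Tn ch.M ch.slot, wedge μ (γ t) (deriv γ t) ≠ 0 := by
  filter_upwards [hγ.mem, hγ.eventually_li] with t e1 e2
  obtain ⟨u, hu⟩ := mem_crv.1 e1
  exact ⟨u, hu, exists_wedge_ne hu.1 e2⟩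

theorem lead_unique {x : ch.W ν} (hγ : IsBranch ch.o (crv x) γ) {ρ ρ' : ℂ} (h : Lead x γ ρ)
    (h' : Lead x γ ρ') : ρ = ρ' := by
  obtain ⟨f, h1, rfl, h2⟩ := lead_iff.1 h
  obtain ⟨f', h1', rfl, h2'⟩ := lead_iff.1 h'
  refine eq_zero h1 h1' ?_
  filter_upwards [mem_nhdsWithin_of_mem_nhds (h2.and (h2'.and (exists_ne hγ))),
    self_mem_nhdsWithin] with t ⟨e1, e2, u, hu, μ, hμ⟩ ht
  exact mul_right_cancel₀ (pow_ne_zero _ (ez_ne _ ht))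
    (mul_right_cancel₀ hμ ((e1 u hu μ).symm.trans (e2 u hu μ)))

/-- An identity for `Ξ` along a punctured branch holds at the puncture. -/
theorem ext_zero {x : ch.W ν} (hQ : Surjective (x.Q none)) (hγ : IsBranch ch.o (crv x) γ)
    {f g : ℂ → ℂ} (hf : AnalyticAt ℂ f 0) (hg : AnalyticAt ℂ g 0) {μ : Tn ch.M ch.slot}
    (h : ∀ᶠ t in 𝓝[≠] 0, ∀ u, (γ t, u) ∈ gr x → f t * u none (x.Ξ μ) = g t)
    {u : ∀ l, ch.E l →L[ℂ] ℂ} (hu : (γ 0, u) ∈ gr x) : f 0 * u none (x.Ξ μ) = g 0 := by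
  obtain ⟨μ', hμ⟩ := hQ (x.Ξ μ)
  rw [← hμ] at h ⊢
  rw [show u none (x.Q none μ') = val μ' (γ 0) from hu.2 none μ']
  refine eq_zero (f := fun t => f t * val μ' (γ t)) (hf.mul (an_val analyticAt_const hγ.holo)) hg ?_
  filter_upwards [h, mem_nhdsWithin_of_mem_nhds hγ.mem] with t e1 e2
  obtain ⟨u', hu'⟩ := mem_crv.1 e2
  rw [← e1 u' hu', show u' none (x.Q none μ') = val μ' (γ t) from hu'.2 none μ']

theorem lead_of {x : ch.W ν} (hC : Nod ch.o (crv x)) (hQ : Surjective (x.Q none))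
    (h : VF ch.o (crv x) w ξ (Sum.elim z x.p)) {F : Tens ch.M b}
    (hF : Dvs ch.o (crv x) (val F) z ch.k) (hr : Rel x ξ (val F)) (hγ : IsBranch ch.o (crv x) γ)
    (hφ : Along ξ γ φ) : ∃ ρ ≠ 0, Lead x γ ρ ∧
      (Sp (crv x) x.p (γ 0) → ρ = deriv φ 0 ^ ch.k / val F (γ 0)) := by
  obtain ⟨f, h1, h2, h3, h4, h5⟩ := quot hC h hF hγ hφ
  refine ⟨f 0, h2, lead_iff.2 ⟨f, h1, rfl, ?_⟩, fun hs => (h5 hs).2⟩
  have h6 : ∀ᶠ t in 𝓝[≠] 0, ∀ u, (γ t, u) ∈ gr x → ∀ μ,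
      u none (x.Ξ μ) = f t * ez (Sp (crv x) x.p (γ 0)) t ^ ch.k * wedge μ (γ t) (deriv γ t) := by
    filter_upwards [h3, mem_nhdsWithin_of_mem_nhds (h4.and (wedge_along hφ))] with t e1 e2 u hu μ
    refine mul_left_cancel₀ e1 ?_
    rw [hr _ u hu μ, e2.2 μ, e2.1, mul_assoc]
  rw [← nhdsNE_sup_pure, eventually_sup]
  refine ⟨h6, fun u hu μ => ?_⟩
  have := ext_zero hQ hγ (f := fun _ => 1) analyticAt_const
    ((h1.mul ((an_ez (Sp (crv x) x.p (γ 0))).pow ch.k)).mul (an_wedge' hγ μ)) (μ := μ)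
    (h6.mono fun t e u hu => by rw [one_mul]; exact e u hu μ) hu
  rwa [one_mul] at this

theorem lead {x : ch.W ν} (hC : Nod ch.o (crv x)) (hQ : Surjective (x.Q none))
    (h : VF ch.o (crv x) w ξ (Sum.elim z x.p)) {F : Tens ch.M b}
    (hF : Dvs ch.o (crv x) (val F) z ch.k) (hr : Rel x ξ (val F)) :
    (∀ γ, IsBranch ch.o (crv x) γ → ∃ ρ ≠ 0, Lead x γ ρ) ∧
    (∀ c γ₁ γ₂ ρ₁ ρ₂, IsCross ch.o (crv x) c γ₁ γ₂ → Lead x γ₁ ρ₁ → Lead x γ₂ ρ₂ →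
      ρ₁ = (-1) ^ ch.k * ρ₂) ∧
    ∀ γ φ ρ n, IsBranch ch.o (crv x) γ → γ 0 = x.p n → Along ξ γ φ →
      (Lead x γ ρ ↔ ρ = deriv φ 0 ^ ch.k / val F (x.p n)) := by
  refine ⟨fun γ hγ => ?_, fun c γ₁ γ₂ ρ₁ ρ₂ hx l1 l2 => ?_, fun γ φ ρ n hγ h0 hφ => ?_⟩
  · obtain ⟨φ, hφ⟩ := h.along hγ
    obtain ⟨ρ, h1, h2, -⟩ := lead_of hC hQ h hF hr hγ hφ
    exact ⟨ρ, h1, h2⟩
  · obtain ⟨b1, b2, b3, b4, -⟩ := id hx
    obtain ⟨φ₁, p1⟩ := h.along b1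
    obtain ⟨φ₂, p2⟩ := h.along b2
    obtain ⟨ρ₁', -, k1, k2⟩ := lead_of hC hQ h hF hr b1 p1
    obtain ⟨ρ₂', -, k3, k4⟩ := lead_of hC hQ h hF hr b2 p2
    rw [lead_unique b1 l1 k1, lead_unique b2 l2 k3, k2 (.inl (b3 ▸ ⟨_, _, hx⟩)),
      k4 (.inl (b4 ▸ ⟨_, _, hx⟩)), h.res c _ _ _ _ hx p1 p2, b3, b4, neg_pow]
    ring
  · obtain ⟨ρ', -, k1, k2⟩ := lead_of hC hQ h hF hr hγ hφ
    rw [← h0, ← k2 (.inr ⟨n, 1, by rw [h0, one_smul]⟩)]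
    exact ⟨fun l => lead_unique hγ l k1, fun e => e ▸ k1⟩

/-- `r` is the quotient of `(c ∧ ξ)^k` by `Ξ` at `c`. -/
def Sol (x : ch.W ν) (ξ : V ch.M → V ch.M) (c : V ch.M) (r : ℂ) : Prop :=
  (∃ u, (c, u) ∈ gr x ∧ ∃ μ, u none (x.Ξ μ) ≠ 0) ∧
    ∀ u, (c, u) ∈ gr x → ∀ μ, r * u none (x.Ξ μ) = wedge μ c (ξ c)

theorem Sol.eq {x : ch.W ν} {c : V ch.M} {r : ℂ} (h : Sol x ξ c r) :
    Classical.epsilon (Sol x ξ c) = r := by
  obtain ⟨u, hu, μ, hμ⟩ := h.1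
  exact mul_right_cancel₀ hμ
    (((Classical.epsilon_spec (p := Sol x ξ c) ⟨r, h⟩).2 u hu μ).trans (h.2 u hu μ).symm)

theorem Sol.smul {x : ch.W ν} (hQ : Surjective (x.Q none)) {z : κ → V ch.M}
    (h : VF ch.o (crv x) w ξ z)
    (hw : b + ch.a none = ch.k • w + ch.bω + Pi.single ch.o (2 * ch.k)) {c : V ch.M} {r : ℂ}
    (hr : Sol x ξ c r) {s : ι → ℂ} (hs : ∀ i, s i ≠ 0) : Sol x ξ (s • c) (chr b s * r) := by
  obtain ⟨⟨u, hu, μ, hμ⟩, h2⟩ := hr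
  refine ⟨⟨_, gr_smul hu hs, μ, mul_ne_zero (chr_ne_zero hs) hμ⟩, fun u' hu' μ' => ?_⟩
  rw [gr_unique hu' (gr_smul hu hs) hQ, wedge_hom h (mem_crv.2 ⟨u, hu⟩) hs, ← hw, chr_add,
    ← h2 u hu μ']
  change _ * (chr (ch.a none) s * u none (x.Ξ μ')) = _
  ring

theorem exists_sol {x : ch.W ν} (hC : Nod ch.o (crv x)) (h : VF ch.o (crv x) w ξ (Sum.elim z x.p))
    (hγ : IsBranch ch.o (crv x) γ) (hφ : Along ξ γ φ) {ρ : ℂ} (h0 : ρ ≠ 0) (hρ : Lead x γ ρ) :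
    ∃ v, AnalyticAt ℂ v 0 ∧ v 0 ≠ 0 ∧
      (∀ᶠ t in 𝓝[≠] 0, Sol x ξ (γ t) (ez (∃ j, Orb (z j) (γ 0)) t ^ ch.k * v t)) ∧
      (IsNode ch.o (crv x) (γ 0) →
        (¬∃ j, Orb (z j) (γ 0)) ∧ v 0 = deriv φ 0 ^ ch.k / ρ) := by
  obtain ⟨u, h1, h2, h3, h4⟩ := vf hC h hγ hφ
  obtain ⟨f, k1, rfl, k2⟩ := lead_iff.1 hρ
  refine ⟨fun t => u t ^ ch.k / f t, (h1.pow _).div k1 h0, div_ne_zero (pow_ne_zero _ h2) h0, ?_,
    fun hn => ⟨(h4 (.inl hn)).1, by rw [← (h4 (.inl hn)).2]⟩⟩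
  filter_upwards [mem_nhdsWithin_of_mem_nhds (h3.and (k2.and ((exists_ne hγ).and
    ((wedge_along hφ).and (k1.continuousAt.eventually_ne h0))))), self_mem_nhdsWithin]
    with t ⟨e1, e2, ⟨u', hu, μ, hμ⟩, e3, e4⟩ ht
  refine ⟨⟨u', hu, μ, ?_⟩, fun u'' hu' μ' => ?_⟩
  · rw [e2 u' hu μ]
    exact mul_ne_zero (mul_ne_zero e4 (pow_ne_zero _ (ez_ne _ ht))) hμ
  · rw [e2 u'' hu' μ', e3 μ', e1]
    field_simp
    ring

end Rel

open _root_.Vale.Agent.P269.Ch.Rel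

theorem exists_rel {x : ch.W ν} (hx : x ∈ ch.base ν) (h : VF ch.o (crv x) w ξ (Sum.elim z x.p))
    (hb : b ≠ 0) (hw : b + ch.a none = ch.k • w + ch.bω + Pi.single ch.o (2 * ch.k)) :
    ∃ F : Tens ch.M b, Dvs ch.o (crv x) (val F) z ch.k ∧ Rel x ξ (val F) := by
  obtain ⟨hQ, -, hI, -, -, hL, hX⟩ := hx
  have hC := hI.nod
  have key : ∀ γ, IsBranch ch.o (crv x) γ → ∃ v, AnalyticAt ℂ v 0 ∧ v 0 ≠ 0 ∧
      (∀ᶠ t in 𝓝[≠] 0, Sol x ξ (γ t) (ez (∃ j, Orb (z j) (γ 0)) t ^ ch.k * v t)) := fun γ hγ => by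
    obtain ⟨φ, hφ⟩ := h.along hγ
    obtain ⟨ρ, h0, hρ⟩ := hL γ hγ
    obtain ⟨v, h1, h2, h3, -⟩ := exists_sol hC h hγ hφ h0 hρ
    exact ⟨v, h1, h2, h3⟩
  obtain ⟨f, h1, h2⟩ := hC.ext_punct (a := b) (F := fun c => Classical.epsilon (Sol x ξ c))
    (fun γ hγ => by
      obtain ⟨v, -, -, h3⟩ := key γ hγ
      exact h3.mono fun t ht s hs => by rw [ht.eq, (ht.smul (hQ none) h hw hs).eq])
    fun c hc => by
      obtain ⟨γ, hγ⟩ := hC.exists_loc hc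
      refine ⟨c, γ, Orb.refl c, hγ, ?_⟩
      by_cases hn : IsNode ch.o (crv x) c
      · choose φ hφ using fun j => h.along (hγ.br j)
        choose ρ h0 hρ using fun j => hL _ (hγ.br j)
        choose v k1 _ k3 k4 using fun j => exists_sol hC h (hγ.br j) (hφ j) (h0 j) (hρ j)
        have k5 := fun j => k4 j ((hγ.zero j).symm ▸ hn)
        have hx : IsCross ch.o (crv x) c (γ true) (γ false) := ⟨hγ.br _, hγ.br _, hγ.zero _,
          hγ.zero _, hγ.alt.resolve_left (hγ.isNode_iff.1 hn)⟩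
        refine ⟨v, k1, ?_, fun j => (k3 j).mono fun t ht => ?_⟩
        · rw [(k5 true).2, (k5 false).2, h.res c _ _ _ _ hx (hφ _) (hφ _),
            hX c _ _ _ _ hx (hρ _) (hρ _), neg_pow,
            mul_div_mul_left _ _ (pow_ne_zero _ (neg_ne_zero.2 one_ne_zero))]
        · rw [ht.eq, ez_neg (k5 j).1, one_pow, one_mul]
      · obtain ⟨v, k1, -, k3⟩ := key _ (hγ.br true)
        refine ⟨fun _ t => ez (∃ j, Orb (z j) (γ true 0)) t ^ ch.k * v t,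
          fun _ => ((an_ez _).pow _).mul k1, rfl, fun j => k3.mono fun t ht => ?_⟩
        rw [hγ.eq_of_not_node hn j, ht.eq]
  obtain ⟨F, hF⟩ := hI.normal b hb f h1
  have h3 : ∀ γ, IsBranch ch.o (crv x) γ → ∃ v, AnalyticAt ℂ v 0 ∧ v 0 ≠ 0 ∧
      (∀ᶠ t in 𝓝[≠] 0, Sol x ξ (γ t) (val F (γ t))) ∧
      ∀ᶠ t in 𝓝 0, val F (γ t) = ez (∃ j, Orb (z j) (γ 0)) t ^ ch.k * v t := fun γ hγ => by
    obtain ⟨v, k1, k2, k3⟩ := key γ hγ
    have k4 : ∀ᶠ t in 𝓝[≠] 0, val F (γ t) = ez (∃ j, Orb (z j) (γ 0)) t ^ ch.k * v t := by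
      filter_upwards [k3, h2 γ hγ, mem_nhdsWithin_of_mem_nhds hγ.mem] with t e1 e2 e3
      rw [← hF _ e3, e2, e1.eq]
    exact ⟨v, k1, k2, (k3.and k4).mono fun t e => e.2 ▸ e.1,
      ((an_val analyticAt_const hγ.holo).frequently_eq_iff_eventually_eq
        (((an_ez _).pow _).mul k1)).1 k4.frequently⟩
  refine ⟨F, ⟨fun c hc hz => ?_, fun γ j hγ hj => ?_⟩, fun c u hu μ => ?_⟩
  · obtain ⟨γ, hγ⟩ := hC.exists_loc hc
    obtain ⟨v, -, k2, -, k3⟩ := h3 _ (hγ.br true)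
    have k4 := k3.self_of_nhds
    rw [hγ.zero, ez_neg fun ⟨j, hj⟩ => hz j hj, one_pow, one_mul] at k4
    rwa [k4]
  · obtain ⟨v, k1, k2, -, k3⟩ := h3 γ hγ
    simp only [ez_pos (⟨j, hj⟩ : ∃ j, Orb (z j) (γ 0))] at k3
    exact ⟨v, k1, k2, k3⟩
  · obtain ⟨γ, hγ⟩ := hC.exists_loc (mem_crv.2 ⟨u, hu⟩)
    obtain ⟨-, -, -, k1, -⟩ := h3 _ (hγ.br true)
    obtain ⟨φ, hφ⟩ := h.along (hγ.br true)
    obtain rfl := hγ.zero true
    rw [(wedge_along hφ).self_of_nhds μ]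
    refine ext_zero (hQ none) (hγ.br true) (f := fun t => val F (γ true t))
      (an_val analyticAt_const (hγ.an true)) ((hφ.1.pow ch.k).mul (an_wedge' (hγ.br true) μ)) ?_ hu
    filter_upwards [k1, mem_nhdsWithin_of_mem_nhds (wedge_along hφ)] with t e1 e2 u' hu'
    exact (e1.2 u' hu' μ).trans (e2 μ)

theorem exists_quot_wedge {C : Set (V ch.M)} (hC : IsCurve ch.o ch.g ch.m C) {p : ν → V ch.M}
    (h : VF ch.o C w ξ (Sum.elim z p)) {F : Tens ch.M b} (hF : Dvs ch.o C (val F) z ch.k)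
    (ha : ch.a none ≠ 0) (hw : b + ch.a none = ch.k • w + ch.bω + Pi.single ch.o (2 * ch.k))
    (μ : Tn ch.M ch.slot) :
    ∃ S : Tens ch.M (ch.a none), ∀ c ∈ C, val F c * val S c = wedge μ c (ξ c) := by
  have hN := hC.nod
  have key : ∀ γ, IsBranch ch.o C γ → ∃ r, AnalyticAt ℂ r 0 ∧
      (∀ᶠ t in 𝓝[≠] 0, wedge μ (γ t) (ξ (γ t)) / val F (γ t) = r t) ∧
      (IsNode ch.o C (γ 0) → r 0 = wedge μ (γ 0) (ξ (γ 0)) / val F (γ 0)) := fun γ hγ => by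
    obtain ⟨φ, hφ⟩ := h.along hγ
    obtain ⟨f, h1, -, h3, h4, h5⟩ := quot hN h hF hγ hφ
    have h6 : ∀ᶠ t in 𝓝 0, val F (γ t) ≠ 0 → wedge μ (γ t) (ξ (γ t)) / val F (γ t) =
        f t * ez (Sp C p (γ 0)) t ^ ch.k * wedge μ (γ t) (deriv γ t) := by
      filter_upwards [h4, wedge_along hφ] with t e1 e2 e3
      rw [e2 μ, e1, mul_assoc, mul_div_cancel_left₀ _ e3]
    exact ⟨_, (h1.mul ((an_ez (Sp C p (γ 0))).pow ch.k)).mul (an_wedge' hγ μ),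
      (h3.and (mem_nhdsWithin_of_mem_nhds h6)).mono fun t e => e.2 e.1,
      fun hn => (h6.self_of_nhds (h5 (.inl hn)).1).symm⟩
  obtain ⟨f, h1, h2⟩ := hN.ext_punct (a := ch.a none) (F := fun c => wedge μ c (ξ c) / val F c)
    (fun γ hγ => (hγ.mem.filter_mono nhdsWithin_le_nhds).mono fun t ht s hs => by
        rw [wedge_hom h ht hs, ← hw, chr_add, val_smul, mul_assoc,
          mul_div_mul_left _ _ (chr_ne_zero hs), mul_div_assoc])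
    fun c hc => by
      obtain ⟨γ, hγ⟩ := hN.exists_loc hc
      refine ⟨c, γ, Orb.refl c, hγ, ?_⟩
      by_cases hn : IsNode ch.o C c
      · choose r k1 k2 k3 using fun j => key _ (hγ.br j)
        refine ⟨r, k1, ?_, k2⟩
        rw [k3 true ((hγ.zero _).symm ▸ hn), k3 false ((hγ.zero _).symm ▸ hn), hγ.zero, hγ.zero]
      · obtain ⟨r, k1, k2, -⟩ := key _ (hγ.br true)
        exact ⟨fun _ => r, fun _ => k1, rfl, fun j => by rwa [hγ.eq_of_not_node hn j]⟩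
  obtain ⟨S, hS⟩ := hC.normal _ ha f h1
  refine ⟨S, fun c hc => ?_⟩
  obtain ⟨γ, hγ⟩ := hN.exists_loc hc
  obtain ⟨φ, hφ⟩ := h.along (hγ.br true)
  obtain ⟨-, -, -, h3, -⟩ := quot hN h hF (hγ.br true) hφ
  obtain rfl := hγ.zero true
  rw [(wedge_along hφ).self_of_nhds μ]
  refine eq_zero (f := fun t => val F (γ true t) * val S (γ true t))
    ((an_val analyticAt_const (hγ.an true)).mul (an_val analyticAt_const (hγ.an true)))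
    ((hφ.1.pow ch.k).mul (an_wedge' (hγ.br true) μ)) ?_
  filter_upwards [h3, h2 _ (hγ.br true), mem_nhdsWithin_of_mem_nhds
    ((wedge_along hφ).and (hγ.br true).mem)] with t e1 e2 e3
  rw [← hS _ e3.2, e2, mul_div_cancel₀ _ e1]
  exact e3.1 μ

end Vale.Agent.P269.Ch
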