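import Vale.Agent.P269.Base.Uni
import Vale.Agent.P269.Base.Rel
import Vale.Agent.P269.Base.Act
import Vale.Agent.P269.Pt.Core

/-!
# The base of a chart is a complex manifold
-/

namespace Vale.Agent.P269

open Set Function Topology Filter Holo Module Base

set_option linter.unusedSectionVars false

theorem Holo.isParam_of_inv {E A : Type*} [NormedAddCommGroup E] [NormedSpace ℂ E]
    [FiniteDimensional ℂ E] [NormedAddCommGroup A] [NormedSpace ℂ A] [FiniteDimensional ℂ A]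
    {S : Set A} {x : S} {Ψ : E → A} {r : E} (h1 : AnalyticAt ℂ Ψ r) (h0 : Ψ r = x)
    (h2 : ∀ᶠ q in 𝓝 r, Ψ q ∈ S) (h3 : Injective (fderiv ℂ Ψ r)) {L : A → E}
    (h4 : ContinuousAt L x) (h5 : L x = r) (h6 : ∀ᶠ y : S in 𝓝 x, Ψ (L y) = y) :
    ∃ Φ : E → S, IsParam Subtype.val Φ r ∧ Φ r = x ∧ ∀ᶠ q in 𝓝 r, (Φ q).1 = Ψ q := by
  classical
  have := FiniteDimensional.complete ℂ A
  let Φ : E → S := fun q => if h : Ψ q ∈ S then ⟨_, h⟩ else x
  have e : ∀ᶠ q in 𝓝 r, (Φ q).1 = Ψ q := h2.mono fun q hq => by simp [Φ, hq]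
  have e0 : Φ r = x := Subtype.ext (e.self_of_nhds.trans h0)
  refine ⟨Φ, IsParam.of_map_nhds ?_ (.of_forall fun _ => continuous_subtype_val.continuousAt)
    (h1.congr (e.mono fun _ => Eq.symm)) (by rwa [EventuallyEq.fderiv_eq e]) ?_, e0, e⟩
  · filter_upwards [h1.eventually_analyticAt, e.eventually_nhds] with q k1 k2
    exact IsInducing.subtypeVal.continuousAt_iff.2
      (k1.continuousAt.congr (k2.mono fun _ => Eq.symm))
  · have ht : Tendsto (fun y : S => L y) (𝓝 x) (𝓝 r) :=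
      h5 ▸ h4.tendsto.comp continuous_subtype_val.continuousAt
    rw [e0]
    intro U hU
    filter_upwards [ht.eventually hU, ht.eventually e, h6] with y k1 k2 k3
    rwa [← Subtype.ext (k2.trans k3)]

namespace Ch

variable {J ι ν κ : Type} [Fintype J] [Fintype ι] [DecidableEq ι] [Fintype ν] [Fintype κ]
  {ch : Ch ι J} {w b : ι → ℕ}

variable (ch) in
/-- The frames of the spaces of sections. -/
abbrev Frm : Type := ∀ l, ch.E l →L[ℂ] ch.E l

variable (ch) in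
/-- The fields. -/
abbrev Fld : Type := ∀ j, Tens ch.M (ch.b j) →L[ℂ] ch.E (some j)

variable (ch) in
/-- The numerical hypotheses on a chart. -/
structure Num : Prop where
  a_ne : ∀ l, ch.a l ≠ 0
  cut : ∃ l, ∀ i, 4 ≤ ch.a l i
  k_ne : ch.k ≠ 0
  three : 3 ≤ ch.M ch.o
  M_eq : ∀ i, (ch.M i : ℤ) = ch.m i + 1 - ch.g
  chi : ∑ i, ch.χ i ≠ 0

section pt

variable {ξ : V ch.M → V ch.M} {z : κ → V ch.M} {x : ch.W ν}

theorem Q_eq_zero (hx : x ∈ ch.base ν) {l : Option J} {μ : Tens ch.M (ch.a l)} :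
    x.Q l μ = 0 ↔ ∀ c ∈ crv x, val μ c = 0 :=
  ⟨fun h _ hc => val_eq_zero h hc, hx.2.1 l μ⟩

theorem h_eq₁ (hx : x ∈ ch.base ν) {l : Option J} (ha : ch.a l ≠ 0) :
    (ch.h l : ℤ) = dg ch.m (ch.a l) + 1 - ch.g := by
  have h1 := (resL (crv x) (ch.a l)).finrank_range_add_finrank_ker
  have h2 := (x.Q l).toLinearMap.finrank_range_add_finrank_ker
  have h3 : LinearMap.ker (x.Q l).toLinearMap = LinearMap.ker (resL (crv x) (ch.a l)) := by
    ext μ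
    exact (Q_eq_zero hx).trans ⟨fun h => funext fun c => h c c.2, fun h c hc => congrFun h ⟨c, hc⟩⟩
  rw [LinearMap.range_eq_top.2 (hx.1 l), finrank_top, finrank_fin_fun, h3] at h2
  rw [← hx.2.2.1.finrank_Hs ha]
  exact congrArg _ (Nat.add_right_cancel (h2.trans h1.symm))

theorem deg_eq (hx : x ∈ ch.base ν) :
    ∑ i, ch.χ i * ch.m i = ch.k * (2 * ch.g - 2 + Fintype.card ν) := by
  classical
  obtain ⟨X, _, _, _, R, N, A, π, u, p, ξ, h⟩ := Cv.exists_cr hx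
  have := Cv.deg_of_ne h.xi.1 h.ne
  rw [Cv.deg_mul, Cv.deg_inv, Cv.deg_pow, Cv.deg_omega, Cv.deg_bz, h.gen_eq,
    Finset.card_image_of_injective _ h.inj, Finset.card_univ] at this
  simp only [h.deg_eq] at this
  linear_combination this

theorem Num.M_ne (h : Num ch) (hx : x ∈ ch.base ν) (i : ι) : ch.M i ≠ 0 := by
  rcases (crv x).eq_empty_or_nonempty with e | ⟨c, hc⟩
  · have h1 := hx.2.2.1.finrank_Hs (a := Pi.single ch.o 1) (by simp)
    have h2 := h.three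
    have : IsEmpty (crv x) := by rw [e]; infer_instance
    rw [dg_single, ← h.M_eq, finrank_zero_of_subsingleton] at h1
    omega
  · intro e
    have : IsEmpty (Fin (ch.M i)) := by rw [e]; infer_instance
    exact crv_ne hc i (Subsingleton.elim _ _)

variable {C : Set (V ch.M)} {p : ν → V ch.M} {F : Tens ch.M b}
  {e : ∀ l, Fin (ch.h l) → V ch.M} {A : ch.Frm} {N : Tn ch.M ch.slot →L[ℂ] ch.E none} {X : ch.Fld}

theorem mk_mem (h : Num ch) (hC : IsCurve ch.o ch.g ch.m C) (hV : VF ch.o C w ξ (Sum.elim z p))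
    (hF : Dvs ch.o C (val F) z ch.k)
    (hw : b + ch.a none = ch.k • w + ch.bω + Pi.single ch.o (2 * ch.k))
    (he : ∀ l, (∀ i, e l i ∈ C) ∧ Surjective (evP (ch.a l) (e l)) ∧
      ∀ μ, evP (ch.a l) (e l) μ = 0 ↔ ∀ c ∈ C, val μ c = 0)
    (hA : ∀ l, Bijective (A l)) (h0 : ∀ i, val F (e none i) ≠ 0)
    (hN : ∀ μ i, val F (e none i) * N μ i = wedge μ (e none i) (ξ (e none i)))
    (hx : x = W.mk' (fun l => A l ∘L evP (ch.a l) (e l)) p (A none ∘L N) X) :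
    crv x = C ∧ Rel x ξ (val F) ∧ x ∈ ch.base ν := by
  have hQ : ∀ l μ, x.Q l μ = 0 ↔ ∀ c ∈ C, val μ c = 0 := fun l μ => by
    rw [← (he l).2.2, hx]
    exact map_eq_zero_iff _ (hA l).1
  have h1 : crv x = C := by
    obtain ⟨l, hl⟩ := h.cut
    refine Set.ext fun c => ⟨fun hc => by_contra fun hn => ?_, fun hc =>
      Cv.mem_crv_iff.2 ⟨hC.ne_zero c hc, fun l μ k => (hQ l μ).1 k c hc⟩⟩
    obtain ⟨μ, k1, k2⟩ := hC.cut (fun i => (Nat.le_succ 3).trans (hl i)) (crv_ne hc) hn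
    exact k2 (val_eq_zero ((hQ l μ).2 k1) hc)
  have h2 : Rel x ξ (val F) := fun c u hu μ => by
    obtain ⟨S, hS⟩ := exists_quot_wedge hC hV hF (h.a_ne none) hw μ
    have : x.Ξ μ = x.Q none S := by
      rw [hx]
      exact congrArg (A none) (funext fun i => mul_left_cancel₀ (h0 i)
        ((hN μ i).trans (hS _ ((he none).1 i)).symm))
    rw [this, hu.2, hS c (h1 ▸ mem_crv.2 ⟨u, hu⟩)]
  have h3 : ∀ l, Surjective (x.Q l) := fun l => hx ▸ (hA l).2.comp (he l).2.1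
  have h4 : x.p = p := by rw [hx]; rfl
  subst h1 h4
  have h5 := h2.lead hC.nod (h3 none) hV hF
  exact ⟨rfl, h2, h3, fun l μ => (hQ l μ).2, hC, fun n => hV.mem (.inr n), fun n n' s k =>
    Sum.inr_injective (hV.inj (.inr n) (.inr n')
      (Orb.symm (.of_smul (hC.ne_zero _ (hV.mem (.inr n)).1) k))), h5.1, h5.2.1⟩

theorem eq_mk (hx : x ∈ ch.base ν) (hr : Rel x ξ (val F)) (he : ∀ i, e none i ∈ crv x)
    (hA : ∀ l, A l ∘L evP (ch.a l) (e l) = x.Q l) (h0 : ∀ i, val F (e none i) ≠ 0)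
    (hN : ∀ μ i, val F (e none i) * N μ i = wedge μ (e none i) (ξ (e none i))) :
    W.mk' (fun l => A l ∘L evP (ch.a l) (e l)) x.p (A none ∘L N) x.X = x := by
  refine W.ext hA (fun _ => rfl) (ContinuousLinearMap.ext fun μ => ?_) fun _ => rfl
  obtain ⟨S, hS⟩ := hx.1 none (x.Ξ μ)
  rw [← hS, ← hA]
  refine congrArg (A none) (funext fun i => mul_left_cancel₀ (h0 i) ?_)
  obtain ⟨u, hu⟩ := mem_crv.1 (he i)
  refine (hN μ i).trans ?_
  rw [← hr _ u hu, ← hS, hu.2]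
  rfl

theorem _root_.Vale.Agent.P269.Base.VF.exists_wedge_ne {z : κ → V ch.M} (hV : VF ch.o C w ξ z)
    (hC : Nod ch.o C) {c : V ch.M} (hc : c ∈ C) (hn : ¬IsNode ch.o C c) (hz : ∀ j, ¬Orb (z j) c) :
    ∃ μ : Tn ch.M ch.slot, wedge μ c (ξ c) ≠ 0 := by
  obtain ⟨γ, hγ⟩ := hC.exists_loc hc
  obtain rfl := hγ.zero true
  obtain ⟨u, h1, h2⟩ := hV.reg _ (hγ.br true) hn hz
  obtain ⟨μ, h3⟩ := Ch.exists_wedge_ne hγ.ne (hγ.br true).imm
  exact ⟨μ, (Rel.wedge_along h2).self_of_nhds μ ▸ mul_ne_zero (pow_ne_zero _ h1) h3⟩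

end pt

variable {P : Type} [NormedAddCommGroup P] [NormedSpace ℂ P] [FiniteDimensional ℂ P]
  {C : P → Set (V ch.M)} {y₀ : P} {ξ : P → V ch.M → V ch.M} {z : P → κ → V ch.M}

theorem _root_.Vale.Agent.P269.Base.VFam.exists_wedge (hV : VFam ch.o C id y₀ w ξ z)
    {c : P → V ch.M} (hc : AnalyticAt ℂ c y₀) (hm : ∀ᶠ y in 𝓝 y₀, c y ∈ C y) :
    ∃ ω : P → Tn ch.M ch.slot →L[ℂ] ℂ, AnalyticAt ℂ ω y₀ ∧
      ∀ᶠ y in 𝓝 y₀, ∀ μ, ω y μ = wedge μ (c y) (ξ y (c y)) := by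
  obtain ⟨ξ', h1, h2⟩ := hV.loc _ hm.self_of_nhds
  have h3 : AnalyticAt ℂ (fun y => (y, c y)) y₀ := analyticAt_id.prod hc
  refine ⟨fun y => wedgeL (c y) (ξ' (y, c y)), analyticAt_of_apply fun μ => by
    simpa using an_wedge analyticAt_const hc (h1.comp_of_eq h3 rfl), ?_⟩
  filter_upwards [h3.continuousAt.tendsto.eventually h2, hm] with y k1 k2 μ
  obtain ⟨α, k3⟩ := k1 k2
  rw [wedge_of_eq μ (c y) (ξ' (y, c y)) _ (a := α ch.o) (b := 1) (by simpa using congrFun k3 ch.o)]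
  simp

/-- The values of the form `F` at moving points depend holomorphically on the point of `base`. -/
theorem exists_vals {x : ch.W ν} (hx : x ∈ ch.base ν) (hV : VFam ch.o C id y₀ w ξ z)
    (h0 : crv x = C y₀) {F₀ : Tens ch.M b} (hr : Rel x (ξ y₀) (val F₀)) {n : ℕ}
    {e : P → Fin n → V ch.M} (he : EvPt ch.o b C (z y₀) y₀ e) :
    ∃ U : ch.W ν × P → Fin n → ℂ, AnalyticAt ℂ U (x, y₀) ∧ ∀ᶠ r in 𝓝 (x, y₀), crv r.1 = C r.2 →
      ∀ F, Rel r.1 (ξ r.2) (val F) → evP b (e r.2) F = U r := by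
  have ae := fun i => analyticAt_pi_iff.1 he.an i
  have me := fun i => he.ev.mono fun y hy => hy.1 i
  choose ω o1 o2 using fun i => hV.exists_wedge (ae i) (me i)
  choose μ hμ using fun i => hV.vf.self_of_nhds.exists_wedge_ne (h0 ▸ hx.2.2.1.nod)
    (me i).self_of_nhds (he.off i).1 (he.off i).2
  obtain ⟨S, hS⟩ := exists_rightInv (hx.1 none)
  have h1 : AnalyticAt ℂ (fun y : ch.W ν => (y.Q none).comp S) x :=
    an_comp (an_Q none x) analyticAt_const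
  have h2 : Bijective ((x.Q none).comp S) := by
    rw [show (x.Q none).comp S = .id ℂ _ from ContinuousLinearMap.ext hS]
    exact bijective_id
  let D : ch.W ν × P → Fin n → ℂ := fun r i =>
    val (S (((r.1.Q none).comp S).inverse (r.1.Ξ (μ i)))) (e r.2 i)
  have h3 : ∀ i, AnalyticAt ℂ (fun r => D r i) (x, y₀) := fun i =>
    an_val ((S.analyticAt _).comp (an_apply
      (((analyticAt_clm_inverse h2).comp_of_eq h1 rfl).comp_of_eq analyticAt_fst rfl)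
      (an_apply (W.an_Ξ analyticAt_fst) analyticAt_const))) ((ae i).comp_of_eq analyticAt_snd rfl)
  have h4 : ∀ᶠ r in 𝓝 (x, y₀), crv r.1 = C r.2 → ∀ F : Tens ch.M b, Rel r.1 (ξ r.2) (val F) →
      ∀ i, val F (e r.2 i) * D r i = ω i r.2 (μ i) := by
    filter_upwards [continuousAt_fst.tendsto.eventually (eventually_bijective h1.continuousAt h2),
      continuousAt_snd.tendsto.eventually (he.ev.and (eventually_all.2 o2))]
      with r k1 ⟨k2, k3⟩ k4 F k5 i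
    obtain ⟨u, hu⟩ := mem_crv.1 (k4 ▸ k2.1 i)
    rw [k3, ← k5 _ u hu, ← (isInvertible_of_bijective k1).self_apply_inverse (r.1.Ξ (μ i))]
    exact congrArg _ (hu.2 none _).symm
  have h5 : ∀ i, D (x, y₀) i ≠ 0 := fun i =>
    right_ne_zero_of_mul (h4.self_of_nhds h0 F₀ hr i ▸ (o2 i).self_of_nhds (μ i) ▸ hμ i)
  refine ⟨fun r i => ω i r.2 (μ i) / D r i, analyticAt_pi_iff.2 fun i =>
    (an_apply ((o1 i).comp_of_eq analyticAt_snd rfl) analyticAt_const).div (h3 i) (h5 i), ?_⟩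
  filter_upwards [h4, eventually_all.2 fun i => (h3 i).continuousAt.eventually_ne (h5 i)]
    with r k1 k2 k3 F k4
  exact funext fun i => eq_div_of_mul_eq (k2 i) (k1 k3 F k4 i)

set_option maxHeartbeats 1000000 in
/-- A holomorphic parametrisation of `base` by curves, frames and fields. -/
theorem Num.exists_param (h : Num ch) (x : ch.base ν) :
    ∃ (d : ℕ) (C : (Fin d → ℂ) → Set (V ch.M)) (p : (Fin d → ℂ) → ν → V ch.M) (w b : ι → ℕ)
      (ξ : (Fin d → ℂ) → V ch.M → V ch.M) (κ : Type) (_ : Fintype κ) (z : (Fin d → ℂ) → κ → V ch.M)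
      (F : (Fin d → ℂ) → Tens ch.M b) (A : ch.Frm) (Ψ : (Fin d → ℂ) × ch.Frm × ch.Fld → ch.base ν),
      (d : ℤ) = 3 * ch.g - 3 + Fintype.card ν + (Fintype.card ι - 1) * (ch.g - 1) +
        (∑ i, ch.M i * ch.M i + Fintype.card ν * Fintype.card ι : ℕ) ∧
      IsParam Subtype.val Ψ (0, A, x.1.X) ∧ Ψ (0, A, x.1.X) = x ∧ LocFam ch.o C id 0 ∧
      VFam ch.o C id 0 w ξ (fun s => Sum.elim (z s) (p s)) ∧ AnalyticAt ℂ F 0 ∧
      (∀ᶠ r in 𝓝 (0, A, x.1.X), crv (Ψ r).1 = C r.1 ∧ (Ψ r).1.p = p r.1 ∧ (Ψ r).1.X = r.2.2 ∧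
        Dvs ch.o (C r.1) (val (F r.1)) (z r.1) ch.k ∧ Rel (Ψ r).1 (ξ r.1) (val (F r.1))) ∧
      ∀ (N : ℕ) (c : Fin N → V ch.M), (∀ i, IsNode ch.o (C 0) (c i)) →
        (∀ i i', Orb (c i) (c i') → i = i') → ∃ τ : Fin N → (Fin d → ℂ) → ℂ,
          (∀ i, NdAt ch.o C id 0 (c i) (τ i)) ∧ Surjective (fderiv ℂ (fun s i => τ i s) 0) := by
  obtain ⟨x, hx⟩ := x
  obtain ⟨l₀, hl⟩ := h.cut
  obtain ⟨P, _, _, _, y₀, C, p, w, ξ, κ, _, z, c0, p0, hU, hV, hB, hd⟩ := hx.2.2.1.exists_uni hl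
    h.three (h.M_ne hx) hx.2.2.2.1 (fun n n' ⟨s, _, e⟩ => (hx.2.2.2.2.1 n' n s e).symm)
    (∑ i, ch.a none i + 1)
  have h0 : IsCurve ch.o ch.g ch.m (C y₀) := c0 ▸ hx.2.2.1
  have w1 : ∀ i, ch.a none i + 1 ≤ ch.k * w i := fun i =>
    (Nat.succ_le_succ (Finset.single_le_sum (fun _ _ => Nat.zero_le _) (Finset.mem_univ i))).trans
      ((hB i).trans (Nat.le_mul_of_pos_left _ (Nat.pos_of_ne_zero h.k_ne)))
  obtain ⟨b, hw, hb⟩ : ∃ b : ι → ℕ, b + ch.a none =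
      ch.k • w + ch.bω + Pi.single ch.o (2 * ch.k) ∧ b ≠ 0 := by
    refine ⟨ch.k • w + ch.bω + Pi.single ch.o (2 * ch.k) - ch.a none, funext fun i => ?_,
      fun e => ?_⟩
    · have := w1 i
      simp only [Pi.add_apply, Pi.sub_apply, Pi.smul_apply, smul_eq_mul]
      omega
    · have := w1 ch.o
      have := congrFun e ch.o
      simp only [Pi.add_apply, Pi.sub_apply, Pi.smul_apply, smul_eq_mul, Pi.zero_apply] at this
      omega
  have hχ : ∀ i, ch.χ i = ch.k * w i - b i := fun i => by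
    have := congrFun hw i
    simp only [Pi.add_apply, Pi.smul_apply, smul_eq_mul, Pi.single_apply] at this
    rw [Ch.χ]
    split_ifs at this ⊢ <;> omega
  have hn : ch.k * ∑ i, w i ≠ ∑ i, b i := fun e => h.chi (by
    simp only [hχ, Finset.sum_sub_distrib, ← Finset.mul_sum]
    exact sub_eq_zero.2 (by exact_mod_cast e))
  obtain ⟨F₀, hF, hr⟩ := exists_rel hx (ξ := ξ y₀) (z := z y₀) (c0 ▸ p0 ▸ hV.vf.self_of_nhds) hb hw
  obtain ⟨e₀, he₀⟩ := hU.fam.exists_evPt h0 hb (h0.finrank_Hs hb) (Sum.elim (z y₀) (p y₀))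
  obtain ⟨d, ψ, F, Λ, d1, d2, ψ1, ψ0, F1, F0, hD, hI, Λ1, Λ0, hΛ, hτ⟩ :=
    hU.exists_dvs h0 hV (c0 ▸ hF) hb hn (h0.finrank_Hs hb) he₀
  obtain ⟨U, U1, U2⟩ := exists_vals hx hV c0.symm hr he₀
  have U0 := U2.self_of_nhds c0.symm F₀ hr
  choose e he using fun l => hU.fam.exists_evPt h0 (h.a_ne l) (h_eq₁ hx (h.a_ne l))
    (Sum.elim (z y₀) (p y₀))
  choose S S1 S2 using fun l => (he l).exists_inv
  have ae := fun i => analyticAt_pi_iff.1 (he none).an i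
  choose ω ω1 ω2 using fun i => hV.exists_wedge (ae i) ((he none).ev.mono fun y hy => hy.1 i)
  have ψt : Tendsto ψ (𝓝 0) (𝓝 y₀) := ψ0 ▸ ψ1.continuousAt.tendsto
  have n1 : ∀ i, AnalyticAt ℂ (fun s => val (F s) (e none (ψ s) i)) 0 := fun i =>
    an_val F1 ((ae i).comp_of_eq ψ1 ψ0)
  have n0 : ∀ i, val (F 0) (e none (ψ 0) i) ≠ 0 := fun i => hD.self_of_nhds.ne _
    (ψ0 ▸ (he none).ev.self_of_nhds.1 i) fun j => ψ0 ▸ ((he none).off i).2 (.inl j)
  obtain ⟨N, N1, N2⟩ : ∃ N : (Fin d → ℂ) → Tn ch.M ch.slot →L[ℂ] ch.E none, AnalyticAt ℂ N 0 ∧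
      ∀ᶠ s in 𝓝 0, (∀ i, val (F s) (e none (ψ s) i) ≠ 0) ∧ ∀ μ i, val (F s) (e none (ψ s) i) *
        N s μ i = wedge μ (e none (ψ s) i) (ξ (ψ s) (e none (ψ s) i)) := by
    refine ⟨fun s => .pi fun i => (val (F s) (e none (ψ s) i))⁻¹ • ω i (ψ s),
      analyticAt_of_apply fun μ => analyticAt_pi_iff.2 fun i => ((n1 i).inv (n0 i)).mul
        (an_apply ((ω1 i).comp_of_eq ψ1 ψ0) analyticAt_const), ?_⟩
    filter_upwards [eventually_all.2 fun i => (n1 i).continuousAt.eventually_ne (n0 i),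
      ψt.eventually (eventually_all.2 ω2)] with s k1 k2
    exact ⟨k1, fun μ i => k2 i μ ▸ mul_inv_cancel_left₀ (k1 i) _⟩
  let Ψ : (Fin d → ℂ) × ch.Frm × ch.Fld → ch.W ν := fun r => W.mk'
    (fun l => r.2.1 l ∘L evP (ch.a l) (e l (ψ r.1))) (p (ψ r.1)) (r.2.1 none ∘L N r.1) r.2.2
  let A : ch.W ν × P → ch.Frm := fun r l => r.1.Q l ∘L S l r.2
  have A1 : AnalyticAt ℂ A (x, y₀) := analyticAt_pi_iff.2 fun l =>
    an_comp (W.an_Q analyticAt_fst l) ((S1 l).comp_of_eq analyticAt_snd rfl)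
  have A2 : ∀ᶠ y in 𝓝 y₀, ∀ x ∈ ch.base ν, crv x = C y →
      ∀ l, A (x, y) l ∘L evP (ch.a l) (e l y) = x.Q l := by
    filter_upwards [eventually_all.2 S2] with y k1 x k2 k3 l
    refine ContinuousLinearMap.ext fun μ => sub_eq_zero.1 ((map_sub (x.Q l) _ _).symm.trans
      ((Q_eq_zero k2).2 fun c hc => sub_eq_zero.2 ((k1 l).2 μ c (k3 ▸ hc))))
  obtain ⟨r₀, hr₀⟩ : ∃ r₀ : (Fin d → ℂ) × ch.Frm × ch.Fld, r₀ = (0, A (x, y₀), x.X) := ⟨_, rfl⟩
  have r1 : AnalyticAt ℂ (fun r : (Fin d → ℂ) × ch.Frm × ch.Fld => ψ r.1) r₀ :=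
    ψ1.comp_of_eq analyticAt_fst (by rw [hr₀])
  have r2 : ψ r₀.1 = y₀ := by rw [hr₀, ψ0]
  have r3 : Tendsto (Prod.fst : (Fin d → ℂ) × ch.Frm × ch.Fld → _) (𝓝 r₀) (𝓝 0) :=
    hr₀ ▸ continuousAt_fst
  have r4 : ∀ l, AnalyticAt ℂ (fun r : (Fin d → ℂ) × ch.Frm × ch.Fld => r.2.1 l) r₀ := fun l =>
    analyticAt_pi_iff.1 (analyticAt_fst.comp analyticAt_snd) l
  have Ψ1 : AnalyticAt ℂ Ψ r₀ := W.an_iff.2 ⟨fun l => an_comp (r4 l) ((he l).an_ev.comp_of_eq r1 r2),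
    fun n => analyticAt_pi_iff.1 (hU.an.comp_of_eq r1 r2) n,
    an_comp (r4 none) (N1.comp_of_eq analyticAt_fst (by rw [hr₀])),
    fun j => analyticAt_pi_iff.1 (analyticAt_snd.comp analyticAt_snd) j⟩
  have key : ∀ᶠ s in 𝓝 0, ∀ y ∈ ch.base ν, crv y = C (ψ s) → y.p = p (ψ s) →
      Rel y (ξ (ψ s)) (val (F s)) → Ψ (s, A (y, ψ s), y.X) = y := by
    filter_upwards [N2, ψt.eventually A2, ψt.eventually (he none).ev] with s k1 k2 k3 y m1 m2 m3 m4
    simpa only [m3] using eq_mk m1 m4 (m2 ▸ k3.1) (k2 y m1 m2) k1.1 k1.2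
  have Ψ0 : Ψ r₀ = x := by
    have := key.self_of_nhds x hx (by rw [ψ0, c0]) (by rw [ψ0, p0]) fun c u hu μ => by
      rw [F0 c (c0 ▸ mem_crv.2 ⟨u, hu⟩), ψ0]; exact hr c u hu μ
    rwa [ψ0, ← hr₀] at this
  have Ψ2 : ∀ᶠ r in 𝓝 r₀, (crv (Ψ r) = C (ψ r.1) ∧ Rel (Ψ r) (ξ (ψ r.1)) (val (F r.1)) ∧
      Ψ r ∈ ch.base ν) ∧ Dvs ch.o (C (ψ r.1)) (val (F r.1)) (z (ψ r.1)) ch.k := by
    filter_upwards [r3.eventually (N2.and hD), (ψt.comp r3).eventually ((hU.fam.isCurve h0).and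
      (hV.vf.and (eventually_all.2 fun l => (he l).ev))), eventually_all.2 fun l =>
        eventually_bijective (r4 l).continuousAt (bijective_of_surjective _ (.of_comp (g := evP _
          (e l y₀)) (by
          rw [hr₀, ← ContinuousLinearMap.coe_comp, A2.self_of_nhds x hx c0.symm]
          exact hx.1 l)) rfl)] with r ⟨k1, k2⟩ ⟨k3, k4, k5⟩ k6
    exact ⟨mk_mem h k3 k4 k2 hw k5 k6 k1.1 k1.2 rfl, k2⟩
  have Ψ3 : Injective (fderiv ℂ Ψ r₀) := by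
    refine (injective_iff_map_eq_zero _).2 fun v hv => ?_
    have f1 := r1.differentiableAt.hasFDerivAt
    have f2 : fderiv ℂ (fun r : (Fin d → ℂ) × ch.Frm × ch.Fld => ψ r.1) r₀ v = 0 := by
      refine hU.eff _ (funext fun n => ?_) fun μ m1 m2 c hc => ?_
      · have m : HasFDerivAt p (fderiv ℂ p y₀) (ψ r₀.1) := r2 ▸ hU.an.differentiableAt.hasFDerivAt
        have := ((hasFDerivAt_pi'.1 m n).comp r₀ f1).unique
          ((W.pL n).hasFDerivAt.comp r₀ Ψ1.differentiableAt.hasFDerivAt :)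
        simpa [hv, show W.p (0 : ch.W ν) n = 0 from rfl] using congrArg (· v) this
      · have m3 : HasFDerivAt μ (fderiv ℂ μ y₀) (ψ r₀.1) := r2 ▸ m1.differentiableAt.hasFDerivAt
        have := (((W.QL l₀).hasFDerivAt.comp r₀ Ψ1.differentiableAt.hasFDerivAt).clm_apply
          (m3.comp r₀ f1)).unique ((hasFDerivAt_const (0 : ch.E l₀) r₀).congr_of_eventuallyEq (by
            filter_upwards [Ψ2, (ψt.comp r3).eventually m2] with r k1 k2
            exact (Q_eq_zero k1.1.2.2).2 (k1.1.1 ▸ k2)))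
        refine (Q_eq_zero hx).1 ?_ c (c0 ▸ hc)
        simpa [hv, Ψ0, show W.Q (0 : ch.W ν) l₀ = 0 from rfl] using congrArg (· v) this
    obtain ⟨L, L1, L2⟩ := exists_leftInv (ψ1.prod (an_apply (he₀.an_ev.comp_of_eq ψ1 ψ0) F1)) hI
    have f3 := Ψ1.prod r1
    have f4 : evP b (e₀ y₀) (F 0) = U (x, y₀) := U0 ▸ funext fun i => F0 _ (he₀.ev.self_of_nhds.1 i)
    simp only [comp_apply, ψ0, f4] at L1 L2
    have f5 : AnalyticAt ℂ (fun q : ch.W ν × P => (L (q.2, U q), A q, q.1.X)) (x, y₀) :=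
      (L1.comp_of_eq (analyticAt_snd.prod U1) rfl).prod
        (A1.prod (analyticAt_pi_iff.2 (W.an_X analyticAt_fst)))
    have f6 : (Ψ r₀, ψ r₀.1) = (x, y₀) := by rw [Ψ0, r2]
    rw [← fderiv_leftInv (f6 ▸ f5) f3 ?_ v, Ψ1.differentiableAt.fderiv_prodMk r1.differentiableAt]
    · simp [hv, f2, Prod.mk_zero_zero]
    filter_upwards [Ψ2, r3.eventually L2, (f6 ▸ f3.continuousAt.tendsto).eventually U2,
      (ψt.comp r3).eventually (eventually_all.2 S2)] with r k1 k2 k3 k4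
    refine Prod.ext ((congrArg (fun u => L (ψ r.1, u)) (k3 k1.1.1 _ k1.1.2.1).symm).trans k2)
      (Prod.ext (funext fun l => ContinuousLinearMap.ext fun u => congrArg (r.2.1 l)
        ((k4 l).1 u)) rfl)
  obtain ⟨K, K1, K0, K2⟩ := hU.univ (ch.base ν) (ch.W ν) (fun y => crv y.1) Subtype.val ⟨x, hx⟩
    W.p (locFam_base hl _) c0.symm (analyticAt_pi_iff.2 (W.an_p analyticAt_id)) p0.symm
    (.of_forall fun y n => (y.2.2.2.2.1 n).1)
  have K3 : AnalyticAt ℂ (fun y => (y, K y)) x := analyticAt_id.prod K1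
  have K4 : (x, K x) = (x, y₀) := congrArg _ K0
  have K5 : AnalyticAt ℂ (fun y => (K y, U (y, K y))) x := K1.prod (U1.comp_of_eq K3 K4)
  have K6 : (K x, U (x, K x)) = (y₀, evP b (e₀ y₀) F₀) := by rw [U0, K4]; exact congrArg (·, _) K0
  have K7 := Λ1.comp_of_eq K5 K6
  have tv : Tendsto (Subtype.val : ch.base ν → _) (𝓝 ⟨x, hx⟩) (𝓝 x) :=
    continuous_subtype_val.continuousAt
  obtain ⟨Φ, Φ1, Φ0, Φ2⟩ := isParam_of_inv (x := ⟨x, hx⟩) Ψ1 Ψ0 (Ψ2.mono fun r hr => hr.1.2.2) Ψ3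
    (L := fun y => (Λ (K y, U (y, K y)), A (y, K y), y.X))
    (K7.prod ((A1.comp_of_eq K3 K4).prod (analyticAt_pi_iff.2 (W.an_X analyticAt_id)))).continuousAt
    (by rw [K6, K4, Λ0, hr₀]) (by
      have : Tendsto (fun y => Λ (K y, U (y, K y))) (𝓝 x) (𝓝 0) := by
        simpa only [comp_def, K6, Λ0] using K7.continuousAt.tendsto
      filter_upwards [K2, tv.eventually (this.eventually key),
        tv.eventually ((K6 ▸ K5.continuousAt.tendsto).eventually hΛ),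
        tv.eventually ((K4 ▸ K3.continuousAt.tendsto).eventually U2),
        tv.eventually ((K0 ▸ K1.continuousAt.tendsto).eventually hV.vf)] with y k1 k2 k3 k4 k5
      obtain ⟨F', m1, m2⟩ := exists_rel y.2 (ξ := ξ (K y)) (z := z (K y)) (k1.1 ▸ k1.2 ▸ k5) hb hw
      obtain ⟨m3, m4⟩ := k3 F' (k1.1 ▸ m1) (k4 k1.1 F' m2)
      have := k2 y y.2 (by rw [m3, k1.1]) (by rw [m3, k1.2]) fun c u hu μ => by
        rw [m4 c (k1.1 ▸ mem_crv.2 ⟨u, hu⟩), m3]; exact m2 c u hu μ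
      rwa [m3] at this)
  subst hr₀
  refine ⟨d, fun s => C (ψ s), fun s => p (ψ s), w, b, fun s => ξ (ψ s), κ, inferInstance,
    fun s => z (ψ s), F, _, Φ, ?_, Φ1, Φ0,
    LocFam.comp (π' := id) (ψ0 ▸ hU.fam) ψ1.continuousAt (.of_forall fun _ => continuousAt_id) ψ1
      (.of_forall fun _ => rfl),
    VFam.comp (π' := id) (ψ0 ▸ hV) ψ1.continuousAt ψ1 (.of_forall fun _ => rfl), F1, ?_, ?_⟩
  · have e1 := deg_eq hx
    have e2 : dg ch.m ch.M = (∑ i, ch.M i * ch.M i : ℕ) + (∑ i, ch.M i : ℕ) * (ch.g - 1) := by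
      simp only [dg, Nat.cast_sum, Nat.cast_mul, Finset.sum_mul, ← Finset.sum_add_distrib]
      exact Finset.sum_congr rfl fun i _ => by rw [h.M_eq i]; ring
    have e3 : ∑ i, ch.χ i * ch.m i = ch.k * dg ch.m w - dg ch.m b := by
      simp only [hχ, dg, Finset.mul_sum, ← Finset.sum_sub_distrib]
      exact Finset.sum_congr rfl fun i _ => by ring
    have e4 : (Fintype.card κ : ℤ) = dg ch.m w - (2 * ch.g - 2 + Fintype.card ν) :=
      mul_right_cancel₀ (Nat.cast_ne_zero.2 h.k_ne) (by linear_combination d2 + e3 - e1)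
    push_cast at e2 hd ⊢
    linear_combination d1 + hd + e2 - e4
  · filter_upwards [Ψ2, Φ2] with r k1 k2
    rw [k2]
    exact ⟨k1.1.1, rfl, rfl, k1.2, k1.1.2.1⟩
  · intro n c h1 h2
    obtain ⟨τ, t1, t2⟩ := hτ n c (ψ0 ▸ h1) h2
    exact ⟨fun i s => τ i (ψ s), fun i => NdAt.comp (π' := id) (ψ0 ▸ t1 i) ψ1.continuousAt ψ1
      (.of_forall fun _ => rfl), t2⟩

end Ch

end Vale.Agent.P269
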