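import Mathlib

/-!
# Laurent splitting on the neck `u v = τ`, and the theorem of Montel along an ultrafilter
-/

namespace Vale.Agent.P269.Base

open Set Function Topology Filter Metric Complex
open scoped Real

/-- The Cauchy integral over the circle of radius `r`. -/
noncomputable def cau (r : ℝ) (f : ℂ → ℂ) (w : ℂ) : ℂ :=
  (2 * π * I : ℂ)⁻¹ • ∮ z in C(0, r), (z - w)⁻¹ • f z

theorem differentiableOn_cau {r : ℝ} (hr : 0 < r) {f : ℂ → ℂ} (hf : ContinuousOn f (sphere 0 r)) :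
    DifferentiableOn ℂ (cau r f) (ball 0 r) := by
  lift r to NNReal using hr.le
  have h := (hasFPowerSeriesOn_cauchy_integral (hf.circleIntegrable hr.le)
    (by exact_mod_cast hr)).differentiableOn
  rwa [Metric.eball_coe] at h

theorem norm_cau_le {r B : ℝ} (hr : 0 < r) {f : ℂ → ℂ} (hf : ∀ z ∈ sphere (0 : ℂ) r, ‖f z‖ ≤ B)
    {w : ℂ} (hw : ‖w‖ ≤ r / 2) : ‖cau r f w‖ ≤ 2 * B := by
  refine (circleIntegral.norm_two_pi_i_inv_smul_integral_le_of_norm_le_const hr.le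
    (C := (r / 2)⁻¹ * B) fun z hz => ?_).trans (le_of_eq (by field_simp))
  have h1 : r / 2 ≤ ‖z - w‖ := by
    have h2 := norm_sub_norm_le z w
    rw [mem_sphere_zero_iff_norm.1 hz] at h2
    linarith
  rw [norm_smul, norm_inv]
  exact mul_le_mul (inv_anti₀ (by positivity) h1) (hf z hz) (norm_nonneg _) (by positivity)

/-- The Cauchy formula on an annulus. -/
theorem cauchy_annulus {ρ r : ℝ} (hρ : 0 < ρ) {f : ℂ → ℂ}
    (hf : ∀ z : ℂ, ρ ≤ ‖z‖ → ‖z‖ ≤ r → DifferentiableAt ℂ f z) {u : ℂ} (h1 : ρ < ‖u‖)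
    (h2 : ‖u‖ < r) : f u = cau r f u - cau ρ f u := by
  have hle : ρ ≤ r := (h1.trans h2).le
  have hc : ContinuousOn f (closedBall 0 r \ ball 0 ρ) := fun z hz =>
    (hf z (by simpa using hz.2) (by simpa using hz.1)).continuousAt.continuousWithinAt
  have hn : closedBall (0 : ℂ) r \ ball 0 ρ ∈ 𝓝 u :=
    mem_of_superset ((isOpen_ball.sdiff isClosed_closedBall).mem_nhds
      (show u ∈ ball (0 : ℂ) r \ closedBall 0 ρ from ⟨by simpa using h2, by simpa using h1⟩))
      (sdiff_subset_sdiff ball_subset_closedBall ball_subset_closedBall)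
  have key := circleIntegral_eq_of_differentiable_on_annulus_off_countable hρ hle
    (f := dslope f u) (countable_singleton u) ((continuousOn_dslope hn).2 ⟨hc, hf u h1.le h2.le⟩)
    fun z hz => (differentiableAt_dslope_of_ne hz.2).2 (hf z
      (le_of_lt (by simpa using hz.1.2)) (le_of_lt (by simpa using hz.1.1)))
  have hs : ∀ s : ℝ, ρ ≤ s → s ≤ r → ‖u‖ ≠ s → (∮ z in C(0, s), dslope f u z) =
      (∮ z in C(0, s), (z - u)⁻¹ • f z) - (∮ z in C(0, s), (z - u)⁻¹) * f u := by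
    intro s hs1 hs2 hs3
    have h0 : 0 ≤ s := hρ.le.trans hs1
    have hne : ∀ z ∈ sphere (0 : ℂ) s, z ≠ u := fun z hz h =>
      hs3 (h ▸ mem_sphere_zero_iff_norm.1 hz)
    have hi : ContinuousOn (fun z : ℂ => (z - u)⁻¹) (sphere 0 s) :=
      (continuousOn_id.sub continuousOn_const).inv₀ fun z hz => sub_ne_zero.2 (hne z hz)
    have hfs : ContinuousOn f (sphere 0 s) := fun z hz => (hf z
      (by rwa [mem_sphere_zero_iff_norm.1 hz])
      (by rwa [mem_sphere_zero_iff_norm.1 hz])).continuousAt.continuousWithinAt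
    rw [← smul_eq_mul _ (f u), ← circleIntegral.integral_smul_const,
      ← circleIntegral.integral_sub (f := fun z => (z - u)⁻¹ • f z) (g := fun z => (z - u)⁻¹ • f u)
        ((hi.smul hfs).circleIntegrable h0) ((hi.smul continuousOn_const).circleIntegrable h0)]
    refine circleIntegral.integral_congr h0 fun z hz => ?_
    rw [dslope_of_ne _ (hne z hz), slope_def_module, smul_sub]
  have h3 : (∮ z in C(0, ρ), (z - u)⁻¹) = 0 := by
    have hne : ∀ z ∈ closedBall (0 : ℂ) ρ, z - u ≠ 0 := fun z hz h =>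
      absurd (mem_closedBall_zero_iff.1 hz) (by rw [sub_eq_zero.1 h]; exact not_le.2 h1)
    exact circleIntegral_eq_zero_of_differentiable_on_off_countable hρ.le countable_empty
      ((continuousOn_id.sub continuousOn_const).inv₀ hne) fun z hz =>
        (differentiableAt_id.sub_const u).inv (hne z (ball_subset_closedBall hz.1))
  rw [hs r hle le_rfl h2.ne, hs ρ le_rfl hle h1.ne', h3,
    circleIntegral.integral_sub_inv_of_mem_ball (mem_ball_zero_iff.2 h2), zero_mul, sub_zero] at key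
  rw [cau, cau, ← key, ← smul_sub, sub_sub_cancel, smul_eq_mul,
    inv_mul_cancel_left₀ two_pi_I_ne_zero]

/-- The substitution `ζ = τ / η` in a circle integral. -/
theorem circle_subst {τ : ℂ} (hτ : τ ≠ 0) {r : ℝ} (hr : 0 < r) (H : ℂ → ℂ) :
    (∮ ζ in C(0, ‖τ‖ / r), ζ⁻¹ • H ζ) = ∮ η in C(0, r), η⁻¹ • H (τ / η) := by
  have hρ : 0 < ‖τ‖ / r := div_pos (norm_pos_iff.2 hτ) hr
  have h1 : ∀ (s : ℝ) (G : ℂ → ℂ), s ≠ 0 → (∮ ζ in C(0, s), ζ⁻¹ • G ζ) =
      ∫ θ in (0 : ℝ)..2 * π, I * G (circleMap 0 s θ) := by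
    intro s G hs
    refine intervalIntegral.integral_congr fun θ _ => ?_
    have h2 : circleMap 0 s θ ≠ 0 := circleMap_ne_center hs
    simp only [deriv_circleMap, smul_eq_mul]
    field_simp
  have h2 : ∀ θ : ℝ, τ / circleMap 0 r θ = circleMap 0 (‖τ‖ / r) (arg τ - θ) := by
    intro θ
    have h3 : (r : ℂ) ≠ 0 := ofReal_ne_zero.2 hr.ne'
    conv_lhs => rw [← norm_mul_exp_arg_mul_I τ]
    simp only [circleMap, zero_add, ofReal_div, ofReal_sub, sub_mul, Complex.exp_sub]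
    field_simp
  have h3 : Periodic (fun θ => I * H (circleMap 0 (‖τ‖ / r) θ)) (2 * π) :=
    (periodic_circleMap 0 (‖τ‖ / r)).comp fun z => I * H z
  rw [h1 _ _ hρ.ne', h1 _ (fun η => H (τ / η)) hr.ne']
  simp only [h2]
  rw [intervalIntegral.integral_comp_sub_left (fun θ => I * H (circleMap 0 (‖τ‖ / r) θ)),
    show arg τ - 0 = arg τ - 2 * π + 2 * π by ring, h3.intervalIntegral_add_eq _ 0, zero_add]

theorem laurent_split {φ : ℂ × ℂ → ℂ} {τ : ℂ} {r B : ℝ} (hr : 0 < r) (hτ : ‖τ‖ < (r / 2) ^ 2)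
    (h1 : ∀ u : ℂ, ‖u‖ ≤ r → ‖τ‖ ≤ r * ‖u‖ → (u ≠ 0 ∨ τ = 0) →
      AnalyticAt ℂ (fun x => φ (x, τ / x)) u)
    (h2 : ∀ v : ℂ, ‖v‖ ≤ r → ‖τ‖ ≤ r * ‖v‖ → (v ≠ 0 ∨ τ = 0) →
      AnalyticAt ℂ (fun y => φ (τ / y, y)) v)
    (hB : ∀ z : ℂ × ℂ, z.1 * z.2 = τ → ‖z‖ ≤ r → ‖φ z‖ ≤ B) :
    ∃ a b : ℂ → ℂ, DifferentiableOn ℂ a (ball 0 r) ∧ DifferentiableOn ℂ b (ball 0 r) ∧
      (∀ u, ‖u‖ ≤ r / 2 → ‖a u‖ ≤ 2 * B ∧ ‖b u‖ ≤ 2 * B) ∧
      ∀ z : ℂ × ℂ, z.1 * z.2 = τ → ‖z‖ < r → φ z = a z.1 + b z.2 := by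
  rcases eq_or_ne τ 0 with rfl | h0
  · simp only [zero_div, norm_zero] at h1 h2
    have hB0 : ‖φ 0‖ ≤ B := hB 0 (by simp) (by simpa using hr.le)
    refine ⟨fun u => φ (u, 0), fun v => φ (0, v) - φ 0, fun u hu => ?_, fun v hv => ?_,
      fun u hu => ⟨?_, ?_⟩, ?_⟩
    · exact (h1 u (mem_ball_zero_iff.1 hu).le (by positivity)
        (Or.inr trivial)).differentiableAt.differentiableWithinAt
    · exact ((h2 v (mem_ball_zero_iff.1 hv).le (by positivity)
        (Or.inr trivial)).differentiableAt.sub_const _).differentiableWithinAt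
    · have h3 := hB (u, 0) (by simp) (by simp [Prod.norm_def]; linarith)
      have h4 := norm_nonneg (φ 0)
      simp only
      linarith
    · have h3 := hB (0, u) (by simp) (by simp [Prod.norm_def]; linarith)
      have h4 := norm_sub_le (φ (0, u)) (φ 0)
      simp only
      linarith
    · rintro ⟨u, v⟩ hz -
      rcases mul_eq_zero.1 hz with rfl | rfl
      · simp [Prod.mk_zero_zero]
      · simp [Prod.mk_zero_zero]
  · have hρ : 0 < ‖τ‖ / r := div_pos (norm_pos_iff.2 h0) hr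
    have hρr : ‖τ‖ / r ≤ r := by rw [div_le_iff₀ hr]; nlinarith
    set f : ℂ → ℂ := fun x => φ (x, τ / x) with hf
    have hd : ∀ z : ℂ, ‖τ‖ / r ≤ ‖z‖ → ‖z‖ ≤ r → DifferentiableAt ℂ f z := fun z hz hz' =>
      (h1 z hz' (by rwa [div_le_iff₀' hr] at hz)
        (Or.inl (norm_pos_iff.1 (hρ.trans_le hz)))).differentiableAt
    have hb : ∀ z : ℂ, ‖τ‖ / r ≤ ‖z‖ → ‖z‖ ≤ r → ‖f z‖ ≤ B := by
      intro z hz hz'
      have h3 := hρ.trans_le hz
      refine hB _ (mul_div_cancel₀ _ (norm_pos_iff.1 h3)) ?_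
      rw [Prod.norm_def, max_le_iff, norm_div, div_le_iff₀ h3]
      exact ⟨hz', by rwa [div_le_iff₀' hr] at hz⟩
    have hs : ∀ η ∈ sphere (0 : ℂ) r, η ≠ 0 ∧ ‖τ / η‖ = ‖τ‖ / r := fun η hη => by
      rw [mem_sphere_zero_iff_norm] at hη
      exact ⟨norm_pos_iff.1 (hη ▸ hr), by rw [norm_div, hη]⟩
    refine ⟨cau r f, fun v => v * cau r (fun η => η⁻¹ * f (τ / η)) v, ?_, ?_, fun u hu => ⟨?_, ?_⟩,
      ?_⟩
    · refine differentiableOn_cau hr fun z hz => ?_
      rw [mem_sphere_zero_iff_norm] at hz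
      exact (hd z (hz ▸ hρr) hz.le).continuousAt.continuousWithinAt
    · refine differentiableOn_id.mul (differentiableOn_cau hr fun η hη => ?_)
      refine ((continuousAt_inv₀ (hs η hη).1).mul (ContinuousAt.comp (f := fun η => τ / η)
        (hd _ (hs η hη).2.ge ((hs η hη).2 ▸ hρr)).continuousAt ?_)).continuousWithinAt
      exact continuousAt_const.div continuousAt_id (hs η hη).1
    · refine norm_cau_le hr (fun z hz => ?_) hu
      rw [mem_sphere_zero_iff_norm] at hz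
      exact hb z (hz ▸ hρr) hz.le
    · have hB0 : 0 ≤ B := (norm_nonneg _).trans (hb r (by simpa [abs_of_pos hr] using hρr)
        (by simp [abs_of_pos hr]))
      have h3 : ‖cau r (fun η => η⁻¹ * f (τ / η)) u‖ ≤ 2 * (r⁻¹ * B) := by
        refine norm_cau_le hr (fun η hη => ?_) hu
        rw [norm_mul, norm_inv, mem_sphere_zero_iff_norm.1 hη]
        exact mul_le_mul_of_nonneg_left (hb _ (hs η hη).2.ge ((hs η hη).2 ▸ hρr)) (by positivity)
      rw [norm_mul]
      calc ‖u‖ * ‖cau r (fun η => η⁻¹ * f (τ / η)) u‖ ≤ r * (2 * (r⁻¹ * B)) :=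
            mul_le_mul (by linarith) h3 (norm_nonneg _) hr.le
        _ = 2 * B := by field_simp
    · rintro ⟨u, v⟩ hz hn
      simp only [Prod.norm_def, max_lt_iff] at hz hn
      have hu : u ≠ 0 := left_ne_zero_of_mul (hz ▸ h0)
      have hv : v ≠ 0 := right_ne_zero_of_mul (hz ▸ h0)
      have h3 : ‖τ‖ / r < ‖u‖ := by
        rw [div_lt_iff₀ hr, ← hz, norm_mul]
        exact mul_lt_mul_of_pos_left hn.2 (norm_pos_iff.2 hu)
      have h4 : φ (u, v) = f u := by rw [hf, ← hz]; simp [hu]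
      have h5 : (∮ ζ in C(0, ‖τ‖ / r), (ζ - u)⁻¹ • f ζ) =
          ∮ ζ in C(0, ‖τ‖ / r), ζ⁻¹ • (ζ * (ζ - u)⁻¹ * f ζ) := by
        refine circleIntegral.integral_congr hρ.le fun ζ hζ => ?_
        have h6 : ζ ≠ 0 := norm_pos_iff.1 (mem_sphere_zero_iff_norm.1 hζ ▸ hρ)
        simp only [smul_eq_mul]
        field_simp
      have h6 : (∮ η in C(0, r), η⁻¹ • (τ / η * (τ / η - u)⁻¹ * f (τ / η))) =
          ∮ η in C(0, r), -v * ((η - v)⁻¹ • (η⁻¹ * f (τ / η))) := by
        refine circleIntegral.integral_congr hr.le fun η hη => ?_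
        have h7 := (hs η hη).1
        have h8 : η - v ≠ 0 := fun h =>
          hn.2.ne (sub_eq_zero.1 h ▸ mem_sphere_zero_iff_norm.1 hη)
        have h9 : τ / η - u = -(u * (η - v) / η) := by rw [← hz]; field_simp; ring
        simp only [smul_eq_mul, h9]
        generalize f (τ / η) = w
        rw [← hz]
        field_simp
      rw [h4, cauchy_annulus hρ hd h3 hn.1, cau.eq_1 (‖τ‖ / r), h5,
        circle_subst h0 hr fun ζ => ζ * (ζ - u)⁻¹ * f ζ, h6, circleIntegral.integral_const_mul]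
      simp only [cau, smul_eq_mul]
      ring

/-- The theorem of Montel along an ultrafilter. -/
theorem montel {α : Type*} (U : Ultrafilter α) {f : α → ℂ → ℂ} {r B : ℝ}
    (hf : ∀ᶠ n in U, DifferentiableOn ℂ (f n) (ball 0 r) ∧ ∀ z ∈ ball (0 : ℂ) r, ‖f n z‖ ≤ B) :
    ∃ g, DifferentiableOn ℂ g (ball 0 r) ∧ TendstoLocallyUniformlyOn f g U (ball 0 r) := by
  have h1 : ∀ z : ℂ, ∃ w : ℂ, z ∈ ball (0 : ℂ) r → Tendsto (fun n => f n z) U (𝓝 w) := by
    intro z
    by_cases hz : z ∈ ball (0 : ℂ) r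
    · obtain ⟨w, -, hw⟩ := (isCompact_closedBall (0 : ℂ) B).ultrafilter_le_nhds'
        (U.map fun n => f n z) (hf.mono fun n hn => mem_closedBall_zero_iff.2 (hn.2 z hz))
      exact ⟨w, fun _ => hw⟩
    · exact ⟨0, fun h => absurd h hz⟩
  choose g hg using h1
  have h2 : TendstoLocallyUniformlyOn f g U (ball 0 r) := by
    refine Metric.tendstoLocallyUniformlyOn_iff.2 fun ε hε x hx => ?_
    obtain ⟨δ, hδ, hb⟩ := Metric.isOpen_iff.1 isOpen_ball x hx
    have h3 : ∀ᶠ n in U, ∀ y ∈ ball x δ, dist (f n y) (f n x) ≤ 2 * B / δ * dist y x := by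
      filter_upwards [hf] with n hn y hy
      refine dist_le_div_mul_dist_of_mapsTo_ball (hn.1.mono hb) (fun z hz => ?_) hy
      rw [mem_closedBall, dist_eq_norm]
      have := norm_sub_le (f n z) (f n x)
      linarith [hn.2 z (hb hz), hn.2 x hx]
    have h4 : ∀ y ∈ ball x δ, dist (g y) (g x) ≤ 2 * B / δ * dist y x := fun y hy =>
      le_of_tendsto ((hg y (hb hy)).dist (hg x hx)) (h3.mono fun n hn => hn y hy)
    have h5 : ∀ᶠ y in 𝓝 x, 2 * B / δ * dist y x < ε / 3 := by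
      have h6 : ContinuousAt (fun y => 2 * B / δ * dist y x) x := by fun_prop
      exact h6.eventually (gt_mem_nhds (by simpa using hε))
    refine ⟨_, mem_nhdsWithin_of_mem_nhds (inter_mem (ball_mem_nhds x hδ) h5), ?_⟩
    filter_upwards [h3, Metric.tendsto_nhds.1 (hg x hx) (ε / 3) (by positivity)] with n hn hn' y hy
    have h6 := dist_triangle4 (g y) (g x) (f n x) (f n y)
    have h7 := hn y hy.1
    have h8 := h4 y hy.1
    have h9 : 2 * B / δ * dist y x < ε / 3 := hy.2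
    rw [dist_comm] at hn' h7
    linarith
  exact ⟨g, h2.differentiableOn (hf.mono fun n hn => hn.1) isOpen_ball, h2⟩

end Vale.Agent.P269.Base
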