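import Vale.Agent.P269.Base.Fam
import Vale.Agent.P269.Base.Laurent

/-!
# Limits of sections in local families of nodal curves, upper semicontinuity of `h⁰`
-/

namespace Vale.Agent.P269.Base

open Set Function Topology Filter Metric

variable {ι : Type} [Fintype ι] {M : ι → ℕ}
variable {T P E : Type*} [TopologicalSpace T] [NormedAddCommGroup P] [NormedSpace ℂ P]
  [NormedAddCommGroup E] [NormedSpace ℂ E] [FiniteDimensional ℂ P] [FiniteDimensional ℂ E]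
  {o : ι} {C : T → Set (V M)} {π : T → P} {t₀ : T}

namespace Usc

omit [NormedSpace ℂ P] [NormedSpace ℂ E] [FiniteDimensional ℂ P] [FiniteDimensional ℂ E] in
theorem tendsto_base (hπ : ContinuousAt π t₀) (z : E) :
    Tendsto (fun q : T × E => (π q.1, q.2)) (𝓝 (t₀, z)) (𝓝 (π t₀, z)) :=
  ((hπ.comp_of_eq continuousAt_fst rfl).prodMk continuousAt_snd :
    ContinuousAt (fun q : T × E => (π q.1, q.2)) (t₀, z))

omit [FiniteDimensional ℂ P] in
/-- Immersed discs in the model give branches. -/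
theorem branch {σ : P × E → V M} {X : P → Set E} (h : Chart o C π t₀ σ X)
    (hπ : ContinuousAt π t₀) (hne : σ (π t₀, 0) o ≠ 0) :
    ∀ᶠ q : T × E in 𝓝 (t₀, 0), ∀ κ : ℂ → E, AnalyticAt ℂ κ 0 → κ 0 = q.2 → deriv κ 0 ≠ 0 →
      (∀ᶠ w in 𝓝 (0 : ℂ), κ w ∈ X (π q.1)) → IsBranch o (C q.1) fun w => σ (π q.1, κ w) := by
  let pr : V M →L[ℂ] (Fin (M o) → ℂ) := ContinuousLinearMap.proj o
  let m : P × E → (ℂ × E) →L[ℂ] (Fin (M o) → ℂ) := fun q =>
    (ContinuousLinearMap.fst ℂ ℂ E).smulRight (σ q o) +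
      (pr.comp (fderiv ℂ σ q)).comp ((ContinuousLinearMap.inr ℂ P E).comp
        (ContinuousLinearMap.snd ℂ ℂ E))
  have hm : ∀ q s e, m q (s, e) = s • σ q o + fderiv ℂ σ q (0, e) o := fun q s e => rfl
  have hc : ContinuousAt m (π t₀, 0) := by
    refine ContinuousAt.add ?_ ?_
    · exact (ContinuousLinearMap.smulRightL ℂ (ℂ × E) (Fin (M o) → ℂ)
        (ContinuousLinearMap.fst ℂ ℂ E)).continuous.continuousAt.comp
        (pr.continuous.continuousAt.comp h.an.continuousAt)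
    · exact (continuousAt_const.clm_comp h.an.fderiv.continuousAt).clm_comp continuousAt_const
  have hd : ∀ (q : P × E) (κ : ℂ → E), AnalyticAt ℂ σ q → AnalyticAt ℂ κ 0 → κ 0 = q.2 →
      HasDerivAt (fun w => σ (q.1, κ w)) (fderiv ℂ σ q (0, deriv κ 0)) 0 := by
    intro q κ h1 h2 h3
    have h4 : HasFDerivAt σ (fderiv ℂ σ q) (q.1, κ 0) := by
      rw [h3]; exact h1.differentiableAt.hasFDerivAt
    exact h4.comp_hasDerivAt (f := fun w => (q.1, κ w)) 0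
      ((hasDerivAt_const _ _).prodMk h2.differentiableAt.hasDerivAt)
  have hi : Injective (m (π t₀, 0)) := by
    refine (injective_iff_map_eq_zero _).2 fun ⟨s, e⟩ hse => ?_
    rw [hm] at hse
    have h1 : HasFDerivAt (fun z => σ (π t₀, z))
        ((fderiv ℂ σ (π t₀, 0)).comp (ContinuousLinearMap.inr ℂ P E)) 0 :=
      h.an.differentiableAt.hasFDerivAt.comp (f := fun z : E => (π t₀, z)) 0
        (hasFDerivAt_prodMk_right _ _)
    have h2 : e = 0 := by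
      refine h.imm e (-s) ?_
      rw [h1.fderiv, neg_smul]
      exact eq_neg_of_add_eq_zero_right hse
    subst h2
    have h3 : fderiv ℂ σ (π t₀, 0) (0, 0) = 0 := map_zero _
    rw [h3, Pi.zero_apply, add_zero] at hse
    rw [(smul_eq_zero.1 hse).resolve_right hne]
    rfl
  have := FiniteDimensional.complete ℂ (V M)
  filter_upwards [(tendsto_base hπ 0).eventually (Holo.eventually_injective hc hi),
    (tendsto_base hπ 0).eventually h.an.eventually_analyticAt, h.mem.eventually_nhds]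
    with q h1 h2 h3 κ k1 k2 k3 k4
  refine ⟨?_, ?_, ?_⟩
  · exact h2.comp_of_eq (analyticAt_const.prod k1) (by rw [k2])
  · have h4 : Tendsto (fun w => (q.1, κ w)) (𝓝 0) (𝓝 q) := by
      have h5 : q = (q.1, κ 0) := by rw [k2]
      rw [h5]
      exact tendsto_const_nhds.prodMk_nhds k1.continuousAt
    filter_upwards [h4.eventually h3, k4] with w a b using a b
  · rw [(hd (π q.1, q.2) κ h2 k1 k2).deriv, k2, LinearIndependent.pair_iff]
    intro s t hst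
    have h4 : m (π q.1, q.2) (s, t • deriv κ 0) = 0 := by
      have h5 : ((0 : P), t • deriv κ 0) = t • ((0 : P), deriv κ 0) := by simp
      rw [hm, h5, map_smul]
      exact hst
    have h6 := (injective_iff_map_eq_zero _).1 h1 _ h4
    exact ⟨congrArg Prod.fst h6, (smul_eq_zero.1 (congrArg Prod.snd h6)).resolve_right k3⟩

omit [FiniteDimensional ℂ P] in
/-- Uniform data on a closed ball of the model. -/
theorem ball_data {σ : P × E → V M} {X : P → Set E} (h : Chart o C π t₀ σ X)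
    (hπ : ContinuousAt π t₀) (hne : σ (π t₀, 0) o ≠ 0) (a : ι → ℕ) :
    ∃ r > 0, ∃ B : ℝ, ∀ᶠ t in 𝓝 t₀, ∀ z : E, ‖z‖ ≤ r →
      (∀ κ : ℂ → E, AnalyticAt ℂ κ 0 → κ 0 = z → deriv κ 0 ≠ 0 →
        (∀ᶠ w in 𝓝 (0 : ℂ), κ w ∈ X (π t)) → IsBranch o (C t) fun w => σ (π t, κ w)) ∧
      (z ∈ X (π t) → σ (π t, z) ∈ C t) ∧ ∏ i, ‖σ (π t, z) i‖ ^ a i ≤ B := by
  have h1 : ContinuousAt (fun q : P × E => ∏ i, ‖σ q i‖ ^ a i) (π t₀, 0) :=
    (by fun_prop : Continuous fun c : V M => ∏ i, ‖c i‖ ^ a i).continuousAt.comp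
      h.an.continuousAt
  have h2 := (tendsto_base hπ 0).eventually (h1.eventually (eventually_le_nhds (lt_add_one _)))
  have h3 := (branch h hπ hne).and (h.mem.and h2)
  rw [nhds_prod_eq, eventually_prod_iff] at h3
  obtain ⟨pa, ha, pb, hb, h4⟩ := h3
  obtain ⟨r, hr, h5⟩ := Metric.nhds_basis_closedBall.eventually_iff.1 hb
  exact ⟨r, hr, _, ha.mono fun t ht z hz => h4 ht (h5 (by simpa using hz))⟩

variable {α : Type*}

/-- `w` is the limit of `s n` at `c`. -/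
def Lim (C : T → Set (V M)) (U : Filter α) (t : α → T) (s : α → V M → ℂ) (c : V M) (w : ℂ) :
    Prop :=
  ∀ y : α → V M, Tendsto y U (𝓝 c) → (∀ᶠ n in U, y n ∈ C (t n)) →
    Tendsto (fun n => s n (y n)) U (𝓝 w)

/-- From limits in the model to limits in the multicone. -/
theorem lim_of_chart {σ : P × E → V M} {X : P → Set E} (h : Chart o C π t₀ σ X)
    (hπ : ContinuousAt π t₀) (hne : ∀ i, σ (π t₀, 0) i ≠ 0) {a : ι → ℕ} {U : Filter α}
    {t : α → T} (ht : Tendsto t U (𝓝 t₀)) {s : α → V M → ℂ}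
    (hs : ∀ᶠ n in U, IsSec o (C (t n)) a (s n)) {G : E → ℂ} (hG : AnalyticAt ℂ G 0)
    (hL : ∀ᶠ z' in 𝓝 (0 : E), ∀ z : α → E, Tendsto z U (𝓝 z') →
      (∀ᶠ n in U, z n ∈ X (π (t n))) →
      Tendsto (fun n => s n (σ (π (t n), z n))) U (𝓝 (G z'))) :
    ∃ Φ : V M → ℂ, AnalyticAt ℂ Φ (σ (π t₀, 0)) ∧
      ∀ᶠ c in 𝓝 (σ (π t₀, 0)), Lim C U t s c (Φ c) := by
  classical
  obtain ⟨ρ, hρ, hρ'⟩ := h.exists_retr hne
  have := FiniteDimensional.complete ℂ ((ι → ℂ) × E)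
  have h0 : ρ (π t₀, σ (π t₀, 0)) = (1, 0) := by simpa using hρ'.self_of_nhds
  have hρ0 : AnalyticAt ℂ (fun c => ρ (π t₀, c)) (σ (π t₀, 0)) :=
    hρ.comp_of_eq (analyticAt_const.prod analyticAt_id) rfl
  have hρ1 : ∀ i, AnalyticAt ℂ (fun c => (ρ (π t₀, c)).1 i) (σ (π t₀, 0)) := fun i =>
    ((ContinuousLinearMap.proj (R := ℂ) (φ := fun _ : ι => ℂ) i).analyticAt _).comp
      (analyticAt_fst.comp hρ0)
  have hρ2 : AnalyticAt ℂ (fun c => (ρ (π t₀, c)).2) (σ (π t₀, 0)) := analyticAt_snd.comp hρ0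
  refine ⟨fun c => (∏ i, (ρ (π t₀, c)).1 i ^ a i) * G (ρ (π t₀, c)).2,
    (Finset.analyticAt_fun_prod _ fun i _ => (hρ1 i).pow _).mul
      (hG.comp_of_eq hρ2 (by rw [h0])), ?_⟩
  -- the points of the multicone in terms of the retraction
  have k1 : ∀ᶠ q : T × (ι → ℂ) × E in 𝓝 (t₀, 1, 0),
      ρ (π q.1, q.2.1 • σ (π q.1, q.2.2)) = q.2 ∧ (∀ i, q.2.1 i ≠ 0) ∧
        (q.2.2 ∈ X (π q.1) → σ (π q.1, q.2.2) ∈ C q.1) := by
    refine ((tendsto_base hπ _).eventually hρ').and (Eventually.and ?_ ?_)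
    · refine eventually_all.2 fun i => ?_
      exact (by fun_prop : Continuous fun q : T × (ι → ℂ) × E => q.2.1 i).continuousAt.eventually_ne
        one_ne_zero
    · exact ((by fun_prop : Continuous fun q : T × (ι → ℂ) × E =>
        (q.1, q.2.2)).tendsto (t₀, 1, 0)).eventually h.mem
  rw [nhds_prod_eq, eventually_prod_iff] at k1
  obtain ⟨pa, ha, pb, hb, k1⟩ := k1
  have k2 : ∀ᶠ q : T × V M in 𝓝 (t₀, σ (π t₀, 0)), q.2 ∈ C q.1 →
      (ρ (π q.1, q.2)).2 ∈ X (π q.1) ∧ (∀ i, (ρ (π q.1, q.2)).1 i ≠ 0) ∧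
        σ (π q.1, (ρ (π q.1, q.2)).2) ∈ C q.1 ∧
        q.2 = (ρ (π q.1, q.2)).1 • σ (π q.1, (ρ (π q.1, q.2)).2) := by
    filter_upwards [h.sub' hπ hne _ hb, continuousAt_fst.eventually ha] with q h1 h2 h3
    obtain ⟨w, hw, h4, h5⟩ := h1 h3
    obtain ⟨h6, h7, h8⟩ := k1 h2 hw
    have h9 : ρ (π q.1, q.2) = w := by rw [h5]; exact h6
    rw [h9]
    exact ⟨h4, h7, h8 h4, h5⟩
  have k3 : Tendsto (fun c : V M => (t₀, c)) (𝓝 (σ (π t₀, 0))) (𝓝 (t₀, σ (π t₀, 0))) :=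
    tendsto_const_nhds.prodMk_nhds tendsto_id
  have k4 : Tendsto (fun c : V M => (π t₀, c)) (𝓝 (σ (π t₀, 0))) (𝓝 (π t₀, σ (π t₀, 0))) :=
    tendsto_const_nhds.prodMk_nhds tendsto_id
  have k5 : Tendsto (fun c => (ρ (π t₀, c)).2) (𝓝 (σ (π t₀, 0))) (𝓝 0) := by
    have := hρ2.continuousAt.tendsto
    rwa [h0] at this
  filter_upwards [k3.eventually k2.eventually_nhds, k4.eventually hρ.eventually_analyticAt,
    k5.eventually hL] with c h1 h2 h3 y hy hyC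
  have h4 : Tendsto (fun n => ρ (π (t n), y n)) U (𝓝 (ρ (π t₀, c))) :=
    h2.continuousAt.tendsto.comp ((hπ.tendsto.comp ht).prodMk_nhds hy)
  have h5 := (ht.prodMk_nhds hy).eventually h1
  have h6 := h3 (fun n => (ρ (π (t n), y n)).2) ((continuous_snd.tendsto _).comp h4)
    (by filter_upwards [h5, hyC] with n a b using (a b).1)
  have h7 : Tendsto (fun n => ∏ i, (ρ (π (t n), y n)).1 i ^ a i) U
      (𝓝 (∏ i, (ρ (π t₀, c)).1 i ^ a i)) :=
    ((by fun_prop : Continuous fun w : (ι → ℂ) × E => ∏ i, w.1 i ^ a i).tendsto _).comp h4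
  refine (h7.mul h6).congr' ?_
  filter_upwards [h5, hyC, hs] with n b1 b2 b3
  obtain ⟨-, b4, b5, b6⟩ := b1 b2
  rw [← b3.hom _ b4 _ b5]
  exact congrArg _ b6.symm

theorem an_shift {f : ℂ → ℂ} {u : ℂ} (h : AnalyticAt ℂ (fun w => f (u + w)) 0) :
    AnalyticAt ℂ f u := by
  have h1 := h.comp_of_eq (f := fun x : ℂ => x - u) (x := u) (by fun_prop) (sub_self u)
  refine h1.congr (Eventually.of_forall fun x => ?_)
  simp

theorem montel_lim (U : Ultrafilter α) {f : α → ℂ → ℂ} {r B : ℝ} (hr : 0 < r)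
    (hf : ∀ᶠ n in U, DifferentiableOn ℂ (f n) (ball 0 r) ∧ ∀ z ∈ ball (0 : ℂ) r, ‖f n z‖ ≤ B) :
    ∃ g, AnalyticAt ℂ g 0 ∧ ∀ z' ∈ ball (0 : ℂ) r, ∀ z : α → ℂ, Tendsto z U (𝓝 z') →
      Tendsto (fun n => f n (z n)) U (𝓝 (g z')) := by
  obtain ⟨g, h1, h2⟩ := montel U hf
  refine ⟨g, h1.analyticAt (ball_mem_nhds _ hr), fun z' hz' z hz => ?_⟩
  refine h2.tendsto_comp (h1.continuousOn z' hz') hz' ?_
  rwa [isOpen_ball.nhdsWithin_eq hz']

theorem lim_sm {c : V M} (h : SmAt o C π t₀ c) (hπ : ContinuousAt π t₀) (hne : ∀ i, c i ≠ 0)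
    {a : ι → ℕ} (U : Ultrafilter α) {t : α → T} (ht : Tendsto t U (𝓝 t₀)) {s : α → V M → ℂ}
    (hs : ∀ᶠ n in U, IsSec o (C (t n)) a (s n) ∧ ∀ c ∈ C (t n), ‖s n c‖ ≤ ∏ i, ‖c i‖ ^ a i) :
    ∃ Φ : V M → ℂ, AnalyticAt ℂ Φ c ∧ ∀ᶠ c' in 𝓝 c, Lim C U t s c' (Φ c') := by
  obtain ⟨σ, rfl, h⟩ := h
  obtain ⟨r, hr, B, hB⟩ := ball_data h hπ (hne o) a
  obtain ⟨g, h1, h2⟩ := montel_lim U (f := fun n z => s n (σ (π (t n), z))) (B := B) hr (by
    filter_upwards [ht.eventually hB, hs] with n b1 b2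
    refine ⟨fun z hz => ?_, fun z hz => ?_⟩
    · have b3 := (b1 z (mem_ball_zero_iff.1 hz).le).1 (fun w => z + w) (by fun_prop) (add_zero z)
        (by simp) (Eventually.of_forall fun _ => mem_univ _)
      exact (an_shift (f := fun z => s n (σ (π (t n), z)))
        (b2.1.holo _ b3)).differentiableAt.differentiableWithinAt
    · obtain ⟨-, b3, b4⟩ := b1 z (mem_ball_zero_iff.1 hz).le
      exact (b2.2 _ (b3 (mem_univ _))).trans b4)
  refine lim_of_chart h hπ hne ht (hs.mono fun n hn => hn.1) h1 ?_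
  filter_upwards [ball_mem_nhds _ hr] with z' hz' z hz _ using h2 z' hz' z hz

theorem neck {τ u : ℂ} {r : ℝ} (hr : 0 < r) (h1 : ‖τ‖ ≤ r * ‖u‖) (h2 : u ≠ 0 ∨ τ = 0) :
    ‖τ / u‖ ≤ r ∧ AnalyticAt ℂ (fun w => τ / (u + w)) 0 ∧
      ∀ᶠ w in 𝓝 (0 : ℂ), (u + w) * (τ / (u + w)) = τ := by
  rcases h2 with h2 | rfl
  · refine ⟨?_, analyticAt_const.div (by fun_prop) (by simpa using h2), ?_⟩
    · rw [norm_div, div_le_iff₀ (norm_pos_iff.2 h2)]
      exact h1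
    · filter_upwards [(by fun_prop : Continuous fun w : ℂ => u + w).continuousAt.eventually_ne
        (show u + 0 ≠ 0 by simpa using h2)] with w hw
      field_simp
  · simp only [zero_div, norm_zero, mul_zero]
    exact ⟨hr.le, analyticAt_const, Eventually.of_forall fun _ => trivial⟩

theorem lim_nd {c : V M} {τ : P → ℂ} (h : NdAt o C π t₀ c τ) (hπ : ContinuousAt π t₀)
    (hne : ∀ i, c i ≠ 0) {a : ι → ℕ} (U : Ultrafilter α) {t : α → T} (ht : Tendsto t U (𝓝 t₀))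
    {s : α → V M → ℂ}
    (hs : ∀ᶠ n in U, IsSec o (C (t n)) a (s n) ∧ ∀ c ∈ C (t n), ‖s n c‖ ≤ ∏ i, ‖c i‖ ^ a i) :
    ∃ Φ : V M → ℂ, AnalyticAt ℂ Φ c ∧ ∀ᶠ c' in 𝓝 c, Lim C U t s c' (Φ c') := by
  obtain ⟨σ, rfl, hτ, hτ0, h⟩ := h
  obtain ⟨r, hr, B, hB⟩ := ball_data h hπ (hne o) a
  have hτ1 : ∀ᶠ n in U, ‖τ (π (t n))‖ < (r / 2) ^ 2 := by
    have h1 := ((hτ.continuousAt.tendsto.comp hπ.tendsto).comp ht).norm
    rw [hτ0, norm_zero] at h1
    exact h1.eventually (eventually_lt_nhds (by positivity))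
  have h1 : ∀ᶠ n in U, ∃ ab : (ℂ → ℂ) × (ℂ → ℂ), DifferentiableOn ℂ ab.1 (ball 0 r) ∧
      DifferentiableOn ℂ ab.2 (ball 0 r) ∧
      (∀ u, ‖u‖ ≤ r / 2 → ‖ab.1 u‖ ≤ 2 * B ∧ ‖ab.2 u‖ ≤ 2 * B) ∧
      ∀ z : ℂ × ℂ, z.1 * z.2 = τ (π (t n)) → ‖z‖ < r →
        s n (σ (π (t n), z)) = ab.1 z.1 + ab.2 z.2 := by
    filter_upwards [ht.eventually hB, hs, hτ1] with n b1 b2 b3
    obtain ⟨f, g, hfg⟩ := laurent_split (φ := fun z => s n (σ (π (t n), z))) (B := B) hr b3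
      (fun u u1 u2 u3 => by
        obtain ⟨n1, n2, n3⟩ := neck hr u2 u3
        have n4 : AnalyticAt ℂ (fun w : ℂ => u + w) 0 := by fun_prop
        have b4 := (b1 (u, τ (π (t n)) / u) (by rw [Prod.norm_mk]; exact max_le u1 n1)).1
          (fun w => (u + w, τ (π (t n)) / (u + w))) (n4.prod n2) (by simp) (by
            rw [(((hasDerivAt_id' (0 : ℂ)).const_add u).prodMk
              n2.differentiableAt.hasDerivAt).deriv]
            exact fun e => one_ne_zero (congrArg Prod.fst e)) n3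
        exact an_shift (f := fun x => s n (σ (π (t n), (x, τ (π (t n)) / x)))) (b2.1.holo _ b4))
      (fun u u1 u2 u3 => by
        obtain ⟨n1, n2, n3⟩ := neck hr u2 u3
        have n4 : AnalyticAt ℂ (fun w : ℂ => u + w) 0 := by fun_prop
        have b4 := (b1 (τ (π (t n)) / u, u) (by rw [Prod.norm_mk]; exact max_le n1 u1)).1
          (fun w => (τ (π (t n)) / (u + w), u + w)) (n2.prod n4) (by simp) (by
            rw [(n2.differentiableAt.hasDerivAt.prodMk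
              ((hasDerivAt_id' (0 : ℂ)).const_add u)).deriv]
            exact fun e => one_ne_zero (congrArg Prod.snd e))
          (n3.mono fun w hw => (mul_comm _ _).trans hw)
        exact an_shift (f := fun x => s n (σ (π (t n), (τ (π (t n)) / x, x)))) (b2.1.holo _ b4))
      (fun z z1 z2 => (b2.2 _ ((b1 z z2).2.1 z1)).trans (b1 z z2).2.2)
    exact ⟨(f, g), hfg⟩
  obtain ⟨ab, h1⟩ := h1.choice
  have hr2 : ball (0 : ℂ) (r / 2) ⊆ ball 0 r := ball_subset_ball (by linarith)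
  obtain ⟨f, f1, f2⟩ := montel_lim U (f := fun n => (ab n).1) (B := 2 * B) (half_pos hr)
    (h1.mono fun n hn => ⟨hn.1.mono hr2, fun z hz => (hn.2.2.1 z (mem_ball_zero_iff.1 hz).le).1⟩)
  obtain ⟨g, g1, g2⟩ := montel_lim U (f := fun n => (ab n).2) (B := 2 * B) (half_pos hr)
    (h1.mono fun n hn => ⟨hn.2.1.mono hr2, fun z hz => (hn.2.2.1 z (mem_ball_zero_iff.1 hz).le).2⟩)
  refine lim_of_chart h hπ hne ht (hs.mono fun n hn => hn.1) (G := fun z => f z.1 + g z.2)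
    ((f1.comp_of_eq analyticAt_fst rfl).add (g1.comp_of_eq analyticAt_snd rfl)) ?_
  filter_upwards [ball_mem_nhds _ (half_pos hr)] with z' hz' z hz hzX
  have h2 := mem_ball_zero_iff.1 hz'
  refine ((f2 z'.1 (mem_ball_zero_iff.2 ((norm_fst_le _).trans_lt h2)) _
    ((continuous_fst.tendsto _).comp hz)).add
    (g2 z'.2 (mem_ball_zero_iff.2 ((norm_snd_le _).trans_lt h2)) _
      ((continuous_snd.tendsto _).comp hz))).congr' ?_
  filter_upwards [h1, hzX, hz.norm.eventually (eventually_lt_nhds (show ‖z'‖ < r by linarith))]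
    with n b1 b2 b3
  exact (b1.2.2.2 _ b2 b3).symm

end Usc

omit [FiniteDimensional ℂ P] in
/-- Every point of the central fibre is a limit of points of the nearby fibres. -/
theorem LocFam.exists_approx (h : LocFam o C π t₀) {c : V M} (hc : c ∈ C t₀) :
    ∃ y : T → V M, Tendsto y (𝓝 t₀) (𝓝 c) ∧ ∀ᶠ t in 𝓝 t₀, y t ∈ C t := by
  have hπ := h.cont.self_of_nhds
  rcases h.chart c hc with ⟨σ, rfl, h1⟩ | ⟨τ, σ, rfl, hτ, hτ0, h1⟩
  · have h2 : Tendsto (fun t : T => (t, (0 : ℂ))) (𝓝 t₀) (𝓝 (t₀, 0)) :=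
      tendsto_id.prodMk_nhds tendsto_const_nhds
    exact ⟨fun t => σ (π t, 0), h1.an.continuousAt.tendsto.comp
      (hπ.tendsto.prodMk_nhds tendsto_const_nhds), (h2.eventually h1.mem).mono fun t ht =>
        ht (mem_univ _)⟩
  · choose w hw using fun x : ℂ => IsAlgClosed.exists_eq_mul_self x
    have h2 : Tendsto (fun t => w (τ (π t))) (𝓝 t₀) (𝓝 0) := by
      have h3 := (hτ.continuousAt.tendsto.comp hπ.tendsto).norm.sqrt
      rw [hτ0, norm_zero, Real.sqrt_zero] at h3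
      refine tendsto_zero_iff_norm_tendsto_zero.2 (h3.congr fun t => ?_)
      conv_lhs => rw [comp_apply, hw (τ (π t)), norm_mul, Real.sqrt_mul_self (norm_nonneg _)]
    have h3 : Tendsto (fun t => (w (τ (π t)), w (τ (π t)))) (𝓝 t₀) (𝓝 0) := h2.prodMk_nhds h2
    exact ⟨fun t => σ (π t, (w (τ (π t)), w (τ (π t)))), h1.an.continuousAt.tendsto.comp
      (hπ.tendsto.prodMk_nhds h3), ((tendsto_id.prodMk_nhds h3).eventually h1.mem).mono
        fun t ht => ht (hw _).symm⟩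

/-- Bounded sections on nearby fibres converge, along an ultrafilter, to a section on the central
fibre. -/
theorem LocFam.limit (h : LocFam o C π t₀) (a : ι → ℕ) {α : Type*} (U : Ultrafilter α)
    {t : α → T} (ht : Tendsto t U (𝓝 t₀)) {s : α → V M → ℂ}
    (hs : ∀ᶠ n in U, IsSec o (C (t n)) a (s n) ∧ ∀ c ∈ C (t n), ‖s n c‖ ≤ ∏ i, ‖c i‖ ^ a i) :
    ∃ s₀, IsSec o (C t₀) a s₀ ∧ ∀ c ∈ C t₀, ∀ y : α → V M, Tendsto y U (𝓝 c) →
      (∀ᶠ n in U, y n ∈ C (t n)) → Tendsto (fun n => s n (y n)) U (𝓝 (s₀ c)) := by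
  have hπ := h.cont.self_of_nhds
  have h1 : ∀ c ∈ C t₀, ∃ Φ : V M → ℂ, AnalyticAt ℂ Φ c ∧
      ∀ᶠ c' in 𝓝 c, Usc.Lim C U t s c' (Φ c') := fun c hc =>
    (h.chart c hc).elim (fun h2 => Usc.lim_sm h2 hπ (h.ne_zero.self_of_nhds c hc) U ht hs)
      fun ⟨_, h2⟩ => Usc.lim_nd h2 hπ (h.ne_zero.self_of_nhds c hc) U ht hs
  have h2 : ∀ c ∈ C t₀, ∃ w, Usc.Lim C U t s c w := fun c hc =>
    let ⟨Φ, _, h3⟩ := h1 c hc
    ⟨Φ c, h3.self_of_nhds⟩
  choose! s₀ h2 using h2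
  have h3 : ∀ c ∈ C t₀, ∃ y : α → V M, Tendsto y U (𝓝 c) ∧ ∀ᶠ n in U, y n ∈ C (t n) :=
    fun c hc =>
      let ⟨y, y1, y2⟩ := h.exists_approx hc
      ⟨fun n => y (t n), y1.comp ht, ht.eventually y2⟩
  have h4 : ∀ c ∈ C t₀, ∃ Φ : V M → ℂ, AnalyticAt ℂ Φ c ∧
      ∀ᶠ c' in 𝓝 c, c' ∈ C t₀ → s₀ c' = Φ c' := by
    intro c hc
    obtain ⟨Φ, a1, a2⟩ := h1 c hc
    refine ⟨Φ, a1, a2.mono fun c' a3 a4 => ?_⟩
    obtain ⟨y, y1, y2⟩ := h3 c' a4
    exact tendsto_nhds_unique (h2 c' a4 y y1 y2) (a3 y y1 y2)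
  refine ⟨s₀, ⟨fun c hc => ?_, fun l hl c hc => ?_, fun γ hγ => ?_⟩, h2⟩
  · obtain ⟨Φ, a1, a2⟩ := h4 c hc
    exact a1.continuousAt.continuousWithinAt.congr_of_eventuallyEq
      (eventually_nhdsWithin_iff.2 a2) (a2.self_of_nhds hc)
  · obtain ⟨y, y1, y2⟩ := h3 c hc
    have a1 := h2 _ (h.cone.self_of_nhds l hl c hc) (fun n => l • y n) (y1.const_smul l)
      (by filter_upwards [y2, ht.eventually h.cone] with n b1 b2 using b2 l hl _ b1)
    refine tendsto_nhds_unique a1 (((h2 c hc y y1 y2).const_mul _).congr' ?_)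
    filter_upwards [y2, hs] with n b1 b2 using (b2.1.hom l hl _ b1).symm
  · obtain ⟨Φ, a1, a2⟩ := h4 _ hγ.mem.self_of_nhds
    refine (a1.comp hγ.holo).congr ?_
    filter_upwards [hγ.holo.continuousAt.eventually a2, hγ.mem] with w b1 b2 using (b1 b2).symm

theorem IsSec.const_mul {C : Set (V M)} {a : ι → ℕ} {s : V M → ℂ} (hs : IsSec o C a s) (k : ℂ) :
    IsSec o C a fun c => k * s c :=
  ⟨continuousOn_const.mul hs.cont, fun l hl c hc => by rw [hs.hom l hl c hc]; ring,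
    fun γ hγ => analyticAt_const.mul (hs.holo γ hγ)⟩

omit [Fintype ι] in
theorem isCompact_spheres : IsCompact {c : V M | ∀ i, ‖c i‖ = 1} := by
  convert isCompact_univ_pi fun i => isCompact_sphere (0 : Fin (M i) → ℂ) 1 using 1
  ext c
  simp

theorem Nod.isCompact_inter {C : Set (V M)} (h : Nod o C) :
    IsCompact (C ∩ {c : V M | ∀ i, ‖c i‖ = 1}) := by
  refine isCompact_spheres.of_isClosed_subset (isClosed_of_closure_subset fun c hc => ?_)
    inter_subset_right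
  have h1 : c ∈ {c : V M | ∀ i, ‖c i‖ = 1} :=
    isCompact_spheres.isClosed.closure_subset (closure_mono inter_subset_right hc)
  exact ⟨h.closed c (closure_mono inter_subset_left hc) fun i hi => by simpa [hi] using h1 i, h1⟩

/-- A nonzero section has a multiple of norm one. -/
theorem Nod.normalize {C : Set (V M)} (h : Nod o C) {a : ι → ℕ} {s : V M → ℂ}
    (hs : IsSec o C a s) {c : V M} (hc : c ∈ C) (h0 : s c ≠ 0) :
    ∃ k : ℂ, (∀ c ∈ C, ‖k * s c‖ ≤ ∏ i, ‖c i‖ ^ a i) ∧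
      ∃ c₁ ∈ C, (∀ i, ‖c₁ i‖ = 1) ∧ ‖k * s c₁‖ = 1 := by
  have h1 : ∀ c ∈ C, ∃ c' ∈ C ∩ {c : V M | ∀ i, ‖c i‖ = 1},
      ‖s c‖ = (∏ i, ‖c i‖ ^ a i) * ‖s c'‖ := by
    intro c hc
    have h2 : ∀ i, ((‖c i‖ : ℝ) : ℂ) ≠ 0 := fun i => by simpa using h.ne_zero c hc i
    have h3 := h.cone (fun i => ((‖c i‖ : ℝ) : ℂ)⁻¹) (fun i => inv_ne_zero (h2 i)) c hc
    refine ⟨_, ⟨h3, fun i => ?_⟩, ?_⟩
    · simp [norm_smul, h.ne_zero c hc i]
    · have h4 := hs.hom (fun i => ((‖c i‖ : ℝ) : ℂ)) h2 _ h3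
      have h5 : (fun i => ((‖c i‖ : ℝ) : ℂ)) • (fun i => ((‖c i‖ : ℝ) : ℂ)⁻¹) • c = c := by
        funext i
        simp only [Pi.smul_apply', smul_smul, mul_inv_cancel₀ (h2 i), one_smul]
      rw [h5] at h4
      rw [h4, norm_mul, norm_prod]
      simp
  obtain ⟨c', hc', e⟩ := h1 c hc
  obtain ⟨c₁, hc₁, hm⟩ := h.isCompact_inter.exists_isMaxOn ⟨c', hc'⟩
    (hs.cont.mono inter_subset_left).norm
  have h2 : 0 < ‖s c₁‖ := by
    refine lt_of_lt_of_le (norm_pos_iff.2 fun h3 => h0 ?_) (hm hc')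
    rw [← norm_eq_zero, e, h3, norm_zero, mul_zero]
  have h3 : s c₁ ≠ 0 := norm_pos_iff.1 h2
  refine ⟨(s c₁)⁻¹, fun x hx => ?_, c₁, hc₁.1, hc₁.2, by rw [inv_mul_cancel₀ h3, norm_one]⟩
  obtain ⟨x', hx', e'⟩ := h1 x hx
  rw [norm_mul, norm_inv, inv_mul_le_iff₀ h2, e', mul_comm]
  exact mul_le_mul_of_nonneg_right (hm hx') (Finset.prod_nonneg fun i _ => by positivity)

/-- Upper semicontinuity: if no nonzero section on the central fibre vanishes at the given points,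
the same holds on the nearby fibres. -/
theorem LocFam.usc_sec (h : LocFam o C π t₀) (a : ι → ℕ) {β : Type*} {y : β → T → V M}
    (hy : ∀ b, ContinuousAt (y b) t₀ ∧ ∀ᶠ t in 𝓝 t₀, y b t ∈ C t)
    (h0 : ∀ s, IsSec o (C t₀) a s → (∀ b, s (y b t₀) = 0) → ∀ c ∈ C t₀, s c = 0) :
    ∀ᶠ t in 𝓝 t₀, ∀ s, IsSec o (C t) a s → (∀ b, s (y b t) = 0) → ∀ c ∈ C t, s c = 0 := by
  by_contra hcon
  obtain ⟨U, hU1, hU2⟩ : ∃ U : Ultrafilter T, (U : Filter T) ≤ 𝓝 t₀ ∧ ∀ᶠ t in U,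
      ¬ ∀ s, IsSec o (C t) a s → (∀ b, s (y b t) = 0) → ∀ c ∈ C t, s c = 0 := by
    have hb := Filter.frequently_iff_neBot.1 (not_eventually.1 hcon)
    have hU := le_inf_iff.1 (@Ultrafilter.of_le _ _ hb)
    exact ⟨_, hU.1, le_principal_iff.1 hU.2⟩
  have ht : Tendsto (fun t : T => t) U (𝓝 t₀) := hU1
  have h1 : ∀ᶠ t in U, ∃ p : (V M → ℂ) × V M, (IsSec o (C t) a p.1 ∧
      ∀ c ∈ C t, ‖p.1 c‖ ≤ ∏ i, ‖c i‖ ^ a i) ∧ (∀ b, p.1 (y b t) = 0) ∧ p.2 ∈ C t ∧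
      (∀ i, ‖p.2 i‖ = 1) ∧ ‖p.1 p.2‖ = 1 := by
    filter_upwards [hU2, hU1 h.eventually] with t b1 b2
    push Not at b1
    obtain ⟨s, s1, s2, c, hc, s3⟩ := b1
    obtain ⟨k, k1, c₁, k2, k3, k4⟩ := (LocFam.nod b2).normalize s1 hc s3
    exact ⟨(fun c => k * s c, c₁), ⟨IsSec.const_mul s1 k, k1⟩, fun b => by simp [s2 b], k2, k3, k4⟩
  obtain ⟨p, h1⟩ := h1.choice
  obtain ⟨s₀, h2, h3⟩ := h.limit a U ht (s := fun t => (p t).1) (h1.mono fun t ht => ht.1)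
  obtain ⟨c, hc, h4⟩ := isCompact_spheres.ultrafilter_le_nhds' (U.map fun t => (p t).2)
    (h1.mono fun t ht => ht.2.2.2.1)
  have h4' : Tendsto (fun t => (p t).2) U (𝓝 c) := h4
  have h5 : c ∈ C t₀ := by
    by_contra h5
    have h6 := (ht.prodMk_nhds h4').eventually
      (h.usc c (fun i hi => by simpa [hi] using hc i) h5)
    obtain ⟨t, b1, b2⟩ := (h6.and h1).exists
    exact b1 b2.2.2.1
  have h6 : ‖s₀ c‖ = 1 :=
    tendsto_nhds_unique (h3 c h5 _ h4' (h1.mono fun t ht => ht.2.2.1)).norm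
      (tendsto_const_nhds.congr' (h1.mono fun t ht => ht.2.2.2.2.symm))
  have h7 : ∀ b, s₀ (y b t₀) = 0 := fun b =>
    tendsto_nhds_unique (h3 _ (hy b).2.self_of_nhds (y b) ((hy b).1.tendsto.mono_left hU1)
      (hU1 (hy b).2)) (tendsto_const_nhds.congr' (h1.mono fun t ht => (ht.2.1 b).symm))
  rw [h0 s₀ h2 h7 c h5, norm_zero] at h6
  exact zero_ne_one h6

end Vale.Agent.P269.Base
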