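import Vale.Agent.P269.Base.MerE

/-!
# Isomorphisms of multicones
-/

namespace Vale.Agent.P269.Base

open Set Function Topology Filter

variable {ι ι' : Type} [Fintype ι] [Fintype ι'] {M : ι → ℕ} {M' : ι' → ℕ}

/-- `R` is the graph of an isomorphism of nodal curves from `C` to `C'`. -/
structure CIso (o : ι) (o' : ι') (C : Set (V M)) (C' : Set (V M')) (R : V M → V M' → Prop) :
    Prop where
  orb : ∀ c c' y y', R c y → Orb c c' → Orb y y' → R c' y'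
  img : ∀ y, y ∈ C' ↔ ∃ c ∈ C, R c y
  uniq : ∀ c ∈ C, ∀ y y', R c y → R c y' → Orb y y'
  inj : ∀ c ∈ C, ∀ c' ∈ C, ∀ y, R c y → R c' y → Orb c c'
  lift : ∀ γ, IsBranch o C γ → ∃ γ', AnalyticAt ℂ γ' 0 ∧ ∀ᶠ t in 𝓝 0, R (γ t) (γ' t)
  br : ∀ γ γ', IsBranch o C γ → AnalyticAt ℂ γ' 0 → (∀ᶠ t in 𝓝 0, R (γ t) (γ' t)) →
    IsBranch o' C' γ'
  cross : ∀ c γ₁ γ₂ γ₁' γ₂', IsCross o C c γ₁ γ₂ → AnalyticAt ℂ γ₁' 0 → AnalyticAt ℂ γ₂' 0 →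
    γ₁' 0 = γ₂' 0 → (∀ᶠ t in 𝓝 0, R (γ₁ t) (γ₁' t)) → (∀ᶠ t in 𝓝 0, R (γ₂ t) (γ₂' t)) →
    IsCross o' C' (γ₁' 0) γ₁' γ₂'

end Vale.Agent.P269.Base
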