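import Vale.Agent.P269.Base.Mer
import Vale.Agent.P269.Base.MerF
import Vale.Agent.P269.Pt.Core

/-!
# Meromorphic sections on the multicone and sections on the normalisation
-/

set_option linter.unusedSectionVars false

namespace Vale.Agent.P269.Cv

open Set Function Topology Filter Module Base

variable {X : Type} [TopologicalSpace X] [T2Space X] [CompactSpace X] {R : RS X}
  {ι ι' : Type} [Fintype ι] [Fintype ι'] {M : ι → ℕ} {M' : ι' → ℕ} {o : ι} {o' : ι'}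
  {C : Set (V M)} {N : Finset (X × X)} {A : ι → LB R} {π : X → V M} {β κ : Type} [Fintype β]
  {z : β → V M} {y : β → X} {χ : ι → ℤ} {u : β → ℤ} {f : V M → ℂ} {s : X → ℂ}

namespace MerP

theorem closed {C' : Set (V M')} {S : V M → V M' → Prop}
    (h : CIso o o' C C' S) (hC' : ∀ y ∈ C', ∀ i, y i ≠ 0) {γ : ℂ → V M} {γ' : ℂ → V M'}
    (hγ : IsBranch o C γ) (h1 : ContinuousAt γ' 0) (h2 : ∀ i, γ' 0 i ≠ 0)
    (h3 : ∀ᶠ t in 𝓝[≠] 0, S (γ t) (γ' t)) : S (γ 0) (γ' 0) := by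
  obtain ⟨δ, a, b⟩ := h.lift γ hγ
  refine h.orb _ _ _ _ b.self_of_nhds (Orb.refl _) (by_contra fun c => ?_)
  have d := ev_not_orb a.continuousAt.tendsto h1.tendsto
    (hC' _ ((h.img _).2 ⟨_, hγ.mem.self_of_nhds, b.self_of_nhds⟩)) h2 c
  obtain ⟨t, e1, e2, e3, e4⟩ :=
    (h3.and (((d.and (b.and hγ.mem))).filter_mono nhdsWithin_le_nhds)).exists
  exact e2 (h.uniq _ e4 _ _ e3 e1)

theorem ev_off (y : β → X) (x : X) : ∀ᶠ x' in 𝓝[≠] x, ∀ k, x' ≠ y k :=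
  eventually_all.2 fun k => by
    by_cases h : x = y k
    · exact h ▸ self_mem_nhdsWithin
    · exact (eventually_ne_nhds h).filter_mono nhdsWithin_le_nhds

theorem ev_off' (x : X) : ∀ᶠ t in 𝓝[≠] 0, ∀ k, R.i x t ≠ y k := R.ev_ne_iff.1 (ev_off y x)

theorem loc_off {L : LB R} {x : X} (hx : ∀ k, x ≠ y k) :
    (L / ∏ k, R.pt (y k) ^ u k).loc s x = L.loc s x := funext fun t => by
  simp [LB.loc, LB.prod_φ, fun k => R.pt_φ_ne (y := R.i x t) (hx k)]

theorem loc_at {L : LB R} (hi : Injective y) (k : β) : ∀ᶠ t in 𝓝[≠] 0,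
    L.loc s (y k) t = t ^ u k * (L / ∏ k, R.pt (y k) ^ u k).loc s (y k) t := by
  filter_upwards [self_mem_nhdsWithin, mem_nhdsWithin_of_mem_nhds (R.tgt_nhds (y k))] with t a b
  have a' : t ≠ 0 := a
  have e : (R.pt (y k)).φ (y k) (R.i (y k) t) = t⁻¹ := by
    simp [RS.pt, R.i_eq b, a', R.i_mem b, R.e_i b]
  rw [LB.loc, LB.loc, LB.div_φ, LB.prod_φ, Finset.prod_eq_single k
    (fun j _ hj => by rw [LB.zpow_φ, R.pt_φ_ne (hi.ne hj.symm), one_zpow]) (by simp),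
    LB.zpow_φ, e, inv_zpow, div_inv_eq_mul, div_mul_eq_div_div, mul_div_cancel₀ _ (zpow_ne_zero _ a')]

theorem eq_zero {L : LB R} (hs : s ∈ L.Γ) (h : ∀ x, (∀ k, x ≠ y k) → s x = 0) : s = 0 :=
  funext fun x => by_contra fun a => by
    have := R.neBot x
    obtain ⟨x', b, c⟩ :=
      ((ev_off y x).and (((hs x).ev_ne a).filter_mono nhdsWithin_le_nhds)).exists
    exact c (h x' b)

theorem orb_br (x : X) (t : ℂ) : Orb (π (R.i x t)) (br A π x t) :=
  ⟨_, fun i => inv_ne_zero ((A i).ne _ _), br_eq x t⟩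

end MerP

open MerP

namespace Par

variable (h : Par o C N A π)
include h

theorem nod : Nod o C := h.isNodal.nod

theorem eq_of_orb {x x' : X} (hx : Sm N x) (e : Orb (π x) (π x')) : x = x' := by
  obtain ⟨t, -, e⟩ := e
  rcases h.inj x x' t e with a | a | a
  exacts [a, absurd rfl (hx _ a).1, absurd rfl (hx _ a).2]

theorem exists_pt (hz : Spt o C z) :
    ∃ y : β → X, Injective y ∧ ∀ k, Sm N (y k) ∧ Orb (π (y k)) (z k) := by
  choose y t a b using fun k => (h.img _).1 (hz.mem k)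
  have c : ∀ k, Orb (π (y k)) (z k) := fun k => ⟨t k, a k, b k⟩
  refine ⟨y, fun k k' e => hz.inj k k' ((c k).symm.trans (e ▸ c k')), fun k => ⟨?_, c k⟩⟩
  exact by_contra fun e => hz.sm k (b k ▸ (h.isNode_iff (a k)).2 e)

theorem spt (hi : Injective y) (hy : ∀ k, Sm N (y k) ∧ Orb (π (y k)) (z k)) : Spt o C z := by
  refine ⟨fun k => h.nod.orb (h.mem _) (hy k).2, fun k e => ?_, fun k k' e =>
    hi (h.eq_of_orb (hy k).1 ((hy k).2.trans (e.trans (hy k').2.symm)))⟩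
  obtain ⟨a, t, b, c⟩ := hy k
  exact (h.isNode_iff b).1 (c ▸ e) a

theorem off_iff (hy : ∀ k, Sm N (y k) ∧ Orb (π (y k)) (z k)) {x : X} :
    Off z (π x) ↔ ∀ k, x ≠ y k :=
  forall_congr' fun k => not_congr ⟨fun e => (h.eq_of_orb (hy k).1 ((hy k).2.trans e)).symm,
    fun e => e ▸ (hy k).2.symm⟩

theorem loc_hom (hom : ∀ t : ι → ℂ, (∀ i, t i ≠ 0) → ∀ c ∈ C, f (t • c) = chz χ t * f c) {x : X}
    {t : ℂ} (e : s (R.i x t) = f (π (R.i x t))) : f (br A π x t) = (bz A χ).loc s x t := by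
  have := h.loc_bz (a := χ) (s := fun x => f (π x)) (fun x t ht => hom t ht _ (h.mem x)) x t
    (t := 1) fun _ => one_ne_zero
  rw [one_smul] at this
  simp [this, LB.loc, e]

theorem sec_at (hi : Injective y)
    (hom : ∀ t : ι → ℂ, (∀ i, t i ≠ 0) → ∀ c ∈ C, f (t • c) = chz χ t * f c)
    (h1 : ∀ x, (∀ k, x ≠ y k) → s x = f (π x)) (k : β) :
    (bz A χ / ∏ k, R.pt (y k) ^ u k).Sec s (y k) ↔
      Vz (u k) (fun t => f (br A π (y k) t)) (s (y k)) := by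
  have e : ∀ᶠ t in 𝓝[≠] 0, f (br A π (y k) t) =
      t ^ u k * (bz A χ / ∏ k, R.pt (y k) ^ u k).loc s (y k) t :=
    ((ev_off' (y := y) (y k)).and (loc_at (u := u) (s := s) (L := bz A χ) hi k)).mono fun t a => by
      rw [h.loc_hom hom (h1 _ a.1), a.2]
  refine ⟨fun a => ⟨_, a, LB.loc_zero, e⟩, fun ⟨g, a, b, c⟩ => a.congr
    (eventuallyEq_nhds_of_eventuallyEq_nhdsNE ?_ (b.trans LB.loc_zero.symm))⟩
  filter_upwards [e, c, self_mem_nhdsWithin] with t e1 e2 e3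
  exact mul_left_cancel₀ (zpow_ne_zero (u k) e3) (e2.symm.trans e1)

theorem exists_sec (hi : Injective y) (hy : ∀ k, Sm N (y k) ∧ Orb (π (y k)) (z k))
    (hf : Mer o C χ z u f) : ∃ s ∈ H0 N (bz A χ / ∏ k, R.pt (y k) ^ u k),
      (∀ x, (∀ k, x ≠ y k) → s x = f (π x)) ∧
      ∀ k, Vz (u k) (fun t => f (br A π (y k) t)) (s (y k)) := by
  choose a ha using fun k => hf.ord k _ (h.isBranch (y k)) (by rw [br_zero]; exact (hy k).2.symm)
  have h1 : ∀ x, (∀ k, x ≠ y k) → extend y a (fun x => f (π x)) x = f (π x) := fun x hx =>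
    extend_apply' _ _ _ fun ⟨k, e⟩ => hx k e.symm
  have h2 : ∀ k, Vz (u k) (fun t => f (br A π (y k) t)) (extend y a (fun x => f (π x)) (y k)) :=
    fun k => by rw [hi.extend_apply]; exact ha k
  refine ⟨_, ⟨fun x => ?_, fun n hn => ?_⟩, h1, h2⟩
  · by_cases hx : ∀ k, x ≠ y k
    · rw [LB.Sec, loc_off hx]
      refine (hf.reg _ (h.isBranch x) (by rw [br_zero]; exact (h.off_iff hy).2 hx)).congr ?_
      exact (R.ev_iff.1 (eventually_all.2 fun k => eventually_ne_nhds (hx k))).mono fun t b =>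
        h.loc_hom hf.hom (h1 _ b)
    · obtain ⟨k, rfl⟩ : ∃ k, x = y k := by simpa using hx
      exact (h.sec_at hi hf.hom h1 k).2 (h2 k)
  · rw [h1 _ fun k => ((hy k).1 n hn).1, h1 _ fun k => ((hy k).1 n hn).2, node_eq h.sec hn]

theorem exists_hom {L : LB R} (hs : s ∈ H0 N L) (χ : ι → ℤ) : ∃ f : V M → ℂ,
    (∀ t : ι → ℂ, (∀ i, t i ≠ 0) → ∀ c ∈ C, f (t • c) = chz χ t * f c) ∧ ∀ x, s x = f (π x) := by
  obtain ⟨f, hf⟩ : ∃ f : V M → ℂ, ∀ x (t : ι → ℂ), (∀ i, t i ≠ 0) →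
      f (t • π x) = chz χ t * s x := by
    classical
    choose y σ h1 h2 using fun c => (h.img c).1
    refine ⟨fun c => if hc : c ∈ C then chz χ (σ c hc) * s (y c hc) else 0, fun x t ht => ?_⟩
    have h3 := h2 _ (h.smul_mem x ht)
    have h4 := h.fibre ht h3
    rw [← h.π_eq h4] at h3
    simp only [dif_pos (h.smul_mem x ht), ← Dict.smul_cancel (h.ne x) h3, ← h.eq_of_rel h4 hs]
  refine ⟨f, fun t ht c hc => ?_, fun x => by simpa using (hf x 1 fun _ => one_ne_zero).symm⟩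
  obtain ⟨x, σ, hσ, rfl⟩ := (h.img c).1 hc
  rw [smul_smul, hf _ (t * σ) fun i => mul_ne_zero (ht i) (hσ i), hf _ _ hσ, chz_mul, mul_assoc]

theorem vz (hi : Injective y) (hy : ∀ k, Sm N (y k) ∧ Orb (π (y k)) (z k))
    (hom : ∀ t : ι → ℂ, (∀ i, t i ≠ 0) → ∀ c ∈ C, f (t • c) = chz χ t * f c) {k : β} {γ : ℂ → V M}
    (hγ : IsBranch o C γ) (hk : Orb (z k) (γ 0)) {w : ℤ} {a : ℂ}
    (ha : Vz w (fun t => f (br A π (y k) t)) a) : ∃ r, Vz w (fun t => f (γ t)) (r * a) := by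
  obtain ⟨t, b, c⟩ := (hy k).2.trans hk
  obtain ⟨r, -, d⟩ := h.nod.vz hom (h.isBranch (y k)) hγ
    (fun e => (h.spt hi hy).sm k (h.nod.isNode_orb e hk.symm)) b (by rw [br_zero]; exact c)
  exact ⟨_, mul_assoc (chz χ t) _ _ ▸ d w a ha⟩

theorem exists_mer (hi : Injective y) (hy : ∀ k, Sm N (y k) ∧ Orb (π (y k)) (z k))
    (hs : s ∈ H0 N (bz A χ / ∏ k, R.pt (y k) ^ u k)) : ∃ f, Mer o C χ z u f ∧
      (∀ x, (∀ k, x ≠ y k) → s x = f (π x)) ∧
      ∀ k, Vz (u k) (fun t => f (br A π (y k) t)) (s (y k)) := by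
  obtain ⟨f, hom, hf⟩ := h.exists_hom hs χ
  have h2 := fun k => (h.sec_at (u := u) hi hom (fun x _ => hf x) k).1 (hs.1 _)
  refine ⟨f, ⟨hom, fun γ hγ ho => ?_, fun k γ hγ hk =>
    (h.vz hi hy hom hγ hk (h2 k)).elim fun _ a => ⟨_, a⟩⟩, fun x _ => hf x, h2⟩
  obtain ⟨x, σ, φ, a, b, c, d, e⟩ := h.factor hγ.holo hγ.mem
  have hx : ∀ k, x ≠ y k :=
    (h.off_iff hy).1 (ho.orb (Orb.symm ⟨_, b, (h.deriv_factor a c d e o).1⟩))
  have k := hs.1 x
  rw [LB.Sec, loc_off hx] at k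
  refine (((analyticAt_chz (χ := χ) b).comp a).mul (k.comp_of_eq c d)).congr ?_
  filter_upwards [e, eventually_all.2 fun i =>
    (analyticAt_pi_iff.1 a i).continuousAt.eventually_ne (b i)] with t e1 e2
  rw [e1, hom _ e2 _ (h.br_mem _ _), h.loc_hom hom (hf _)]
  rfl

theorem triv_iff (hi : Injective y) (hy : ∀ k, Sm N (y k) ∧ Orb (π (y k)) (z k))
    (hf : Mer o C χ z u f) (h1 : ∀ x, (∀ k, x ≠ y k) → s x = f (π x))
    (h2 : ∀ k, Vz (u k) (fun t => f (br A π (y k) t)) (s (y k))) :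
    Triv o C χ z u f ↔ ∀ x, s x ≠ 0 := by
  have o1 : ∀ k, Orb (z k) (br A π (y k) 0) := fun k => by rw [br_zero]; exact (hy k).2.symm
  refine ⟨fun a x => ?_, fun a => hf.triv h.nod (h.spt hi hy) (fun c hc ho => ?_) fun k =>
    ⟨_, h.isBranch _, o1 k, _, a _, h2 k⟩⟩
  · by_cases hx : ∀ k, x ≠ y k
    · rw [h1 x hx]
      exact a.ne _ (h.mem x) ((h.off_iff hy).2 hx)
    · obtain ⟨k, rfl⟩ : ∃ k, x = y k := by simpa using hx
      exact a.exact k _ _ (h.isBranch _) (o1 k) (h2 k)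
  · obtain ⟨x, t, b, rfl⟩ := (h.img c).1 hc
    rw [hf.hom t b _ (h.mem x), ← h1 x ((h.off_iff hy).1 (ho.orb (Orb.symm ⟨t, b, rfl⟩)))]
    exact mul_ne_zero (chz_ne_zero b) (a x)

theorem card_bas [Fintype κ] (hi : Injective y) (hy : ∀ k, Sm N (y k) ∧ Orb (π (y k)) (z k))
    {F : κ → V M → ℂ} (hF : Bas o C χ z u F) :
    Fintype.card κ = Module.finrank ℂ (H0 N (bz A χ / ∏ k, R.pt (y k) ^ u k)) := by
  choose σ a b _ using fun i => h.exists_sec hi hy (hF.mer i)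
  let v : κ → H0 N (bz A χ / ∏ k, R.pt (y k) ^ u k) := fun i => ⟨σ i, a i⟩
  have ev : ∀ (c : κ → ℂ) x, (∑ i, c i • v i).1 x = ∑ i, c i * σ i x := fun c x => by
    simp [v]
  have li : LinearIndependent ℂ v := Fintype.linearIndependent_iff.2 fun c hc =>
    congrFun (hF.li c fun w hw ho => by
      obtain ⟨x, t, d, rfl⟩ := (h.img w).1 hw
      have hx := (h.off_iff hy).1 (ho.orb (Orb.symm ⟨t, d, rfl⟩))
      have e := ev c x
      rw [hc] at e
      simp only [fun i => (hF.mer i).hom t d _ (h.mem x), ← b _ x hx, mul_left_comm _ (chz χ t),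
        ← Finset.mul_sum, ← e]
      simp)
  have sp : ⊤ ≤ Submodule.span ℂ (range v) := fun s _ => by
    obtain ⟨f, c, d, -⟩ := h.exists_mer hi hy s.2
    obtain ⟨w, e⟩ := hF.span f c
    refine (Submodule.mem_span_range_iff_exists_fun ℂ).2 ⟨w, sub_eq_zero.1 (Subtype.ext ?_)⟩
    refine eq_zero (y := y) (∑ i, w i • v i - s).2.1 fun x hx => ?_
    rw [Submodule.coe_sub, Pi.sub_apply, ev, d x hx, e _ (h.mem x) ((h.off_iff hy).2 hx)]
    simp only [b _ x hx, sub_self]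
  exact (finrank_eq_card_basis (Basis.mk li sp)).symm

/-- `h¹ = 0` on the normalisation and the dimension of the space of sections. -/
theorem card_bas_iff [Fintype κ] [DecidableEq ι] {g : ℤ} {m : ι → ℤ} (hC : IsCurve o g m C)
    (hi : Injective y) (hy : ∀ k, Sm N (y k) ∧ Orb (π (y k)) (z k)) {F : κ → V M → ℂ}
    (hF : Bas o C χ z u F) : (Fintype.card κ : ℤ) = dgz m χ - ∑ k, u k + 1 - g ↔
      h1 N (bz A χ / ∏ k, R.pt (y k) ^ u k) = 0 := by
  obtain ⟨a, b, -⟩ := h.numbers hC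
  rw [h.card_bas hi hy hF, h1, sub_eq_zero, a, deg_div, deg_bz, deg_prod]
  simp only [deg_zpow, deg_pt, mul_one, b, dgz]

/-- Transport of a parametrisation along an isomorphism. -/
theorem of_ciso {C' : Set (V M')} {S : V M → V M' → Prop} (hS : CIso o o' C C' S)
    {A' : ι' → LB R} {π' : X → V M'} (h1 : ∀ i j, (fun x => π' x i j) ∈ H0 N (A' i))
    (h2 : ∀ x i, π' x i ≠ 0) (h3 : ∀ x, S (π x) (π' x)) : Par o' C' N A' π' := by
  have k : ∀ x, ∀ᶠ t in 𝓝 0, S (br A π x t) (br A' π' x t) := fun x => .of_forall fun t =>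
    hS.orb _ _ _ _ (h3 _) (orb_br x t) (orb_br x t)
  refine ⟨h.nd, h1, h2, fun c => (hS.img c).trans ⟨fun ⟨w, a, b⟩ => ?_, fun ⟨x, t, a, b⟩ =>
    ⟨_, h.mem x, hS.orb _ _ _ _ (h3 x) (Orb.refl _) ⟨t, a, b⟩⟩⟩, fun x x' t e => ?_, fun x => ?_,
    fun n hn => ?_⟩
  · obtain ⟨x, t, d, rfl⟩ := (h.img w).1 a
    exact ⟨x, hS.uniq _ (h.mem x) _ _ (h3 x)
      (hS.orb _ _ _ _ b (Orb.symm ⟨t, d, rfl⟩) (Orb.refl _))⟩
  · obtain ⟨r, -, a⟩ := hS.inj _ (h.mem x) _ (h.mem x') _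
      (hS.orb _ _ _ _ (h3 x) (Orb.refl _) (Orb.of_smul (h2 x') e)) (h3 x')
    exact h.inj x x' r a
  · have := (hS.br _ _ (h.isBranch x) (an_br h1 x) (k x)).imm
    rwa [br_zero] at this
  · have := (hS.cross _ _ _ _ _ (h.isCross hn) (an_br h1 n.1) (an_br h1 n.2)
      (by rw [br_zero, br_zero, node_eq h1 hn]) (k _) (k _)).2.2.2.2
    rwa [br_zero] at this

/-- The parametrisation given by meromorphic sections without common zeros. -/
theorem exists_par {C' : Set (V M')} {S : V M → V M' → Prop} (hS : CIso o o' C C' S)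
    (hC' : ∀ c ∈ C', ∀ i, c i ≠ 0) (hi : Injective y)
    (hy : ∀ k, Sm N (y k) ∧ Orb (π (y k)) (z k)) {F : V M → V M'} {X' : ι' → ι → ℤ}
    {U : ι' → β → ℤ} (hF : ∀ i j, Mer o C (X' i) z (U i) fun c => F c i j)
    (h1 : ∀ c ∈ C, Off z c → S c (F c))
    (h2 : ∀ i k, ∃ j γ, IsBranch o C γ ∧ Orb (z k) (γ 0) ∧
      ∃ a ≠ 0, Vz (U i k) (fun t => F (γ t) i j) a) :
    ∃ π' : X → V M', Par o' C' N (fun i => bz A (X' i) / ∏ k, R.pt (y k) ^ U i k) π' ∧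
      (∀ x, S (π x) (π' x)) ∧ ∀ x, (∀ k, x ≠ y k) → π' x = F (π x) := by
  choose σ a b c using fun i j => h.exists_sec hi hy (hF i j)
  let π' : X → V M' := fun x i j => σ i j x
  have e : ∀ x, (∀ k, x ≠ y k) → π' x = F (π x) := fun x hx => funext₂ fun i j => b i j x hx
  have s1 : ∀ x, (∀ k, x ≠ y k) → S (π x) (π' x) := fun x hx =>
    e x hx ▸ h1 _ (h.mem x) ((h.off_iff hy).2 hx)
  have n1 : ∀ k i, π' (y k) i ≠ 0 := fun k i e0 => by
    obtain ⟨j, γ, d, d', w, hw, hv⟩ := h2 i k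
    obtain ⟨r, hr⟩ := h.vz (f := fun c => F c i j) hi hy (hF i j).hom d d' (c i j k)
    exact hw ((hv.unique hr).trans (mul_eq_zero_of_right _ (congrFun e0 j)))
  have s2 : ∀ x, S (π x) (π' x) := fun x => by
    by_cases hx : ∀ k, x ≠ y k
    · exact s1 x hx
    · obtain ⟨k, rfl⟩ : ∃ k, x = y k := by simpa using hx
      have := MerP.closed hS hC' (h.isBranch (y k)) (an_br (π := π') a (y k)).continuousAt
        (by rw [br_zero]; exact n1 k) ((ev_off' (y := y) (y k)).mono fun t d =>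
          hS.orb _ _ _ _ (s1 _ d) (orb_br _ t) (orb_br _ t))
      rwa [br_zero, br_zero] at this
  exact ⟨π', h.of_ciso hS a (fun x => hC' _ ((hS.img _).2 ⟨_, h.mem x, s2 x⟩)) s2, s2, e⟩

end Par

end Vale.Agent.P269.Cv
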