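import Vale.Agent.P269.Base.MerA

/-!
# Holomorphic families of meromorphic sections
-/

namespace Vale.Agent.P269.Base

open Set Function Topology Filter Holo Module

set_option linter.unusedSectionVars false
set_option linter.unusedVariables false

variable {ι : Type} [Fintype ι] {M : ι → ℕ} {β β' κ : Type*} {o : ι} {χ χ' : ι → ℤ}
  {u u' : β → ℤ} {a b : ι → ℕ} {g : ℤ} {m : ι → ℤ}
  {T P : Type*} [TopologicalSpace T] [NormedAddCommGroup P] [NormedSpace ℂ P]
  [FiniteDimensional ℂ P] {C : T → Set (V M)} {π : T → P} {t₀ : T} {σ : β → P × ℂ → V M}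
  {σ' : β' → P × ℂ → V M} {f f' : T → V M → ℂ}

omit [FiniteDimensional ℂ P] in
theorem jetL_apply {N : β → ℕ} {p : P} {k : β} (h : AnalyticAt ℂ (σ k) (p, 0)) (μ : Tens M a) :
    jetL a σ N p μ k = jet (N k) fun w => val μ (σ k (p, w)) := by
  funext i
  have h1 : AnalyticAt ℂ (fun w => evL a (σ k (p, w))) 0 := (analyticAt_evL _).comp
    (f := fun w => σ k (p, w)) (h.comp (f := fun w => (p, w)) (analyticAt_const.prod analyticAt_id))
  exact (congrArg (· fun _ => 1) ((ContinuousLinearMap.apply ℂ ℂ μ).iteratedFDeriv_comp_left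
    (h1.contDiffAt (n := (i : ℕ))) le_rfl)).symm

omit [FiniteDimensional ℂ P] in
theorem an_jetL [Fintype β] {N : β → ℕ} {p : P} (h : ∀ k, AnalyticAt ℂ (σ k) (p, 0)) :
    AnalyticAt ℂ (jetL a σ N) p :=
  analyticAt_of_apply fun μ => AnalyticAt.pi fun k =>
    (an_jet (F := fun q => val μ (σ k q)) (an_val analyticAt_const (h k)) (N k)).congr
      (((tendsto_inl p (0 : ℂ)).eventually (h k).eventually_analyticAt).mono fun _ hq =>
        (jetL_apply hq μ).symm)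

/-- Division with remainder by a power of the coordinate. -/
theorem exists_taylor_div {F : P × ℂ → ℂ} {p₀ : P} (h : AnalyticAt ℂ F (p₀, 0)) (n : ℕ) :
    ∃ G : P × ℂ → ℂ, AnalyticAt ℂ G (p₀, 0) ∧ ∀ᶠ q : P × ℂ in 𝓝 (p₀, 0),
      jet n (fun w => F (q.1, w)) = 0 → F q = q.2 ^ n * G q := by
  induction n generalizing F with
  | zero => exact ⟨F, h, .of_forall fun q _ => by simp⟩
  | succ n ih =>
    obtain ⟨e, h1, h2⟩ := exists_div (f := fun q : ℂ × P => F q.swap) (w := p₀)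
      (h.comp_of_eq (analyticAt_snd.prod analyticAt_fst) rfl)
    have h3 : AnalyticAt ℂ (fun q : P × ℂ => e q.swap) (p₀, 0) :=
      h1.comp_of_eq (analyticAt_snd.prod analyticAt_fst) rfl
    obtain ⟨G, h4, h5⟩ := ih h3
    have h6 : Tendsto (fun q : P × ℂ => (q.1, (0 : ℂ))) (𝓝 (p₀, 0)) (𝓝 (p₀, 0)) :=
      Tendsto.prodMk_nhds continuousAt_fst tendsto_const_nhds
    refine ⟨G, h4, ?_⟩
    filter_upwards [h5, h6.eventually h.eventually_analyticAt,
      h6.eventually h3.eventually_analyticAt] with q k1 k2 k3 k4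
    have k5 : AnalyticAt ℂ (fun w => F (q.1, w)) 0 :=
      k2.comp (f := fun w => (q.1, w)) (analyticAt_const.prod analyticAt_id)
    have k6 : AnalyticAt ℂ (fun w => e (w, q.1)) 0 :=
      k3.comp (f := fun w => (q.1, w)) (analyticAt_const.prod analyticAt_id)
    have k7 := (dv_iff_jet k5).2 k4
    have k8 : ∀ w, F (q.1, w) = w * e (w, q.1) := fun w => by
      simpa [show F (q.1, 0) = 0 from k7.eq_zero] using h2 (w, q.1)
    have k9 : Dv n fun w => e (w, q.1) :=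
      Dv.cancel (k := 1) (u := fun _ => 1) (add_comm n 1 ▸ k7.congr (.of_forall fun w => by
        simp [k8])) analyticAt_const one_ne_zero k6
    rw [k8 q.2, show e (q.2, q.1) = _ from k1 ((dv_iff_jet k6).1 k9)]
    ring

omit [FiniteDimensional ℂ P] in
/-- Multiplication of a chart by a holomorphic family of elements of the torus. -/
theorem Chart.smul_an {E : Type*} [NormedAddCommGroup E] [NormedSpace ℂ E] {σ : P × E → V M}
    {X : P → Set E} (h : Chart o C π t₀ σ X) (hπ : ContinuousAt π t₀)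
    (hcone : ∀ᶠ t in 𝓝 t₀, ∀ s : ι → ℂ, (∀ i, s i ≠ 0) → ∀ c ∈ C t, s • c ∈ C t) {s : P → ι → ℂ}
    (hs : AnalyticAt ℂ s (π t₀)) (h1 : s (π t₀) = 1) :
    Chart o C π t₀ (fun q => s q.1 • σ q) X := by
  have h2 : ∀ᶠ t in 𝓝 t₀, ∀ i, s (π t) i ≠ 0 := eventually_all.2 fun i =>
    (tendsto_pi_nhds.1 (hs.continuousAt.tendsto.comp hπ) i).eventually_ne (by simp [h1])
  refine ⟨an_smul (hs.comp_of_eq analyticAt_fst rfl) h.an, ?_, ?_, fun U hU => ?_⟩
  · simpa only [h1, one_smul] using h.imm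
  · filter_upwards [h.mem, continuousAt_fst.eventually hcone, continuousAt_fst.eventually h2]
      with q k1 k2 k3 k4 using k2 _ k3 _ (k1 k4)
  · simp only [h1, one_smul]
    filter_upwards [h.sub U hU, continuousAt_fst.eventually h2] with q k1 k2 k3
    obtain ⟨r, z, k4, k5, k6⟩ := k1 k3
    exact ⟨r * (s (π q.1))⁻¹, z, k4, k5, by rw [mul_smul, inv_smul_smul' k2, k6]⟩

omit [FiniteDimensional ℂ P] in
/-- Translation of a disc chart. -/
theorem Chart.transl {σ : P × ℂ → V M} (h : Chart o C π t₀ σ fun _ => univ)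
    (hπ : ContinuousAt π t₀) {κ : P → ℂ} (h1 : AnalyticAt ℂ κ (π t₀)) (h2 : κ (π t₀) = 0) :
    Chart o C π t₀ (fun q => σ (q.1, κ q.1 + q.2)) fun _ => univ := by
  have h5 : AnalyticAt ℂ (fun q : P × ℂ => κ q.1) (π t₀, 0) := h1.comp_of_eq analyticAt_fst rfl
  refine h.reparam (ψ := fun q => κ q.1 + q.2) hπ (h5.add analyticAt_snd) (by simp [h2])
      (fun e he => by simpa using he) (.of_forall fun _ _ => trivial) fun U hU => ?_
  have h7 : Tendsto (fun q : P × ℂ => q.2 - κ q.1) (𝓝 (π t₀, 0)) (𝓝 0) := by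
    simpa [h2] using (analyticAt_snd.fun_sub h5).continuousAt.tendsto
  filter_upwards [h7 hU] with q hq _ using ⟨_, hq, trivial, by simp⟩

namespace Pts

theorem mem (h : Pts o C π t₀ σ) (k : β) : σ k (π t₀, 0) ∈ C t₀ :=
  (h.chart k).mem0.self_of_nhds trivial

theorem ne (h : Pts o C π t₀ σ) (hf : LocFam o C π t₀) (k : β) (i : ι) :
    σ k (π t₀, 0) i ≠ 0 := hf.ne_zero.self_of_nhds _ (h.mem k) i

theorem tendsto (h : Pts o C π t₀ σ) (hf : LocFam o C π t₀) (k : β) :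
    Tendsto (fun t => σ k (π t, 0)) (𝓝 t₀) (𝓝 (σ k (π t₀, 0))) :=
  ((h.chart k).tendsto hf.cont.self_of_nhds).comp (tendsto_inl t₀ 0)

theorem spt (h : Pts o C π t₀ σ) (hf : LocFam o C π t₀) : Spt o (C t₀) (ctr σ (π t₀)) :=
  ⟨h.mem, fun k => SmAt.not_isNode ⟨σ k, rfl, h.chart k⟩ hf, h.inj⟩

theorem isBranch (h : Pts o C π t₀ σ) (hf : LocFam o C π t₀) (k : β) :
    IsBranch o (C t₀) fun w => σ k (π t₀, w) := (h.chart k).isBranch0 (h.ne hf k o)

theorem loc (h : Pts o C π t₀ σ) (hf : LocFam o C π t₀) (k : β) :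
    Loc o (C t₀) (σ k (π t₀, 0)) fun _ w => σ k (π t₀, w) := by
  refine ⟨fun _ => h.isBranch hf k, fun _ => rfl, h.ne hf k, .inl rfl, fun p hp => ?_⟩
  filter_upwards [mem_nhdsWithin_of_mem_nhds ((tendsto_inr t₀ _).eventually
    ((h.chart k).sub' hf.cont.self_of_nhds (h.ne hf k) _ (hp true))), self_mem_nhdsWithin]
    with y h1 h2
  obtain ⟨w, h3, -, h4⟩ := h1 h2
  exact (show y = _ from h4) ▸ h3

theorem eventually [Finite β] (h : Pts o C π t₀ σ) (hf : LocFam o C π t₀) :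
    ∀ᶠ t in 𝓝 t₀, Pts o C π t σ := by
  have h1 : ∀ k, ∀ᶠ t in 𝓝 t₀, Chart o C π t (σ k) fun _ => univ := fun k =>
    ((tendsto_inl t₀ (0 : ℂ)).eventually ((h.chart k).shift hf.cont (h.ne hf k) hf.cone)).mono
      fun t ht => by simpa using ht
  have h2 : ∀ k k', ∀ᶠ t in 𝓝 t₀, Orb (σ k (π t, 0)) (σ k' (π t, 0)) → k = k' := fun k k' => by
    by_cases e : k = k'
    · exact .of_forall fun _ _ => e
    · exact (ev_not_orb (h.tendsto hf k) (h.tendsto hf k') (h.ne hf k) (h.ne hf k')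
        fun h3 => e (h.inj k k' h3)).mono fun t ht h3 => absurd h3 ht
  filter_upwards [eventually_all.2 h1, eventually_all.2 fun k => eventually_all.2 (h2 k)]
    with t h3 h4 using ⟨h3, h4⟩

theorem sum (h : Pts o C π t₀ σ) (h' : Pts o C π t₀ σ')
    (hz : ∀ k, Off (ctr σ (π t₀)) (σ' k (π t₀, 0))) : Pts o C π t₀ (Sum.elim σ σ') := by
  refine ⟨fun k => by cases k; exacts [h.chart _, h'.chart _], ?_⟩
  rintro (k | k) (k' | k') e
  exacts [congrArg _ (h.inj k k' e), absurd e (hz k' k), absurd e.symm (hz k k'),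
    congrArg _ (h'.inj k k' e)]

theorem comp {T' P' : Type*} [TopologicalSpace T'] [NormedAddCommGroup P'] [NormedSpace ℂ P']
    {x : T' → T} {t' : T'} {π' : T' → P'} {r : P' → P} (h : Pts o C π (x t') σ)
    (hx : ContinuousAt x t') (hr : AnalyticAt ℂ r (π' t')) (he : ∀ᶠ t in 𝓝 t', π (x t) = r (π' t)) :
    Pts o (fun t => C (x t)) π' t' fun k q => σ k (r q.1, q.2) :=
  ⟨fun k => (h.chart k).comp hx hr he, by simpa only [← he.self_of_nhds] using h.inj⟩

theorem eventually_off [Finite β] (h : Pts o C π t₀ σ) (hf : LocFam o C π t₀) {c : V M}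
    (hc : ∀ i, c i ≠ 0) (ho : Off (ctr σ (π t₀)) c) :
    ∀ᶠ q : T × V M in 𝓝 (t₀, c), Off (ctr σ (π q.1)) q.2 :=
  eventually_all.2 fun k => ev_not_orb ((h.tendsto hf k).comp (continuousAt_fst (p := (t₀, c))))
    continuousAt_snd (h.ne hf k) hc (ho k)

theorem eventually_off' [Finite β] (h : Pts o C π t₀ σ) (hf : LocFam o C π t₀) (k : β) :
    ∀ᶠ q : T × ℂ in 𝓝 (t₀, 0), q.2 ≠ 0 → Off (ctr σ (π q.1)) (σ k (π q.1, q.2)) := by
  have hπ := hf.cont.self_of_nhds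
  have h1 : ∀ k', ∀ᶠ q : T × ℂ in 𝓝 (t₀, 0), q.2 ≠ 0 →
      ¬Orb (σ k' (π q.1, 0)) (σ k (π q.1, q.2)) := fun k' => by
    by_cases e : k' = k
    · subst e
      have h2 : Tendsto (fun q : T × ℂ => (π q.1, (0 : ℂ), q.2)) (𝓝 (t₀, 0)) (𝓝 (π t₀, 0, 0)) :=
        Tendsto.prodMk_nhds (hπ.comp continuousAt_fst)
          (Tendsto.prodMk_nhds tendsto_const_nhds continuousAt_snd)
      exact (h2.eventually ((h.chart k').inj (h.ne hf k'))).mono fun q hq h3 ⟨s, _, h4⟩ =>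
        h3 (hq s h4).2.symm
    · exact (ev_not_orb ((h.tendsto hf k').comp (continuousAt_fst (p := (t₀, (0 : ℂ)))))
        ((h.chart k).tendsto hπ) (h.ne hf k') (h.ne hf k)
        fun h3 => e (h.inj k' k h3)).mono fun q hq _ => hq
  exact (eventually_all.2 h1).mono fun q hq h2 k' => hq k' h2

end Pts

omit [FiniteDimensional ℂ P] in
theorem ctr_sum (p : P) : ctr (Sum.elim σ σ') p = Sum.elim (ctr σ p) (ctr σ' p) :=
  funext fun k => by cases k <;> rfl

/-- Disc charts centred at given moving points. -/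
theorem LocFam.exists_pts (h : LocFam o C π t₀) {y : β → P → V M}
    (hy : ∀ k, AnalyticAt ℂ (y k) (π t₀) ∧ ∀ᶠ t in 𝓝 t₀, y k (π t) ∈ C t)
    (hs : Spt o (C t₀) fun k => y k (π t₀)) :
    ∃ σ : β → P × ℂ → V M, Pts o C π t₀ σ ∧ ∀ k, ∀ᶠ t in 𝓝 t₀, σ k (π t, 0) = y k (π t) := by
  have hπ := h.cont.self_of_nhds
  have key : ∀ k, ∃ σ : P × ℂ → V M, (Chart o C π t₀ σ fun _ => univ) ∧
      ∀ᶠ t in 𝓝 t₀, σ (π t, 0) = y k (π t) := fun k => by
    obtain ⟨σ, h1, h2⟩ := h.smAt (hs.mem k) (hs.sm k)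
    obtain ⟨ρ, h3, h4, -, h5⟩ := h2.exists_mem_iff hπ
      (h1 ▸ h.ne_zero.self_of_nhds _ (hs.mem k)) h.cone
    rw [h1] at h3 h4 h5
    have h6 : AnalyticAt ℂ (fun p => ρ (p, y k p)) (π t₀) :=
      h3.comp (f := fun p => (p, y k p)) (analyticAt_id.prod (hy k).1)
    refine ⟨_, (h2.transl hπ (κ := fun p => (ρ (p, y k p)).2) (analyticAt_snd.comp h6)
      (by rw [h4])).smul_an hπ h.cone (s := fun p => (ρ (p, y k p)).1) (analyticAt_fst.comp h6)
      (by rw [h4]), ?_⟩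
    have h7 : Tendsto (fun t => (t, y k (π t))) (𝓝 t₀) (𝓝 (t₀, y k (π t₀))) :=
      Tendsto.prodMk_nhds tendsto_id ((hy k).1.continuousAt.tendsto.comp hπ)
    filter_upwards [h7.eventually h5, (hy k).2] with t h8 h9
    simpa using (h8.1 h9).2.symm
  choose σ h1 h2 using key
  exact ⟨σ, ⟨h1, by simpa only [fun k => (h2 k).self_of_nhds] using hs.inj⟩, h2⟩

/-- Disc charts at given smooth points of the central fibre. -/
theorem LocFam.exists_pts' (h : LocFam o C π t₀) {z : β → V M} (hs : Spt o (C t₀) z) :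
    ∃ σ : β → P × ℂ → V M, Pts o C π t₀ σ ∧ ctr σ (π t₀) = z := by
  choose σ h1 h2 using fun k => h.smAt (hs.mem k) (hs.sm k)
  exact ⟨σ, ⟨h2, by simpa only [h1] using hs.inj⟩, funext h1⟩

namespace FMer

theorem mer (h : FMer o C π t₀ χ σ u f) (hf : LocFam o C π t₀) (hσ : Pts o C π t₀ σ) :
    Mer o (C t₀) χ (ctr σ (π t₀)) u (f t₀) := by
  refine Mer.of_loc hf.nod (hσ.spt hf) h.hom.self_of_nhds (fun c hc ho => ?_) fun k => ?_
  · obtain ⟨Φ, h1, h2⟩ := h.reg c hc ho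
    exact ⟨c, .refl c, fun y => Φ (π t₀, y),
      h1.comp (f := fun y => (π t₀, y)) (analyticAt_const.prod analyticAt_id),
      eventually_nhdsWithin_iff.2 ((tendsto_inr t₀ c).eventually h2)⟩
  · obtain ⟨e, h1, h2⟩ := h.ord k
    exact ⟨_, hσ.isBranch hf k, .refl _, _, fun w => e (π t₀, w),
      h1.comp (f := fun y => (π t₀, y)) (analyticAt_const.prod analyticAt_id), rfl,
      eventually_nhdsWithin_iff.2 ((tendsto_inr t₀ (0 : ℂ)).eventually h2)⟩

theorem comp {T' P' : Type*} [TopologicalSpace T'] [NormedAddCommGroup P'] [NormedSpace ℂ P']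
    {x : T' → T} {t' : T'} {π' : T' → P'} {r : P' → P} (h : FMer o C π (x t') χ σ u f)
    (hx : ContinuousAt x t') (hr : AnalyticAt ℂ r (π' t')) (he : ∀ᶠ t in 𝓝 t', π (x t) = r (π' t)) :
    FMer o (fun t => C (x t)) π' t' χ (fun k q => σ k (r q.1, q.2)) u fun t => f (x t) := by
  have e0 := he.self_of_nhds
  refine ⟨hx.eventually h.hom, fun c hc ho => ?_, fun k => ?_⟩
  · obtain ⟨Φ, h1, h2⟩ := h.reg c hc (by rw [e0]; exact ho)
    refine ⟨fun q => Φ (r q.1, q.2), h1.comp_of_eq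
      ((hr.comp_of_eq analyticAt_fst rfl).prod analyticAt_snd) (by rw [e0]), ?_⟩
    filter_upwards [(tendsto_pm hx c).eventually h2, continuousAt_fst.eventually he] with q h3 h4
    simpa only [← h4] using h3
  · obtain ⟨e, h1, h2⟩ := h.ord k
    refine ⟨fun q => e (r q.1, q.2), h1.comp_of_eq
      ((hr.comp_of_eq analyticAt_fst rfl).prod analyticAt_snd) (by rw [e0]), ?_⟩
    filter_upwards [(tendsto_pm hx 0).eventually h2, continuousAt_fst.eventually he] with q h3 h4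
    simpa only [← h4] using h3

theorem mul (h : FMer o C π t₀ χ σ u f) (h' : FMer o C π t₀ χ' σ u' f') :
    FMer o C π t₀ (χ + χ') σ (u + u') fun t c => f t c * f' t c := by
  refine ⟨?_, fun c hc ho => ?_, fun k => ?_⟩
  · filter_upwards [h.hom, h'.hom] with t h1 h2 s hs c hc
    rw [h1 s hs c hc, h2 s hs c hc, chz_add hs, mul_mul_mul_comm]
  · obtain ⟨Φ, h1, h2⟩ := h.reg c hc ho
    obtain ⟨Ψ, h3, h4⟩ := h'.reg c hc ho
    refine ⟨fun q => Φ q * Ψ q, h1.mul h3, ?_⟩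
    filter_upwards [h2, h4] with q h5 h6 h7 using by rw [h5 h7, h6 h7]
  · obtain ⟨Φ, h1, h2⟩ := h.ord k
    obtain ⟨Ψ, h3, h4⟩ := h'.ord k
    refine ⟨fun q => Φ q * Ψ q, h1.mul h3, ?_⟩
    filter_upwards [h2, h4] with q h5 h6 h7
    rw [h5 h7, h6 h7, Pi.add_apply, zpow_add₀ h7, mul_mul_mul_comm]

theorem add (h : FMer o C π t₀ χ σ u f) (h' : FMer o C π t₀ χ σ u f') :
    FMer o C π t₀ χ σ u fun t c => f t c + f' t c := by
  refine ⟨?_, fun c hc ho => ?_, fun k => ?_⟩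
  · filter_upwards [h.hom, h'.hom] with t h1 h2 s hs c hc
    rw [h1 s hs c hc, h2 s hs c hc, mul_add]
  · obtain ⟨Φ, h1, h2⟩ := h.reg c hc ho
    obtain ⟨Ψ, h3, h4⟩ := h'.reg c hc ho
    refine ⟨fun q => Φ q + Ψ q, h1.add h3, ?_⟩
    filter_upwards [h2, h4] with q h5 h6 h7 using by rw [h5 h7, h6 h7]
  · obtain ⟨Φ, h1, h2⟩ := h.ord k
    obtain ⟨Ψ, h3, h4⟩ := h'.ord k
    refine ⟨fun q => Φ q + Ψ q, h1.add h3, ?_⟩
    filter_upwards [h2, h4] with q h5 h6 h7
    rw [h5 h7, h6 h7, mul_add]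

theorem smul (h : FMer o C π t₀ χ σ u f) {x : T → ℂ} (hx : HolAt π x t₀) :
    FMer o C π t₀ χ σ u fun t c => x t * f t c := by
  obtain ⟨X, hX, he⟩ := hx
  refine ⟨?_, fun c hc ho => ?_, fun k => ?_⟩
  · filter_upwards [h.hom] with t h1 s hs c hc
    rw [h1 s hs c hc, mul_left_comm]
  · obtain ⟨Φ, h1, h2⟩ := h.reg c hc ho
    refine ⟨fun q => X q.1 * Φ q, (hX.comp_of_eq analyticAt_fst rfl).mul h1, ?_⟩
    filter_upwards [h2, continuousAt_fst.eventually he] with q h5 h6 h7 using by rw [h5 h7, h6]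
  · obtain ⟨Φ, h1, h2⟩ := h.ord k
    refine ⟨fun q => X q.1 * Φ q, (hX.comp_of_eq analyticAt_fst rfl).mul h1, ?_⟩
    filter_upwards [h2, continuousAt_fst.eventually he] with q h5 h6 h7
    rw [h5 h7, h6, mul_left_comm]

theorem sub (h : FMer o C π t₀ χ σ u f) (h' : FMer o C π t₀ χ σ u f') :
    FMer o C π t₀ χ σ u fun t c => f t c - f' t c := by
  simpa only [neg_one_mul, ← sub_eq_add_neg] using h.add (h'.smul (HolAt.const (-1)))

theorem zero : FMer o C π t₀ χ σ u fun _ _ => 0 :=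
  ⟨.of_forall fun _ _ _ _ _ => (mul_zero _).symm,
    fun _ _ _ => ⟨fun _ => 0, analyticAt_const, .of_forall fun _ _ => rfl⟩,
    fun _ => ⟨fun _ => 0, analyticAt_const, .of_forall fun _ _ => (mul_zero _).symm⟩⟩

theorem one : FMer o C π t₀ 0 σ 0 fun _ _ => 1 :=
  ⟨.of_forall fun _ _ _ _ _ => by simp [chz],
    fun _ _ _ => ⟨fun _ => 1, analyticAt_const, .of_forall fun _ _ => rfl⟩,
    fun _ => ⟨fun _ => 1, analyticAt_const, .of_forall fun _ _ => by simp⟩⟩

theorem sum (S : Finset κ) {F : κ → T → V M → ℂ} (h : ∀ i ∈ S, FMer o C π t₀ χ σ u (F i)) :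
    FMer o C π t₀ χ σ u fun t c => ∑ i ∈ S, F i t c := by
  induction S using Finset.cons_induction with
  | empty => simpa using zero
  | cons i S hi ih =>
    simpa only [Finset.sum_cons] using (h i (Finset.mem_cons_self i S)).add
      (ih fun j hj => h j (Finset.mem_cons_of_mem hj))

theorem prod (S : Finset κ) {X : κ → ι → ℤ} {U : κ → β → ℤ} {F : κ → T → V M → ℂ}
    (h : ∀ i ∈ S, FMer o C π t₀ (X i) σ (U i) (F i)) :
    FMer o C π t₀ (∑ i ∈ S, X i) σ (∑ i ∈ S, U i) fun t c => ∏ i ∈ S, F i t c := by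
  induction S using Finset.cons_induction with
  | empty => simpa using one
  | cons i S hi ih =>
    simpa only [Finset.sum_cons, Finset.prod_cons] using (h i (Finset.mem_cons_self i S)).mul
      (ih fun j hj => h j (Finset.mem_cons_of_mem hj))

theorem mono (h : FMer o C π t₀ χ σ u f) (hu : u' ≤ u) : FMer o C π t₀ χ σ u' f := by
  refine ⟨h.hom, h.reg, fun k => ?_⟩
  obtain ⟨e, h1, h2⟩ := h.ord k
  obtain ⟨n, hn⟩ := Int.le.dest (hu k)
  refine ⟨fun q => q.2 ^ n * e q, (analyticAt_snd.pow n).mul h1, h2.mono fun q h3 h4 => ?_⟩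
  rw [h3 h4, ← hn, zpow_add₀ h4, zpow_natCast, mul_assoc]

theorem cast (h : FMer o C π t₀ χ σ u f) (h1 : χ = χ') (h2 : u = u') :
    FMer o C π t₀ χ' σ u' f := h1 ▸ h2 ▸ h

theorem of_jet (hf : LocFam o C π t₀) (hσ : Pts o C π t₀ σ) {μ : T → Tens M a}
    (hμ : HolAt π μ t₀) {N : β → ℕ} (hN : ∀ᶠ t in 𝓝 t₀, jetL a σ N (π t) (μ t) = 0) :
    FMer o C π t₀ (fun i => a i) σ (fun k => N k) fun t => val (μ t) := by
  obtain ⟨X, hX, he⟩ := hμ
  have hπ := hf.cont.self_of_nhds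
  refine ⟨.of_forall fun t s _ c _ => by rw [val_smul, chz_nat], fun c _ _ =>
    ⟨fun q => val (X q.1) q.2, an_val (hX.comp_of_eq analyticAt_fst rfl) analyticAt_snd,
      (continuousAt_fst.eventually he).mono fun q hq _ => by rw [hq]⟩, fun k => ?_⟩
  obtain ⟨G, h1, h2⟩ := exists_taylor_div (F := fun q => val (X q.1) (σ k q))
    (an_val (hX.comp_of_eq analyticAt_fst rfl) (hσ.chart k).an) (N k)
  have h3 : Tendsto (fun t => (π t, (0 : ℂ))) (𝓝 t₀) (𝓝 (π t₀, 0)) :=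
    Tendsto.prodMk_nhds hπ tendsto_const_nhds
  refine ⟨G, h1, ?_⟩
  filter_upwards [(tendsto_pm hπ 0).eventually h2, continuousAt_fst.eventually he,
    continuousAt_fst.eventually hN,
    continuousAt_fst.eventually (h3.eventually (hσ.chart k).an.eventually_analyticAt)]
    with q h4 h5 h6 h7 _
  rw [h5] at h6 ⊢
  rw [zpow_natCast]
  exact h4 ((jetL_apply h7 _).symm.trans (congrFun h6 k))

theorem of_val (hf : LocFam o C π t₀) (hσ : Pts o C π t₀ σ) {μ : T → Tens M a}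
    (hμ : HolAt π μ t₀) : FMer o C π t₀ (fun i => a i) σ 0 fun t => val (μ t) :=
  of_jet hf hσ hμ (N := fun _ => 0) (.of_forall fun _ => funext fun _ => funext fun i => i.elim0)

/-- A fixed section on a constant family. -/
theorem const {C₀ : Set (V M)} (hC : Nod o C₀) (hπ : ∀ᶠ t in 𝓝 t₀, ContinuousAt π t)
    {γ : β → ℂ → V M} (hγ : ∀ k, IsBranch o C₀ (γ k)) (hz : Spt o C₀ fun k => γ k 0) {f₀ : V M → ℂ}
    (h : Mer o C₀ χ (fun k => γ k 0) u f₀) : Pts o (fun _ => C₀) π t₀ (fun k q => γ k q.2) ∧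
      FMer o (fun _ => C₀) π t₀ χ (fun k q => γ k q.2) u fun _ => f₀ := by
  refine ⟨⟨fun k => ⟨(hγ k).holo.comp (f := Prod.snd) analyticAt_snd, fun e s he => ?_,
    ((continuousAt_snd (p := (t₀, (0 : ℂ)))).eventually (hγ k).mem).mono fun z hz _ => hz,
    fun U hU => ?_⟩, hz.inj⟩, .of_forall fun _ => h.hom, fun c hc ho => ?_, fun k => ?_⟩
  · rw [fderiv_eq_smul_deriv] at he
    exact of_li_pair (hγ k).imm he
  · exact (continuousAt_snd (p := (t₀, γ k 0))).eventually (eventually_nhdsWithin_iff.1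
      ((hC.loc_of_branch (hγ k) (hz.sm k)).ev (fun y => ∃ s : ι → ℂ, ∃ z ∈ U, z ∈ univ ∧
        y = s • γ k z) fun _ => ((continuousAt_snd (p := ((1 : ι → ℂ), (0 : ℂ)))).eventually
          hU).mono fun w hw => ⟨_, _, hw, trivial, rfl⟩))
  · obtain ⟨q, h1, h2⟩ := h.hol hC hc ho
    exact ⟨fun y => q y.2, h1.comp_of_eq analyticAt_snd rfl,
      (continuousAt_snd (p := (t₀, c))).eventually (eventually_nhdsWithin_iff.1 h2)⟩
  · obtain ⟨x, e, h1, -, h2⟩ := h.ord k _ (hγ k) (.refl _)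
    exact ⟨fun y => e y.2, h1.comp_of_eq analyticAt_snd rfl,
      (continuousAt_snd (p := (t₀, (0 : ℂ)))).eventually (eventually_nhdsWithin_iff.1 h2)⟩

theorem holAt (h : FMer o C π t₀ χ σ u f) (hf : LocFam o C π t₀) {y : T → V M}
    (hy : HolAt π y t₀) (hm : ∀ᶠ t in 𝓝 t₀, y t ∈ C t) (ho : Off (ctr σ (π t₀)) (y t₀)) :
    HolAt π (fun t => f t (y t)) t₀ := by
  obtain ⟨Φ, h1, h2⟩ := h.reg _ hm.self_of_nhds ho
  have h3 : Tendsto (fun t => (t, y t)) (𝓝 t₀) (𝓝 (t₀, y t₀)) :=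
    Tendsto.prodMk_nhds tendsto_id (hy.cont hf.cont.self_of_nhds)
  refine ((HolAt.self.prod hy).comp_an h1).congr ?_
  filter_upwards [h3.eventually h2, hm] with t h4 h5 using (h4 h5).symm

end FMer

end Vale.Agent.P269.Base
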