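import Vale.Agent.P269.Base.Mer
import Vale.Agent.P269.Base.FMerA
import Vale.Agent.P269.Base.LF

/-!
# Holomorphic families of meromorphic sections: openness, inverses, removable singularities
-/

namespace Vale.Agent.P269.Base

open Set Function Topology Filter Holo Module

variable {ι : Type} [Fintype ι] {M : ι → ℕ} {β β' κ : Type*} {o : ι} {χ χ' : ι → ℤ}
  {u u' : β → ℤ} {a b : ι → ℕ} {g : ℤ} {m : ι → ℤ}
  {T P : Type*} [TopologicalSpace T] [NormedAddCommGroup P] [NormedSpace ℂ P]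
  [FiniteDimensional ℂ P] {C : T → Set (V M)} {π : T → P} {t₀ : T} {σ : β → P × ℂ → V M}
  {σ' : β' → P × ℂ → V M} {f f' : T → V M → ℂ}

/-- `f` is holomorphic near the point `(t, c)` of the total space of the family. -/
def RegAt (C : T → Set (V M)) (π : T → P) (f : T → V M → ℂ) (t : T) (c : V M) : Prop :=
  ∃ Φ : P × V M → ℂ, AnalyticAt ℂ Φ (π t, c) ∧
    ∀ᶠ q : T × V M in 𝓝 (t, c), q.2 ∈ C q.1 → f q.1 q.2 = Φ (π q.1, q.2)

omit [FiniteDimensional ℂ P] in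
theorem RegAt.eventually {c : V M} (h : RegAt C π f t₀ c) (hπ : ContinuousAt π t₀) :
    ∀ᶠ q : T × V M in 𝓝 (t₀, c), RegAt C π f q.1 q.2 := by
  obtain ⟨Φ, h1, h2⟩ := h
  filter_upwards [(tendsto_pm hπ c).eventually h1.eventually_analyticAt, h2.eventually_nhds]
    with q h3 h4 using ⟨Φ, h3, h4⟩

omit [FiniteDimensional ℂ P] in
theorem RegAt.of_smul {c : V M} {s : ι → ℂ} (h : RegAt C π f t₀ (s • c)) (hs : ∀ i, s i ≠ 0)
    (hcone : ∀ᶠ t in 𝓝 t₀, ∀ s : ι → ℂ, (∀ i, s i ≠ 0) → ∀ c ∈ C t, s • c ∈ C t)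
    (hom : ∀ᶠ t in 𝓝 t₀, ∀ s : ι → ℂ, (∀ i, s i ≠ 0) → ∀ c ∈ C t,
      f t (s • c) = chz χ s * f t c) : RegAt C π f t₀ c := by
  obtain ⟨Φ, h1, h2⟩ := h
  refine ⟨fun q => (chz χ s)⁻¹ * Φ (q.1, s • q.2), analyticAt_const.mul (h1.comp_of_eq
    (analyticAt_fst.prod (an_smul analyticAt_const analyticAt_snd)) rfl), ?_⟩
  filter_upwards [(Tendsto.prodMk_nhds continuousAt_fst (tendsto_smul tendsto_const_nhds
    (continuousAt_snd (p := (t₀, c))))).eventually h2, continuousAt_fst.eventually hcone,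
    continuousAt_fst.eventually hom] with q h3 h4 h5 h6
  rw [← h3 (h4 s hs _ h6), h5 s hs _ h6, inv_mul_cancel_left₀ (chz_ne_zero hs)]

omit [FiniteDimensional ℂ P] in
theorem RegAt.eventually_ne {c : V M} (h : RegAt C π f t₀ c) (hπ : ContinuousAt π t₀)
    (hc : c ∈ C t₀) (h0 : f t₀ c ≠ 0) :
    ∀ᶠ q : T × V M in 𝓝 (t₀, c), q.2 ∈ C q.1 → f q.1 q.2 ≠ 0 := by
  obtain ⟨Φ, h1, h2⟩ := h
  rw [h2.self_of_nhds hc] at h0
  filter_upwards [(tendsto_pm hπ c).eventually (h1.continuousAt.eventually_ne h0), h2]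
    with q h3 h4 h5 using h4 h5 ▸ h3

omit [FiniteDimensional ℂ P] in
theorem Chart.mem_ctr {τ : P × ℂ → V M} (h : Chart o C π t₀ τ fun _ => univ) :
    τ (π t₀, 0) ∈ C t₀ := h.mem0.self_of_nhds trivial

omit [FiniteDimensional ℂ P] in
theorem Chart.ne_ctr {τ : P × ℂ → V M} (h : Chart o C π t₀ τ fun _ => univ)
    (hf : LocFam o C π t₀) (i : ι) : τ (π t₀, 0) i ≠ 0 :=
  hf.ne_zero.self_of_nhds _ h.mem_ctr i

/-- Normal form of a homogeneous function near the centre of a disc chart. -/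
theorem Chart.normal {τ : P × ℂ → V M} (h : Chart o C π t₀ τ fun _ => univ)
    (hf : LocFam o C π t₀)
    (hom : ∀ᶠ t in 𝓝 t₀, ∀ s : ι → ℂ, (∀ i, s i ≠ 0) → ∀ c ∈ C t, f t (s • c) = chz χ s * f t c)
    {p : T × ℂ → Prop} (hp : ∀ᶠ q in 𝓝 (t₀, 0), p q) :
    ∃ (S : P × V M → ι → ℂ) (W : P × V M → ℂ), AnalyticAt ℂ S (π t₀, τ (π t₀, 0)) ∧
      AnalyticAt ℂ W (π t₀, τ (π t₀, 0)) ∧ S (π t₀, τ (π t₀, 0)) = 1 ∧
      W (π t₀, τ (π t₀, 0)) = 0 ∧
      ∀ᶠ q : T × V M in 𝓝 (t₀, τ (π t₀, 0)), (∀ i, S (π q.1, q.2) i ≠ 0) ∧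
        p (q.1, W (π q.1, q.2)) ∧ (q.2 ∈ C q.1 →
          q.2 = S (π q.1, q.2) • τ (π q.1, W (π q.1, q.2)) ∧
          f q.1 q.2 = chz χ (S (π q.1, q.2)) * f q.1 (τ (π q.1, W (π q.1, q.2)))) := by
  have hπ := hf.cont.self_of_nhds
  obtain ⟨ρ, h1, h2, -, h3⟩ := h.exists_mem_iff hπ (h.ne_ctr hf) hf.cone
  have a1 : AnalyticAt ℂ (fun q => (ρ q).1) (π t₀, τ (π t₀, 0)) := analyticAt_fst.comp h1
  have a2 : AnalyticAt ℂ (fun q => (ρ q).2) (π t₀, τ (π t₀, 0)) := analyticAt_snd.comp h1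
  have e1 : (ρ (π t₀, τ (π t₀, 0))).1 = 1 := by rw [h2]
  have e2 : (ρ (π t₀, τ (π t₀, 0))).2 = 0 := by rw [h2]
  have c1 : Tendsto (fun q : T × V M => (ρ (π q.1, q.2)).1) (𝓝 (t₀, τ (π t₀, 0))) (𝓝 1) :=
    e1 ▸ a1.continuousAt.tendsto.comp (tendsto_pm hπ _)
  have c2 : Tendsto (fun q : T × V M => (q.1, (ρ (π q.1, q.2)).2)) (𝓝 (t₀, τ (π t₀, 0)))
      (𝓝 (t₀, 0)) := Tendsto.prodMk_nhds continuousAt_fst
        (by simpa only [e2, comp_def] using a2.continuousAt.tendsto.comp (tendsto_pm hπ _))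
  refine ⟨_, _, a1, a2, e1, e2, ?_⟩
  filter_upwards [h3, c2.eventually hp, c2.eventually h.mem, continuousAt_fst.eventually hom,
    eventually_all.2 fun i => (tendsto_pi_nhds.1 c1 i).eventually_ne one_ne_zero]
    with q k1 k2 k3 k4 k5
  refine ⟨k5, k2, fun hq => ⟨(k1.1 hq).2, ?_⟩⟩
  rw [← k4 _ k5 _ (k3 trivial), ← (k1.1 hq).2]

/-- Transition between two disc charts with the same moving centre. -/
theorem Chart.trans {τ τ' : P × ℂ → V M} (h : Chart o C π t₀ τ fun _ => univ)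
    (h' : Chart o C π t₀ τ' fun _ => univ) (hf : LocFam o C π t₀)
    (e : ∀ᶠ t in 𝓝 t₀, Orb (τ (π t, 0)) (τ' (π t, 0))) :
    ∃ (S : P × ℂ → ι → ℂ) (ψ : P × ℂ → ℂ), AnalyticAt ℂ S (π t₀, 0) ∧ AnalyticAt ℂ ψ (π t₀, 0) ∧
      (∀ i, S (π t₀, 0) i ≠ 0) ∧ ψ (π t₀, 0) ≠ 0 ∧ ∀ᶠ q : T × ℂ in 𝓝 (t₀, 0),
        τ' (π q.1, q.2) = S (π q.1, q.2) • τ (π q.1, q.2 * ψ (π q.1, q.2)) := by
  have hπ := hf.cont.self_of_nhds
  obtain ⟨s, hs, e0⟩ := e.self_of_nhds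
  have k := h.smul hf.cone hs
  have hne := k.ne_ctr hf
  obtain ⟨ρ, h1, h2, h4, h3⟩ := k.exists_mem_iff hπ hne hf.cone
  simp only [← e0] at h1 h2 h3
  have a0 : AnalyticAt ℂ (fun q : P × ℂ => ρ (q.1, τ' q)) (π t₀, 0) :=
    h1.comp_of_eq (analyticAt_fst.prod h'.an) rfl
  have a1 : AnalyticAt ℂ (fun q : P × ℂ => (ρ (q.1, τ' q)).1) (π t₀, 0) := analyticAt_fst.comp a0
  have a2 : AnalyticAt ℂ (fun q : P × ℂ => (ρ (q.1, τ' q)).2) (π t₀, 0) := analyticAt_snd.comp a0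
  obtain ⟨ψ, b1, b2⟩ := exists_taylor_div a2 1
  have m1 : ∀ᶠ q : T × ℂ in 𝓝 (t₀, 0), τ' (π q.1, q.2) =
      (ρ (π q.1, τ' (π q.1, q.2))).1 • s • τ (π q.1, (ρ (π q.1, τ' (π q.1, q.2))).2) := by
    filter_upwards [(Tendsto.prodMk_nhds continuousAt_fst (h'.tendsto hπ)).eventually h3, h'.mem]
      with q k1 k2 using (k1.1 (k2 trivial)).2
  have m2 : ∀ᶠ t in 𝓝 t₀, (ρ (π t, τ' (π t, 0))).2 = 0 := by
    have c1 : Tendsto (fun t => (π t, (0 : ℂ), (ρ (π t, τ' (π t, 0))).2)) (𝓝 t₀)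
        (𝓝 (π t₀, 0, 0)) := by
      refine Tendsto.prodMk_nhds hπ (Tendsto.prodMk_nhds tendsto_const_nhds ?_)
      have := a2.continuousAt.tendsto.comp (hπ.prodMk (continuousAt_const (y := (0 : ℂ))))
      rwa [h2] at this
    filter_upwards [c1.eventually (h.inj (h.ne_ctr hf)), (tendsto_inl t₀ (0 : ℂ)).eventually m1, e,
      (tendsto_inl t₀ (0 : ℂ)).eventually h'.mem, hf.ne_zero] with t k1 k2 k3 k4 k5
    rw [smul_smul] at k2
    obtain ⟨r, -, k6⟩ := k3.trans (Orb.of_smul (k5 _ (k4 trivial)) k2).symm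
    exact (k1 r k6).2.symm
  have m3 : ∀ᶠ q : T × ℂ in 𝓝 (t₀, 0),
      (ρ (π q.1, τ' (π q.1, q.2))).2 = q.2 * ψ (π q.1, q.2) := by
    filter_upwards [(tendsto_pm hπ 0).eventually b2, continuousAt_fst.eventually m2] with q k1 k2
    rw [k1 (funext fun i => by simpa [jet, Subsingleton.elim i 0] using k2), pow_one]
  refine ⟨fun q => (ρ (q.1, τ' q)).1 * s, ψ, a1.mul analyticAt_const, b1,
    fun i => by simpa [h2] using hs i, fun h0 => ?_,
    by filter_upwards [m1, m3] with q k1 k2 using by rw [← k2, ← smul_smul]; exact k1⟩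
  obtain ⟨r, φ, d1, d2, d3, d4, d5, d6⟩ := k.factor hπ hne hf.cone h'.an0 e0
    (h'.mem0.mono fun z hz => hz trivial)
  have d7 : ∀ᶠ z in 𝓝 (0 : ℂ), φ z = z * ψ (π t₀, z) := by
    have c1 : Tendsto (fun z => (π t₀, r z, φ z)) (𝓝 0) (𝓝 (π t₀, 1, 0)) :=
      Tendsto.prodMk_nhds tendsto_const_nhds (Tendsto.prodMk_nhds (d3 ▸ d1.continuousAt.tendsto)
        (by simpa only [d4] using d2.continuousAt.tendsto))
    filter_upwards [c1.eventually h4, d5, (tendsto_inr t₀ (0 : ℂ)).eventually m3] with z k1 k2 k3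
    rw [← k3, k2.2, k1]
  have d8 : HasDerivAt (fun z => z * ψ (π t₀, z)) (1 * ψ (π t₀, 0) +
      0 * deriv (fun z => ψ (π t₀, z)) 0) 0 :=
    (hasDerivAt_id' (0 : ℂ)).mul (b1.comp_of_eq (analyticAt_const.prod analyticAt_id)
      rfl).differentiableAt.hasDerivAt
  rw [EventuallyEq.deriv_eq d7, d8.deriv, h0, zero_mul, mul_zero, add_zero, map_zero,
    add_zero] at d6
  refine one_ne_zero (h'.imm 1 (deriv r 0 o) ?_)
  rw [fderiv_apply_one_eq_deriv, d6, e0]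
  rfl

namespace FMer

omit [FiniteDimensional ℂ P] in
theorem regAt (h : FMer o C π t₀ χ σ u f) {c : V M} (hc : c ∈ C t₀)
    (ho : Off (ctr σ (π t₀)) c) : RegAt C π f t₀ c := h.reg c hc ho

theorem eventually [Finite β] (h : FMer o C π t₀ χ σ u f) (hf : LocFam o C π t₀)
    (hσ : Pts o C π t₀ σ) : ∀ᶠ t in 𝓝 t₀, FMer o C π t χ σ u f := by
  have hπ := hf.cont.self_of_nhds
  have inv : ∀ᶠ t in 𝓝 t₀, ∀ s : ι → ℂ, (∀ i, s i ≠ 0) → ∀ c,
      (Off (ctr σ (π t)) (s • c) → RegAt C π f t (s • c)) →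
        Off (ctr σ (π t)) c → RegAt C π f t c := by
    filter_upwards [hf.cone.eventually_nhds, h.hom.eventually_nhds] with t k1 k2 s hs c k3 k4
    exact (k3 (k4.orb (.smul c hs))).of_smul hs k1 k2
  have h1 := hf.compact (p := fun q => Off (ctr σ (π q.1)) q.2 → RegAt C π f q.1 q.2)
    (fun c hc => ?_) (inv.mono fun t ht s hs c _ => ht s hs c)
  · have h2 : ∀ k, ∀ᶠ t in 𝓝 t₀, ∃ g : P × ℂ → ℂ, AnalyticAt ℂ g (π t, 0) ∧
        ∀ᶠ q : T × ℂ in 𝓝 (t, 0), q.2 ≠ 0 →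
          f q.1 (σ k (π q.1, q.2)) = q.2 ^ u k * g (π q.1, q.2) := fun k => by
      obtain ⟨g, k1, k2⟩ := h.ord k
      filter_upwards [(tendsto_inl t₀ (0 : ℂ)).eventually ((tendsto_pm hπ 0).eventually
        k1.eventually_analyticAt), (tendsto_inl t₀ (0 : ℂ)).eventually k2.eventually_nhds]
        with t k3 k4 using ⟨g, k3, k4⟩
    filter_upwards [h.hom.eventually_nhds, h1, eventually_all.2 h2] with t k1 k2 k3
      using ⟨k1, k2, k3⟩
  by_cases ho : Off (ctr σ (π t₀)) c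
  · exact ((h.regAt hc ho).eventually hπ).mono fun q hq _ _ => hq
  obtain ⟨k, hk⟩ := not_forall_not.1 ho
  obtain ⟨g, g1, g2⟩ := h.ord k
  obtain ⟨S, W, a1, a2, -, -, h3⟩ := (hσ.chart k).normal hf h.hom
    (g2.and ((tendsto_pm hπ 0).eventually g1.eventually_analyticAt))
  have h4 : ∀ᶠ q : T × V M in 𝓝 (t₀, σ k (π t₀, 0)), q.2 ∈ C q.1 → Off (ctr σ (π q.1)) q.2 →
      RegAt C π f q.1 q.2 := by
    filter_upwards [h3.eventually_nhds, (tendsto_pm hπ _).eventually a1.eventually_analyticAt,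
      (tendsto_pm hπ _).eventually a2.eventually_analyticAt, continuousAt_fst.eventually hf.cont]
      with q k1 k2 k3 k4 k5 k6
    obtain ⟨k7, k8, k9⟩ := k1.self_of_nhds
    have k10 : W (π q.1, q.2) ≠ 0 := fun e => k6 k ⟨_, k7, by simpa only [e, ctr] using (k9 k5).1⟩
    refine ⟨fun r => chz χ (S r) * (W r ^ u k * g (r.1, W r)),
      ((analyticAt_chz k7).comp k2).mul ((k3.zpow k10).mul
        (k8.2.comp_of_eq (analyticAt_fst.prod k3) rfl)), ?_⟩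
    filter_upwards [k1, (tendsto_pm k4 q.2).eventually (k3.continuousAt.eventually_ne k10)]
      with r l1 l2 l3
    rw [(l1.2.2 l3).2, l1.2.1.1 l2]
  obtain ⟨s, hs, h5⟩ := hk.ev h4
  filter_upwards [h5, continuousAt_fst.eventually inv, continuousAt_fst.eventually hf.cone]
    with q k1 k2 k3 k4 using k2 s hs _ (k1 (k3 s hs _ k4))

theorem eventually_mer [Finite β] (h : FMer o C π t₀ χ σ u f) (hf : LocFam o C π t₀)
    (hσ : Pts o C π t₀ σ) : ∀ᶠ t in 𝓝 t₀, Mer o (C t) χ (ctr σ (π t)) u (f t) := by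
  filter_upwards [h.eventually hf hσ, hf.eventually, hσ.eventually hf] with t h1 h2 h3
    using h1.mer h2 h3

omit [Fintype ι] [FiniteDimensional ℂ P] in
theorem vz {τ : P × ℂ → V M} {w : ℤ} {g : P × ℂ → ℂ} (h1 : AnalyticAt ℂ g (π t₀, 0))
    (h2 : ∀ᶠ q : T × ℂ in 𝓝 (t₀, 0), q.2 ≠ 0 → f q.1 (τ (π q.1, q.2)) = q.2 ^ w * g (π q.1, q.2)) :
    Vz w (fun z => f t₀ (τ (π t₀, z))) (g (π t₀, 0)) :=
  ⟨fun z => g (π t₀, z), h1.comp_of_eq (analyticAt_const.prod analyticAt_id) rfl, rfl,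
    eventually_nhdsWithin_iff.2 ((tendsto_inr t₀ (0 : ℂ)).eventually h2)⟩

/-- The leading coefficients of a family through a trivialisation do not vanish. -/
theorem ord_ne (h : FMer o C π t₀ χ σ u f) (hf : LocFam o C π t₀) (hσ : Pts o C π t₀ σ)
    (h0 : Triv o (C t₀) χ (ctr σ (π t₀)) u (f t₀)) (k : β) :
    ∃ g : P × ℂ → ℂ, AnalyticAt ℂ g (π t₀, 0) ∧ g (π t₀, 0) ≠ 0 ∧
      ∀ᶠ q : T × ℂ in 𝓝 (t₀, 0), q.2 ≠ 0 →
        f q.1 (σ k (π q.1, q.2)) = q.2 ^ u k * g (π q.1, q.2) := by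
  obtain ⟨g, h1, h2⟩ := h.ord k
  exact ⟨g, h1, h0.exact k _ _ (hσ.isBranch hf k) (.refl _) (vz h1 h2), h2⟩

theorem eventually_triv [Finite β] (h : FMer o C π t₀ χ σ u f) (hf : LocFam o C π t₀)
    (hσ : Pts o C π t₀ σ) (h0 : Triv o (C t₀) χ (ctr σ (π t₀)) u (f t₀)) :
    ∀ᶠ t in 𝓝 t₀, Triv o (C t) χ (ctr σ (π t)) u (f t) := by
  have hπ := hf.cont.self_of_nhds
  choose g g1 g2 g3 using h.ord_ne hf hσ h0
  have inv : ∀ᶠ t in 𝓝 t₀, ∀ s : ι → ℂ, (∀ i, s i ≠ 0) → ∀ c ∈ C t,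
      (Off (ctr σ (π t)) (s • c) → f t (s • c) ≠ 0) → Off (ctr σ (π t)) c → f t c ≠ 0 := by
    filter_upwards [h.hom] with t k1 s hs c hc k2 k3 k4
    exact k2 (k3.orb (.smul c hs)) (by rw [k1 s hs c hc, k4, mul_zero])
  have h1 := hf.compact (p := fun q => Off (ctr σ (π q.1)) q.2 → f q.1 q.2 ≠ 0)
    (fun c hc => ?_) inv
  · filter_upwards [h.eventually_mer hf hσ, hf.eventually, hσ.eventually hf, h1,
      eventually_all.2 fun k => (tendsto_inl t₀ (0 : ℂ)).eventually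
        (((tendsto_pm hπ 0).eventually ((g1 k).eventually_analyticAt.and
          ((g1 k).continuousAt.eventually_ne (g2 k)))).and (g3 k).eventually_nhds)]
      with t k1 k2 k3 k4 k5
    exact k1.triv k2.nod (k3.spt k2) k4 fun k =>
      ⟨_, k3.isBranch k2 k, .refl _, _, (k5 k).1.2, vz (k5 k).1.1 (k5 k).2⟩
  by_cases ho : Off (ctr σ (π t₀)) c
  · exact ((h.regAt hc ho).eventually_ne hπ hc (h0.ne c hc ho)).mono fun q hq k1 _ => hq k1
  obtain ⟨k, hk⟩ := not_forall_not.1 ho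
  obtain ⟨S, W, -, -, -, -, h3⟩ := (hσ.chart k).normal hf h.hom
    ((g3 k).and ((tendsto_pm hπ 0).eventually ((g1 k).continuousAt.eventually_ne (g2 k))))
  have h4 : ∀ᶠ q : T × V M in 𝓝 (t₀, σ k (π t₀, 0)), q.2 ∈ C q.1 → Off (ctr σ (π q.1)) q.2 →
      f q.1 q.2 ≠ 0 := by
    filter_upwards [h3] with q ⟨k1, k2, k3⟩ k4 k5
    have k6 : W (π q.1, q.2) ≠ 0 := fun e => k5 k ⟨_, k1, by simpa only [e, ctr] using (k3 k4).1⟩
    rw [(k3 k4).2, k2.1 k6]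
    exact mul_ne_zero (chz_ne_zero k1) (mul_ne_zero (zpow_ne_zero _ k6) k2.2)
  obtain ⟨s, hs, h5⟩ := hk.ev h4
  filter_upwards [h5, continuousAt_fst.eventually inv, continuousAt_fst.eventually hf.cone]
    with q k1 k2 k3 k4 using k2 s hs _ k4 (k1 (k3 s hs _ k4))

theorem congr [Finite β] (h : FMer o C π t₀ χ σ u f) (hf : LocFam o C π t₀) (hσ : Pts o C π t₀ σ)
    (hom : ∀ᶠ t in 𝓝 t₀, ∀ s : ι → ℂ, (∀ i, s i ≠ 0) → ∀ c ∈ C t, f' t (s • c) = chz χ s * f' t c)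
    (e : ∀ᶠ t in 𝓝 t₀, ∀ c ∈ C t, Off (ctr σ (π t)) c → f' t c = f t c) :
    FMer o C π t₀ χ σ u f' := by
  refine ⟨hom, fun c hc ho => ?_, fun k => ?_⟩
  · obtain ⟨Φ, h1, h2⟩ := h.reg c hc ho
    refine ⟨Φ, h1, ?_⟩
    filter_upwards [h2, continuousAt_fst.eventually e,
      hσ.eventually_off hf (hf.ne_zero.self_of_nhds c hc) ho] with q k1 k2 k3 k4
    rw [k2 _ k4 k3, k1 k4]
  · obtain ⟨g, h1, h2⟩ := h.ord k
    refine ⟨g, h1, ?_⟩
    filter_upwards [h2, continuousAt_fst.eventually e, hσ.eventually_off' hf k, (hσ.chart k).mem]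
      with q k1 k2 k3 k4 k5
    rw [k2 _ (k4 trivial) (k3 k5), k1 k5]

/-- The notion does not depend on the charts. -/
theorem change {τ : β → P × ℂ → V M} (h : FMer o C π t₀ χ σ u f) (hf : LocFam o C π t₀)
    (hσ : Pts o C π t₀ σ) (hτ : Pts o C π t₀ τ)
    (e : ∀ k, ∀ᶠ t in 𝓝 t₀, Orb (σ k (π t, 0)) (τ k (π t, 0))) : FMer o C π t₀ χ τ u f := by
  have hπ := hf.cont.self_of_nhds
  refine ⟨h.hom, fun c hc ho => h.reg c hc fun k hk =>
    ho k ((e k).self_of_nhds.symm.trans hk), fun k => ?_⟩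
  obtain ⟨g, h1, h2⟩ := h.ord k
  obtain ⟨S, ψ, a1, a2, a3, a4, h3⟩ := (hσ.chart k).trans (hτ.chart k) hf (e k)
  have a5 : AnalyticAt ℂ (fun q : P × ℂ => q.2 * ψ q) (π t₀, 0) := analyticAt_snd.mul a2
  have c1 : Tendsto (fun q : T × ℂ => (q.1, q.2 * ψ (π q.1, q.2))) (𝓝 (t₀, 0)) (𝓝 (t₀, 0)) :=
    Tendsto.prodMk_nhds continuousAt_fst (by
      simpa [comp_def] using a5.continuousAt.tendsto.comp (tendsto_pm hπ 0))
  refine ⟨fun q => chz χ (S q) * (ψ q ^ u k * g (q.1, q.2 * ψ q)),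
    ((analyticAt_chz a3).comp a1).mul ((a2.zpow a4).mul
      (h1.comp_of_eq (analyticAt_fst.prod a5) (by simp))), ?_⟩
  filter_upwards [h3, c1.eventually h2, c1.eventually (hσ.chart k).mem,
    continuousAt_fst.eventually h.hom,
    (tendsto_pm hπ 0).eventually (a2.continuousAt.eventually_ne a4),
    (tendsto_pm hπ 0).eventually (eventually_all.2 fun i =>
      (continuousAt_pi.1 a1.continuousAt i).eventually_ne (a3 i))] with q k1 k2 k3 k4 k5 k6 k7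
  rw [k1, k4 _ k6 _ (k3 trivial), k2 (mul_ne_zero k7 k5), mul_zpow]
  ring

theorem zpow (h : FMer o C π t₀ χ σ u f) (hf : LocFam o C π t₀) (hσ : Pts o C π t₀ σ)
    (h0 : Triv o (C t₀) χ (ctr σ (π t₀)) u (f t₀)) (n : ℤ) :
    FMer o C π t₀ (n • χ) σ (n • u) fun t c => f t c ^ n := by
  refine ⟨h.hom.mono fun t ht s hs c hc => by rw [ht s hs c hc, chz_smul, mul_zpow],
    fun c hc ho => ?_, fun k => ?_⟩
  · obtain ⟨Φ, h1, h2⟩ := h.reg c hc ho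
    exact ⟨fun q => Φ q ^ n, h1.zpow (h2.self_of_nhds hc ▸ h0.ne c hc ho),
      h2.mono fun q hq k => by rw [hq k]⟩
  · obtain ⟨g, h1, h2, h3⟩ := h.ord_ne hf hσ h0 k
    exact ⟨fun q => g q ^ n, h1.zpow h2, h3.mono fun q hq k => by
      rw [hq k, mul_zpow, ← zpow_mul, Pi.smul_apply, smul_eq_mul, mul_comm n]⟩

theorem inv (h : FMer o C π t₀ χ σ u f) (hf : LocFam o C π t₀) (hσ : Pts o C π t₀ σ)
    (h0 : Triv o (C t₀) χ (ctr σ (π t₀)) u (f t₀)) :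
    FMer o C π t₀ (-χ) σ (-u) fun t c => (f t c)⁻¹ := by
  simpa only [neg_smul, one_smul, zpow_neg, zpow_one] using h.zpow hf hσ h0 (-1)

omit [FiniteDimensional ℂ P] in
theorem ext (h : FMer o C π t₀ χ σ u f) (hf : LocFam o C π t₀) (hσ' : Pts o C π t₀ σ')
    (hz : ∀ k, Off (ctr σ (π t₀)) (σ' k (π t₀, 0))) :
    FMer o C π t₀ χ (Sum.elim σ σ') (Sum.elim u 0) f := by
  refine ⟨h.hom, fun c hc ho => h.reg c hc fun k => ho (.inl k), ?_⟩
  rintro (k | k)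
  · exact h.ord k
  obtain ⟨Φ, h1, h2⟩ := h.reg _ (hσ'.chart k).mem_ctr (hz k)
  refine ⟨fun q => Φ (q.1, σ' k q), h1.comp_of_eq (analyticAt_fst.prod (hσ'.chart k).an) rfl, ?_⟩
  filter_upwards [(Tendsto.prodMk_nhds continuousAt_fst
    ((hσ'.chart k).tendsto hf.cont.self_of_nhds)).eventually h2, (hσ'.chart k).mem] with q k1 k2 _
  simpa using k1 (k2 trivial)

/-- Removable singularities in families. -/
theorem remove [Finite β] [Finite β'] {w : β' → ℤ}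
    (h : FMer o C π t₀ χ (Sum.elim σ σ') (Sum.elim u w) f) (hf : LocFam o C π t₀)
    (hσ : Pts o C π t₀ (Sum.elim σ σ')) (hw : 0 ≤ w) :
    ∃ f', FMer o C π t₀ χ σ u f' ∧ ∀ t c, Off (ctr σ' (π t)) c → f' t c = f t c := by
  classical
  have hπ := hf.cont.self_of_nhds
  have hσ' : Pts o C π t₀ σ' :=
    ⟨fun k => hσ.chart (.inr k), fun k k' e => Sum.inr.inj (hσ.inj (.inr k) (.inr k') e)⟩
  choose g g1 g2 using fun k => h.ord (.inr k)
  let F : T → V M → ℂ := fun t c =>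
    if e : ∃ r : β' × (ι → ℂ), (∀ i, r.2 i ≠ 0) ∧ c = r.2 • σ' r.1 (π t, 0) then
      chz χ e.choose.2 * (0 ^ (w e.choose.1).toNat * g e.choose.1 (π t, 0)) else f t c
  have e1 : ∀ t c, Off (ctr σ' (π t)) c → F t c = f t c := fun t c hc =>
    dif_neg fun ⟨r, k1, k2⟩ => hc r.1 ⟨r.2, k1, k2⟩
  have e2 : ∀ᶠ t in 𝓝 t₀, ∀ k (s : ι → ℂ), (∀ i, s i ≠ 0) →
      F t (s • σ' k (π t, 0)) = chz χ s * (0 ^ (w k).toNat * g k (π t, 0)) := by
    filter_upwards [hσ'.eventually hf, hf.eventually] with t k1 k2 k s hs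
    have e : ∃ r : β' × (ι → ℂ), (∀ i, r.2 i ≠ 0) ∧ s • σ' k (π t, 0) = r.2 • σ' r.1 (π t, 0) :=
      ⟨(k, s), hs, rfl⟩
    refine (dif_pos e).trans ?_
    obtain ⟨k3, k4⟩ := e.choose_spec
    generalize e.choose = r at k3 k4
    obtain ⟨k', s'⟩ := r
    obtain rfl : k = k' := k1.inj _ _ ((Orb.smul _ hs).trans (Orb.symm ⟨s', k3, k4⟩))
    obtain rfl : s = s' := funext fun i =>
      smul_left_injective ℂ ((k1.chart k).ne_ctr k2 i) (congrFun k4 i)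
    rfl
  have hom : ∀ᶠ t in 𝓝 t₀, ∀ s : ι → ℂ, (∀ i, s i ≠ 0) → ∀ c ∈ C t,
      F t (s • c) = chz χ s * F t c := by
    filter_upwards [e2, h.hom] with t k1 k2 s hs c hc
    by_cases ho : Off (ctr σ' (π t)) c
    · rw [e1 t c ho, e1 t _ (ho.orb (.smul c hs)), k2 s hs c hc]
    · obtain ⟨k, s', hs', rfl⟩ := not_forall_not.1 ho
      rw [smul_smul, ctr, k1 k (s * s') fun i => mul_ne_zero (hs i) (hs' i), k1 k s' hs', chz_mul,
        mul_assoc]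
  refine ⟨F, ⟨hom, fun c hc ho => ?_, fun k => ?_⟩, e1⟩
  · by_cases ho' : Off (ctr σ' (π t₀)) c
    · obtain ⟨Φ, h1, h2⟩ := h.reg c hc (by rintro (k | k); exacts [ho k, ho' k])
      refine ⟨Φ, h1, ?_⟩
      filter_upwards [h2, hσ'.eventually_off hf (hf.ne_zero.self_of_nhds c hc) ho'] with q k1 k2 k3
      rw [e1 _ _ k2, k1 k3]
    obtain ⟨k, hk⟩ := not_forall_not.1 ho'
    obtain ⟨s, hs, e⟩ := hk.symm
    refine RegAt.of_smul (e ▸ ?_) hs hf.cone hom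
    obtain ⟨S, W, a1, a2, a3, a4, h3⟩ := (hσ'.chart k).normal hf hom
      ((g2 k).and ((hσ'.eventually_off' hf k).and (continuousAt_fst.eventually e2)))
    refine ⟨fun r => chz χ (S r) * (W r ^ (w k).toNat * g k (r.1, W r)),
      ((analyticAt_chz (by simp [a3])).comp a1).mul ((a2.pow _).mul
        ((g1 k).comp_of_eq (analyticAt_fst.prod a2) (by simp [a4]))), ?_⟩
    filter_upwards [h3] with q ⟨_, ⟨k2, k3, k4⟩, k5⟩ k6
    rw [(k5 k6).2]
    by_cases k7 : W (π q.1, q.2) = 0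
    · have := k4 k 1 fun _ => one_ne_zero
      rw [one_smul, show chz χ 1 = 1 by simp [chz], one_mul] at this
      rw [k7, this]
    · rw [e1 _ _ (k3 k7), ← zpow_natCast, Int.toNat_of_nonneg (hw k)]
      exact congrArg _ (k2 k7)
  · obtain ⟨G, h1, h2⟩ := h.ord (.inl k)
    refine ⟨G, h1, ?_⟩
    filter_upwards [h2, hσ.eventually_off' hf (.inl k)] with q k1 k2 k3
    exact (e1 _ _ fun k' => k2 k3 (.inr k')).trans (k1 k3)

/-- Better orders on every fibre give better orders in the family. -/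
theorem of_mer (h : FMer o C π t₀ χ σ u f) (hf : LocFam o C π t₀) (hσ : Pts o C π t₀ σ)
    (h' : ∀ᶠ t in 𝓝 t₀, Mer o (C t) χ (ctr σ (π t)) u' (f t)) : FMer o C π t₀ χ σ u' f := by
  have hπ := hf.cont.self_of_nhds
  refine ⟨h.hom, h.reg, fun k => ?_⟩
  rcases le_total (u' k) (u k) with hk | hk
  · obtain ⟨g, h1, h2⟩ := h.ord k
    obtain ⟨n, hn⟩ := Int.le.dest hk
    refine ⟨fun q => q.2 ^ n * g q, (analyticAt_snd.pow n).mul h1, h2.mono fun q hq k1 => ?_⟩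
    rw [hq k1, ← hn, zpow_add₀ k1, zpow_natCast, mul_assoc]
  obtain ⟨g, h1, h2⟩ := h.ord k
  obtain ⟨n, hn⟩ := Int.le.dest hk
  obtain ⟨G, h3, h4⟩ := exists_taylor_div h1 n
  have h5 : ∀ᶠ t in 𝓝 t₀, jet n (fun w => g (π t, w)) = 0 := by
    filter_upwards [h', (tendsto_inl t₀ (0 : ℂ)).eventually ((hσ.chart k).isBranch hf),
      (tendsto_inl t₀ (0 : ℂ)).eventually h2.eventually_nhds,
      (tendsto_inl t₀ (0 : ℂ)).eventually ((tendsto_pm hπ 0).eventually h1.eventually_analyticAt)]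
      with t k1 k2 k3 k4
    simp only [zero_add] at k2
    obtain ⟨x, G', k5, -, k6⟩ := k1.ord k _ k2 (.refl _)
    have k7 : AnalyticAt ℂ (fun w => g (π t, w)) 0 :=
      k4.comp_of_eq (analyticAt_const.prod analyticAt_id) rfl
    refine (dv_iff_jet k7).1 (Vz.dv (x := G' 0) ⟨G', k5, rfl, ?_⟩ k7)
    filter_upwards [k6, eventually_nhdsWithin_iff.2 ((tendsto_inr t (0 : ℂ)).eventually k3),
      self_mem_nhdsWithin] with w l1 l2 l3
    rw [l1, ← hn, zpow_add₀ l3, mul_assoc] at l2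
    exact (mul_left_cancel₀ (zpow_ne_zero _ l3) l2).symm
  refine ⟨G, h3, ?_⟩
  filter_upwards [h2, (tendsto_pm hπ 0).eventually h4, continuousAt_fst.eventually h5]
    with q k1 k2 k3 k4
  rw [k1 k4, k2 k3, ← hn, zpow_add₀ k4, zpow_natCast, mul_assoc]

end FMer

theorem LocFam.zeros' (h : LocFam o C π t₀) {lam : P → Tens M b} (hl : AnalyticAt ℂ lam (π t₀))
    [Finite β] {z : β → V M} (hz : Reps (C t₀) (fun c => val (lam (π t₀)) c = 0) z)
    (hs : ∀ k, Simp o (C t₀) (val (lam (π t₀))) (z k)) :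
    ∃ τ : β → P × ℂ → V M, Pts o C π t₀ τ ∧ ctr τ (π t₀) = z ∧
      FMer o C π t₀ (fun i => b i) τ 1 (fun t => val (lam (π t))) ∧
      ∀ᶠ t in 𝓝 t₀, Reps (C t) (fun c => val (lam (π t)) c = 0) (ctr τ (π t)) := by
  have := Fintype.ofFinite β
  obtain ⟨τ, h1, h2⟩ := h.zeros hl hz hs
  have h3 : Pts o C π t₀ τ := ⟨fun k => (h1 k).2, h2.self_of_nhds.1.inj⟩
  refine ⟨τ, h3, funext fun k => (h1 k).1, (FMer.of_val h h3 (.of_an hl)).of_mer h h3 ?_,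
    h2.mono fun t ht => ht.1⟩
  filter_upwards [h2, h.eventually] with t k1 k2
  exact (Triv.of_simp k2.nod (Pol.isSec (val_mem _)) k1.1 k1.2).2.toMer

/-- The moving zeros of a holomorphic family of forms with simple zeros. -/
theorem LocFam.exists_triv (h : LocFam o C π t₀) {lam : T → Tens M b} (hl : HolAt π lam t₀)
    (hs : ∀ c ∈ C t₀, val (lam t₀) c = 0 → Simp o (C t₀) (val (lam t₀)) c) :
    ∃ (n : ℕ) (τ : Fin n → P × ℂ → V M), Pts o C π t₀ τ ∧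
      FMer o C π t₀ (fun i => b i) τ 1 (fun t => val (lam t)) ∧
      Triv o (C t₀) (fun i => b i) (ctr τ (π t₀)) 1 (val (lam t₀)) := by
  obtain ⟨Λ, h1, h2⟩ := hl
  have h3 : IsSec o (C t₀) b (val (lam t₀)) := Pol.isSec (val_mem _)
  obtain ⟨n, z, hz⟩ := (nzd_of_simp h.nod h3 hs).exists_reps h.nod h3
  have h4 := fun k => hs _ (hz.mem k) (hz.prop k)
  have h5 := (Triv.of_simp h.nod h3 hz h4).2
  rw [h2.self_of_nhds] at hz h4
  obtain ⟨τ, k1, k2, k3, -⟩ := h.zeros' h1 hz h4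
  refine ⟨n, τ, k1, k3.congr h k1 ?_ (h2.mono fun t ht c _ _ => by rw [ht]), k2 ▸ h5⟩
  filter_upwards [k3.hom, h2] with t l1 l2
  rwa [l2]

/-- A family of forms with simple zeros only, through given moving points. -/
theorem LocFam.exists_pres [Finite β] [Finite β'] (h : LocFam o C π t₀) (hσ : Pts o C π t₀ σ)
    {y : β' → V M} (hy : ∀ k, (∀ i, y k i ≠ 0) ∧ Off (ctr σ (π t₀)) (y k)) :
    ∃ (b : ι → ℕ) (lam : P → Tens M b) (r : ℕ) (τ : Fin r → P × ℂ → V M), (∀ i, 1 ≤ b i) ∧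
      AnalyticAt ℂ lam (π t₀) ∧ Pts o C π t₀ (Sum.elim σ τ) ∧
      FMer o C π t₀ (fun i => b i) (Sum.elim σ τ) 1 (fun t => val (lam (π t))) ∧
      Triv o (C t₀) (fun i => b i) (ctr (Sum.elim σ τ) (π t₀)) 1 (val (lam (π t₀))) ∧
      ∀ k, val (lam (π t₀)) (y k) ≠ 0 := by
  have := Fintype.ofFinite β
  have hπ := h.cont.self_of_nhds
  obtain ⟨b, l, r, w, h1, h2, h3, h4, h5, h6⟩ := h.nod.exists_pres (hσ.spt h) hy
  have a0 : ∀ k, AnalyticAt ℂ (fun p => σ k (p, 0)) (π t₀) := fun k =>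
    (hσ.chart k).an.comp_of_eq (analyticAt_id.prod analyticAt_const) rfl
  have a1 : AnalyticAt ℂ (fun p => evP b (ctr σ p)) (π t₀) :=
    (analyticAt_evP _).comp (AnalyticAt.pi a0)
  obtain ⟨S, hS⟩ := exists_rightInv (l := evP b (ctr σ (π t₀))) h6
  obtain ⟨a2, a3⟩ := exists_proj_ker a1 hS l
  obtain ⟨lam, e⟩ : ∃ lam : P → Tens M b, lam = fun p =>
    l - S (((evP b (ctr σ p)).comp S).inverse (evP b (ctr σ p) l)) := ⟨_, rfl⟩
  have a4 : AnalyticAt ℂ lam (π t₀) := e ▸ analyticAt_const.sub ((S.analyticAt _).comp a2)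
  have a5 : ∀ᶠ p in 𝓝 (π t₀), ∀ k, val (lam p) (σ k (p, 0)) = 0 :=
    a3.mono fun p hp k => by rw [e]; exact congrFun hp k
  have e0 : lam (π t₀) = l := by
    have : evP b (ctr σ (π t₀)) l = 0 := funext fun k => h3.prop (.inl k)
    simp only [e, this, map_zero, sub_zero]
  have h7 := fun k => h4 _ (h3.mem k) (h3.prop k)
  have h8 := (Triv.of_simp h.nod (Pol.isSec (val_mem l)) h3 h7).2
  rw [← e0] at h3 h5 h7 h8
  obtain ⟨τ, k1, k2, k3, k4⟩ := h.zeros' a4 h3 h7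
  have e1 : ctr (Sum.elim σ fun k => τ (.inr k)) (π t₀) = Sum.elim (ctr σ (π t₀)) w :=
    funext fun k => by
      cases k
      exacts [rfl, congrFun k2 _]
  have k5 : Pts o C π t₀ (Sum.elim σ fun k => τ (.inr k)) :=
    ⟨by rintro (k | k); exacts [hσ.chart k, k1.chart _], fun k k' hk => h2.inj k k' (by
      rw [← e1]; exact hk)⟩
  refine ⟨b, lam, r, _, h1, a4, k5, k3.change h k1 k5 ?_, e1 ▸ h8, h5⟩
  rintro (k | k)
  swap
  · exact .of_forall fun t => .refl _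
  have c1 := fun k => ((k1.chart k).tendsto hπ).comp (tendsto_inl t₀ (0 : ℂ))
  have c2 := ((hσ.chart k).tendsto hπ).comp (tendsto_inl t₀ (0 : ℂ))
  have c3 : ∀ k', ∀ᶠ t in 𝓝 t₀, Orb (τ k' (π t, 0)) (σ k (π t, 0)) → k' = .inl k := fun k' => by
    by_cases e2 : k' = .inl k
    · exact .of_forall fun _ _ => e2
    · exact (ev_not_orb (c1 k') c2 ((k1.chart k').ne_ctr h) ((hσ.chart k).ne_ctr h) fun e3 =>
        e2 (h2.inj _ _ (congrFun k2 k' ▸ e3))).mono fun t ht e3 => absurd e3 ht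
  filter_upwards [k4, eventually_all.2 c3, hπ.eventually a5,
    (tendsto_inl t₀ (0 : ℂ)).eventually (hσ.chart k).mem] with t l1 l2 l3 l4
  obtain ⟨k', l5⟩ := l1.ex _ (l4 trivial) (l3 k)
  obtain rfl := l2 k' l5
  exact l5

end Vale.Agent.P269.Base
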