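import Vale.Agent.P269.Base.Mer
import Vale.Agent.P269.Gen.Act

/-!
# Evaluation, fields and residues at a point of a chart
-/

set_option linter.unusedSectionVars false

namespace Vale.Agent.P269.Ch

open Set Function Topology Filter Holo Base

variable {J ι ν β : Type} [Fintype J] [Fintype ι] [DecidableEq ι] [Fintype ν] {ch : Ch ι J}
  {x : ch.W ν} {j : J} {l : Option J} {c : V ch.M} {z : β → V ch.M} {u : β → ℤ} {f : V ch.M → ℂ}

/-- The evaluation forms depend analytically on the point of the chart and of the curve. -/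
theorem exists_an_ev (hx : ∀ l, Surjective (x.Q l)) (c : V ch.M) :
    ∃ U : ch.W ν × V ch.M → ∀ l, ch.E l →L[ℂ] ℂ, AnalyticAt ℂ U (x, c) ∧
      ∀ᶠ q in 𝓝 (x, c), ∀ w, (q.2, w) ∈ gr q.1 → w = U q := by
  choose S hS using fun l => exists_rightInv (hx l)
  have h1 : ∀ l, AnalyticAt ℂ (fun q : ch.W ν × V ch.M => q.1.Q l ∘L S l) (x, c) := fun l =>
    an_comp (W.an_Q analyticAt_fst l) analyticAt_const
  have h2 : ∀ l, Bijective (x.Q l ∘L S l) := fun l =>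
    ⟨fun a b e => by simpa [hS] using e, fun y => ⟨y, hS l y⟩⟩
  refine ⟨fun q l => evL _ q.2 ∘L S l ∘L (q.1.Q l ∘L S l).inverse, AnalyticAt.pi fun l =>
    an_comp ((analyticAt_evL _).comp analyticAt_snd) (an_comp analyticAt_const
      (AnalyticAt.comp (g := ContinuousLinearMap.inverse) (analyticAt_clm_inverse (h2 l)) (h1 l))),
    ?_⟩
  filter_upwards [eventually_all.2 fun l => eventually_bijective (h1 l).continuousAt (h2 l)]
    with q hq w hw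
  refine funext fun l => ContinuousLinearMap.ext fun e => Eq.trans ?_ (hw.2 l _)
  exact congrArg (w l) ((isInvertible_of_bijective (hq l)).self_apply_inverse e).symm

/-- The values of a field depend analytically on the point of the chart and of the curve. -/
theorem exists_an_fld (hx : ∀ l, Surjective (x.Q l)) (hc : ∀ i, c i ≠ 0) (j : J) :
    ∃ Φ : ch.W ν × V ch.M → ℂ, AnalyticAt ℂ Φ (x, c) ∧
      ∀ᶠ q in 𝓝 (x, c), q.2 ∈ crv q.1 → (∃ y, Val q.1 j q.2 y) → fld q.1 q.2 j = Φ q := by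
  obtain ⟨U, h1, h2⟩ := exists_an_ev hx c
  obtain ⟨μ, hμ⟩ := exists_val_one (a := ch.b j) hc
  have h3 : AnalyticAt ℂ (fun q : ch.W ν × V ch.M => val μ q.2) (x, c) :=
    (analyticAt_val μ _).comp analyticAt_snd
  have h4 : val μ (x, c).2 ≠ 0 := ne_of_eq_of_ne hμ one_ne_zero
  refine ⟨fun q => U q (some j) (q.1.X j μ) / val μ q.2, (an_apply (analyticAt_pi_iff.1 h1 _)
    (an_apply (W.an_X analyticAt_fst j) analyticAt_const)).div h3 h4, ?_⟩
  filter_upwards [h2, h3.continuousAt.eventually_ne h4] with q k1 k2 k3 k4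
  obtain ⟨w, hw⟩ := mem_crv.1 k3
  rw [eq_div_iff k2, ← k1 w hw]
  exact (val_fld k4 w hw μ).symm

theorem h_eq (hx : x ∈ ch.base ν) (ha : ch.a l ≠ 0) :
    (ch.h l : ℤ) = dg ch.m (ch.a l) + 1 - ch.g := by
  have h1 := (x.Q l).toLinearMap.finrank_range_add_finrank_ker
  have h2 := (resL (crv x) (ch.a l)).finrank_range_add_finrank_ker
  rw [LinearMap.range_eq_top.2 (hx.1 l), finrank_top, Module.finrank_fin_fun,
    show LinearMap.ker (x.Q l).toLinearMap = LinearMap.ker (resL (crv x) (ch.a l)) from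
      Submodule.ext fun μ => ⟨fun h => funext fun c => (Cv.mem_crv_iff.1 c.2).2 l μ h,
        fun h => hx.2.1 l μ fun c hc => congrFun h ⟨c, hc⟩⟩] at h1
  rw [← hx.2.2.1.finrank_Hs ha]
  exact congrArg _ (Nat.add_right_cancel (h1.trans h2.symm))

theorem spt_p (hx : x ∈ ch.base ν) : Spt ch.o (crv x) x.p :=
  ⟨fun n => (hx.2.2.2.1 n).1, fun n => (hx.2.2.2.1 n).2,
    fun n n' ⟨s, _, e⟩ => (hx.2.2.2.2.1 n' n s e).symm⟩

theorem eq_zero_of_off [Finite β] (hx : x ∈ ch.base ν) {v : ch.E l}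
    (h : ∀ c w, (c, w) ∈ gr x → Off z c → w l v = 0) : v = 0 := by
  obtain ⟨μ, rfl⟩ := hx.1 l v
  refine hx.2.1 l μ fun c hc => by_contra fun h1 => ?_
  obtain ⟨y, ⟨k1, k2⟩, k3⟩ := (((hx.2.2.1.nod.frequently_not_orb z hc).and_eventually
    self_mem_nhdsWithin).and_eventually (mem_nhdsWithin_of_mem_nhds
      ((analyticAt_val μ c).continuousAt.eventually_ne h1))).exists
  obtain ⟨w, hw⟩ := mem_crv.1 k2
  exact k3 ((hw.2 l μ).symm.trans (h y w hw k1))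

/-- The field `j` is induced by `f` off the points `z`. -/
def IndOff (x : ch.W ν) (j : J) (X : Tens ch.M (ch.b j) →L[ℂ] ch.E (some j)) (z : β → V ch.M)
    (f : V ch.M → ℂ) : Prop :=
  ∀ c w, (c, w) ∈ gr x → Off z c → ∀ μ, w (some j) (X μ) = f c * val μ c

theorem IndOff.unique [Finite β] (hx : x ∈ ch.base ν)
    {X X' : Tens ch.M (ch.b j) →L[ℂ] ch.E (some j)} (h : IndOff x j X z f)
    (h' : IndOff x j X' z f) : X = X' :=
  ContinuousLinearMap.ext fun μ => sub_eq_zero.1 (eq_zero_of_off (z := z) hx fun c w hw ho => by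
    rw [map_sub, h c w hw ho, h' c w hw ho, sub_self])

theorem indOff_fld (h : ∀ c ∈ crv x, ∃ y, Val x j c y) :
    IndOff x j (x.X j) z fun c => fld x c j :=
  fun c w hw _ => val_fld (h c (mem_crv.2 ⟨w, hw⟩)) w hw

theorem exists_indOff [Finite β] (hx : x ∈ ch.base ν) (ha : ch.a (some j) ≠ 0)
    (hz : Spt ch.o (crv x) z) (hf : Mer ch.o (crv x) (ch.wd j) z u f) (hu : 0 ≤ u) :
    ∃ X, IndOff x j X z f := by
  obtain ⟨T, hT⟩ := Cv.exists_lift (X := {p : ch.Pt // p ∈ gr x ∧ Off z p.1})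
    (u := fun p => p.1.2 (some j)) (v := fun p => f p.1.1 • evL (ch.b j) p.1.1) fun μ => by
      obtain ⟨μ', h1, -⟩ := ((hf.mul (Mer.of_isSec (Pol.isSec (val_mem μ)))).cast
        (χ' := fun i => ch.a (some j) i) (funext fun i => sub_add_cancel _ _)
          (add_zero u)).pol hx.2.2.1 ha hz hu
      exact ⟨x.Q _ μ', fun p => (p.2.1.2 _ μ').trans (h1 _ ⟨_, p.2.1, rfl⟩ p.2.2)⟩
  exact ⟨T, fun c w hw ho μ => hT ⟨(c, w), hw, ho⟩ μ⟩

theorem IndOff.val [Finite β] (hx : x ∈ ch.base ν) (h : IndOff x j (x.X j) z f)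
    (_hz : Spt ch.o (crv x) z) (hf : Mer ch.o (crv x) (ch.wd j) z u f) (hu : 0 ≤ u) :
    (∀ c ∈ crv x, ∃ y, Val x j c y) ∧ ∀ c ∈ crv x, Off z c → fld x c j = f c := by
  refine ⟨fun c hc => ?_, fun c hc ho => Cv.fld_eq hc fun w hw => h c w hw ho⟩
  by_cases ho : Off z c
  · exact ⟨_, fun w hw => h c w hw ho⟩
  obtain ⟨k, hk⟩ : ∃ k, Orb (z k) c := by simpa [Off] using ho
  obtain ⟨γ, hγ⟩ := hx.2.2.1.nod.exists_loc hc
  have h1 := hγ.br true
  obtain ⟨a, ha⟩ := hf.ord k _ h1 ((hγ.zero true).symm ▸ hk)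
  obtain ⟨y, g, h2, -, h3⟩ := ha.mono (hu k)
  refine ⟨g 0, fun w hw μ => ?_⟩
  obtain ⟨μ', e⟩ := hx.1 _ (x.X j μ)
  rw [← e, hw.2, ← hγ.zero true]
  refine tendsto_nhds_unique_of_eventuallyEq (l := 𝓝[≠] (0 : ℂ))
    (((analyticAt_val μ' _).comp h1.holo).continuousAt.tendsto.mono_left nhdsWithin_le_nhds)
    ((h2.mul ((analyticAt_val μ _).comp h1.holo)).continuousAt.tendsto.mono_left
      nhdsWithin_le_nhds) ?_
  filter_upwards [h3, h1.eventually_off (z := z) hx.2.2.1.nod, mem_nhdsWithin_of_mem_nhds h1.mem]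
    with t k1 k2 k3
  obtain ⟨w', hw'⟩ := mem_crv.1 k3
  have k4 := h _ w' hw' k2 μ
  rw [← e, hw'.2, k1] at k4
  simpa using k4

theorem an_fld (hx : x ∈ ch.base ν) (h : ∀ c ∈ crv x, ∃ y, Val x j c y) {γ : ℂ → V ch.M}
    (hγ : IsBranch ch.o (crv x) γ) : AnalyticAt ℂ (fun t => fld x (γ t) j) 0 := by
  obtain ⟨Φ, h1, h2⟩ := exists_an_fld hx.1 (crv_ne hγ.mem.self_of_nhds) j
  refine (h1.comp (f := fun t => (x, γ t)) (analyticAt_const.prod hγ.holo)).congr ?_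
  filter_upwards [(Tendsto.prodMk_nhds tendsto_const_nhds hγ.holo.continuousAt).eventually h2,
    hγ.mem] with t k1 k2 using (k1 k2 (h _ k2)).symm

theorem mer_fld (hx : x ∈ ch.base ν) (h : ∀ c ∈ crv x, ∃ y, Val x j c y) :
    Mer ch.o (crv x) (ch.wd j) z 0 fun c => fld x c j :=
  ⟨fun _ hs c hc => Cv.fld_eq (crv_smul hc hs) ((val_fld (h c hc)).smul hs),
    fun _ hγ _ => an_fld hx h hγ, fun _ _ hγ _ => ⟨_, Vz.of_an (an_fld hx h hγ)⟩⟩

open Classical in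
/-- The divisor of a field. -/
theorem triv_fld_iff (hx : x ∈ ch.base ν) (h : ∀ c ∈ crv x, ∃ y, Val x j c y) (U : ν → ℕ) :
    Triv ch.o (crv x) (ch.wd j) x.p (fun n => U n) (fun c => fld x c j) ↔
      ∀ γ, IsBranch ch.o (crv x) γ → analyticOrderAt (fun t => fld x (γ t) j) 0 =
        (∑ n, if ∃ s : ι → ℂ, γ 0 = s • x.p n then U n else 0 : ℕ) := by
  have h1 : ∀ c : V ch.M, c ∈ crv x → ∀ n, (∃ s : ι → ℂ, c = s • x.p n) ↔ Orb (x.p n) c :=
    fun c hc n => ⟨fun ⟨_, e⟩ => .of_smul (crv_ne hc) e, fun ⟨s, _, e⟩ => ⟨s, e⟩⟩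
  have h2 : ∀ c : V ch.M, c ∈ crv x → Off x.p c →
      (∑ n, if ∃ s : ι → ℂ, c = s • x.p n then U n else 0 : ℕ) = 0 := fun c hc ho =>
    Finset.sum_eq_zero fun n _ => if_neg fun k => ho n ((h1 c hc n).1 k)
  have h3 : ∀ c : V ch.M, c ∈ crv x → ∀ n, Orb (x.p n) c →
      (∑ n, if ∃ s : ι → ℂ, c = s • x.p n then U n else 0 : ℕ) = U n := fun c hc n hn => by
    rw [Finset.sum_eq_single n (fun n' _ e => if_neg fun k =>
      e ((spt_p hx).inj _ _ (((h1 c hc n').1 k).trans hn.symm))) (by simp),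
      if_pos ((h1 c hc n).2 hn)]
  refine ⟨fun ht γ hγ => ?_, fun ho => ?_⟩
  · have hc := hγ.mem.self_of_nhds
    by_cases k : Off x.p (γ 0)
    · rw [h2 _ hc k]
      exact (an_fld hx h hγ).analyticOrderAt_eq_zero.2 (ht.ne _ hc k)
    · obtain ⟨n, hn⟩ : ∃ n, Orb (x.p n) (γ 0) := by simpa [Off] using k
      obtain ⟨a, ha⟩ := ht.ord n γ hγ hn
      rw [h3 _ hc n hn]
      exact (Vz.order (an_fld hx h hγ)).2 ⟨a, ht.exact n γ a hγ hn ha, ha⟩
  · have h4 : ∀ n γ, IsBranch ch.o (crv x) γ → Orb (x.p n) (γ 0) →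
        ∃ a ≠ 0, Vz (U n) (fun t => fld x (γ t) j) a := fun n γ hγ hn =>
      (Vz.order (an_fld hx h hγ)).1 (by rw [ho γ hγ, h3 _ hγ.mem.self_of_nhds n hn])
    refine ⟨⟨(mer_fld (z := x.p) hx h).hom, (mer_fld hx h).reg, fun n γ hγ hn =>
      (h4 n γ hγ hn).imp fun _ k => k.2⟩, fun c hc k => ?_, fun n γ a hγ hn ha => ?_⟩
    · obtain ⟨γ, hγ⟩ := hx.2.2.1.nod.exists_loc hc
      have k1 := ho _ (hγ.br true)
      rw [hγ.zero, h2 c hc k] at k1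
      exact hγ.zero true ▸ (an_fld hx h (hγ.br true)).analyticOrderAt_eq_zero.1 k1
    · obtain ⟨a', k1, k2⟩ := h4 n γ hγ hn
      exact k2.unique ha ▸ k1

/-- The residue at a marked point. -/
noncomputable def rsd (x : ch.W ν) (n : ν) : ℂ :=
  Classical.epsilon fun ρ => ∀ γ, IsBranch ch.o (crv x) γ → γ 0 = x.p n → Lead x γ ρ

theorem exists_branch_p (hx : x ∈ ch.base ν) (n : ν) :
    ∃ γ, IsBranch ch.o (crv x) γ ∧ γ 0 = x.p n :=
  let ⟨_, hγ⟩ := hx.2.2.1.nod.exists_loc (hx.2.2.2.1 n).1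
  ⟨_, hγ.br true, hγ.zero true⟩

/-- The leading coefficient along a branch through the orbit of a marked point. -/
theorem lead_iff_rsd' (hx : x ∈ ch.base ν) {n : ν} {γ : ℂ → V ch.M}
    (hγ : IsBranch ch.o (crv x) γ) {s : ι → ℂ} (h0 : γ 0 = s • x.p n) {ρ : ℂ} :
    Lead x γ ρ ↔ ρ = chz ch.χ s * rsd x n := by
  obtain ⟨X, _, _, _, R, N, A, π, w, p, ξ, h⟩ := Cv.exists_cr hx
  obtain ⟨t, -, e⟩ := h.mark n
  obtain ⟨δ, h1, h2⟩ := exists_branch_p hx n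
  have h3 : rsd x n = chz ch.χ t * ξ (p n) := (h.lead_mark h1 (h2.trans e)).1
    (Classical.epsilon_spec (p := fun ρ => ∀ γ, IsBranch ch.o (crv x) γ → γ 0 = x.p n → Lead x γ ρ)
      ⟨_, fun γ k1 k2 => (h.lead_mark k1 (k2.trans e)).2 rfl⟩ δ h1 h2)
  rw [h3, ← mul_assoc, ← chz_mul]
  exact h.lead_mark hγ (by rw [h0, e, mul_smul])

theorem lead_iff_rsd (hx : x ∈ ch.base ν) {n : ν} {γ : ℂ → V ch.M} (hγ : IsBranch ch.o (crv x) γ)
    (h0 : γ 0 = x.p n) {ρ : ℂ} : Lead x γ ρ ↔ ρ = rsd x n := by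
  simpa using lead_iff_rsd' hx hγ (s := 1) (h0.trans (one_smul _ _).symm)

theorem rsd_ne (hx : x ∈ ch.base ν) (n : ν) : rsd x n ≠ 0 := by
  obtain ⟨γ, h1, h2⟩ := exists_branch_p hx n
  obtain ⟨ρ, h3, h4⟩ := hx.2.2.2.2.2.1 γ h1
  exact (lead_iff_rsd hx h1 h2).1 h4 ▸ h3

theorem rsd_act (hx : x ∈ ch.base ν) {s : ch.A ν} (hs : IsUnit s) (n : ν) :
    rsd (act s x) n = chz ch.χ (s.2.2 n) * rsd x n := by
  have h1 : act s x ∈ ch.base ν := by
    obtain ⟨v, rfl⟩ := hs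
    exact act_mem_base v hx
  obtain ⟨γ, h2, h3⟩ := exists_branch_p h1 n
  obtain ⟨δ, h4, rfl⟩ := branch_act hs h2
  refine (lead_iff_rsd' hx h4 (funext fun i => ?_)).1
    ((lead_act hs).2 ((lead_iff_rsd h1 h2 h3).2 rfl))
  refine (ContinuousLinearMap.isUnit_iff_bijective.1 (isUnit_fst hs i)).1 ?_
  exact (congrFun h3 i).trans (map_smul (s.1 i) _ _).symm

theorem rsd_iff (hx : x ∈ ch.base ν) (n n' : ν) (a : ℂ) :
    (∀ γ₁ γ₂ ρ₁ ρ₂, IsBranch ch.o (crv x) γ₁ → IsBranch ch.o (crv x) γ₂ → γ₁ 0 = x.p n →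
      γ₂ 0 = x.p n' → Lead x γ₁ ρ₁ → Lead x γ₂ ρ₂ → ρ₁ = a * ρ₂) ↔ rsd x n = a * rsd x n' := by
  refine ⟨fun h => ?_, fun h γ₁ γ₂ ρ₁ ρ₂ h1 h2 h3 h4 h5 h6 => ?_⟩
  · obtain ⟨γ₁, h1, h3⟩ := exists_branch_p hx n
    obtain ⟨γ₂, h2, h4⟩ := exists_branch_p hx n'
    exact h _ _ _ _ h1 h2 h3 h4 ((lead_iff_rsd hx h1 h3).2 rfl) ((lead_iff_rsd hx h2 h4).2 rfl)
  · rw [(lead_iff_rsd hx h1 h3).1 h5, (lead_iff_rsd hx h2 h4).1 h6, h]

end Vale.Agent.P269.Ch
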