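import Vale.Agent.P269.Base.VDef

/-!
# Centred charts, divisors in families, the marked universal family
-/

namespace Vale.Agent.P269.Base

open Set Function Topology Filter Holo

set_option linter.unusedSectionVars false

variable {ι : Type} [Fintype ι] [DecidableEq ι] {M : ι → ℕ} {o : ι} {a b w : ι → ℕ} {g : ℤ}
  {m : ι → ℤ} {β κ ν : Type} [Fintype β] [Fintype κ] [Fintype ν]

section Fam

variable {T P : Type*} [TopologicalSpace T] [NormedAddCommGroup P] [NormedSpace ℂ P]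
  [FiniteDimensional ℂ P] {C : T → Set (V M)} {π : T → P} {t₀ : T}

namespace MarkP

/-- Recentring and rescaling of a disc chart. -/
theorem move {σ : P × ℂ → V M} (h : Chart o C π t₀ σ fun _ => univ) (hπ : ContinuousAt π t₀)
    (hcone : ∀ᶠ t in 𝓝 t₀, ∀ s : ι → ℂ, (∀ i, s i ≠ 0) → ∀ c ∈ C t, s • c ∈ C t)
    {r : P → (ι → ℂ) × ℂ} (hr : AnalyticAt ℂ r (π t₀)) (h0 : r (π t₀) = (1, 0)) :
    Chart o C π t₀ (fun q => (r q.1).1 • σ (q.1, (r q.1).2 + q.2)) fun _ => univ := by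
  have h1 : AnalyticAt ℂ (fun q : P × ℂ => r q.1) (π t₀, 0) := hr.comp_of_eq analyticAt_fst rfl
  have h5 : AnalyticAt ℂ (fun q : P × ℂ => (r q.1).2) (π t₀, 0) := analyticAt_snd.comp h1
  have h6 : Chart o C π t₀ (fun q => σ (q.1, (r q.1).2 + q.2)) fun _ => univ := by
    refine h.reparam (ψ := fun q => (r q.1).2 + q.2) hπ (h5.add analyticAt_snd) (by simp [h0])
      (fun e he => by simpa using he) (.of_forall fun _ _ => trivial) fun U hU => ?_
    have h7 : Tendsto (fun q : P × ℂ => q.2 - (r q.1).2) (𝓝 (π t₀, 0)) (𝓝 0) := by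
      simpa [h0] using (analyticAt_snd.fun_sub h5).continuousAt.tendsto
    filter_upwards [h7 hU] with q hq _ using ⟨_, hq, trivial, by simp⟩
  have h2 : ∀ᶠ t in 𝓝 t₀, ∀ i, (r (π t)).1 i ≠ 0 := eventually_all.2 fun i =>
    (tendsto_pi_nhds.1 ((analyticAt_fst.comp hr).continuousAt.tendsto.comp hπ) i).eventually_ne
      (by simp [h0])
  refine ⟨an_smul (analyticAt_fst.comp h1) h6.an, ?_, ?_, fun U hU => ?_⟩
  · simpa only [h0, one_smul] using h6.imm
  · filter_upwards [h6.mem, continuousAt_fst.eventually hcone, continuousAt_fst.eventually h2]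
      with q k1 k2 k3 k4 using k2 _ k3 _ (k1 k4)
  · have h8 := h6.sub U hU
    simp only [h0, one_smul] at h8 ⊢
    filter_upwards [h8, continuousAt_fst.eventually h2] with q k1 k2 k3
    obtain ⟨s, z, k4, k5, k6⟩ := k1 k3
    exact ⟨s * ((r (π q.1)).1)⁻¹, z, k4, k5, by rw [mul_smul, inv_smul_smul' k2, k6]⟩

theorem mem_of_isNode {D : Set (V M)} {c : V M} (h : IsNode o D c) : c ∈ D := by
  obtain ⟨γ₁, γ₂, h1, -, h2, -⟩ := h
  exact h2 ▸ h1.mem.self_of_nhds

/-- Division by a power of the coordinate, with parameters. -/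
theorem div_pow_par {Φ : ℂ × P → ℂ} {p₀ : P} (hΦ : AnalyticAt ℂ Φ (0, p₀)) (k : ℕ) :
    ∃ U : ℂ × P → ℂ, AnalyticAt ℂ U (0, p₀) ∧
      ∀ᶠ p in 𝓝 p₀, (Dv k fun s => Φ (s, p)) → ∀ s, Φ (s, p) = s ^ k * U (s, p) := by
  induction k with
  | zero => exact ⟨Φ, hΦ, .of_forall fun p _ s => by simp⟩
  | succ k ih =>
    obtain ⟨U, h1, h2⟩ := ih
    obtain ⟨G, h3, h4⟩ := exists_div h1
    refine ⟨G, h3, ?_⟩
    filter_upwards [h2, (tendsto_inr (0 : ℂ) p₀).eventually h1.eventually_analyticAt]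
      with p h5 h6 h7 s
    have h8 := h5 (h7.mono (Nat.le_succ k))
    have h9 : U (0, p) = 0 := Dv.eq_zero (r := 0) (u := fun s => U (s, p))
      (Dv.cancel (k := k) (u := fun _ => 1) (h7.congr (.of_forall fun s => by simp [h8]))
        analyticAt_const one_ne_zero (h6.comp_of_eq (analyticAt_id.prod analyticAt_const) rfl))
    rw [h8, h4 (s, p), h9]
    simp only [smul_eq_mul]
    ring

theorem exists_slope {ψ : ℂ → ℂ} (h : AnalyticAt ℂ ψ 0) (h0 : ψ 0 = 0) (hd : deriv ψ 0 ≠ 0) :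
    ∃ v, AnalyticAt ℂ v 0 ∧ v 0 ≠ 0 ∧ ∀ t, ψ t = t * v t := by
  obtain ⟨p, hp⟩ := h
  exact ⟨dslope ψ 0, ⟨_, hp.has_fpower_series_dslope_fslope⟩, by rwa [dslope_same], fun t => by
    simpa [h0] using (sub_smul_dslope ψ 0 t).symm⟩

/-- The order of vanishing at a smooth point does not depend on the branch. -/
theorem ord_of_loc {D : Set (V M)} (hD : Nod o D) {c : V M} {δ : ℂ → V M}
    (h : Loc o D c fun _ => δ) {F : Tens M b} {k : ℕ} {u : ℂ → ℂ} (hu : AnalyticAt ℂ u 0)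
    (h0 : u 0 ≠ 0) (he : ∀ t, val F (δ t) = t ^ k * u t) {γ : ℂ → V M} (hγ : IsBranch o D γ)
    (ho : Orb c (γ 0)) :
    ∃ u, AnalyticAt ℂ u 0 ∧ u 0 ≠ 0 ∧ ∀ᶠ t in 𝓝 0, val F (γ t) = t ^ k * u t := by
  obtain ⟨s, hs, e⟩ := ho
  obtain ⟨j, s', ψ, h1, h2, h3, h4, h5, h6, -⟩ := (h.smul hD hs).reparam hγ e
  obtain ⟨v, h7, h8, h9⟩ := exists_slope h2 h4 h5
  refine ⟨fun t => chr b (s' t) * chr b s * v t ^ k * u (ψ t),
    ((((analyticAt_chr _).comp h1).mul analyticAt_const).mul (h7.pow k)).mul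
      (hu.comp_of_eq h2 h4), ?_, h6.mono fun t ht => ?_⟩
  · simp only [h3, h4, chr_one, one_mul]
    exact mul_ne_zero (mul_ne_zero (chr_ne_zero hs) (pow_ne_zero _ h8)) h0
  · rw [ht, val_smul, val_smul, he]
    nth_rewrite 1 [h9 t]
    ring

end MarkP

open MarkP

/-- A disc chart centred at a moving smooth point. -/
theorem LocFam.chart_at (h : LocFam o C π t₀) {z : P → V M} (hz : AnalyticAt ℂ z (π t₀))
    (hm : ∀ᶠ t in 𝓝 t₀, z (π t) ∈ C t) (hn : ¬IsNode o (C t₀) (z (π t₀))) :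
    ∃ σ : P × ℂ → V M, Chart o C π t₀ σ (fun _ => univ) ∧
      ∀ᶠ t in 𝓝 t₀, σ (π t, 0) = z (π t) := by
  have hπ := h.cont.self_of_nhds
  obtain ⟨σ, h1, h2⟩ := h.smAt hm.self_of_nhds hn
  obtain ⟨ρ, h3, h4, -, h5⟩ := h2.exists_mem_iff hπ
    (h1 ▸ h.ne_zero.self_of_nhds _ hm.self_of_nhds) h.cone
  rw [h1] at h3 h4 h5
  have h6 : AnalyticAt ℂ (fun p => ρ (p, z p)) (π t₀) :=
    h3.comp_of_eq (analyticAt_id.prod hz) rfl
  refine ⟨_, move h2 hπ h.cone h6 h4, ?_⟩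
  have h7 : Tendsto (fun t => (t, z (π t))) (𝓝 t₀) (𝓝 (t₀, z (π t₀))) :=
    Tendsto.prodMk_nhds tendsto_id (hz.continuousAt.tendsto.comp hπ)
  filter_upwards [h7.eventually h5, hm] with t h8 h9
  simpa using (h8.1 h9).2.symm

theorem NdAt.tau_zero {c : V M} {τ : P → ℂ} (h : NdAt o C π t₀ c τ) (hf : LocFam o C π t₀) :
    ∀ᶠ q : T × V M in 𝓝 (t₀, c), IsNode o (C q.1) q.2 → τ (π q.1) = 0 := by
  obtain ⟨σ, rfl, h1, h2, h3⟩ := h
  filter_upwards [NdAt.eventually h3 h1 h2 hf, continuousAt_fst.eventually hf.eventually]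
    with q h4 h5 h6
  exact ((h4 (mem_of_isNode h6)).resolve_left fun h7 => h7.not_isNode h5 h6).1

theorem NdAt.exists_node {c : V M} {τ : P → ℂ} (h : NdAt o C π t₀ c τ) (hf : LocFam o C π t₀) :
    ∃ n : P → V M, AnalyticAt ℂ n (π t₀) ∧ n (π t₀) = c ∧
      ∀ᶠ t in 𝓝 t₀, τ (π t) = 0 → IsNode o (C t) (n (π t)) := by
  obtain ⟨σ, rfl, h1, h2, h3⟩ := h
  refine ⟨fun p => σ (p, 0), h3.an.comp_of_eq (analyticAt_id.prod analyticAt_const) rfl, rfl, ?_⟩
  filter_upwards [h3.eventually_node h2 hf, hf.eventually,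
    hf.cont.self_of_nhds.eventually h1.eventually_analyticAt] with t h4 h5 h6 h7
  exact NdAt.isNode ⟨σ, rfl, h6, h7, h4⟩ h5

/-- The divisor of a moving form. -/
theorem Dvs.eventually (h : LocFam o C π t₀) {F : P → Tens M b} (hF : AnalyticAt ℂ F (π t₀))
    {σ : κ → P × ℂ → V M} (hσ : ∀ j, Chart o C π t₀ (σ j) fun _ => univ) {k : ℕ}
    (h0 : Dvs o (C t₀) (val (F (π t₀))) (fun j => σ j (π t₀, 0)) k) :
    ∀ᶠ t in 𝓝 t₀, (∀ j, Dv k fun s => val (F (π t)) (σ j (π t, s))) →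
      Dvs o (C t) (val (F (π t))) (fun j => σ j (π t, 0)) k := by
  have hπ := h.cont.self_of_nhds
  have hne : ∀ j i, σ j (π t₀, 0) i ≠ 0 := fun j =>
    h.ne_zero.self_of_nhds _ ((hσ j).mem0.self_of_nhds trivial)
  have key : ∀ j, ∃ U : ℂ × P → ℂ, AnalyticAt ℂ U (0, π t₀) ∧ U (0, π t₀) ≠ 0 ∧
      ∀ᶠ p in 𝓝 (π t₀), (Dv k fun s => val (F p) (σ j (p, s))) →
        ∀ s, val (F p) (σ j (p, s)) = s ^ k * U (s, p) := fun j => by
    obtain ⟨U, h1, h2⟩ := div_pow_par (Φ := fun q : ℂ × P => val (F q.2) (σ j q.swap))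
      (p₀ := π t₀) (an_val (hF.comp_of_eq analyticAt_snd rfl)
        ((hσ j).an.comp_of_eq (analyticAt_snd.prod analyticAt_fst) rfl)) k
    refine ⟨U, h1, fun e => ?_, h2⟩
    obtain ⟨u, h3, h4, h5⟩ := h0.ord _ j ((hσ j).isBranch0 (hne j o)) (Orb.refl _)
    have h6 := h2.self_of_nhds ⟨u, h3, h5⟩
    have h7 : AnalyticAt ℂ (fun s => U (s, π t₀)) 0 :=
      h1.comp_of_eq (analyticAt_id.prod analyticAt_const) rfl
    have h8 : Dv (k + 1) fun s => s ^ k * u s * 1 :=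
      ((Dv.zero (analyticAt_const (v := 1))).mul
        (((Dv.one analyticAt_id rfl).pow k).mul (Dv.one h7 e))).mono (by omega) |>.congr
        (h5.mono fun s hs => by
          have h9 := h6 s
          simp only [Prod.swap_prod_mk] at h9
          simp only [id, one_mul, mul_one, ← h9, hs])
    exact one_ne_zero (Dv.eq_zero (r := 0) (u := fun _ => 1)
      (Dv.cancel h8 h3 h4 analyticAt_const))
  choose U h1 h2 h3 using key
  have t1 : Tendsto (fun q : T × ℂ => (q.2, π q.1)) (𝓝 (t₀, 0)) (𝓝 (0, π t₀)) :=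
    Tendsto.prodMk_nhds continuousAt_snd (hπ.comp continuousAt_fst)
  have e1 := h.compact (p := fun q => (∀ j, Dv k fun s => val (F (π q.1)) (σ j (π q.1, s))) →
      val (F (π q.1)) q.2 = 0 → ∃ j, Orb (σ j (π q.1, 0)) q.2)
    (fun c hc => ?_) (.of_forall fun t s hs c _ h4 h5 h6 => ?_)
  rotate_left
  · by_cases hc0 : val (F (π t₀)) c = 0
    · obtain ⟨j, s, h4, rfl⟩ : ∃ j, Orb (σ j (π t₀, 0)) c := by
        by_contra hn
        exact h0.ne c hc (not_exists.1 hn) hc0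
      obtain ⟨u, hu, v, hv, h5⟩ := mem_nhds_prod_iff.1
        (t1.eventually ((h1 j).continuousAt.eventually_ne (h2 j)))
      filter_upwards [((hσ j).smul h.cone h4).sub v hv, continuousAt_fst.eventually hu,
        continuousAt_snd.eventually (eventually_ne (smul_ne h4 (hne j))),
        (hπ.comp continuousAt_fst).eventually (h3 j)] with q h7 h8 h9 h10 h11 h12 h13
      obtain ⟨s', x, h14, -, h15⟩ := h7 h11
      rw [smul_smul] at h15
      have h16 : x = 0 := by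
        rw [h15, val_smul] at h13
        have h17 := (mul_eq_zero.1 h13).resolve_left (chr_ne_zero (ne_of_smul_ne (h15 ▸ h9)))
        exact eq_zero_of_pow_eq_zero ((mul_eq_zero.1 ((h10 (h12 j) x).symm.trans h17)).resolve_right
          (h5 (mk_mem_prod h8 h14)))
      exact ⟨j, .of_smul h9 (h16 ▸ h15)⟩
    · have h4 : ContinuousAt (fun q : T × V M => val (F (π q.1)) q.2) (t₀, c) :=
        continuous_val₂.continuousAt.comp (f := fun q : T × V M => (F (π q.1), q.2))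
          (((hF.continuousAt.comp hπ).comp_of_eq continuousAt_fst rfl).prodMk continuousAt_snd)
      filter_upwards [h4.eventually_ne hc0] with q hq _ _ h5 using absurd h5 hq
  · obtain ⟨j, hj⟩ := h4 h5 (by rw [val_smul, h6, mul_zero])
    exact ⟨j, hj.trans (Orb.symm ⟨s, hs, rfl⟩)⟩
  have t2 : Tendsto (fun t => ((0 : ℂ), π t)) (𝓝 t₀) (𝓝 (0, π t₀)) :=
    Tendsto.prodMk_nhds tendsto_const_nhds hπ
  have e2 : ∀ᶠ t in 𝓝 t₀, ∀ j, Chart o C π t (σ j) fun _ => univ :=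
    eventually_all.2 fun j => ((tendsto_inl t₀ (0 : ℂ)).eventually
      ((hσ j).shift h.cont (hne j) h.cone)).mono fun t ht => by simpa using ht
  filter_upwards [e1, e2, h.eventually, eventually_all.2 fun j => hπ.eventually (h3 j),
    eventually_all.2 fun j => t2.eventually (h1 j).eventually_analyticAt,
    eventually_all.2 fun j => t2.eventually ((h1 j).continuousAt.eventually_ne (h2 j))]
    with t b1 b2 b3 b4 b5 b6 b7
  refine ⟨fun c hc hn e => ?_, fun γ j hγ ho => ?_⟩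
  · obtain ⟨j, hj⟩ := b1 c hc b7 e
    exact hn j hj
  · have b8 : ∀ᶠ x in 𝓝 0, σ j (π t, x) ∈ C t := (b2 j).mem0.mono fun x hx => hx trivial
    exact ord_of_loc b3.nod ((b2 j).loc b3.cont.self_of_nhds
      (b3.ne_zero.self_of_nhds _ b8.self_of_nhds) Subset.rfl b8) (u := fun x => U j (x, π t))
      ((b5 j).comp_of_eq (analyticAt_id.prod analyticAt_const) rfl) (b6 j) (b4 j (b7 j)) hγ ho

end Fam

/-- The universal family with marked points. -/
theorem Univ.mark {P : Type} [NormedAddCommGroup P] [NormedSpace ℂ P] [FiniteDimensional ℂ P]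
    {C : P → Set (V M)} {y₀ : P} (h : Univ o a C (fun _ => (Empty.elim : Empty → V M)) y₀)
    {p₀ : ν → V M} (hp : ∀ n, p₀ n ∈ C y₀ ∧ ¬IsNode o (C y₀) (p₀ n)) :
    ∃ p : P × (ν → ℂ) × (ν → ι → ℂ) → ν → V M, p (y₀, 0, 1) = p₀ ∧
      Univ o a (fun y : P × (ν → ℂ) × (ν → ι → ℂ) => C y.1) p (y₀, 0, 1) := by
  choose σ h1 h2 using fun n => h.fam.smAt (hp n).1 (hp n).2
  simp only [id] at h1
  have hne : ∀ n i, σ n (y₀, 0) i ≠ 0 := fun n =>
    h1 n ▸ h.fam.ne_zero.self_of_nhds _ (hp n).1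
  choose ρ h3 h4 h5 h6 using fun n => (h2 n).exists_mem_iff continuousAt_id (hne n) h.fam.cone
  simp only [id, h1] at h3 h4 h6
  let l : ν → (P × (ν → ℂ) × (ν → ι → ℂ)) →L[ℂ] P × ℂ := fun n =>
    (ContinuousLinearMap.fst ℂ _ _).prod ((ContinuousLinearMap.proj n).comp
      ((ContinuousLinearMap.fst ℂ _ _).comp (ContinuousLinearMap.snd ℂ _ _)))
  let s : ν → (P × (ν → ℂ) × (ν → ι → ℂ)) →L[ℂ] (ι → ℂ) := fun n =>
    (ContinuousLinearMap.proj n).comp
      ((ContinuousLinearMap.snd ℂ _ _).comp (ContinuousLinearMap.snd ℂ _ _))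
  have a1 : ∀ n, AnalyticAt ℂ (fun y => σ n (l n y)) (y₀, 0, 1) := fun n =>
    (h2 n).an.comp_of_eq ((l n).analyticAt _) rfl
  have a2 : ∀ n, AnalyticAt ℂ (fun y => s n y • σ n (l n y)) (y₀, 0, 1) := fun n =>
    an_smul ((s n).analyticAt _) (a1 n)
  have e0 : (fun n => s n (y₀, 0, 1) • σ n (l n (y₀, 0, 1))) = p₀ :=
    funext fun n => (one_smul _ _).trans (h1 n)
  have hc : ∀ᶠ t : P × (ν → ℂ) × (ν → ι → ℂ) in 𝓝 (y₀, 0, 1), id t.1 = (id t).1 :=
    .of_forall fun _ => rfl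
  refine ⟨fun y n => s n y • σ n (l n y), e0, ⟨LocFam.comp (u := Prod.fst) (k := Prod.fst) h.fam
    continuousAt_fst (.of_forall fun _ => continuousAt_id) analyticAt_fst hc,
    analyticAt_pi_iff.2 a2, eventually_all.2 fun n => ?_, ?_, fun v hv hμ => ?_, fun n z hz hi => ?_⟩⟩
  · have b1 : ∀ᶠ y in 𝓝 (y₀, (0 : ν → ℂ), (1 : ν → ι → ℂ)), ∀ i, s n y i ≠ 0 :=
      eventually_all.2 fun i => (tendsto_pi_nhds.1 (s n).continuous.continuousAt i).eventually_ne
        one_ne_zero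
    filter_upwards [((l n).continuous.tendsto (y₀, 0, 1)).eventually (h2 n).mem, b1,
      continuousAt_fst.eventually h.fam.cone] with y b2 b3 b4
    exact b4 _ b3 _ (b2 trivial)
  · intro T' P' _ _ _ _ C' π' t' p' b1 b2 b3 b4 b5
    obtain ⟨k, b6, b7, b8⟩ := h.univ T' P' C' π' t' (fun _ => Empty.elim) b1 b2 analyticAt_const rfl
      (.of_forall fun _ n => n.elim)
    have b9 : ∀ n, p' (π' t') n = p₀ n := fun n => by rw [b4, ← e0]
    have b10 : ∀ n, AnalyticAt ℂ (fun x => (k x, p' x n)) (π' t') := fun n =>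
      b6.prod (analyticAt_pi_iff.1 b3 n)
    have b11 : ∀ n, AnalyticAt ℂ (fun x => ρ n (k x, p' x n)) (π' t') := fun n =>
      (h3 n).comp_of_eq (b10 n) (by rw [b7, b9])
    refine ⟨fun x => (k x, fun n => (ρ n (k x, p' x n)).2, fun n => (ρ n (k x, p' x n)).1),
      b6.prod ((analyticAt_pi_iff.2 fun n => analyticAt_snd.comp (b11 n)).prod
        (analyticAt_pi_iff.2 fun n => analyticAt_fst.comp (b11 n))), ?_, ?_⟩
    · simp only [b7, b9, h4]
      rfl
    · have b12 : ∀ n, Tendsto (fun t => (k (π' t), p' (π' t) n)) (𝓝 t') (𝓝 (y₀, p₀ n)) :=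
        fun n => by
          have := (b10 n).continuousAt.tendsto.comp b1.cont.self_of_nhds
          rwa [b7, b9] at this
      filter_upwards [b8, b5, eventually_all.2 fun n => (b12 n).eventually (h6 n)]
        with t c1 c2 c3
      exact ⟨c1.1, funext fun n => ((c3 n).1 (c1.1 ▸ c2 n)).2⟩
  · have b1 : v.1 = 0 := h.eff v.1 (by simp) fun μ c1 c2 c c3 => by
      have c4 := hμ (fun y => μ y.1) (c1.comp_of_eq analyticAt_fst rfl)
        ((continuousAt_fst (p := (y₀, (0 : ν → ℂ), (1 : ν → ι → ℂ)))).eventually c2) c c3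
      rwa [fderiv_comp_an (f := Prod.fst) (g := μ) c1 analyticAt_fst, fderiv_fst] at c4
    have b2 : ∀ n, v.2.2 n • σ n (y₀, 0) + fderiv ℂ (fun z => σ n (y₀, z)) 0 (v.2.1 n) = 0 :=
      fun n => by
        have c1 := congrFun hv n
        rw [fderiv_pi fun n => (a2 n).differentiableAt] at c1
        simp only [ContinuousLinearMap.pi_apply, Pi.zero_apply] at c1
        rw [fderiv_smul_apply (s n).differentiableAt (a1 n).differentiableAt,
          fderiv_comp_an (g := σ n) (f := l n) (h2 n).an ((l n).analyticAt _), (s n).fderiv,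
          (l n).fderiv] at c1
        rw [fderiv_inr (x := y₀) (h2 n).an, ← b1]
        exact (congrArg (_ + ·) (one_smul (ι → ℂ) _).symm).trans c1
    have b3 : ∀ n, v.2.1 n = 0 := fun n => (h2 n).imm _ (-v.2.2 n o) (by
      rw [neg_smul]
      exact eq_neg_of_add_eq_zero_right (congrFun (b2 n) o))
    refine Prod.ext b1 (Prod.ext (funext b3) (funext fun n => funext fun i => ?_))
    have c1 := congrFun (b2 n) i
    rw [b3, map_zero, add_zero] at c1
    exact (smul_eq_zero.1 c1).resolve_right (hne n i)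
  · obtain ⟨τ, b1, b2⟩ := h.vers n z hz hi
    refine ⟨fun e => τ e ∘ Prod.fst, fun e => NdAt.comp (u := Prod.fst) (k := Prod.fst) (b1 e)
      continuousAt_fst analyticAt_fst hc, fun x => ?_⟩
    obtain ⟨v, rfl⟩ := b2 x
    have b3 : AnalyticAt ℂ (fun y e => τ e y) y₀ := analyticAt_pi_iff.2 fun e => by
      obtain ⟨_, -, c1, -⟩ := b1 e
      exact c1
    exact ⟨(v, 0), (fderiv_inl (f := fun y : P × (ν → ℂ) × (ν → ι → ℂ) => fun e => τ e y.1)
      (b3.comp_of_eq analyticAt_fst rfl) v).symm⟩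

end Vale.Agent.P269.Base
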