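import Vale.Agent.P269.Base.VDef

/-!
# Vector fields along branches
-/

namespace Vale.Agent.P269.Base

open Set Function Topology Filter Holo

set_option linter.unusedSectionVars false

variable {ι : Type} [Fintype ι] {M : ι → ℕ} {o : ι} {w : ι → ℕ} {κ : Type} {C : Set (V M)}
  {ξ : V M → V M} {γ δ : ℂ → V M} {φ φ' : ℂ → ℂ} {z : κ → V M}

theorem coef_unique {c v : V M} (h : LinearIndependent ℂ ![c o, v o]) {α α' : ι → ℂ} {x x' : ℂ}
    (he : α • c + x • v = α' • c + x' • v) : x = x' := by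
  have := congrFun he o
  simp only [Pi.add_apply, Pi.smul_apply, Pi.smul_apply'] at this
  exact sub_eq_zero.1 ((li_pair_iff.1 h).2 (x - x') (α' o - α o)
    (by linear_combination (norm := module) this))

theorem _root_.Vale.Agent.P269.IsBranch.eventually_li (h : IsBranch o C γ) :
    ∀ᶠ t in 𝓝 0, LinearIndependent ℂ ![γ t o, deriv γ t o] := by
  have h1 : ContinuousAt (fun t => ![γ t o, deriv γ t o]) 0 := by
    refine continuousAt_pi.2 fun k => ?_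
    fin_cases k
    exacts [(continuous_apply o).continuousAt.comp h.holo.continuousAt,
      (continuous_apply o).continuousAt.comp h.holo.deriv.continuousAt]
  exact h1.eventually (isOpen_setOfPred_linearIndependent.mem_nhds h.imm)

namespace Along

theorem an (h : Along ξ γ φ) : AnalyticAt ℂ φ 0 := h.1

theorem unique (h : Along ξ γ φ) (h' : Along ξ γ φ') (hγ : IsBranch o C γ) : φ =ᶠ[𝓝 0] φ' := by
  filter_upwards [h.2, h'.2, hγ.eventually_li] with t ⟨α, h1⟩ ⟨α', h2⟩ h3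
  exact coef_unique h3 (h1.symm.trans h2)

theorem congr (h : Along ξ γ φ) (e : γ =ᶠ[𝓝 0] δ) (e' : φ =ᶠ[𝓝 0] φ') : Along ξ δ φ' := by
  refine ⟨h.1.congr e', ?_⟩
  filter_upwards [h.2, e, e.deriv, e'] with t h1 h2 h3 h4
  rwa [← h2, ← h3, ← h4]

theorem shift (h : Along ξ γ φ) :
    ∀ᶠ t in 𝓝 0, Along ξ (fun s => γ (t + s)) fun s => φ (t + s) := by
  filter_upwards [h.1.eventually_analyticAt, h.2.eventually_nhds] with t h1 h2
  have h5 : Tendsto (fun s => t + s) (𝓝 0) (𝓝 t) := Continuous.tendsto' (by fun_prop) _ _ (by simp)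
  refine ⟨h1.comp_of_eq (analyticAt_const.add analyticAt_id) (by simp), ?_⟩
  filter_upwards [h5.eventually h2] with s hs
  rwa [deriv_comp_const_add]

theorem mul (h : Along ξ γ φ) {G : V M → ℂ} (hG : AnalyticAt ℂ (fun t => G (γ t)) 0) :
    Along (fun c => G c • ξ c) γ fun t => G (γ t) * φ t := by
  refine ⟨hG.mul h.1, ?_⟩
  filter_upwards [h.2] with t ⟨α, h1⟩
  exact ⟨G (γ t) • α, by rw [h1, smul_add, smul_assoc, mul_smul]⟩

/-- Change of the parametrisation and of the lift of the branch. -/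
theorem reparam (h : Along ξ γ φ)
    (hom : ∀ c ∈ C, ∀ s : ι → ℂ, (∀ i, s i ≠ 0) →
      ∃ α : ι → ℂ, ξ (s • c) = α • c + chr w s • s • ξ c)
    (hγ : IsBranch o C γ) {s : ℂ → ι → ℂ} {ψ : ℂ → ℂ} (hs : AnalyticAt ℂ s 0)
    (hψ : AnalyticAt ℂ ψ 0) (s0 : ∀ i, s 0 i ≠ 0) (h0 : ψ 0 = 0) (hd : deriv ψ 0 ≠ 0)
    (he : ∀ᶠ t in 𝓝 0, δ t = s t • γ (ψ t)) :
    Along ξ δ fun t => chr w (s t) * φ (ψ t) / deriv ψ t := by
  have ht : Tendsto ψ (𝓝 0) (𝓝 0) := by simpa [h0] using hψ.continuousAt.tendsto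
  refine ⟨(((analyticAt_chr _).comp hs).mul (h.1.comp_of_eq hψ h0)).div hψ.deriv hd, ?_⟩
  have h1 : ∀ᶠ t in 𝓝 0, ∀ i, s t i ≠ 0 := eventually_all.2 fun i =>
    ((continuous_apply i).continuousAt.comp hs.continuousAt).eventually_ne (s0 i)
  filter_upwards [ht.eventually h.2, ht.eventually hγ.mem, h1, he.eventually_nhds,
    hψ.deriv.continuousAt.eventually_ne hd, hs.eventually_analyticAt, hψ.eventually_analyticAt,
    ht.eventually hγ.holo.eventually_analyticAt] with t ⟨α, k1⟩ k2 k3 k4 k5 k6 k7 k8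
  obtain ⟨α', k9⟩ := hom _ k2 _ k3
  have k10 : deriv δ t = s t • deriv ψ t • deriv γ (ψ t) + deriv s t • γ (ψ t) := by
    rw [EventuallyEq.deriv_eq k4]
    exact (hasDerivAt_smul' k6.differentiableAt.hasDerivAt
      (k8.differentiableAt.hasDerivAt.scomp t k7.differentiableAt.hasDerivAt)).deriv
  refine ⟨(α' + chr w (s t) • (s t * α) -
    (chr w (s t) * φ (ψ t) / deriv ψ t) • deriv s t) * (s t)⁻¹, ?_⟩
  rw [k10, k4.self_of_nhds, k9, k1]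
  funext i
  have := k3 i
  simp only [Pi.add_apply, Pi.smul_apply, Pi.smul_apply', Pi.mul_apply, Pi.sub_apply, Pi.inv_apply,
    smul_eq_mul]
  match_scalars
  · field_simp
    ring
  · field_simp

theorem smul (h : Along ξ γ φ)
    (hom : ∀ c ∈ C, ∀ s : ι → ℂ, (∀ i, s i ≠ 0) →
      ∃ α : ι → ℂ, ξ (s • c) = α • c + chr w s • s • ξ c)
    (hγ : IsBranch o C γ) {s : ι → ℂ} (hs : ∀ i, s i ≠ 0) :
    Along ξ (fun t => s • γ t) fun t => chr w s * φ t := by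
  simpa using h.reparam hom hγ (s := fun _ => s) (ψ := fun t => t) analyticAt_const analyticAt_id hs
    rfl (by simp) (.of_forall fun _ => rfl)

end Along

theorem VF.along (h : VF o C w ξ z) (hγ : IsBranch o C γ) : ∃ φ, Along ξ γ φ := by
  by_cases hc : IsNode o C (γ 0) ∨ ∃ j, Orb (z j) (γ 0)
  · obtain ⟨u, -, -, h1⟩ := h.van γ hγ hc
    exact ⟨_, h1⟩
  · push Not at hc
    obtain ⟨u, -, h1⟩ := h.reg γ hγ hc.1 hc.2
    exact ⟨_, h1⟩

theorem VF.eq_zero (h : VF o C w ξ z) (hγ : IsBranch o C γ) (hφ : Along ξ γ φ)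
    (hc : IsNode o C (γ 0) ∨ ∃ j, Orb (z j) (γ 0)) : φ 0 = 0 ∧ deriv φ 0 ≠ 0 := by
  obtain ⟨u, h1, h2, h3⟩ := h.van γ hγ hc
  have := hφ.unique h3 hγ
  rw [this.self_of_nhds, this.deriv_eq,
    ((hasDerivAt_id' (0 : ℂ)).fun_mul h1.differentiableAt.hasDerivAt).deriv]
  simpa using h2

theorem VF.ne_zero (h : VF o C w ξ z) (hγ : IsBranch o C γ) (hφ : Along ξ γ φ)
    (hn : ¬IsNode o C (γ 0)) (hz : ∀ j, ¬Orb (z j) (γ 0)) : φ 0 ≠ 0 := by
  obtain ⟨u, h2, h3⟩ := h.reg γ hγ hn hz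
  rwa [(hφ.unique h3 hγ).self_of_nhds]

theorem VF.eventually_ne (h : VF o C w ξ z) (hγ : IsBranch o C γ) (hφ : Along ξ γ φ) :
    ∀ᶠ t in 𝓝[≠] 0, φ t ≠ 0 := by
  by_cases hc : IsNode o C (γ 0) ∨ ∃ j, Orb (z j) (γ 0)
  · obtain ⟨u, h1, h2, h3⟩ := h.van γ hγ hc
    filter_upwards [self_mem_nhdsWithin, mem_nhdsWithin_of_mem_nhds (hφ.unique h3 hγ),
      mem_nhdsWithin_of_mem_nhds (h1.continuousAt.eventually_ne h2)] with t k1 k2 k3
    rw [k2]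
    exact mul_ne_zero k1 k3
  · push Not at hc
    exact mem_nhdsWithin_of_mem_nhds
      (hφ.1.continuousAt.eventually_ne (h.ne_zero hγ hφ hc.1 hc.2))

/-- It suffices to check the conditions on one local description in each orbit. -/
theorem VF.of_loc (hC : Nod o C)
    (hom : ∀ c ∈ C, ∀ s : ι → ℂ, (∀ i, s i ≠ 0) →
      ∃ α : ι → ℂ, ξ (s • c) = α • c + chr w s • s • ξ c)
    (mem : ∀ j, z j ∈ C ∧ ¬IsNode o C (z j)) (inj : ∀ j j', Orb (z j) (z j') → j = j')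
    (h : ∀ c ∈ C, ∃ c' γ, Orb c' c ∧ Loc o C c' γ ∧ ∃ u : Bool → ℂ → ℂ,
      (∀ b, AnalyticAt ℂ (u b) 0 ∧ u b 0 ≠ 0) ∧
      (¬IsNode o C c' → (∀ j, ¬Orb (z j) c') → ∀ b, Along ξ (γ b) (u b)) ∧
      ((IsNode o C c' ∨ ∃ j, Orb (z j) c') → ∀ b, Along ξ (γ b) fun t => t * u b t) ∧
      (γ true ≠ γ false → u true 0 = -u false 0)) : VF o C w ξ z := by
  have key : ∀ {c' : V M} {γ : Bool → ℂ → V M} {r : ι → ℂ}, (∀ i, r i ≠ 0) → Loc o C c' γ →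
      ∀ δ, IsBranch o C δ → δ 0 = r • c' → ∃ (b : Bool) (s : ℂ → ι → ℂ) (ψ : ℂ → ℂ),
        AnalyticAt ℂ s 0 ∧ AnalyticAt ℂ ψ 0 ∧ s 0 = r ∧ ψ 0 = 0 ∧ deriv ψ 0 ≠ 0 ∧
        (∃ x y : ℂ, deriv δ 0 o = x • δ 0 o + y • deriv (γ b) 0 o) ∧
        ∀ φ, Along ξ (γ b) φ → Along ξ δ fun t => chr w (s t) * φ (ψ t) / deriv ψ t := by
    intro c' γ r hr hγ δ hδ h0
    obtain ⟨b, s, ψ, k1, k2, k3, k4, k5, k6, k7⟩ := (hγ.smul hC hr).reparam hδ h0
    refine ⟨b, fun t => s t * r, ψ, k1.mul analyticAt_const, k2, by simp [k3], k4, k5,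
      ⟨deriv s 0 o, deriv ψ 0 * r o, ?_⟩, fun φ hφ => hφ.reparam hom (hγ.br b)
        (k1.mul analyticAt_const) k2 (by simpa [k3] using hr) k4 k5 ?_⟩
    · rw [k7, h0, (hasDerivAt_smul' (hasDerivAt_const _ r)
        (hγ.an b).differentiableAt.hasDerivAt).deriv]
      simp only [Pi.add_apply, Pi.smul_apply, Pi.smul_apply', zero_smul, add_zero]
      module
    · filter_upwards [k6] with t ht
      rw [ht, mul_smul]
  have der : ∀ {s : ℂ → ι → ℂ} {ψ u : ℂ → ℂ}, AnalyticAt ℂ s 0 → AnalyticAt ℂ ψ 0 → ψ 0 = 0 →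
      deriv ψ 0 ≠ 0 → AnalyticAt ℂ u 0 → ∃ v, AnalyticAt ℂ v 0 ∧ v 0 = chr w (s 0) * u 0 ∧
        (fun t => chr w (s t) * (ψ t * u (ψ t)) / deriv ψ t) = fun t => t * v t := by
    intro s ψ u k1 k2 k4 k5 hu
    have a1 : AnalyticAt ℂ (dslope ψ 0) 0 := by
      obtain ⟨p, hp⟩ := k2
      exact ⟨_, hp.has_fpower_series_dslope_fslope⟩
    refine ⟨fun t => chr w (s t) * (dslope ψ 0 t * u (ψ t)) / deriv ψ t,
      (((analyticAt_chr _).comp k1).mul (a1.mul (hu.comp_of_eq k2 k4))).div k2.deriv k5, ?_, ?_⟩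
    · simp only [dslope_same, k4]
      field_simp
    · funext t
      have := sub_smul_dslope ψ 0 t
      simp only [sub_zero, k4, smul_eq_mul] at this
      nth_rewrite 1 [← this]
      ring
  refine ⟨hom, mem, inj, fun δ hδ hn hz => ?_, fun δ hδ hc => ?_, ?_⟩
  · obtain ⟨c', γ, ⟨r, hr, h0⟩, hγ, u, h1, h2, -, -⟩ := h _ hδ.mem.self_of_nhds
    obtain ⟨b, s, ψ, -, -, k3, k4, k5, -, k7⟩ := key hr hγ δ hδ h0
    refine ⟨_, ?_, k7 _ (h2 (fun k => hn (hC.isNode_orb k ⟨r, hr, h0⟩))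
      (fun j k => hz j (k.trans ⟨r, hr, h0⟩)) b)⟩
    simp only [k3, k4]
    exact div_ne_zero (mul_ne_zero (chr_ne_zero hr) (h1 b).2) k5
  · obtain ⟨c', γ, ⟨r, hr, h0⟩, hγ, u, h1, -, h2, -⟩ := h _ hδ.mem.self_of_nhds
    obtain ⟨b, s, ψ, k1, k2, k3, k4, k5, -, k7⟩ := key hr hγ δ hδ h0
    obtain ⟨v, a1, a2, a3⟩ := der k1 k2 k4 k5 (h1 b).1
    have a4 := k7 _ (h2 (hc.imp (fun k => hC.isNode_orb k (Orb.symm ⟨r, hr, h0⟩))
      fun ⟨j, k⟩ => ⟨j, k.trans (Orb.symm ⟨r, hr, h0⟩)⟩) b)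
    rw [a3] at a4
    exact ⟨v, a1, by rw [a2, k3]; exact mul_ne_zero (chr_ne_zero hr) (h1 b).2, a4⟩
  · intro c δ₁ δ₂ φ₁ φ₂ hx p1 p2
    obtain ⟨b1, b2, b3, b4, b5⟩ := id hx
    obtain ⟨c', γ, ⟨r, hr, h0⟩, hγ, u, h1, -, h2, h3⟩ := h c (b3 ▸ b1.mem.self_of_nhds)
    have hn : IsNode o C c' := hC.isNode_orb ⟨_, _, hx⟩ (Orb.symm ⟨r, hr, h0⟩)
    have e : ∀ {δ φ}, IsBranch o C δ → δ 0 = c → Along ξ δ φ → ∃ b, deriv φ 0 = chr w r * u b 0 ∧
        ∃ x y : ℂ, deriv δ 0 o = x • c o + y • deriv (γ b) 0 o := by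
      intro δ φ hδ hc hφ
      obtain ⟨b, s, ψ, k1, k2, k3, k4, k5, k6, k7⟩ := key hr hγ δ hδ (hc.trans h0)
      obtain ⟨v, a1, a2, a3⟩ := der k1 k2 k4 k5 (h1 b).1
      have a4 := k7 _ (h2 (.inl hn) b)
      rw [a3] at a4
      refine ⟨b, ?_, hc ▸ k6⟩
      rw [(hφ.unique a4 hδ).deriv_eq,
        ((hasDerivAt_id' (0 : ℂ)).fun_mul a1.differentiableAt.hasDerivAt).deriv, a2, k3]
      simp
    obtain ⟨j₁, e1, x₁, y₁, e2⟩ := e b1 b3 p1
    obtain ⟨j₂, e3, x₂, y₂, e4⟩ := e b2 b4 p2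
    have h4 := h3 (hγ.isNode_iff.1 hn)
    have h5 : j₁ ≠ j₂ := by
      rintro rfl
      rw [e2, e4] at b5
      exact not_li_triple _ _ _ _ _ _ b5
    rw [e1, e3]
    cases j₁ <;> cases j₂
    exacts [absurd rfl h5, by rw [h4]; ring, by rw [h4]; ring, absurd rfl h5]

end Vale.Agent.P269.Base
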