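import Vale.Agent.P269.Base.CIA

/-!
# A generic complete intersection through a nodal curve
-/

namespace Vale.Agent.P269.Base.CIa

open Set Function Topology Filter Holo Module

set_option linter.unusedSectionVars false

variable {ι : Type} [Fintype ι] [DecidableEq ι] {M : ι → ℕ} {o : ι} {a : ι → ℕ} {g : ℤ} {m : ι → ℤ}
  {β ν : Type} [Fintype β] [Fintype ν] {C : Set (V M)} {c y : V M} {f : β → Tens M a}
  {μ : Tens M a} {σ : ℂ × ℂ → V M}
  {E : Type*} [NormedAddCommGroup E] [NormedSpace ℂ E] [FiniteDimensional ℂ E]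
  {K : E →L[ℂ] Tens M a}

theorem fderiv_vals_chart {x : ℂ × ℂ} (h : AnalyticAt ℂ σ x) (h0 : ∀ᶠ z in 𝓝 x, vals f (σ z) = 0)
    (e : ℂ × ℂ) : fderiv ℂ (vals f) (σ x) (fderiv ℂ σ x e) = 0 := by
  have h1 := EventuallyEq.fderiv_eq (𝕜 := ℂ) h0
  rw [fderiv_comp_an (analyticAt_vals _ _) h, fderiv_fun_const] at h1
  exact congrArg (fun L : ℂ × ℂ →L[ℂ] β → ℂ => L e) h1

theorem exists_nf (an : AnalyticAt ℂ σ 0)
    (imm : ∀ (e : ℂ × ℂ) (s : ℂ), fderiv ℂ σ 0 e o = s • σ 0 o → e = 0)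
    (h0 : ∀ᶠ z in 𝓝 0, vals f (σ z) = 0) {G : ℂ × ℂ → ℂ × ℂ} (hG : AnalyticAt ℂ G 0) (G0 : G 0 = 0)
    (hb : Bijective (fderiv ℂ G 0)) (he : ∀ᶠ q in 𝓝 0, val μ (σ q) = (G q).1 * (G q).2) :
    ∃ ψ : ℂ × ℂ → ℂ × ℂ, ψ 0 = 0 ∧ Tendsto ψ (𝓝 0) (𝓝 0) ∧ (∀ᶠ q in 𝓝 0, ψ (G q) = q) ∧
      (∀ᶠ x in 𝓝 0, G (ψ x) = x) ∧ NF o f μ fun x => σ (ψ x) := by
  obtain ⟨-, ψ, g1, g2, g3, g4⟩ := ift hG hb
  rw [G0] at g1 g2 g4
  have t1 : Tendsto ψ (𝓝 0) (𝓝 0) := by simpa only [g2] using g1.continuousAt.tendsto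
  refine ⟨ψ, g2, t1, g3, g4, an.comp_of_eq g1 g2, fun e s h => ?_, t1.eventually h0, ?_⟩
  · rw [fderiv_comp_an (g2.symm ▸ an) g1, g2] at h
    exact injective_fderiv_of_leftInv (g := G) (by rwa [g2]) g1 g4
      ((imm _ s h).trans (map_zero _).symm)
  · filter_upwards [t1.eventually he, g4] with x h1 h2
    rw [h1, h2]

theorem _root_.Vale.Agent.P269.Base.NF.ci_nd (h : NF o f μ σ) : ∀ᶠ x in 𝓝 0, x ≠ 0 → Nd f μ (σ x) := by
  filter_upwards [h.an.eventually_analyticAt, h.zero.eventually_nhds, h.eq.eventually_nhds]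
    with x h1 h2 h3 hx
  have h4 : ∀ e, fderiv ℂ (val μ) (σ x) (fderiv ℂ σ x e) = x.1 * e.2 + x.2 * e.1 := fun e => by
    have := EventuallyEq.fderiv_eq (𝕜 := ℂ) h3
    rw [fderiv_comp_an (analyticAt_val _ _) h1,
      (hasFDerivAt_fst.fun_mul hasFDerivAt_snd).fderiv] at this
    simpa using congrArg (fun L : ℂ × ℂ →L[ℂ] ℂ => L e) this
  by_cases h5 : x.1 = 0
  · exact ⟨_, fderiv_vals_chart h1 h2 (1, 0), by
      simpa [h4] using fun h6 => hx (Prod.ext h5 h6)⟩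
  · exact ⟨_, fderiv_vals_chart h1 h2 (0, 1), by simpa [h4] using h5⟩

theorem _root_.Vale.Agent.P269.Base.NF.ci_li (h : NF o f μ σ) (hne : σ 0 o ≠ 0) : LinearIndependent ℂ
    ![σ 0 o, deriv (fun t => σ (t, 0)) 0 o, deriv (fun t => σ (0, t)) 0 o] := by
  rw [deriv_inl h.an, deriv_inr h.an]
  refine li_triple hne fun e e' s he => Prod.ext_iff.1 (h.imm (e, e') s ?_)
  rw [← he, show (e, e') = e • ((1 : ℂ), (0 : ℂ)) + e' • ((0 : ℂ), (1 : ℂ)) by simp, map_add,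
    map_smul, map_smul]
  rfl

theorem _root_.Vale.Agent.P269.Base.NF.ci_br (h : NF o f μ σ) (hne : σ 0 o ≠ 0) (b : Bool)
    (hm : ∀ᶠ t in 𝓝 (0 : ℂ), σ (if b then (t, 0) else (0, t)) ∈ C) :
    IsBranch o C fun t => σ (if b then (t, 0) else (0, t)) := by
  cases b
  · exact ⟨h.an.comp_of_eq (analyticAt_const.prod analyticAt_id) rfl, hm, li_pair hne
      fun e s he => (of_li_triple (h.ci_li hne) (e := 0) (s := s)
        (by rw [zero_smul, zero_add]; exact he)).2⟩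
  · exact ⟨h.an.comp_of_eq (analyticAt_id.prod analyticAt_const) rfl, hm, li_pair hne
      fun e s he => (of_li_triple (h.ci_li hne) (e' := 0) (s := s)
        (by rw [zero_smul, add_zero]; exact he)).1⟩

theorem _root_.Vale.Agent.P269.Base.NF.ci_isolated (h : NF o f μ σ) (hC : Nod o C) {b : Bool → Bool}
    (hγ : Loc o C (σ 0) fun j t => σ (if b j then (t, 0) else (0, t))) (hc : Orb (σ 0) c) :
    ∀ᶠ y in 𝓝[C] c, ¬Nd f μ y → Orb c y := by
  obtain ⟨s, hs, rfl⟩ := hc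
  refine (hγ.smul hC hs).ci_isolated (fun x y h1 h2 h3 => h1 (h3.orb h2.symm)) fun j => ?_
  have t1 : Tendsto (fun t : ℂ => if b j then (t, (0 : ℂ)) else (0, t)) (𝓝 0) (𝓝 0) := by
    cases b j
    exacts [tendsto_inr 0 0, tendsto_inl 0 0]
  filter_upwards [mem_nhdsWithin_of_mem_nhds (t1.eventually h.ci_nd), self_mem_nhdsWithin] with t e1 e2
  exact not_not.2 ((e1 (by cases b j <;> simpa using e2)).orb ⟨s, hs, rfl⟩)

/-- A chart of the surface `f = 0` extending a given map on the curve. -/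
theorem exists_surf_chart (hd : Fintype.card β + Fintype.card ι + 2 = ∑ i, M i)
    (an : AnalyticAt ℂ σ 0) (hne : ∀ i, σ 0 i ≠ 0) (h0 : vals f (σ 0) = 0)
    (imm : ∀ (e : ℂ × ℂ) (s : ℂ), fderiv ℂ σ 0 e o = s • σ 0 o → e = 0)
    (hs : Surjective (fderiv ℂ (vals f) (σ 0)))
    (hk : ∀ e, fderiv ℂ (vals f) (σ 0) (fderiv ℂ σ 0 e) = 0) :
    ∃ σ' : ℂ × ℂ → V M, AnalyticAt ℂ σ' 0 ∧ fderiv ℂ σ' 0 = fderiv ℂ σ 0 ∧
      (∀ᶠ z in 𝓝 0, vals f (σ z) = 0 → σ' z = σ z) ∧ ∀ᶠ z in 𝓝 0, vals f (σ' z) = 0 ∧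
        ∀ (e : ℂ × ℂ) (s : ℂ), fderiv ℂ σ' z e o = s • σ' z o → e = 0 := by
  obtain ⟨τ, h1, h2, h3⟩ := chart_zs (o := o) (f := fun _ : ℂ => f) (p₀ := 0) analyticAt_const an
    ⟨hne, h0⟩ imm hs (ker_iff₁ hs hne imm (fun s => funext fun l => (fderiv_vals _ _ _ _).trans
      (fderiv_val_tor (congrFun h0 l) s)) hk (by simpa using hd))
  have e0 : τ (0, 0) = σ 0 := h2.self_of_nhds ⟨hne, h0⟩
  refine ⟨_, h1.an0, h3, ?_, ?_⟩
  · filter_upwards [h2, an.continuousAt.eventually (eventually_ne hne)] with z e1 e2 e3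
    exact e1 ⟨e2, e3⟩
  · filter_upwards [h1.mem0, (tendsto_inr (0 : ℂ) (0 : ℂ × ℂ)).eventually
      ((h1.eventually_imm (e0 ▸ hne o)).and h1.an.eventually_analyticAt)] with z e1 e2
    exact ⟨(e1 trivial).2, fun e s he => e2.1 e s (by rwa [← fderiv_inr e2.2])⟩

theorem _root_.Vale.Agent.P269.IsCurve.ci_res_sm (h : IsCurve o g m C) (ha : ∀ i, 3 ≤ a i)
    (hK : ∀ μ, μ ∈ idl a C ↔ ∃ e, K e = μ) (hd : Fintype.card β + Fintype.card ι + 2 = ∑ i, M i)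
    (hf : ∀ k, f k ∈ idl a C) {γ : ℂ → V M} (hγ : Loc o C (γ 0) fun _ => γ)
    (hs : Surjective (fderiv ℂ (vals f) (γ 0))) (ht : Trv o f (γ 0)) :
    ∃ r > 0, ∀ᶠ e in residual E, ∀ z : ℂ, ‖z‖ < r → Loc o C (γ z) (fun _ t => γ (z + t)) →
      Nd f (K e) (γ z) ∨ ∃ σ, NF o f (K e) σ ∧ Orb (σ 0) (γ z) ∧
        Loc o C (σ 0) fun _ t => σ (t, 0) := by
  have := FiniteDimensional.complete ℂ E
  obtain ⟨n, h1, h2⟩ := ht.exists (hγ.br true).imm
  have a1 : AnalyticAt ℂ (fun q : ℂ × ℂ => γ q.1 + q.2 • n) (0, 0) :=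
    ((hγ.an true).comp_of_eq analyticAt_fst rfl).add (analyticAt_snd.smul analyticAt_const)
  have d1 : ∀ e : ℂ × ℂ, fderiv ℂ (fun q : ℂ × ℂ => γ q.1 + q.2 • n) 0 e =
      e.1 • deriv γ 0 + e.2 • n := fun e => by
    refine (fderiv_prod_apply a1 e.1 e.2).trans ?_
    simp [deriv_smul_const]
  have v1 : ∀ y ∈ C, vals f y = 0 := fun y hy => funext fun k => hf k y hy
  obtain ⟨τ, t1, t2, t3, t4⟩ := exists_surf_chart (o := o) (f := f) hd a1 (by simpa using hγ.ne)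
    (by simpa using v1 _ hγ.mem) (fun e s he => by
      rw [d1] at he
      exact Prod.ext_iff.2 (of_li_triple h2 (s := s) (by simpa using he))) (by simpa using hs)
    fun e => by
      have : fderiv ℂ (vals f) (γ 0) (deriv γ 0) = 0 :=
        funext fun k => (fderiv_vals _ _ _ _).trans (fderiv_val_br (hf k) (hγ.br true))
      simp [d1, h1, this]
  have e1 : ∀ᶠ u in 𝓝 0, τ (u, 0) = γ u ∧ γ u ∈ C := by
    filter_upwards [(tendsto_inl (0 : ℂ) (0 : ℂ)).eventually t3, (hγ.br true).mem] with u k1 k2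
    exact ⟨by simpa using k1 (by simpa using v1 _ k2), k2⟩
  have sw : ∀ q : ℂ × ℂ, AnalyticAt ℂ Prod.swap q := fun q => analyticAt_snd.prod analyticAt_fst
  obtain ⟨H', a2, e2⟩ := exists_div (f := fun q : ℂ × ℂ => (evL a (τ q.swap)).comp K) (w := 0)
    (analyticAt_of_apply fun e => (analyticAt_val (K e) _).comp (t1.comp_of_eq (sw _) rfl))
  obtain ⟨H, a3, e3⟩ : ∃ H : ℂ × ℂ → E →L[ℂ] ℂ, AnalyticAt ℂ H 0 ∧
      ∀ᶠ q in 𝓝 0, ∀ e, val (K e) (τ q) = H q e * q.2 := by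
    refine ⟨fun q => H' q.swap, a2.comp_of_eq (sw _) rfl, (continuousAt_fst.tendsto.eventually
      e1).mono fun q hq e => ?_⟩
    have := congrArg (fun L : E →L[ℂ] ℂ => L e) (e2 q.swap)
    simpa [hq.1, (hK _).2 ⟨e, rfl⟩ _ hq.2, mul_comm] using this
  have e4 : ∀ᶠ u in 𝓝 0, ∀ e,
      fderiv ℂ (val (K e)) (τ (u, 0)) (fderiv ℂ τ (u, 0) (0, 1)) = H (u, 0) e := by
    filter_upwards [(tendsto_inl (0 : ℂ) (0 : ℂ)).eventually (e3.eventually_nhds.and
      (t1.eventually_analyticAt.and a3.eventually_analyticAt))] with u ⟨k1, k2, k3⟩ e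
    have := EventuallyEq.fderiv_eq (𝕜 := ℂ) (k1.mono fun q hq => hq e)
    rw [fderiv_comp_an (analyticAt_val _ _) k2, ((an_apply k3 (analyticAt_const
      (v := e))).differentiableAt.hasFDerivAt.fun_mul hasFDerivAt_snd).fderiv] at this
    simpa using congrArg (fun L : ℂ × ℂ →L[ℂ] ℂ => L (0, 1)) this
  have a4 : AnalyticAt ℂ (fun u => H (u, 0)) 0 :=
    a3.comp_of_eq (analyticAt_id.prod analyticAt_const) rfl
  obtain ⟨r, hr, h3⟩ := residual_simple a4 fun h0 => by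
    obtain ⟨ℓ, hℓ⟩ := exists_dual_of_li h2 ![0, 0, 1]
    obtain ⟨e, he⟩ := h.ci_exists_dI ha hK hγ (η := ℓ.toContinuousLinearMap.comp
      (ContinuousLinearMap.proj o)) (fun s => by simpa [Pi.smul_apply'] using .inr (hℓ 0))
      fun _ => hℓ 1
    have k1 := e4.self_of_nhds e
    rw [h0, e1.self_of_nhds.1, show fderiv ℂ τ (0, 0) = _ from t2, d1, ← dI_apply, he] at k1
    simpa using k1.symm.trans (by simpa using hℓ 2 : _ = (1 : ℂ))
  obtain ⟨r', hr', h4⟩ := Metric.eventually_nhds_iff.1 (e1.eventually_nhds.and (e4.and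
    ((tendsto_inl (0 : ℂ) (0 : ℂ)).eventually (e3.eventually_nhds.and (t4.eventually_nhds.and
      (t1.eventually_analyticAt.and a3.eventually_analyticAt))))))
  refine ⟨min r r', lt_min hr hr', h3.mono fun e he z hz hl => ?_⟩
  obtain ⟨k1, k2, k3, k4, k5, k6⟩ := h4 (y := z) (by simpa using hz.trans_le (min_le_right _ _))
  by_cases h0 : H (z, 0) e = 0
  swap
  · exact .inl (k1.self_of_nhds.1 ▸ ⟨_, fderiv_vals_chart k5 (k4.mono fun _ h => h.1) (0, 1),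
      k2 e ▸ h0⟩)
  have t5 : Tendsto (fun q : ℂ × ℂ => (z, (0 : ℂ)) + q) (𝓝 0) (𝓝 (z, 0)) :=
    Continuous.tendsto' (by fun_prop) _ _ (add_zero _)
  have a5 : AnalyticAt ℂ (fun q : ℂ × ℂ => (z, (0 : ℂ)) + q) 0 := analyticAt_const.add analyticAt_id
  have a6 : AnalyticAt ℂ (fun q : ℂ × ℂ => H ((z, 0) + q) e) 0 :=
    an_apply (k6.comp_of_eq a5 (add_zero _)) analyticAt_const
  obtain ⟨ψ, p1, p2, -, p3, p4⟩ := exists_nf (o := o) (f := f) (μ := K e)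
    (σ := fun q => τ ((z, 0) + q)) (k5.comp_of_eq a5 (add_zero _)) (fun x s hx => by
      rw [fderiv_comp_add_left, add_zero] at hx
      exact k4.self_of_nhds.2 x s hx) (t5.eventually (k4.mono fun _ h => h.1))
    (G := fun q => (H ((z, 0) + q) e, q.2)) (a6.prod analyticAt_snd) (by simp [h0])
    (bijective_of_injective _ ((injective_iff_map_eq_zero _).2 fun x hx => by
      rw [(a6.differentiableAt.hasFDerivAt.prodMk hasFDerivAt_snd).fderiv] at hx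
      have q1 : x.2 = 0 := congrArg Prod.snd hx
      have q2 : fderiv ℂ (fun q : ℂ × ℂ => H ((z, 0) + q) e) (0, 0) (x.1, 0) = 0 := by
        rw [show (x.1, (0 : ℂ)) = x from Prod.ext rfl q1.symm]
        exact congrArg Prod.fst hx
      rw [← fderiv_inl a6, fderiv_eq_smul_deriv] at q2
      refine Prod.ext ((smul_eq_zero.1 q2).resolve_right fun q3 =>
        he z (hz.trans_le (min_le_left _ _)) h0 ?_) q1
      simpa [deriv_comp_const_add (fun u => H (u, 0) e)] using q3) rfl)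
    ((t5.eventually k3).mono fun q hq => by simpa using hq e)
  have p5 : τ ((z, 0) + ψ 0) = γ z := by rw [p1, add_zero, k1.self_of_nhds.1]
  refine .inr ⟨_, p4, p5 ▸ Orb.refl _, h.nod.loc_of_branch (p4.ci_br (C := C) (p5 ▸ hl.ne o) true ?_)
    (by simpa [p5, Prod.mk_zero_zero] using fun hn => hl.isNode_iff.1 hn rfl)⟩
  filter_upwards [(tendsto_inl (0 : ℂ) (0 : ℂ)).eventually (p3.and
    (((continuous_fst.tendsto _).comp (t5.comp p2)).eventually k1))] with t ⟨q1, q2⟩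
  have q3 : (z, (0 : ℂ)) + ψ (t, 0) = (((z, (0 : ℂ)) + ψ (t, 0)).1, 0) :=
    Prod.ext rfl (by simpa using congrArg Prod.snd q1)
  simp only [if_true]
  rw [q3]
  exact q2.1 ▸ q2.2

theorem _root_.Vale.Agent.P269.IsCurve.ci_res_node (h : IsCurve o g m C) (ha : ∀ i, 4 ≤ a i)
    (hK : ∀ μ, μ ∈ idl a C ↔ ∃ e, K e = μ) (hd : Fintype.card β + Fintype.card ι + 2 = ∑ i, M i)
    (hf : ∀ k, f k ∈ idl a C) (hc : c ∈ C) (hn : IsNode o C c)
    (hs : Surjective (fderiv ℂ (vals f) c)) :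
    ∀ᶠ e in residual E, ∃ σ, NF o f (K e) σ ∧ σ 0 = c ∧
      Loc o C (σ 0) fun b t => σ (if b then (t, 0) else (0, t)) := by
  obtain ⟨γ, hγ⟩ := h.nod.exists_loc hc
  have he := hγ.isNode_iff.1 hn
  have a1 : AnalyticAt ℂ (fun q : ℂ × ℂ => γ true q.1 + γ false q.2 - c) (0, 0) :=
    (((hγ.an true).comp_of_eq analyticAt_fst rfl).add
      ((hγ.an false).comp_of_eq analyticAt_snd rfl)).sub analyticAt_const
  have d1 : ∀ e : ℂ × ℂ, fderiv ℂ (fun q : ℂ × ℂ => γ true q.1 + γ false q.2 - c) 0 e =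
      e.1 • deriv (γ true) 0 + e.2 • deriv (γ false) 0 := fun e => by
    refine (fderiv_prod_apply a1 e.1 e.2).trans ?_
    simp only [fderiv_eq_smul, deriv_sub_const, deriv_add_const, deriv_const_add]
  have v1 : ∀ y ∈ C, vals f y = 0 := fun y hy => funext fun k => hf k y hy
  obtain ⟨τ, t1, t2, t3, t4⟩ := exists_surf_chart (o := o) (f := f) hd a1
    (by simpa [hγ.zero] using hγ.ne) (by simpa [hγ.zero] using v1 _ hc) (fun e s hs => by
      rw [d1] at hs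
      exact Prod.ext_iff.2 (of_li_triple (hγ.alt.resolve_left he) (s := s)
        (by simpa [hγ.zero] using hs))) (by simpa [hγ.zero] using hs) fun e => by
      have : ∀ j, fderiv ℂ (vals f) c (deriv (γ j) 0) = 0 := fun j => funext fun k =>
        (fderiv_vals _ _ _ _).trans (hγ.zero j ▸ fderiv_val_br (hf k) (hγ.br j))
      simp [d1, hγ.zero, this]
  have e1 : ∀ᶠ u in 𝓝 0, τ (u, 0) = γ true u ∧ γ true u ∈ C := by
    filter_upwards [(tendsto_inl (0 : ℂ) (0 : ℂ)).eventually t3, (hγ.br true).mem] with u k1 k2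
    exact ⟨by simpa [hγ.zero] using k1 (by simpa [hγ.zero] using v1 _ k2), k2⟩
  have e2 : ∀ᶠ u in 𝓝 0, τ (0, u) = γ false u ∧ γ false u ∈ C := by
    filter_upwards [(tendsto_inr (0 : ℂ) (0 : ℂ)).eventually t3, (hγ.br false).mem] with u k1 k2
    exact ⟨by simpa [hγ.zero] using k1 (by simpa [hγ.zero] using v1 _ k2), k2⟩
  have e3 : τ 0 = c := e1.self_of_nhds.1.trans (hγ.zero true)
  have a2 : AnalyticAt ℂ (fun t : ℂ => (t, t)) 0 := analyticAt_id.prod analyticAt_id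
  have a3 : ∀ μ : Tens M a, AnalyticAt ℂ (fun t => val μ (τ (t, t))) 0 := fun μ =>
    (analyticAt_val μ _).comp (t1.comp_of_eq a2 rfl)
  let J : E →ₗ[ℂ] Fin 3 → ℂ :=
    { toFun := fun e => jet 3 fun t => val (K e) (τ (t, t))
      map_add' := fun e e' => by simpa only [map_add, val_add] using jet_add (a3 _) (a3 _)
      map_smul' := fun r e => by simpa only [map_smul, val_smul', RingHom.id_apply] using jet_smul r }
  refine (residual_ne (l := J) (fun h0 => ?_) 0).mono fun e hJ => ?_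
  · obtain ⟨μ, m1, m2⟩ := h.cut_hess ha hγ he
    obtain ⟨e, rfl⟩ := (hK μ).1 m1
    have k1 := m2 _ (t1.comp_of_eq a2 rfl) e3 1 1 0 (by
      rw [(t1.differentiableAt.hasFDerivAt.comp_hasDerivAt_of_eq (0 : ℂ)
        ((hasDerivAt_id' (0 : ℂ)).prodMk (hasDerivAt_id' 0)) rfl).deriv, t2, d1]
      simp)
    have k2 := ((dv_iff_jet (a3 _)).2 (LinearMap.congr_fun h0 e)).sub k1
    exact one_ne_zero (Dv.cancel (k := 2) (n := 1) (u := fun _ => 1) (v := fun _ => 1)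
      (k2.congr (.of_forall fun t => by simp)) analyticAt_const one_ne_zero analyticAt_const).eq_zero
  have m1 := (hK _).2 ⟨e, rfl⟩
  obtain ⟨b, b1, b2⟩ := exists_div_axes ((analyticAt_val (K e) _).comp t1)
    (e1.mono fun u hu => m1 _ (hu.1 ▸ hu.2)) (e2.mono fun u hu => m1 _ (hu.1 ▸ hu.2))
  have b3 : b 0 ≠ 0 := fun h0 => hJ ((dv_iff_jet (a3 _)).1
    (((Dv.one analyticAt_id rfl).pow 2).mul (Dv.one (b1.comp_of_eq a2 rfl) h0) |>.congr
      ((a2.continuousAt.tendsto.eventually b2).mono fun t ht => by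
        simp only [comp_apply, id] at ht ⊢
        rw [ht, sq])))
  obtain ⟨ψ, p1, p2, p3, p4, p5⟩ := exists_nf (o := o) (f := f) (μ := K e) t1
    t4.self_of_nhds.2 (t4.mono fun _ h => h.1) (G := fun q => (q.1, q.2 * b q))
    (analyticAt_fst.prod (analyticAt_snd.mul b1)) (by simp [Prod.ext_iff])
    (bijective_of_injective _ ((injective_iff_map_eq_zero _).2 fun x hx => by
      have := (hasFDerivAt_fst.prodMk (hasFDerivAt_mul_zero (l := ContinuousLinearMap.snd ℂ ℂ ℂ)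
        b1)).fderiv
      rw [show fderiv ℂ (fun q : ℂ × ℂ => (q.1, q.2 * b q)) 0 = _ from this] at hx
      simpa [Prod.ext_iff, b3] using hx) rfl) (b2.mono fun q hq => hq.trans (mul_assoc _ _ _))
  have p6 : τ (ψ 0) = c := by rw [p1, e3]
  have p7 : ∀ᶠ u in 𝓝 0, τ (ψ (u, 0)) = γ true u ∧ γ true u ∈ C := by
    filter_upwards [(tendsto_inl (0 : ℂ) (0 : ℂ)).eventually p3, e1] with u k1 k2
    simp only [zero_mul] at k1
    rwa [k1]
  have hb : ∀ j : Bool, IsBranch o C fun t => τ (ψ (if j then (t, 0) else (0, t))) := fun j => by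
    refine p5.ci_br (p6 ▸ hγ.ne o) j ?_
    cases j
    · filter_upwards [(tendsto_inr (0 : ℂ) (0 : ℂ)).eventually (p4.and
        (((continuous_snd.tendsto _).comp p2).eventually e2))] with t ⟨q1, q2⟩
      have q3 : ψ (0, t) = (0, (ψ (0, t)).2) := Prod.ext (congrArg Prod.fst q1 :) rfl
      simp only [Bool.false_eq_true, if_false]
      rw [q3]
      exact q2.1 ▸ q2.2
    · exact p7.mono fun u hu => hu.1 ▸ hu.2
  refine ⟨_, p5, p6, hb, fun j => by cases j <;> rfl, p6 ▸ hγ.ne, .inr (p5.ci_li (p6 ▸ hγ.ne o)),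
    fun p hp => p6 ▸ hγ.ev p fun j => ?_⟩
  cases j
  · have c1 : Tendsto (fun w : (ι → ℂ) × ℂ => (w.1, w.2 * b (0, w.2))) (𝓝 (1, 0)) (𝓝 (1, 0)) := by
      simpa using (continuousAt_fst.prodMk (continuousAt_snd.fun_mul (b1.continuousAt.comp_of_eq
        (f := fun w : (ι → ℂ) × ℂ => (0, w.2)) (x := (1, 0)) (by fun_prop) rfl))).tendsto
    filter_upwards [c1.eventually (hp false), continuousAt_snd.tendsto.eventually (e2.and
      ((tendsto_inr (0 : ℂ) (0 : ℂ)).eventually p3))] with w k1 k2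
    simpa only [Bool.false_eq_true, if_false, k2.2, k2.1.1] using k1
  · filter_upwards [hp true, continuousAt_snd.tendsto.eventually p7] with w k1 k2
    simpa only [if_true, k2.1] using k1

theorem _root_.Vale.Agent.P269.IsCurve.exists_ci' (h : IsCurve o g m C) (ha : ∀ i, 4 ≤ a i)
    (hK : ∀ μ, μ ∈ idl a C ↔ ∃ e, K e = μ) (ho : 3 ≤ M o) {r : ℕ}
    (hr : r + Fintype.card ι + 2 = ∑ i, M i) {y : ν → V M}
    (hy : ∀ k, y k ∈ C ∧ ¬IsNode o C (y k)) :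
    ∃ (f : Fin r → Tens M a) (μ : Tens M a) (n : ℕ) (q : Fin n → V M),
      CI o C f μ q ∧ ∀ j k, ¬Orb (q j) (y k) := by
  have ha' : ∀ i, 3 ≤ a i := fun i => (by norm_num : 3 ≤ 4).trans (ha i)
  have hd : Fintype.card (Fin r) + Fintype.card ι + 2 = ∑ i, M i := by simpa using hr
  obtain ⟨f, f1, f2, f3, -⟩ := h.ci_exists_surf ha' hK ho r hr.le
  obtain ⟨n, x, hx⟩ := h.nod.exists_nodes
  obtain ⟨n', b, hb⟩ := h.nod.exists_reps (p := fun c => ¬Trv o f c)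
    (fun _ _ _ h1 h2 h3 => h1 (h3.orb h2.symm)) f3
  obtain ⟨e, -, e1, e2, e3, e4⟩ := exists_of_residual ((h.nod.ci_residual (S := Trv o f)
    (p := fun e c => Nd f (K e) c ∨ ∃ σ, NF o f (K e) σ ∧ Orb (σ 0) c ∧
      Loc o C (σ 0) fun _ t => σ (t, 0))
    (fun _ _ _ h1 h2 => h1.imp (·.orb h2) fun ⟨σ, h3, h4, h5⟩ => ⟨σ, h3, h4.trans h2, h5⟩)
    fun γ h1 h2 => h.ci_res_sm ha' hK hd f1 h1 (f2 _ h1.mem) h2).and
    ((eventually_all.2 fun k => h.ci_res_node ha hK hd f1 (hx.mem k) (hx.prop k) (f2 _ (hx.mem k))).and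
    ((eventually_all.2 fun k => h.ci_res_nd (f := f) ha' hK (hb.mem k) (by omega)
      fun hn => absurd (trv_of_node f1 hn) (hb.prop k)).and
    (eventually_all.2 fun k => h.ci_res_nd (f := f) ha' hK (hy k).1 (by omega)
      fun hn => absurd hn (hy k).2)))) (e₀ := 0) univ_mem
  have s1 : ∀ c ∈ C, ¬IsNode o C c → ¬Nd f (K e) c → ∃ σ, NF o f (K e) σ ∧ Orb (σ 0) c ∧
      Loc o C (σ 0) fun _ t => σ (t, 0) := fun c h1 h2 h3 =>
    (e1 c h1 h2 (by_contra fun h4 => (hb.ex c h1 h4).elim fun k hk => h3 ((e3 k).orb hk))).resolve_left h3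
  have s2 : ∀ c, IsNode o C c → ∃ σ, NF o f (K e) σ ∧ Orb (σ 0) c ∧
      Loc o C (σ 0) fun b t => σ (if b then (t, 0) else (0, t)) := fun c hn => by
    obtain ⟨k, hk⟩ := hx.ex c (hn.elim fun γ ⟨_, h1, _, h2, _⟩ => h2 ▸ h1.mem.self_of_nhds) hn
    obtain ⟨σ, h1, h2, h3⟩ := e2 k
    exact ⟨σ, h1, h2 ▸ hk, h3⟩
  obtain ⟨n'', z, hz⟩ := h.nod.exists_reps (p := fun c => ¬IsNode o C c ∧ ¬Nd f (K e) c)
    (fun _ _ _ h1 h2 => ⟨fun h3 => h1.1 (h.nod.isNode_orb h3 h2.symm),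
      fun h3 => h1.2 (h3.orb h2.symm)⟩) fun c hc => by
      by_cases h1 : IsNode o C c
      · obtain ⟨σ, h2, h3, h4⟩ := s2 c h1
        exact (h2.ci_isolated h.nod (b := id) h4 h3).mono fun y h5 h6 => h5 h6.2
      by_cases h2 : Nd f (K e) c
      · exact mem_nhdsWithin_of_mem_nhds ((h2.eventually (f2 c hc)).mono
          fun y h5 h6 => absurd h5 h6.2)
      · obtain ⟨σ, h3, h4, h5⟩ := s1 c hc h1 h2
        exact (h3.ci_isolated h.nod (b := fun _ => true) h5 h4).mono fun y h5 h6 => h5 h6.2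
  choose σ s3 s4 s5 using fun j => s1 _ (hz.mem j) (hz.prop j).1 (hz.prop j).2
  exact ⟨f, K e, n'', fun j => σ j 0, ⟨hd, fun c hc => ⟨funext fun k => f1 k c hc,
    (hK _).2 ⟨e, rfl⟩ c hc⟩, f2, fun j j' h1 => hz.inj _ _ (((s4 j).symm.trans h1).trans (s4 j')),
    fun j => ⟨_, s3 j, s5 j⟩, s2, fun c h1 h2 h3 => by_contra fun h4 =>
      (hz.ex c h1 ⟨h2, h4⟩).elim fun j hj => h3 j ((s4 j).trans hj)⟩,
    fun j k h1 => (hz.prop j).2 ((e4 k).orb (h1.symm.trans (s4 j)))⟩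

theorem _root_.Vale.Agent.P269.IsCurve.exists_ci (h : IsCurve o g m C) (ha : ∀ i, 4 ≤ a i)
    (ho : 3 ≤ M o) {r : ℕ} (hr : r + Fintype.card ι + 2 = ∑ i, M i) {y : ν → V M}
    (hy : ∀ k, y k ∈ C ∧ ¬IsNode o C (y k)) :
    ∃ (f : Fin r → Tens M a) (μ : Tens M a) (n : ℕ) (q : Fin n → V M),
      CI o C f μ q ∧ ∀ j k, ¬Orb (q j) (y k) :=
  h.exists_ci' (E := idl a C) (K := (idl a C).subtypeL) ha
    (fun μ => ⟨fun hμ => ⟨⟨μ, hμ⟩, rfl⟩, fun ⟨e, he⟩ => he ▸ e.2⟩) ho hr hy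

end Vale.Agent.P269.Base.CIa
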