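import Vale.Agent.P269.Base.VDef

/-!
# Generic equations of a nodal curve: the surface through the curve
-/

namespace Vale.Agent.P269.Base.CIa

open Set Function Topology Filter Holo Module

set_option linter.unusedSectionVars false

variable {ι : Type} [Fintype ι] [DecidableEq ι] {M : ι → ℕ} {o : ι} {a : ι → ℕ} {g : ℤ} {m : ι → ℤ}
  {β : Type} [Fintype β] {C : Set (V M)} {c y : V M} {f : β → Tens M a} {μ : Tens M a}
  {B E P : Type*} [NormedAddCommGroup B] [NormedSpace ℂ B] [FiniteDimensional ℂ B]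
  [NormedAddCommGroup E] [NormedSpace ℂ E] [FiniteDimensional ℂ E]
  [NormedAddCommGroup P] [NormedSpace ℂ P] [FiniteDimensional ℂ P]

/-- The forms of degree `a` vanishing on `C`. -/
def idl (a : ι → ℕ) (C : Set (V M)) : Submodule ℂ (Tens M a) where
  carrier := {μ | ∀ y ∈ C, val μ y = 0}
  add_mem' h h' y hy := by rw [val_add, h y hy, h' y hy, add_zero]
  zero_mem' _ _ := rfl
  smul_mem' r _ h y hy := by rw [val_smul', h y hy, mul_zero]

/-- The differential of `μ` does not vanish on the tangent space of `f = 0`. -/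
def Nd (f : β → Tens M a) (μ : Tens M a) (c : V M) : Prop :=
  ∃ v, fderiv ℂ (vals f) c v = 0 ∧ fderiv ℂ (val μ) c v ≠ 0

/-- The tangent space of `f = 0` projects on a space of dimension at least two in the factor `o`. -/
def Trv (o : ι) (f : β → Tens M a) (c : V M) : Prop :=
  ∃ v w, fderiv ℂ (vals f) c v = 0 ∧ fderiv ℂ (vals f) c w = 0 ∧
    LinearIndependent ℂ ![c o, v o, w o]

theorem fderiv_val_smul₁ (μ : Tens M a) (s : ι → ℂ) (c v : V M) :
    fderiv ℂ (val μ) (s • c) (s • v) = chr a s * fderiv ℂ (val μ) c v := by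
  have h1 := ((analyticAt_val μ (torL s c)).differentiableAt.hasFDerivAt.comp c
    (torL s).hasFDerivAt).unique (((analyticAt_val μ c).differentiableAt.hasFDerivAt.const_mul
      (chr a s)).congr_of_eventuallyEq (.of_forall fun y => val_smul μ s y))
  exact congrArg (fun L : V M →L[ℂ] ℂ => L v) h1

theorem fderiv_vals_smul₁ (f : β → Tens M a) (s : ι → ℂ) (c v : V M) :
    fderiv ℂ (vals f) (s • c) (s • v) = chr a s • fderiv ℂ (vals f) c v := funext fun l => by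
  rw [fderiv_vals, fderiv_val_smul₁, Pi.smul_apply, fderiv_vals, smul_eq_mul]

theorem Nd.orb (h : Nd f μ c) (hy : Orb c y) : Nd f μ y := by
  obtain ⟨s, hs, rfl⟩ := hy
  obtain ⟨v, h1, h2⟩ := h
  exact ⟨s • v, by rw [fderiv_vals_smul₁, h1, smul_zero], by
    rw [fderiv_val_smul₁]; exact mul_ne_zero (chr_ne_zero hs) h2⟩

theorem Trv.orb (h : Trv o f c) (hy : Orb c y) : Trv o f y := by
  obtain ⟨s, hs, rfl⟩ := hy
  obtain ⟨v, w, h1, h2, h3⟩ := h
  refine ⟨s • v, s • w, by rw [fderiv_vals_smul₁, h1, smul_zero],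
    by rw [fderiv_vals_smul₁, h2, smul_zero], ?_⟩
  simp only [Pi.smul_apply']
  rw [li_triple_iff] at h3 ⊢
  refine ⟨smul_ne_zero (hs o) h3.1, fun x y r he => h3.2 x y r ?_⟩
  rw [smul_comm x, smul_comm y, smul_comm r, ← smul_add] at he
  exact smul_right_injective _ (hs o) he

theorem fderiv_val_tor (h : val μ c = 0) (s : ι → ℂ) : fderiv ℂ (val μ) c (s • c) = 0 := by
  rw [Pol.euler (val_mem μ), h, mul_zero]

theorem fderiv_val_br (h : μ ∈ idl a C) {γ : ℂ → V M} (hγ : IsBranch o C γ) :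
    fderiv ℂ (val μ) (γ 0) (deriv γ 0) = 0 := by
  rw [← deriv_comp_an (analyticAt_val _ _) hγ.holo,
    EventuallyEq.deriv_eq (hγ.mem.mono fun t ht => h _ ht), deriv_const]

theorem finrank_V : finrank ℂ (V M) = ∑ i, M i := by simp [finrank_pi_fintype]

/-- The torus directions and the image of `D`. -/
noncomputable def tlm (c : V M) (D : E →L[ℂ] V M) : (ι → ℂ) × E →ₗ[ℂ] V M where
  toFun w := w.1 • c + D w.2
  map_add' w w' := by simp only [Prod.fst_add, Prod.snd_add, add_smul, map_add]; abel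
  map_smul' r w := by simp only [Prod.smul_fst, Prod.smul_snd, map_smul, smul_add, smul_assoc,
    RingHom.id_apply]

theorem exists_cov (L : V M →L[ℂ] B) (c : V M) {k : ℕ} (d : Fin k → V M)
    (h : finrank ℂ B + Fintype.card ι + k < ∑ i, M i) : ∃ (w : V M) (η : V M →L[ℂ] ℂ), L w = 0 ∧
      (∀ s : ι → ℂ, η (s • c) = 0) ∧ (∀ i, η (d i) = 0) ∧ η w ≠ 0 := by
  let D := (Fintype.linearCombination ℂ d).toContinuousLinearMap
  have h1 := (tlm c D).finrank_range_le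
  have h2 := (L : V M →ₗ[ℂ] B).finrank_range_add_finrank_ker
  have h3 := (LinearMap.range (L : V M →ₗ[ℂ] B)).finrank_le
  rw [finrank_prod, finrank_fintype_fun_eq_card, finrank_fin_fun] at h1
  rw [finrank_V] at h2
  obtain ⟨w, h4, h5⟩ := SetLike.not_le_iff_exists.1 fun e : LinearMap.ker (L : V M →ₗ[ℂ] B) ≤
    LinearMap.range (tlm c D) => by have := Submodule.finrank_mono e; omega
  obtain ⟨r, η, -, h6, -⟩ := exists_quot (LinearMap.range (tlm c D))
  obtain ⟨l, hl⟩ := Function.ne_iff.1 (mt (h6 w).1 h5)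
  exact ⟨w, (ContinuousLinearMap.proj l).comp η, h4,
    fun s => congrFun ((h6 _).2 ⟨(s, 0), by simp [tlm]⟩) l,
    fun i => congrFun ((h6 _).2 ⟨(0, Pi.single i 1), by
      simp [tlm, D, Fintype.linearCombination_apply_single]⟩) l, hl⟩

theorem ker_iff₁ {L : V M →L[ℂ] B} (hL : Surjective L) {D : E →L[ℂ] V M} (hc : ∀ i, c i ≠ 0)
    (imm : ∀ (e : E) (s : ℂ), D e o = s • c o → e = 0) (h1 : ∀ s : ι → ℂ, L (s • c) = 0)
    (h2 : ∀ e, L (D e) = 0) (h : finrank ℂ B + Fintype.card ι + finrank ℂ E = ∑ i, M i) (v : V M) :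
    L v = 0 ↔ ∃ (s : ι → ℂ) (e : E), v = s • c + D e := by
  have h3 : Injective (tlm c D) := (injective_iff_map_eq_zero _).2 fun w hw => by
    have h4 : w.2 = 0 := imm _ (-w.1 o) (by
      rw [neg_smul]; exact eq_neg_of_add_eq_zero_right (congrFun hw o))
    have h5 : w.1 • c = 0 := by simpa [tlm, h4] using hw
    exact Prod.ext (funext fun i => (smul_eq_zero.1 (congrFun h5 i)).resolve_right (hc i)) h4
  have h4 := LinearMap.finrank_range_of_inj h3
  have h5 := (L : V M →ₗ[ℂ] B).finrank_range_add_finrank_ker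
  rw [finrank_prod, finrank_fintype_fun_eq_card] at h4
  rw [finrank_V, LinearMap.range_eq_top.2 hL, finrank_top] at h5
  have h6 : LinearMap.range (tlm c D) = LinearMap.ker (L : V M →ₗ[ℂ] B) :=
    Submodule.eq_of_le_of_finrank_eq (by rintro _ ⟨w, rfl⟩; simp [tlm, h1, h2]) (by omega)
  refine ⟨fun hv => ?_, fun ⟨s, e, hv⟩ => by rw [hv, map_add, h1, h2, add_zero]⟩
  obtain ⟨w, hw⟩ := h6.ge hv
  exact ⟨w.1, w.2, hw.symm⟩

theorem exists_ker_ext {Q : P → E →L[ℂ] B} {p : P} (hQ : AnalyticAt ℂ Q p) (hs : Surjective (Q p))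
    {w : E} (hw : Q p w = 0) :
    ∃ u : P → E, AnalyticAt ℂ u p ∧ u p = w ∧ ∀ᶠ q in 𝓝 p, Q q (u q) = 0 := by
  obtain ⟨S, hS⟩ := exists_rightInv hs
  obtain ⟨h1, h2⟩ := exists_proj_ker hQ hS w
  exact ⟨_, analyticAt_const.sub ((S.analyticAt _).comp h1), by simp [hw], h2⟩

theorem Nd.eventually (h : Nd f μ c) (hs : Surjective (fderiv ℂ (vals f) c)) :
    ∀ᶠ y in 𝓝 c, Nd f μ y := by
  obtain ⟨v, h1, h2⟩ := h
  obtain ⟨u, h3, rfl, h4⟩ := exists_ker_ext (analyticAt_vals f c).fderiv hs h1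
  filter_upwards [h4, (an_apply (analyticAt_val μ c).fderiv h3).continuousAt.eventually_ne h2]
    with y e1 e2 using ⟨_, e1, e2⟩

theorem Trv.eventually (h : Trv o f c) (hs : Surjective (fderiv ℂ (vals f) c)) :
    ∀ᶠ y in 𝓝 c, Trv o f y := by
  obtain ⟨v, w, h1, h2, h3⟩ := h
  obtain ⟨u, h4, rfl, h5⟩ := exists_ker_ext (analyticAt_vals f c).fderiv hs h1
  obtain ⟨u', h6, rfl, h7⟩ := exists_ker_ext (analyticAt_vals f c).fderiv hs h2
  have h8 : ContinuousAt (fun y => ![y o, u y o, u' y o]) c := by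
    refine continuousAt_pi.2 fun k => ?_
    fin_cases k
    exacts [(continuous_apply o).continuousAt,
      (continuous_apply o).continuousAt.comp h4.continuousAt,
      (continuous_apply o).continuousAt.comp h6.continuousAt]
  filter_upwards [h5, h7, h8.eventually (isOpen_setOfPred_linearIndependent.mem_nhds h3)]
    with y e1 e2 e3 using ⟨_, _, e1, e2, e3⟩

theorem Trv.exists (h : Trv o f c) {d : Fin (M o) → ℂ} (hd : LinearIndependent ℂ ![c o, d]) :
    ∃ n, fderiv ℂ (vals f) c n = 0 ∧ LinearIndependent ℂ ![c o, d, n o] := by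
  obtain ⟨v, w, h1, h2, h3⟩ := h
  by_contra hn
  push Not at hn
  have key : ∀ n, fderiv ℂ (vals f) c n = 0 → ∃ x y : ℂ, n o = x • c o + y • d := fun n h => by
    have := hn n h
    rw [li_triple_iff] at this
    push Not at this
    obtain ⟨e, e', s, h4, h5⟩ := this (li_pair_iff.1 hd).1
    have h6 : e' ≠ 0 := fun h6 => h5 (of_li_pair hd (s := s) (by simpa [h6] using h4)) h6
    refine ⟨s / e', -e / e', smul_right_injective _ h6 ?_⟩
    simp only [smul_add, smul_smul, mul_div_cancel₀ _ h6, ← h4]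
    module
  obtain ⟨x, y, e⟩ := key v h1
  obtain ⟨x', y', e'⟩ := key w h2
  rw [e, e'] at h3
  exact not_li_triple _ _ _ _ _ _ h3

theorem _root_.Vale.Agent.P269.Base.Loc.ci_isolated {γ : Bool → ℂ → V M} (h : Loc o C c γ) {p : V M → Prop}
    (hp : ∀ x y, p x → Orb x y → p y) (h1 : ∀ j, ∀ᶠ z in 𝓝[≠] 0, ¬p (γ j z)) :
    ∀ᶠ y in 𝓝[C] c, p y → Orb c y := by
  refine h.ev _ fun j => ?_
  filter_upwards [ev_ne_one, continuousAt_snd.tendsto.eventually
    (eventually_nhdsWithin_iff.1 (h1 j))] with w e1 e2 e3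
  by_cases hw : w.2 = 0
  · exact ⟨w.1, e1, by rw [hw, h.zero]⟩
  · exact absurd (hp _ _ e3 (Orb.symm ⟨_, e1, rfl⟩)) (e2 hw)

/-- From discs to the set of all smooth points. -/
theorem _root_.Vale.Agent.P269.Base.Nod.ci_residual (hC : Nod o C) {S : V M → Prop} {p : E → V M → Prop}
    (hp : ∀ e x y, p e x → Orb x y → p e y)
    (h : ∀ γ : ℂ → V M, Loc o C (γ 0) (fun _ => γ) → S (γ 0) → ∃ r > 0, ∀ᶠ e in residual E,
      ∀ z, ‖z‖ < r → Loc o C (γ z) (fun _ t => γ (z + t)) → p e (γ z)) :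
    ∀ᶠ e in residual E, ∀ c ∈ C, ¬IsNode o C c → S c → p e c := by
  have := residual_forall (S := {c | c ∈ C ∧ ¬IsNode o C c ∧ S c}) (p := fun c e => p e c)
    fun c hc => by
      obtain ⟨δ, hδ⟩ := hC.exists_loc hc.1
      have h0 := hδ.zero true
      have hγ := hC.loc_of_branch (hδ.br true) (h0.symm ▸ hc.2.1)
      obtain ⟨r, hr, h1⟩ := h _ hγ (h0.symm ▸ hc.2.2)
      have h2 := hγ.ev (fun y => ∃ z : ℂ, ‖z‖ < r ∧ Orb (δ true z) y ∧
          Loc o C (δ true z) fun _ t => δ true (z + t)) fun j => by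
        filter_upwards [continuousAt_snd.tendsto.eventually
          ((tendsto_inr (1 : ι → ℂ) (0 : ℂ)).eventually (hγ.nearby hC true)), ev_ne_one,
          (continuous_snd.norm.continuousAt (x := ((1 : ι → ℂ), (0 : ℂ)))).eventually_lt
            continuousAt_const (by simpa using hr)] with w e1 e2 e3
        exact ⟨w.2, e3, ⟨_, e2, rfl⟩, by simpa using e1 (.inr rfl)⟩
      rw [h0] at h2
      refine ⟨_, nhdsWithin_mono _ (fun _ h => h.1) h2, ?_⟩
      filter_upwards [h1] with e he y ⟨z, e1, e2, e3⟩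
      exact hp _ _ _ (he z e1 e3) e2
  exact this.mono fun e he c h1 h2 h3 => he c ⟨h1, h2, h3⟩

variable {K : E →L[ℂ] Tens M a}

/-- The derivative of the members of a linear system along a vector. -/
noncomputable def dI (K : E →L[ℂ] Tens M a) (c v : V M) : E →L[ℂ] ℂ := (dvL a c v).comp K

theorem dI_apply (c v : V M) (e : E) : dI K c v e = fderiv ℂ (val (K e)) c v :=
  dvL_apply c v (K e)

theorem an_dI {γ w : P → V M} {p : P} (hγ : AnalyticAt ℂ γ p) (hw : AnalyticAt ℂ w p) :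
    AnalyticAt ℂ (fun z => dI K (γ z) (w z)) p :=
  analyticAt_of_apply fun e => by
    simp only [dI_apply]
    exact an_apply ((analyticAt_val (K e) _).fderiv.comp hγ) hw

theorem _root_.Vale.Agent.P269.IsCurve.ci_exists_dI (h : IsCurve o g m C) (ha : ∀ i, 3 ≤ a i)
    (hK : ∀ μ, μ ∈ idl a C ↔ ∃ e, K e = μ)
    {γ : Bool → ℂ → V M} (hγ : Loc o C c γ) {η : V M →L[ℂ] ℂ} (h1 : ∀ s : ι → ℂ, η (s • c) = 0)
    (h2 : ∀ j, η (deriv (γ j) 0) = 0) : ∃ e : E, ∀ v, dI K c v e = η v := by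
  obtain ⟨μ, h3, h4⟩ := h.cut_fderiv ha hγ η h1 h2
  obtain ⟨e, rfl⟩ := (hK μ).1 h3
  exact ⟨e, fun v => by rw [dI_apply, h4]⟩

theorem residual_dI {w : V M} {e : E} (h : dI K c w e ≠ 0) :
    ∀ᶠ e in residual E, dI K c w e ≠ 0 :=
  residual_ne (l := (dI K c w).toLinearMap) (fun e' => h (LinearMap.congr_fun e' e)) 0

variable {γ : ℂ → V M} {Q : ℂ → V M →L[ℂ] B}

theorem _root_.Vale.Agent.P269.IsCurve.ci_res_two (h : IsCurve o g m C) (ha : ∀ i, 3 ≤ a i)
    (hK : ∀ μ, μ ∈ idl a C ↔ ∃ e, K e = μ)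
    (hγ : Loc o C (γ 0) fun _ => γ) (hQ : AnalyticAt ℂ Q 0) (hs : Surjective (Q 0))
    (hd : finrank ℂ B + Fintype.card ι + 2 < ∑ i, M i) :
    ∃ r > 0, ∀ᶠ e in residual E, ∀ z : ℂ, ‖z‖ < r →
      ∃ v, Q z v = 0 ∧ fderiv ℂ (val (K e)) (γ z) v ≠ 0 := by
  obtain ⟨w, η, h1, h2, h3, h4⟩ := exists_cov (Q 0) (γ 0) ![deriv γ 0] (by omega)
  obtain ⟨w', η', h1', h2', h3', h4'⟩ := exists_cov (Q 0) (γ 0) ![deriv γ 0, w] hd
  obtain ⟨e, he⟩ := h.ci_exists_dI ha hK hγ h2 fun _ => h3 0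
  obtain ⟨e', he'⟩ := h.ci_exists_dI ha hK hγ h2' fun _ => h3' 0
  obtain ⟨u, u1, rfl, u2⟩ := exists_ker_ext hQ hs h1
  obtain ⟨u', u1', rfl, u2'⟩ := exists_ker_ext hQ hs h1'
  have a1 : AnalyticAt ℂ (fun z => (dI K (γ z) (u z)).prod (dI K (γ z) (u' z))) 0 :=
    analyticAt_of_apply fun e => (an_apply (an_dI (hγ.an true) u1) analyticAt_const).prod
      (an_apply (an_dI (hγ.an true) u1') analyticAt_const)
  obtain ⟨r, hr, h5⟩ := residual_ne_zero a1 (by
    rw [LinearMap.range_eq_top.2 fun x => ⟨(x.1 / η (u 0)) • e +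
      ((x.2 - x.1 / η (u 0) * η (u' 0)) / η' (u' 0)) • e', ?_⟩]
    · simp
    · have h6 : η' (u 0) = 0 := h3' 1
      refine Prod.ext ?_ ?_
      · simp [he, he', h6, h4]
      · simp [he, he', h4'])
  obtain ⟨r', hr', h6⟩ := Metric.eventually_nhds_iff.1 (u2.and u2')
  refine ⟨min r r', lt_min hr hr', h5.mono fun e h7 z hz => ?_⟩
  have h8 := h6 (y := z) (by simpa using hz.trans_le (min_le_right _ _))
  by_contra hn
  push Not at hn
  exact h7 z (hz.trans_le (min_le_left _ _))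
    (Prod.ext ((dI_apply _ _ _).trans (hn _ h8.1)) ((dI_apply _ _ _).trans (hn _ h8.2)))

theorem _root_.Vale.Agent.P269.IsCurve.ci_res_one (h : IsCurve o g m C) (ha : ∀ i, 3 ≤ a i)
    (hK : ∀ μ, μ ∈ idl a C ↔ ∃ e, K e = μ)
    (hγ : Loc o C (γ 0) fun _ => γ) (hQ : AnalyticAt ℂ Q 0) (hs : Surjective (Q 0))
    (hd : finrank ℂ B + Fintype.card ι + 1 < ∑ i, M i) :
    ∃ r > 0, ∀ᶠ e in residual E, ∀ z : ℂ, ‖z‖ < r → ∀ᶠ t in 𝓝[≠] 0,
      ∃ v, Q (z + t) v = 0 ∧ fderiv ℂ (val (K e)) (γ (z + t)) v ≠ 0 := by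
  obtain ⟨w, η, h1, h2, h3, h4⟩ := exists_cov (Q 0) (γ 0) ![deriv γ 0] hd
  obtain ⟨e, he⟩ := h.ci_exists_dI ha hK hγ h2 fun _ => h3 0
  obtain ⟨u, u1, rfl, u2⟩ := exists_ker_ext hQ hs h1
  have a1 := an_dI (K := K) (hγ.an true) u1
  obtain ⟨r, hr, h5⟩ := residual_simple a1 fun h0 => h4 (by rw [← he, h0]; rfl)
  obtain ⟨r', hr', h6⟩ := Metric.eventually_nhds_iff.1
    (u2.eventually_nhds.and a1.eventually_analyticAt)
  refine ⟨min r r', lt_min hr hr', h5.mono fun e h7 z hz => ?_⟩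
  obtain ⟨h8, h9⟩ := h6 (y := z) (by simpa using hz.trans_le (min_le_right _ _))
  have h10 := an_apply h9 (analyticAt_const (v := e))
  have h11 : ∀ᶠ x in 𝓝[≠] z, dI K (γ x) (u x) e ≠ 0 := by
    by_cases h0 : dI K (γ z) (u z) e = 0
    · exact h10.differentiableAt.hasDerivAt.eventually_ne
        (h7 z (hz.trans_le (min_le_left _ _)) h0)
    · exact mem_nhdsWithin_of_mem_nhds (h10.continuousAt.eventually_ne h0)
  have t1 : Tendsto (fun t => z + t) (𝓝[≠] 0) (𝓝[≠] z) :=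
    tendsto_nhdsWithin_iff.2 ⟨tendsto_nhdsWithin_of_tendsto_nhds (Continuous.tendsto'
      (by fun_prop) _ _ (add_zero z)), eventually_mem_nhdsWithin.mono fun t ht => by simpa using ht⟩
  filter_upwards [t1.eventually h11, t1.eventually (mem_nhdsWithin_of_mem_nhds h8)] with t e1 e2
  exact ⟨_, e2, by rwa [← dI_apply]⟩

variable {l : ℕ} {f : Fin l → Tens M a}

theorem cons_ker {v : V M} (h1 : fderiv ℂ (vals f) c v = 0) (h2 : fderiv ℂ (val μ) c v = 0) :
    fderiv ℂ (vals (Fin.cons μ f : Fin (l + 1) → _)) c v = 0 := funext fun k => by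
  rw [fderiv_vals]
  refine Fin.cases h2 (fun k => ?_) k
  rw [Fin.cons_succ, ← fderiv_vals, h1]
  rfl

theorem Nd.surj (h : Nd f μ c) (hs : Surjective (fderiv ℂ (vals f) c)) :
    Surjective (fderiv ℂ (vals (Fin.cons μ f : Fin (l + 1) → _)) c) := fun x => by
  obtain ⟨v, h1, h2⟩ := h
  obtain ⟨w, hw⟩ := hs (Fin.tail x)
  refine ⟨w + ((x 0 - fderiv ℂ (val μ) c w) / fderiv ℂ (val μ) c v) • v, funext fun k => ?_⟩
  rw [fderiv_vals]
  refine Fin.cases ?_ (fun k => ?_) k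
  · simp [h2]
  · rw [Fin.cons_succ, ← fderiv_vals, map_add, map_smul, h1, hw, smul_zero, add_zero]
    rfl

theorem Trv.exists_fam (h : Trv o f (γ 0)) (hs : Surjective (fderiv ℂ (vals f) (γ 0)))
    (hf : ∀ k, f k ∈ idl a C) (hγ : IsBranch o C γ) (hC : Nod o C) :
    ∃ Q : ℂ → V M →L[ℂ] (Fin l → ℂ) × ℂ, AnalyticAt ℂ Q 0 ∧ Surjective (Q 0) ∧
      ∀ᶠ z in 𝓝 0, ∀ μ ∈ idl a C, (∃ v, Q z v = 0 ∧ fderiv ℂ (val μ) (γ z) v ≠ 0) →
        Trv o (Fin.cons μ f : Fin (l + 1) → _) (γ z) := by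
  obtain ⟨n, h1, h2⟩ := h.exists hγ.imm
  have a1 := analyticAt_pi_iff.1 hγ.holo o
  have a2 := analyticAt_pi_iff.1 hγ.holo.deriv o
  have key : ∀ x : Fin 3 → ℂ, ∃ ℓ : (Fin (M o) → ℂ) →L[ℂ] ℂ, ℓ (γ 0 o) = x 0 ∧
      ℓ (deriv γ 0 o) = x 1 ∧ ℓ (n o) = x 2 := fun x => by
    obtain ⟨ℓ, hℓ⟩ := exists_dual_of_li h2 x
    exact ⟨ℓ.toContinuousLinearMap, hℓ 0, hℓ 1, hℓ 2⟩
  obtain ⟨η₀, h3, h4, h5⟩ := key ![0, 0, 1]
  obtain ⟨η, h6, rfl, h7⟩ := exists_ker_ext (Q := fun z => (ContinuousLinearMap.apply ℂ ℂ (γ z o)).prod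
    (ContinuousLinearMap.apply ℂ ℂ (deriv γ z o))) (p := 0) (analyticAt_of_apply fun ℓ =>
      ((ℓ.analyticAt _).comp a1).prod ((ℓ.analyticAt _).comp a2)) (fun x => by
        obtain ⟨ℓ, e1, e2, -⟩ := key ![x.1, x.2, 0]
        exact ⟨ℓ, Prod.ext e1 e2⟩) (w := η₀) (Prod.ext h3 h4)
  have a3 : AnalyticAt ℂ (fun z => (fderiv ℂ (vals f) (γ z)).prod
      ((η z).comp (ContinuousLinearMap.proj o))) 0 := analyticAt_of_apply fun v =>
    (an_apply ((analyticAt_vals f _).fderiv.comp hγ.holo) analyticAt_const).prod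
      (an_apply h6 (analyticAt_const (v := v o)) :)
  have s1 : Surjective ((fderiv ℂ (vals f) (γ 0)).prod
      ((η 0).comp (ContinuousLinearMap.proj o))) := fun x => by
    obtain ⟨v, hv⟩ := hs x.1
    exact ⟨v + (x.2 - η 0 (v o)) • n, Prod.ext (by simp [hv, h1]) (by simp [h5])⟩
  refine ⟨_, a3, s1, ?_⟩
  filter_upwards [h7, eventually_surjective a3.continuousAt s1, hγ.nearby hC] with z e1 e2 e3 μ hμ
    ⟨v, e4, e5⟩
  have e6 := e3 1 fun _ => one_ne_zero
  simp only [one_smul] at e6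
  have e7 : ∀ μ ∈ idl a C, fderiv ℂ (val μ) (γ z) (deriv γ z) = 0 := fun μ hμ => by
    simpa [deriv_comp_const_add] using fderiv_val_br hμ e6
  have e8 := e6.imm
  simp only [deriv_comp_const_add, add_zero] at e8
  obtain ⟨w, e9⟩ := e2 (0, 1)
  simp only [ContinuousLinearMap.prod_apply, Prod.ext_iff, ContinuousLinearMap.comp_apply,
    ContinuousLinearMap.proj_apply, ContinuousLinearMap.apply_apply, Prod.fst_zero,
    Prod.snd_zero] at e1 e4 e9
  refine ⟨deriv γ z, w - (fderiv ℂ (val μ) (γ z) w / fderiv ℂ (val μ) (γ z) v) • v,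
    cons_ker (funext fun k => (fderiv_vals _ _ _ _).trans (e7 _ (hf k))) (e7 μ hμ),
    cons_ker (by simp [e4.1, e9.1]) (by simp [e5]), li_triple (li_pair_iff.1 e8).1
      fun x y s he => ?_⟩
  have e10 : y = 0 := by simpa [e1.1, e1.2, e4.2, e9.2] using congrArg (η z) he
  exact ⟨of_li_pair e8 (s := s) (by simpa [e10] using he), e10⟩

theorem _root_.Vale.Agent.P269.IsCurve.ci_res_nd (h : IsCurve o g m C) (ha : ∀ i, 3 ≤ a i)
    (hK : ∀ μ, μ ∈ idl a C ↔ ∃ e, K e = μ)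
    (hc : c ∈ C) (hd : l + Fintype.card ι + 1 < ∑ i, M i)
    (hn : IsNode o C c → l + Fintype.card ι + 2 < ∑ i, M i) :
    ∀ᶠ e in residual E, Nd f (K e) c := by
  obtain ⟨δ, hδ⟩ := h.nod.exists_loc hc
  have : ∃ (w : V M) (η : V M →L[ℂ] ℂ), fderiv ℂ (vals f) c w = 0 ∧
      (∀ s : ι → ℂ, η (s • c) = 0) ∧ (∀ j, η (deriv (δ j) 0) = 0) ∧ η w ≠ 0 := by
    by_cases h0 : IsNode o C c
    · obtain ⟨w, η, h1, h2, h3, h4⟩ := exists_cov (fderiv ℂ (vals f) c) c
        ![deriv (δ true) 0, deriv (δ false) 0] (by simpa using hn h0)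
      exact ⟨w, η, h1, h2, fun j => by cases j; exacts [h3 1, h3 0], h4⟩
    · obtain ⟨w, η, h1, h2, h3, h4⟩ := exists_cov (fderiv ℂ (vals f) c) c ![deriv (δ true) 0]
        (by simpa using hd)
      exact ⟨w, η, h1, h2, fun j => hδ.eq_of_not_node h0 j ▸ h3 0, h4⟩
  obtain ⟨w, η, h1, h2, h3, h4⟩ := this
  obtain ⟨e, he⟩ := h.ci_exists_dI ha hK hδ h2 h3
  exact (residual_dI (he w ▸ h4)).mono fun e h5 => ⟨w, h1, by rwa [← dI_apply]⟩

theorem trv_of_node (hf : ∀ k, f k ∈ idl a C) (h : IsNode o C c) : Trv o f c := by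
  obtain ⟨γ, δ, h1, h2, rfl, h3, h4⟩ := h
  exact ⟨_, _, funext fun k => (fderiv_vals _ _ _ _).trans (fderiv_val_br (hf k) h1),
    funext fun k => (fderiv_vals _ _ _ _).trans (h3 ▸ fderiv_val_br (hf k) h2), h4⟩

/-- The curve lies on a smooth complete intersection whose tangent spaces are transverse to the
projection on the factor `o` outside finitely many orbits. -/
theorem _root_.Vale.Agent.P269.IsCurve.ci_exists_surf (h : IsCurve o g m C) (ha : ∀ i, 3 ≤ a i)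
    (hK : ∀ μ, μ ∈ idl a C ↔ ∃ e, K e = μ)
    (ho : 3 ≤ M o) : ∀ l : ℕ, l + Fintype.card ι + 2 ≤ ∑ i, M i → ∃ f : Fin l → Tens M a,
      (∀ k, f k ∈ idl a C) ∧ (∀ c ∈ C, Surjective (fderiv ℂ (vals f) c)) ∧
      (∀ c ∈ C, ∀ᶠ y in 𝓝[C] c, ¬Trv o f y → Orb c y) ∧
      (l + Fintype.card ι + 2 < ∑ i, M i → ∀ c ∈ C, Trv o f c)
  | 0, _ => by
    have : ∀ c ∈ C, Trv o (Fin.elim0 : Fin 0 → Tens M a) c := fun c hc => by
      obtain ⟨δ, hδ⟩ := h.nod.exists_loc hc
      have h1 := hδ.zero true ▸ (hδ.br true).imm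
      obtain ⟨n, hn⟩ := exists_linearIndependent_snoc_of_lt_finrank h1 (by simp; omega)
      refine ⟨deriv (δ true) 0, Pi.single o n, Subsingleton.elim _ _, Subsingleton.elim _ _, ?_⟩
      rwa [show ![c o, deriv (δ true) 0 o, (Pi.single o n : V M) o] =
        Fin.snoc ![c o, deriv (δ true) 0 o] n from funext fun k => by fin_cases k <;> simp [Fin.snoc]]
    exact ⟨Fin.elim0, fun k => k.elim0, fun _ _ => surjective_to_subsingleton _,
      fun c _ => eventually_mem_nhdsWithin.mono fun y hy h => absurd (this y hy) h, fun _ => this⟩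
  | l + 1, hl => by
    obtain ⟨f, h1, h2, -, h3⟩ := ci_exists_surf h ha hK ho l (by omega)
    replace h3 := h3 (by omega)
    obtain ⟨n, z, hz⟩ := h.nod.exists_nodes
    have r1 := h.nod.ci_residual (S := fun _ => True) (p := fun (e : E) c => Nd f (K e) c)
      (fun _ _ _ => Nd.orb) fun γ hγ _ => by
        obtain ⟨r, hr, h4⟩ := h.ci_res_two ha hK hγ ((analyticAt_vals f _).fderiv.comp (hγ.an true))
          (h2 _ hγ.mem) (by simp; omega)
        exact ⟨r, hr, h4.mono fun e he z hz _ => he z hz⟩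
    have r2 := eventually_all.2 fun k => h.ci_res_nd (f := f) ha hK (hz.mem k) (by omega) fun _ => by omega
    have r3 := h.nod.ci_residual (S := fun _ => True) (p := fun (e : E) c => ∃ γ,
      Loc o C c (fun _ => γ) ∧ ∀ᶠ t in 𝓝[≠] 0, Trv o (Fin.cons (K e) f : Fin (l + 1) → _) (γ t))
      (fun e x y ⟨γ, e1, e2⟩ ⟨s, hs, e3⟩ => ⟨_, e3 ▸ e1.smul h.nod hs,
        e2.mono fun t ht => ht.orb ⟨s, hs, rfl⟩⟩) fun γ hγ _ => by
        obtain ⟨Q, q1, q2, q3⟩ := (h3 _ hγ.mem).exists_fam (h2 _ hγ.mem) h1 (hγ.br true) h.nod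
        obtain ⟨r, hr, h4⟩ := h.ci_res_one ha hK hγ q1 q2 (by simp; omega)
        obtain ⟨r', hr', h5⟩ := Metric.eventually_nhds_iff.1 q3.eventually_nhds
        refine ⟨min r r', lt_min hr hr', h4.mono fun e he z hz h6 => ⟨_, h6, ?_⟩⟩
        have t1 : Tendsto (fun t => z + t) (𝓝 0) (𝓝 z) :=
          Continuous.tendsto' (by fun_prop) _ _ (add_zero z)
        filter_upwards [he z (hz.trans_le (min_le_left _ _)), mem_nhdsWithin_of_mem_nhds
          (t1.eventually (h5 (y := z) (by simpa using hz.trans_le (min_le_right _ _))))] with t e1 e2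
        exact e2 _ ((hK _).2 ⟨e, rfl⟩) e1
    have r4 : ∀ᶠ e in residual E, l + 1 + Fintype.card ι + 2 < ∑ i, M i → ∀ c ∈ C,
        ¬IsNode o C c → True → Trv o (Fin.cons (K e) f : Fin (l + 1) → _) c := by
      by_cases hd : l + 1 + Fintype.card ι + 2 < ∑ i, M i
      swap
      · exact .of_forall fun _ h => absurd h hd
      refine (h.nod.ci_residual (p := fun (e : E) c =>
        Trv o (Fin.cons (K e) f : Fin (l + 1) → _) c) (fun _ _ _ => Trv.orb)
          fun γ hγ _ => ?_).mono fun e he _ => he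
      obtain ⟨Q, q1, q2, q3⟩ := (h3 _ hγ.mem).exists_fam (h2 _ hγ.mem) h1 (hγ.br true) h.nod
      obtain ⟨r, hr, h4⟩ := h.ci_res_two ha hK hγ q1 q2 (by simp; omega)
      obtain ⟨r', hr', h5⟩ := Metric.eventually_nhds_iff.1 q3
      exact ⟨min r r', lt_min hr hr', h4.mono fun e he z hz _ => h5 (y := z)
        (by simpa using hz.trans_le (min_le_right _ _)) _ ((hK _).2 ⟨e, rfl⟩)
          (he z (hz.trans_le (min_le_left _ _)))⟩
    obtain ⟨e, -, e1, e2, e3, e4⟩ := exists_of_residual (r1.and (r2.and (r3.and r4))) (e₀ := 0)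
      univ_mem
    have e5 : ∀ k, (Fin.cons (K e) f : Fin (l + 1) → _) k ∈ idl a C :=
      Fin.cases ((hK _).2 ⟨e, rfl⟩) h1
    have e6 : ∀ c ∈ C, Surjective (fderiv ℂ (vals (Fin.cons (K e) f : Fin (l + 1) → _)) c) :=
      fun c hc => Nd.surj (by
        by_cases hn : IsNode o C c
        · exact (hz.ex c hc hn).elim fun k hk => (e2 k).orb hk
        · exact e1 c hc hn trivial) (h2 c hc)
    refine ⟨_, e5, e6, fun c hc => ?_, fun hd c hc => (em _).elim (trv_of_node e5)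
      fun hn => e4 hd c hc hn trivial⟩
    by_cases hn : IsNode o C c
    · exact mem_nhdsWithin_of_mem_nhds (((trv_of_node e5 hn).eventually (e6 c hc)).mono
        fun y hy h' => absurd hy h')
    · obtain ⟨γ, e7, e8⟩ := e3 c hc hn trivial
      exact e7.ci_isolated (fun x y h1 h2 h3 => h1 (h3.orb h2.symm))
        fun _ => e8.mono fun t ht => not_not.2 ht

end Vale.Agent.P269.Base.CIa
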