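import Vale.Agent.P269.Base.CbcA

/-!
# Cohomology and base change
-/

namespace Vale.Agent.P269.Base

open Set Function Topology Filter Holo Module

variable {ι : Type} [Fintype ι] {M : ι → ℕ} {β β' κ κ' : Type*} {o : ι} {χ χ' : ι → ℤ}
  {u n : β → ℤ} {a b : ι → ℕ} {g : ℤ} {m : ι → ℤ} {N : β → ℕ}

variable {T P : Type*} [TopologicalSpace T] [NormedAddCommGroup P] [NormedSpace ℂ P]
  [FiniteDimensional ℂ P] {C : T → Set (V M)} {π : T → P} {t₀ : T} {σ : β → P × ℂ → V M}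
  {y : κ → P → V M} {e f : T → V M → ℂ}

namespace Cbc

theorem val_eq_zero [Finite β] {C : Set (V M)} {z : β → V M} (hC : Nod o C) {μ : Tens M a}
    (h : ∀ c ∈ C, Off z c → val μ c = 0) : ∀ c ∈ C, val μ c = 0 := fun c hc => by
  by_contra hn
  obtain ⟨w, h1, h2, h3⟩ := ((hC.frequently_not_orb z hc).and_eventually
    ((((analyticAt_val μ c).continuousAt.eventually_ne hn).filter_mono nhdsWithin_le_nhds).and
      self_mem_nhdsWithin)).exists
  exact h2 (h w h3 h1)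

/-- Jets along the discs and normalised values at the evaluation points. -/
noncomputable def jv (π : T → P) (σ : β → P × ℂ → V M) (e : T → V M → ℂ) (a : ι → ℕ) (N : β → ℕ)
    (y : κ → P → V M) (t : T) : Tens M a →L[ℂ] (∀ k, Fin (N k) → ℂ) × (κ → ℂ) :=
  (jetL a σ N (π t)).prod
    (ContinuousLinearMap.pi fun k => (e t (y k (π t)))⁻¹ • evL a (y k (π t)))

/-- The properties of the fibres near the central one. -/
structure Good (o : ι) (g : ℤ) (m : ι → ℤ) (C : T → Set (V M)) (π : T → P) (χ : ι → ℤ)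
    (σ : β → P × ℂ → V M) (u : β → ℤ) (χ' : ι → ℤ) (n : β → ℤ) (e : T → V M → ℂ) (a : ι → ℕ)
    (N : β → ℕ) (y : κ → P → V M) (t : T) : Prop where
  pres : Pres o C π t χ σ u χ' n e a N
  crv : IsCurve o g m (C t)
  mov : Mov C π t σ y

theorem good [Finite β] [Finite κ] (h : Pres o C π t₀ χ σ u χ' n e a N)
    (h0 : IsCurve o g m (C t₀)) (hy : Mov C π t₀ σ y) :
    ∀ᶠ t in 𝓝 t₀, Good o g m C π χ σ u χ' n e a N y t := by
  filter_upwards [h.fam.eventually, h.pts.eventually h.fam, h.mer.eventually h.fam h.pts,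
    h.mer.eventually_triv h.fam h.pts h.triv, h.fam.isCurve h0, hy.eventually h.fam h.pts]
    with t h1 h2 h3 h4 h5 h6
  exact ⟨⟨h1, h2, h3, h4, h.ne, h.deg, h.ord⟩, h5, h6⟩

namespace Good

variable {t : T} (h : Good o g m C π χ σ u χ' n e a N y t) {μ μ' : Tens M a}
include h

omit [FiniteDimensional ℂ P] in
theorem e_ne (k : κ) : e t (y k (π t)) ≠ 0 :=
  h.pres.triv.ne _ (h.mov.mem k).self_of_nhds (h.mov.off k)

omit [FiniteDimensional ℂ P] in
theorem jv_eq {j : ∀ k, Fin (N k) → ℂ} {w : κ → ℂ} : jv π σ e a N y t μ = (j, w) ↔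
    jetL a σ N (π t) μ = j ∧ ∀ k, val μ (y k (π t)) = w k * e t (y k (π t)) := by
  refine Prod.ext_iff.trans (and_congr Iff.rfl (funext_iff.trans (forall_congr' fun k => ?_)))
  change (e t (y k (π t)))⁻¹ * val μ (y k (π t)) = w k ↔ _
  rw [inv_mul_eq_iff_eq_mul₀ (h.e_ne k), mul_comm]

theorem br (k : β) : IsBranch o (C t) (fun w => σ k (π t, w)) ∧
    Orb (ctr σ (π t) k) (σ k (π t, 0)) := ⟨h.pres.pts.isBranch h.pres.fam k, .refl _⟩

theorem jv_congr (hμ : ∀ c ∈ C t, val μ c = val μ' c) :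
    jv π σ e a N y t μ = jv π σ e a N y t μ' := by
  refine Prod.ext (funext fun k => ?_) (funext fun k => ?_)
  · change jetL a σ N (π t) μ k = jetL a σ N (π t) μ' k
    rw [jetL_apply (h.pres.pts.chart k).an, jetL_apply (h.pres.pts.chart k).an]
    exact jet_congr ((h.br k).1.mem.mono fun w hw => hμ _ hw)
  · change _ * val μ (y k (π t)) = _ * val μ' (y k (π t))
    rw [hμ _ (h.mov.mem k).self_of_nhds]

theorem mer (hμ : jetL a σ N (π t) μ = 0) :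
    Mer o (C t) χ (ctr σ (π t)) u fun c => val μ c / e t c :=
  Mer.of_form h.crv.nod (h.pres.pts.spt h.pres.fam) h.pres.triv h.pres.deg h.pres.ord h.br
    fun k => by rw [← jetL_apply (h.pres.pts.chart k).an, hμ]; rfl

theorem form [Finite β] {s : V M → ℂ} (hs : Mer o (C t) χ (ctr σ (π t)) u s) :
    ∃ μ : Tens M a, jv π σ e a N y t μ = (0, fun k => s (y k (π t))) ∧
      ∀ c ∈ C t, Off (ctr σ (π t)) c → val μ c = s c * e t c := by
  obtain ⟨μ, h1, h2⟩ := hs.exists_form h.crv (h.pres.pts.spt h.pres.fam) h.pres.triv h.pres.ne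
    h.pres.deg h.pres.ord h.br
  exact ⟨μ, h.jv_eq.2 ⟨funext fun k => by rw [jetL_apply (h.pres.pts.chart k).an, h1 k]; rfl,
    fun k => h2 _ (h.mov.mem k).self_of_nhds (h.mov.off k)⟩, h2⟩

theorem hol [Fintype β] [Fintype κ] : HolAt π (jv π σ e a N y) t := by
  refine (HolAt.of_an (an_jetL fun k => (h.pres.pts.chart k).an)).prodL
    (HolAt.of_apply fun μ => HolAt.pi fun k => ?_)
  exact ((h.pres.mer.holAt h.pres.fam (HolAt.of_an (h.mov.an k)) (h.mov.mem k)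
    (h.mov.off k)).comp_an (analyticAt_inv (h.e_ne k))).smul
      (HolAt.of_an (an_val analyticAt_const (h.mov.an k)))

end Good

/-- The frame of the image of the forms. -/
theorem exists_frame [Fintype β] [Fintype κ] (h : Pres o C π t₀ χ σ u χ' n e a N)
    (h0 : IsCurve o g m (C t₀)) (hy : Evp o C π t₀ χ σ u y) :
    ∃ (r : ℕ) (S : (Fin r → ℂ) →L[ℂ] Tens M a), (r : ℤ) = dg m a + 1 - g ∧
      IsFrame π {z | z.2 ∈ range (jv π σ e a N y z.1)} (fun t => (jv π σ e a N y t).comp S) t₀ ∧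
      ∀ᶠ t in 𝓝 t₀, ∀ μ : Tens M a, ∃ x, ∀ c ∈ C t, val μ c = val (S x) c := by
  have hG := good h h0 hy.toMov
  have h1 := hG.self_of_nhds
  obtain ⟨S, hS⟩ := h.fam.exists_compl h0 h.ne (h0.finrank_Hs h.ne)
  refine ⟨_, S, h0.finrank_Hs h.ne, ⟨h1.hol.clm_comp (HolAt.const S),
    (injective_iff_map_eq_zero _).2 fun x hx => ?_, ?_⟩, hS.mono fun t ht => ht.2⟩
  · obtain ⟨h2, h3⟩ := h1.jv_eq.1 hx
    refine hS.self_of_nhds.1 x (val_eq_zero (z := ctr σ (π t₀)) h0.nod fun c hc ho => ?_)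
    exact (div_eq_zero_iff.1 (hy.inj _ (h1.mer h2)
      (fun k => (div_eq_iff (h1.e_ne k)).2 (h3 k)) c hc ho)).resolve_right (h.triv.ne c hc ho)
  · filter_upwards [hG, hS] with t h2 h3 w
    refine ⟨?_, fun ⟨x, hx⟩ => ⟨S x, hx⟩⟩
    rintro ⟨μ, rfl⟩
    obtain ⟨x, hx⟩ := h3.2 μ
    exact ⟨x, (h2.jv_congr hx).symm⟩

end Cbc

open Cbc

/-- The image of the forms under jets and values is a holomorphic subbundle. -/
theorem Pres.exists_coker [Fintype β] [Fintype κ] (h : Pres o C π t₀ χ σ u χ' n e a N)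
    (h0 : IsCurve o g m (C t₀)) (hy : Evp o C π t₀ χ σ u y) :
    ∃ (r : ℕ) (K : P → ((∀ k, Fin (N k) → ℂ) × (κ → ℂ)) →L[ℂ] Fin r → ℂ),
      AnalyticAt ℂ K (π t₀) ∧ Surjective (K (π t₀)) ∧
      (Fintype.card κ - r : ℤ) = dgz m χ - ∑ k, u k + 1 - g ∧
      ∀ᶠ t in 𝓝 t₀, (∀ j w, K (π t) (j, w) = 0 ↔ ∃ μ : Tens M a, jetL a σ N (π t) μ = j ∧
        ∀ k, val μ (y k (π t)) = w k * e t (y k (π t))) ∧
        ∀ w, K (π t) (0, w) = 0 ↔ (t, w) ∈ Sol o C π χ σ u y := by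
  obtain ⟨r, S, hr, hS, -⟩ := Cbc.exists_frame h h0 hy
  obtain ⟨c, hc⟩ := Nat.exists_eq_add_of_le (LinearMap.finrank_le_finrank_of_injective
    (f := ((jv π σ e a N y t₀).comp S).toLinearMap) hS.inj)
  obtain ⟨j, K', ⟨K, h1, h2⟩, h3⟩ := hS.exists_ker h.fam.cont.self_of_nhds hc.symm
  refine ⟨c, K, h1, fun v => ⟨_, h2.self_of_nhds ▸ h3.self_of_nhds.2.1 0 v⟩, ?_, ?_⟩
  · have h4 := h.triv.degree h0 (h.pts.spt h.fam)
    have h5 : dg m a = dgz m χ + dgz m χ' := by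
      rw [← dgz_add, ← dgz_nat]
      exact congrArg _ (funext h.deg)
    have h6 : ((∑ k, N k : ℕ) : ℤ) = ∑ k, u k + ∑ k, n k := by
      simp [h.ord, Finset.sum_add_distrib]
    simp only [finrank_prod, finrank_pi_fintype, finrank_self, Finset.sum_const, Finset.card_univ,
      Fintype.card_fin, smul_eq_mul, mul_one] at hc
    omega
  · filter_upwards [good h h0 hy.toMov, h2, h3] with t h4 h5 h6
    have h7 : ∀ j w, K (π t) (j, w) = 0 ↔ ∃ μ, jv π σ e a N y t μ = (j, w) := fun j w =>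
      h5 ▸ (h6.2.2 (j, w)).symm
    refine ⟨fun j w => (h7 j w).trans (exists_congr fun μ => h4.jv_eq), fun w => (h7 0 w).trans
      ⟨fun ⟨μ, hμ⟩ => ?_, fun ⟨s, h8, h9⟩ => ?_⟩⟩
    · obtain ⟨h8, h9⟩ := h4.jv_eq.1 hμ
      exact ⟨_, h4.mer h8, fun k => (div_eq_iff (h4.e_ne k)).2 (h9 k)⟩
    · obtain ⟨μ, hμ, -⟩ := h4.form h8
      exact ⟨μ, hμ.trans (congrArg _ (funext h9))⟩

namespace Cbc

theorem evp_eventually [Fintype β] [Fintype κ] (h : Pres o C π t₀ χ σ u χ' n e a N)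
    (h0 : IsCurve o g m (C t₀)) (hy : Evp o C π t₀ χ σ u y) :
    ∀ᶠ t in 𝓝 t₀, Evp o C π t χ σ u y := by
  obtain ⟨r, S, -, hS, h1⟩ := Cbc.exists_frame h h0 hy
  filter_upwards [good h h0 hy.toMov, hS.eventually_inj h.fam.cont.self_of_nhds, h1]
    with t h2 h3 h4
  refine ⟨h2.mov, fun s hs h5 c hc ho => ?_⟩
  obtain ⟨μ, h6, h7⟩ := h2.form hs
  obtain ⟨x, hx⟩ := h4 μ
  obtain rfl : x = 0 := (injective_iff_map_eq_zero _).1 h3 x
    (((h2.jv_congr hx).symm.trans h6).trans (Prod.ext rfl (funext h5)))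
  refine (mul_eq_zero.1 ((h7 c hc ho).symm.trans ((hx c hc).trans ?_))).resolve_right
    (h2.pres.triv.ne c hc ho)
  rw [map_zero, val_zero]

theorem evp_fmer [Fintype β] [Fintype κ] (h : Pres o C π t₀ χ σ u χ' n e a N)
    (h0 : IsCurve o g m (C t₀)) (hy : Evp o C π t₀ χ σ u y)
    (hf : ∀ᶠ t in 𝓝 t₀, Mer o (C t) χ (ctr σ (π t)) u (f t))
    (hv : ∀ k, HolAt π (fun t => f t (y k (π t))) t₀) : FMer o C π t₀ χ σ u f := by
  obtain ⟨r, S, -, hS, h1⟩ := Cbc.exists_frame h h0 hy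
  obtain ⟨L, h2, h3⟩ := hS.exists_leftInv h.fam.cont.self_of_nhds
  have h4 : HolAt π (fun t => S (L t (0, fun k => f t (y k (π t))))) t₀ :=
    (h2.apply ((HolAt.const 0).prod (HolAt.pi hv))).clm S
  have h5 : ∀ᶠ t in 𝓝 t₀, jetL a σ N (π t) (S (L t (0, fun k => f t (y k (π t))))) = 0 ∧
      ∀ c ∈ C t, Off (ctr σ (π t)) c →
        f t c = val (S (L t (0, fun k => f t (y k (π t))))) c * (e t c)⁻¹ := by
    filter_upwards [good h h0 hy.toMov, hf, h1, h3] with t h5 h6 h7 h8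
    obtain ⟨μ, h9, h10⟩ := h5.form h6
    obtain ⟨x, hx⟩ := h7 μ
    have h11 := (h5.jv_congr hx).symm.trans h9
    rw [← h11, show L t (jv π σ e a N y t (S x)) = x from h8 x]
    refine ⟨(h5.jv_eq.1 h11).1, fun c hc ho => ?_⟩
    rw [← hx c hc, h10 c hc ho, mul_inv_cancel_right₀ (h5.pres.triv.ne c hc ho)]
  refine (((FMer.of_jet h.fam h.pts h4 (h5.mono fun t ht => ht.1)).mul
    (h.mer.inv h.fam h.pts h.triv)).cast (funext fun i => ?_) (funext fun k => ?_)).congr h.fam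
      h.pts (hf.mono fun t ht => ht.hom) (h5.mono fun t ht => ht.2)
  · simp [h.deg]
  · simp [h.ord]

variable {τ : β' → P × ℂ → V M} {t : T}

omit [FiniteDimensional ℂ P] in
theorem off_of_sum (h : Pts o C π t (Sum.elim σ τ)) (k : β') :
    Off (ctr σ (π t)) (ctr τ (π t) k) := fun k' e => nomatch h.inj (.inl k') (.inr k) e

omit [FiniteDimensional ℂ P] in
theorem mer_ext (h : Pts o C π t (Sum.elim σ τ)) {s : V M → ℂ}
    (hs : Mer o (C t) χ (ctr σ (π t)) u s) :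
    Mer o (C t) χ (ctr (Sum.elim σ τ) (π t)) (Sum.elim u 0) s :=
  ctr_sum (σ := σ) (σ' := τ) (π t) ▸ hs.ext (off_of_sum h)

theorem mer_remove [Finite β] [Finite β'] (h : Pts o C π t (Sum.elim σ τ)) (hf : LocFam o C π t)
    {s : V M → ℂ} (hs : Mer o (C t) χ (ctr (Sum.elim σ τ) (π t)) (Sum.elim u 0) s) :
    ∃ s', Mer o (C t) χ (ctr σ (π t)) u s' ∧ ∀ c, Off (ctr τ (π t)) c → s' c = s c := by
  have h1 := h.spt hf
  rw [ctr_sum] at hs h1
  obtain ⟨s', h2, h3, -⟩ := hs.remove hf.nod h1 le_rfl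
  exact ⟨s', h2, h3⟩

omit [FiniteDimensional ℂ P] in
theorem off_ctr {p : P} {c : V M} :
    Off (ctr (Sum.elim σ τ) p) c ↔ Off (ctr σ p) c ∧ Off (ctr τ p) c := by
  rw [ctr_sum, off_sum]

theorem evp_ext [Finite β] [Finite β'] (hy : Evp o C π t χ σ u y)
    (h : Pts o C π t (Sum.elim σ τ)) (hf : LocFam o C π t)
    (ho : ∀ k, Off (ctr τ (π t)) (y k (π t))) :
    Evp o C π t χ (Sum.elim σ τ) (Sum.elim u 0) y := by
  refine ⟨⟨hy.an, hy.mem, fun k => off_ctr.2 ⟨hy.off k, ho k⟩⟩, fun s hs h1 c hc h2 => ?_⟩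
  obtain ⟨s', h3, h4⟩ := mer_remove h hf hs
  rw [← h4 c (off_ctr.1 h2).2]
  exact hy.inj s' h3 (fun k => (h4 _ (ho k)).trans (h1 k)) c hc (off_ctr.1 h2).1

omit [FiniteDimensional ℂ P] in
theorem evp_remove [Finite β] [Finite β'] (hy : Evp o C π t χ (Sum.elim σ τ) (Sum.elim u 0) y)
    (h : Pts o C π t (Sum.elim σ τ)) (hf : LocFam o C π t) : Evp o C π t χ σ u y :=
  ⟨⟨hy.an, hy.mem, fun k => (off_ctr.1 (hy.off k)).1⟩, fun s hs h1 =>
    hs.eq_of_off (Mer.zero (χ := χ) (u := u)) hf.nod fun c hc h2 h3 =>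
      hy.inj s (mer_ext h hs) h1 c hc (off_ctr.2 ⟨h2, h3⟩)⟩

theorem sol_ext [Finite β] [Finite β'] (hy : Mov C π t (Sum.elim σ τ) y)
    (h : Pts o C π t (Sum.elim σ τ)) (hf : LocFam o C π t) (w : κ → ℂ) :
    (t, w) ∈ Sol o C π χ (Sum.elim σ τ) (Sum.elim u 0) y ↔ (t, w) ∈ Sol o C π χ σ u y := by
  refine ⟨fun ⟨s, h1, h2⟩ => ?_, fun ⟨s, h1, h2⟩ => ⟨s, mer_ext h h1, h2⟩⟩
  obtain ⟨s', h3, h4⟩ := mer_remove h hf h1
  exact ⟨s', h3, fun k => (h4 _ (off_ctr.1 (hy.off k)).2).trans (h2 k)⟩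

/-- A presentation adapted to evaluation points. -/
theorem exists_pres [Finite β] [Finite κ] (hy : Evp o C π t₀ χ σ u y) (h : LocFam o C π t₀)
    (hσ : Pts o C π t₀ σ) : ∃ (r : ℕ) (τ : Fin r → P × ℂ → V M) (χ' : ι → ℤ) (n : β ⊕ Fin r → ℤ)
      (e : T → V M → ℂ) (a : ι → ℕ) (N : β ⊕ Fin r → ℕ),
      Pres o C π t₀ χ (Sum.elim σ τ) (Sum.elim u 0) χ' n e a N ∧
      Evp o C π t₀ χ (Sum.elim σ τ) (Sum.elim u 0) y := by
  obtain ⟨b, lam, r, τ, d, a, N, -, h1, -, -, h2⟩ := h.exists_Pres hσ χ u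
    (w := fun k => y k (π t₀)) fun k => ⟨h.nod.ne_zero _ (hy.mem k).self_of_nhds, hy.off k⟩
  exact ⟨r, τ, _, _, _, a, N, h2, evp_ext hy h2.pts h h1⟩

end Cbc

namespace Evp

variable [Fintype β] [Fintype κ]

/-- Upper semicontinuity. -/
theorem eventually (hy : Evp o C π t₀ χ σ u y) (h : LocFam o C π t₀) (h0 : IsCurve o g m (C t₀))
    (hσ : Pts o C π t₀ σ) : ∀ᶠ t in 𝓝 t₀, Evp o C π t χ σ u y := by
  obtain ⟨r, τ, χ', n, e, a, N, h1, h2⟩ := exists_pres hy h hσ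
  filter_upwards [evp_eventually h1 h0 h2, h1.pts.eventually h, h.eventually] with t h3 h4 h5
    using evp_remove h3 h4 h5

/-- A family of sections with holomorphic values is holomorphic. -/
theorem fmer (hy : Evp o C π t₀ χ σ u y) (h : LocFam o C π t₀) (h0 : IsCurve o g m (C t₀))
    (hσ : Pts o C π t₀ σ) (hf : ∀ᶠ t in 𝓝 t₀, Mer o (C t) χ (ctr σ (π t)) u (f t))
    (hv : ∀ k, HolAt π (fun t => f t (y k (π t))) t₀) : FMer o C π t₀ χ σ u f := by
  obtain ⟨r, τ, χ', n, e, a, N, h1, h2⟩ := exists_pres hy h hσ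
  obtain ⟨f', h3, h4⟩ := (evp_fmer h1 h0 h2 (by
    filter_upwards [hf, h1.pts.eventually h] with t h3 h4 using mer_ext h4 h3) hv).remove h h1.pts
      le_rfl
  refine h3.congr h hσ (hf.mono fun t ht => ht.hom) ?_
  filter_upwards [hf, h3.eventually_mer h hσ, h.eventually] with t h5 h6 h7
  exact h5.eq_of_off h6 h7.nod fun c _ _ ho => (h4 t c ho).symm

/-- The Kuranishi model. -/
theorem exists_ker (hy : Evp o C π t₀ χ σ u y) (h : LocFam o C π t₀) (h0 : IsCurve o g m (C t₀))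
    (hσ : Pts o C π t₀ σ) : ∃ (r : ℕ) (D : P → (κ → ℂ) →L[ℂ] Fin r → ℂ), AnalyticAt ℂ D (π t₀) ∧
      (Fintype.card κ - r : ℤ) = dgz m χ - ∑ k, u k + 1 - g ∧
      ∀ᶠ t in 𝓝 t₀, ∀ w, D (π t) w = 0 ↔ (t, w) ∈ Sol o C π χ σ u y := by
  obtain ⟨r, τ, χ', n, e, a, N, h1, h2⟩ := exists_pres hy h hσ
  obtain ⟨r', K, h3, -, h4, h5⟩ := h1.exists_coker h0 h2
  refine ⟨r', fun p => (K p).comp (ContinuousLinearMap.inr ℂ _ _), an_comp h3 analyticAt_const,
    by simpa using h4, ?_⟩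
  filter_upwards [h5, good h1 h0 h2.toMov] with t h6 h7 w
  exact (h6.2 w).trans (sol_ext h7.mov h7.pres.pts h7.pres.fam w)

end Evp

namespace Cbc

variable [Fintype κ] [Fintype κ'] {t : T}

omit [FiniteDimensional ℂ P] in
/-- Sections with an invertible matrix of values form a basis. -/
theorem bas_of_det [DecidableEq κ] (hy : Evp o C π t χ σ u y) {F : κ → V M → ℂ}
    (h1 : ∀ i, Mer o (C t) χ (ctr σ (π t)) u (F i))
    (h2 : (Matrix.of fun k i => F i (y k (π t))).det ≠ 0) : Bas o (C t) χ (ctr σ (π t)) u F := by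
  have h3 : ∀ (x : κ → ℂ) k, (Matrix.of fun k i => F i (y k (π t))).mulVec x k =
      ∑ i, x i * F i (y k (π t)) := fun x k => by simp [Matrix.mulVec, dotProduct, mul_comm]
  refine ⟨h1, fun x hx => Matrix.eq_zero_of_mulVec_eq_zero h2 (funext fun k =>
    (h3 x k).trans (hx _ (hy.mem k).self_of_nhds (hy.off k))), fun s hs => ?_⟩
  obtain ⟨x, hx⟩ := (Matrix.mulVec_surjective_iff_isUnit.2
    ((Matrix.isUnit_iff_isUnit_det _).2 h2.isUnit)) fun k => s (y k (π t))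
  exact ⟨x, fun c hc ho => sub_eq_zero.1 (hy.inj _ (hs.sub (Mer.sum _ fun i _ => (h1 i).smul (x i)))
    (fun k => sub_eq_zero.2 ((congrFun hx k).symm.trans (h3 x k))) c hc ho)⟩

omit [FiniteDimensional ℂ P] in
/-- All values are attained when there are enough sections. -/
theorem mem_sol (hy : Evp o C π t χ σ u y) {F : κ → V M → ℂ} (hF : Bas o (C t) χ (ctr σ (π t)) u F)
    (w : κ → ℂ) : (t, w) ∈ Sol o C π χ σ u y := by
  have h3 : ∀ (x : κ → ℂ) k, (Matrix.of fun k i => F i (y k (π t))).mulVecLin x k =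
      ∑ i, x i * F i (y k (π t)) := fun x k => by simp [Matrix.mulVec, dotProduct, mul_comm]
  have h4 : ∀ x : κ → ℂ, Mer o (C t) χ (ctr σ (π t)) u fun c => ∑ i, x i * F i c := fun x =>
    Mer.sum _ fun i _ => (hF.mer i).smul (x i)
  obtain ⟨x, hx⟩ := LinearMap.injective_iff_surjective.1 ((injective_iff_map_eq_zero
    (Matrix.of fun k i => F i (y k (π t))).mulVecLin).2 fun x hx => hF.li x
      (hy.inj _ (h4 x) fun k => (h3 x k).symm.trans (congrFun hx k))) w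
  exact ⟨_, h4 x, fun k => (h3 x k).symm.trans (congrFun hx k)⟩

theorem frame_of_sol [Fintype β] [DecidableEq κ] {F₀ : κ → V M → ℂ} (h : LocFam o C π t₀)
    (h0 : IsCurve o g m (C t₀)) (hσ : Pts o C π t₀ σ) (hy : Evp o C π t₀ χ σ u y)
    (h1 : ∀ i, Mer o (C t₀) χ (ctr σ (π t₀)) u (F₀ i))
    (h2 : (Matrix.of fun k i => F₀ i (y k (π t₀))).det ≠ 0)
    (hs : ∀ᶠ t in 𝓝 t₀, ∀ w, (t, w) ∈ Sol o C π χ σ u y) :
    ∃ F : κ → T → V M → ℂ, (∀ i, FMer o C π t₀ χ σ u (F i) ∧ F i t₀ = F₀ i) ∧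
      ∀ᶠ t in 𝓝 t₀, Bas o (C t) χ (ctr σ (π t)) u fun i => F i t := by
  have h3 : ∀ i, ∃ G : T → V M → ℂ, ∀ᶠ t in 𝓝 t₀, Mer o (C t) χ (ctr σ (π t)) u (G t) ∧
      (∀ k, G t (y k (π t)) = F₀ i (y k (π t₀))) ∧ (t = t₀ → G t = F₀ i) := fun i => by
    refine Eventually.choice (r := fun t s => Mer o (C t) χ (ctr σ (π t)) u s ∧
      (∀ k, s (y k (π t)) = F₀ i (y k (π t₀))) ∧ (t = t₀ → s = F₀ i)) (hs.mono fun t ht => ?_)
    by_cases e : t = t₀
    · exact ⟨F₀ i, e ▸ h1 i, fun k => by rw [e], fun _ => rfl⟩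
    · obtain ⟨s, h3, h4⟩ := ht fun k => F₀ i (y k (π t₀))
      exact ⟨s, h3, h4, fun e' => absurd e' e⟩
  choose F hF using h3
  refine ⟨F, fun i => ⟨hy.fmer h h0 hσ ((hF i).mono fun t ht => ht.1) fun k =>
    (HolAt.const _).congr ((hF i).mono fun t ht => (ht.2.1 k).symm),
    (hF i).self_of_nhds.2.2 rfl⟩, ?_⟩
  filter_upwards [eventually_all.2 hF, hy.eventually h h0 hσ] with t h3 h4
  exact bas_of_det h4 (fun i => (h3 i).1) (by simpa only [fun i => (h3 i).2.1] using h2)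

omit [FiniteDimensional ℂ P] in
theorem exists_evp [Finite β] [DecidableEq κ] {F₀ : κ → V M → ℂ} (h : LocFam o C π t₀)
    (hF : Bas o (C t₀) χ (ctr σ (π t₀)) u F₀) : ∃ y : κ → P → V M, Evp o C π t₀ χ σ u y ∧
      (Matrix.of fun k i => F₀ i (y k (π t₀))).det ≠ 0 := by
  obtain ⟨y, h1, -, h2⟩ := h.exists_evp hF (p := fun _ => True) fun c hc =>
    (h.nod.frequently_not_node (ctr σ (π t₀)) hc).mono fun _ hy => ⟨trivial, hy.2⟩
  exact ⟨y, h1, h2⟩

end Cbc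

variable [Fintype β] [Fintype κ] {F₀ : κ → V M → ℂ}

/-- A family of sections that is holomorphic at all good moving points is holomorphic. -/
theorem LocFam.fmer (h : LocFam o C π t₀) (h0 : IsCurve o g m (C t₀)) (hσ : Pts o C π t₀ σ)
    (hf : ∀ᶠ t in 𝓝 t₀, Mer o (C t) χ (ctr σ (π t)) u (f t)) {p : V M → Prop}
    (hp : ∀ c ∈ C t₀, ∃ᶠ y in 𝓝[C t₀] c, p y ∧ ¬IsNode o (C t₀) y)
    (hv : ∀ y : P → V M, AnalyticAt ℂ y (π t₀) → (∀ᶠ t in 𝓝 t₀, y (π t) ∈ C t) →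
      Off (ctr σ (π t₀)) (y (π t₀)) → p (y (π t₀)) → HolAt π (fun t => f t (y (π t))) t₀) :
    FMer o C π t₀ χ σ u f := by
  obtain ⟨r, F, hF, -⟩ := h0.exists_bas' (hσ.spt h) χ u
  obtain ⟨y, h1, h2, -⟩ := h.exists_evp hF hp
  exact h1.fmer h h0 hσ hf fun k => hv _ (h1.an k) (h1.mem k) (h1.off k) (h2 k).1

/-- A holomorphic family that is a basis on the central fibre is a basis on the nearby fibres. -/
theorem LocFam.eventually_bas (h : LocFam o C π t₀) (h0 : IsCurve o g m (C t₀))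
    (hσ : Pts o C π t₀ σ) {F : κ → T → V M → ℂ} (hF : ∀ i, FMer o C π t₀ χ σ u (F i))
    (h1 : Bas o (C t₀) χ (ctr σ (π t₀)) u fun i => F i t₀) :
    ∀ᶠ t in 𝓝 t₀, Bas o (C t) χ (ctr σ (π t)) u fun i => F i t := by
  classical
  obtain ⟨y, h2, h3⟩ := Cbc.exists_evp h h1
  have h4 : ContinuousAt (fun t => (Matrix.of fun k i => F i t (y k (π t))).det) t₀ :=
    (continuous_id.matrix_det).continuousAt.comp (f := fun t => Matrix.of fun k i => F i t (y k (π t)))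
      (continuousAt_pi.2 fun k => continuousAt_pi.2 fun i =>
        ((hF i).holAt h (HolAt.of_an (h2.an k)) (h2.mem k) (h2.off k)).cont h.cont.self_of_nhds)
  filter_upwards [h4.eventually_ne h3, h2.eventually h h0 hσ,
    eventually_all.2 fun i => (hF i).eventually_mer h hσ] with t h5 h6 h7
    using bas_of_det h6 h7 h5

/-- **Holomorphic frames** when `h⁰` does not drop. -/
theorem LocFam.exists_frame (h : LocFam o C π t₀) (h0 : IsCurve o g m (C t₀)) (hσ : Pts o C π t₀ σ)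
    (hF : Bas o (C t₀) χ (ctr σ (π t₀)) u F₀)
    (hd : ∀ᶠ t in 𝓝 t₀, ∃ F : κ → V M → ℂ, Bas o (C t) χ (ctr σ (π t)) u F) :
    ∃ F : κ → T → V M → ℂ, (∀ i, FMer o C π t₀ χ σ u (F i) ∧ F i t₀ = F₀ i) ∧
      ∀ᶠ t in 𝓝 t₀, Bas o (C t) χ (ctr σ (π t)) u fun i => F i t := by
  classical
  obtain ⟨y, h2, h3⟩ := Cbc.exists_evp h hF
  refine frame_of_sol h h0 hσ h2 hF.mer h3 ?_
  filter_upwards [hd, h2.eventually h h0 hσ] with t ⟨F, h4⟩ h5 using mem_sol h5 h4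

/-- **Holomorphic frames** when `h¹ = 0`. -/
theorem LocFam.exists_frame' (h : LocFam o C π t₀) (h0 : IsCurve o g m (C t₀))
    (hσ : Pts o C π t₀ σ) (hF : Bas o (C t₀) χ (ctr σ (π t₀)) u F₀)
    (hd : (Fintype.card κ : ℤ) = dgz m χ - ∑ k, u k + 1 - g) :
    ∃ F : κ → T → V M → ℂ, (∀ i, FMer o C π t₀ χ σ u (F i) ∧ F i t₀ = F₀ i) ∧
      ∀ᶠ t in 𝓝 t₀, Bas o (C t) χ (ctr σ (π t)) u fun i => F i t := by
  classical
  obtain ⟨y, h2, h3⟩ := Cbc.exists_evp h hF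
  obtain ⟨r, D, -, h4, h5⟩ := h2.exists_ker h h0 hσ
  obtain rfl : r = 0 := by omega
  exact frame_of_sol h h0 hσ h2 hF.mer h3 (h5.mono fun t ht w => (ht w).1 (Subsingleton.elim _ _))

/-- Every section extends when `h¹ = 0`. -/
theorem LocFam.exists_ext (h : LocFam o C π t₀) (h0 : IsCurve o g m (C t₀))
    (hσ : Pts o C π t₀ σ) (hF : Bas o (C t₀) χ (ctr σ (π t₀)) u F₀)
    (hd : (Fintype.card κ : ℤ) = dgz m χ - ∑ k, u k + 1 - g) {f₀ : V M → ℂ}
    (hf : Mer o (C t₀) χ (ctr σ (π t₀)) u f₀) :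
    ∃ f : T → V M → ℂ, FMer o C π t₀ χ σ u f ∧ f t₀ = f₀ := by
  classical
  obtain ⟨F, h1, -⟩ := h.exists_frame' h0 hσ hF hd
  obtain ⟨x, hx⟩ := hF.span f₀ hf
  have h2 : FMer o C π t₀ χ σ u fun t c => ∑ i, x i * F i t c :=
    FMer.sum _ fun i _ => (h1 i).1.smul (HolAt.const (x i))
  refine ⟨fun t => if t = t₀ then f₀ else fun c => ∑ i, x i * F i t c,
    h2.congr h hσ (h2.hom.mono fun t ht => ?_) (.of_forall fun t c hc ho => ?_), if_pos rfl⟩
  · split_ifs with e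
    exacts [e ▸ hf.hom, ht]
  · split_ifs with e
    · subst e
      simpa only [fun i => (h1 i).2] using hx c hc ho
    · rfl

end Vale.Agent.P269.Base
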