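import Vale.Agent.P269.Base.MerD

/-!
# Evaluation points, solution spaces
-/

namespace Vale.Agent.P269.Base

open Set Function Topology Filter

variable {ι : Type} [Fintype ι] {M : ι → ℕ} {β κ : Type*} {T P : Type*} [TopologicalSpace T]
  [NormedAddCommGroup P] [NormedSpace ℂ P]

/-- Moving points `y k (π t)` of `C t` off the moving points `σ`. -/
structure Mov (C : T → Set (V M)) (π : T → P) (t₀ : T) (σ : β → P × ℂ → V M)
    (y : κ → P → V M) : Prop where
  an : ∀ k, AnalyticAt ℂ (y k) (π t₀)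
  mem : ∀ k, ∀ᶠ t in 𝓝 t₀, y k (π t) ∈ C t
  off : ∀ k, Off (ctr σ (π t₀)) (y k (π t₀))

/-- Moving points at which the sections on the central fibre are determined by their values. -/
structure Evp (o : ι) (C : T → Set (V M)) (π : T → P) (t₀ : T) (χ : ι → ℤ) (σ : β → P × ℂ → V M)
    (u : β → ℤ) (y : κ → P → V M) : Prop extends Mov C π t₀ σ y where
  inj : ∀ f, Mer o (C t₀) χ (ctr σ (π t₀)) u f → (∀ k, f (y k (π t₀)) = 0) →
    ∀ c ∈ C t₀, Off (ctr σ (π t₀)) c → f c = 0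

/-- The values at the points `y` of the sections on the fibres. -/
def Sol (o : ι) (C : T → Set (V M)) (π : T → P) (χ : ι → ℤ) (σ : β → P × ℂ → V M) (u : β → ℤ)
    (y : κ → P → V M) : Set (T × (κ → ℂ)) :=
  {z | ∃ f, Mer o (C z.1) χ (ctr σ (π z.1)) u f ∧ ∀ k, f (y k (π z.1)) = z.2 k}

/-- A presentation: `e` is a family of trivialisations of `O(χ')(-∑ n k • σ k)`, and the sections of
`O(χ)(-∑ u k • σ k)` are the `μ / e` with `μ` a form of degree `a` vanishing to order `N k` at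
`σ k`. -/
structure Pres (o : ι) (C : T → Set (V M)) (π : T → P) (t₀ : T) (χ : ι → ℤ) (σ : β → P × ℂ → V M)
    (u : β → ℤ) (χ' : ι → ℤ) (n : β → ℤ) (e : T → V M → ℂ) (a : ι → ℕ) (N : β → ℕ) : Prop where
  fam : LocFam o C π t₀
  pts : Pts o C π t₀ σ
  mer : FMer o C π t₀ χ' σ n e
  triv : Triv o (C t₀) χ' (ctr σ (π t₀)) n (e t₀)
  ne : a ≠ 0
  deg : ∀ i, (a i : ℤ) = χ i + χ' i
  ord : ∀ k, (N k : ℤ) = u k + n k

end Vale.Agent.P269.Base
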