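import Vale.Agent.P269.Base.FMer
import Vale.Agent.P269.Base.MerE

/-!
# Presentations of spaces of meromorphic sections, evaluation points
-/

namespace Vale.Agent.P269.Base

open Set Function Topology Filter Holo Module

section Lin

variable {E F G κ : Type*} [AddCommGroup E] [Module ℂ E] [AddCommGroup F] [Module ℂ F]
  [AddCommGroup G] [Module ℂ G] [FiniteDimensional ℂ E]

/-- The rank formula for a basis of `ker J` modulo `ker R`. -/
theorem rank_of_ker [Fintype κ] (R : E →ₗ[ℂ] F) (J : E →ₗ[ℂ] G) (μ : κ → E)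
    (h1 : ∀ i, J (μ i) = 0) (h2 : ∀ x : κ → ℂ, R (∑ i, x i • μ i) = 0 → x = 0)
    (h3 : ∀ ν, R ν = 0 → J ν = 0) (h4 : ∀ ν, J ν = 0 → ∃ x : κ → ℂ, R (ν - ∑ i, x i • μ i) = 0) :
    Fintype.card κ + finrank ℂ (LinearMap.range J) = finrank ℂ (LinearMap.range R) := by
  let B : (κ → ℂ) →ₗ[ℂ] E := Fintype.linearCombination ℂ μ
  have hB : ∀ x, B x = ∑ i, x i • μ i := fun x => Fintype.linearCombination_apply ℂ μ x
  have e1 : LinearMap.range B ⊔ LinearMap.ker R = LinearMap.ker J := by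
    refine le_antisymm (sup_le ?_ fun ν hν => h3 ν hν) fun ν hν => ?_
    · rintro _ ⟨x, rfl⟩
      simp [hB, h1]
    · obtain ⟨x, hx⟩ := h4 ν hν
      exact Submodule.mem_sup.2 ⟨B x, ⟨x, rfl⟩, ν - ∑ i, x i • μ i, hx, by rw [hB]; abel⟩
  have e2 : LinearMap.range B ⊓ LinearMap.ker R = ⊥ := by
    rw [eq_bot_iff]
    rintro _ ⟨⟨x, rfl⟩, hx⟩
    have : x = 0 := h2 x (hB x ▸ hx)
    simp [this]
  have e3 : finrank ℂ (LinearMap.range B) = Fintype.card κ := by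
    rw [LinearMap.finrank_range_of_inj, finrank_fintype_fun_eq_card]
    exact (injective_iff_map_eq_zero B).2 fun x hx => h2 x (by rw [← hB, hx, map_zero])
  have e4 := Submodule.finrank_sup_add_finrank_inf_eq (LinearMap.range B) (LinearMap.ker R)
  rw [e1, e2, e3, finrank_bot] at e4
  have e5 := R.finrank_range_add_finrank_ker
  have e6 := J.finrank_range_add_finrank_ker
  omega

/-- A basis of `ker J` modulo `ker R`. -/
theorem exists_of_ker (R : E →ₗ[ℂ] F) (J : E →ₗ[ℂ] G) : ∃ (r : ℕ) (μ : Fin r → E),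
    (∀ i, J (μ i) = 0) ∧ (∀ x : Fin r → ℂ, R (∑ i, x i • μ i) = 0 → x = 0) ∧
      ∀ ν, J ν = 0 → ∃ x : Fin r → ℂ, R (ν - ∑ i, x i • μ i) = 0 := by
  let W := (LinearMap.ker J).map R
  let b := Module.finBasis ℂ W
  choose μ h1 h2 using fun i => Submodule.mem_map.1 (b i).2
  have e : ∀ x : Fin (finrank ℂ W) → ℂ, R (∑ i, x i • μ i) = (∑ i, x i • b i : W) := fun x => by
    simp [h2]
  refine ⟨_, μ, h1, fun x hx => funext (Fintype.linearIndependent_iff.1 b.linearIndependent x ?_),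
    fun ν hν => ⟨b.repr ⟨R ν, ν, hν, rfl⟩, ?_⟩⟩
  · exact Subtype.ext ((e x).symm.trans hx)
  · rw [map_sub, e, b.sum_repr, sub_self]

end Lin

variable {ι : Type} [Fintype ι] {M : ι → ℕ} {β β' κ κ' : Type*} {o : ι} {χ χ' : ι → ℤ}
  {u n : β → ℤ} {a b : ι → ℕ} {g : ℤ} {m : ι → ℤ} {N : β → ℕ}

/-- The choice of a large exponent. -/
theorem exists_exp [Finite β] (o : ι) (χ : ι → ℤ) (u : β → ℤ) (hb : ∀ i, 1 ≤ b i) :
    ∃ (d : ℕ) (a : ι → ℕ), a ≠ 0 ∧ (∀ i, (a i : ℤ) = χ i + (d * b i : ℕ)) ∧ ∀ k, 0 ≤ u k + d := by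
  obtain ⟨d₁, h1⟩ := Finite.exists_le fun i => (χ i).natAbs
  obtain ⟨d₂, h2⟩ := Finite.exists_le fun k => (u k).natAbs
  have h3 : ∀ i, 1 ≤ χ i + ((d₁ + d₂ + 1) * b i : ℕ) := fun i => by
    have h4 := h1 i
    have h5 := Nat.le_mul_of_pos_right (d₁ + d₂ + 1) (hb i)
    omega
  refine ⟨d₁ + d₂ + 1, fun i => (χ i + ((d₁ + d₂ + 1) * b i : ℕ)).toNat, fun e => ?_,
    fun i => Int.toNat_of_nonneg (zero_le_one.trans (h3 i)), fun k => ?_⟩
  · have h4 : (χ o + ((d₁ + d₂ + 1) * b o : ℕ)).toNat = 0 := congrFun e o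
    have h5 := h3 o
    omega
  · have h4 := h2 k
    omega

section One

variable {C : Set (V M)} {z : β → V M} {γ : β → ℂ → V M} {e f : V M → ℂ}

theorem Mer.exists_form [Finite β] (h : Mer o C χ z u f) (hC : IsCurve o g m C) (hz : Spt o C z)
    (he : Triv o C χ' z n e) (ha : a ≠ 0) (h1 : ∀ i, (a i : ℤ) = χ i + χ' i)
    (h2 : ∀ k, (N k : ℤ) = u k + n k) (hγ : ∀ k, IsBranch o C (γ k) ∧ Orb (z k) (γ k 0)) :
    ∃ μ : Tens M a, (∀ k, jet (N k) (fun w => val μ (γ k w)) = 0) ∧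
      ∀ c ∈ C, Off z c → val μ c = f c * e c := by
  have h3 : Mer o C (fun i => a i) z (fun k => N k) fun c => f c * e c :=
    (h.mul he.toMer).cast (funext fun i => (h1 i).symm) (funext fun k => (h2 k).symm)
  obtain ⟨μ, h4, h5⟩ := h3.pol hC ha hz fun k => Int.natCast_nonneg (N k)
  exact ⟨μ, fun k => (dv_iff_jet ((analyticAt_val μ _).comp (hγ k).1.holo)).1
    (h5 k _ (hγ k).1 (hγ k).2), h4⟩

theorem Mer.of_form (hC : Nod o C) (hz : Spt o C z) (he : Triv o C χ' z n e)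
    (h1 : ∀ i, (a i : ℤ) = χ i + χ' i) (h2 : ∀ k, (N k : ℤ) = u k + n k)
    (hγ : ∀ k, IsBranch o C (γ k) ∧ Orb (z k) (γ k 0)) {μ : Tens M a}
    (hμ : ∀ k, jet (N k) (fun w => val μ (γ k w)) = 0) :
    Mer o C χ z u fun c => val μ c / e c := by
  have h3 := (Mer.of_dv (Pol.isSec (val_mem μ)) hC hz fun k => ⟨γ k, (hγ k).1, (hγ k).2,
    (dv_iff_jet ((analyticAt_val μ _).comp (hγ k).1.holo)).2 (hμ k)⟩).mul he.inv.toMer
  simp only [div_eq_mul_inv]
  exact h3.cast (funext fun i => by simp [h1]) (funext fun k => by simp [h2])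

/-- A form that vanishes off finitely many orbits vanishes on the curve. -/
theorem Nod.val_eq_zero [Finite β] (hC : Nod o C) {μ : Tens M a}
    (h : ∀ c ∈ C, Off z c → val μ c = 0) : ∀ c ∈ C, val μ c = 0 := fun c hc =>
  tendsto_nhds_unique_of_frequently_eq
    ((analyticAt_val μ c).continuousAt.tendsto.mono_left (nhdsWithin_le_nhds (s := C)))
    tendsto_const_nhds
    (((hC.frequently_not_orb z hc).and_eventually self_mem_nhdsWithin).mono
      fun y hy => h y hy.2 hy.1)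

/-- The jets along finitely many discs as a linear map. -/
theorem exists_jetM (a : ι → ℕ) (N : β → ℕ) (hγ : ∀ k, AnalyticAt ℂ (γ k) 0) :
    ∃ J : Tens M a →ₗ[ℂ] ∀ k, Fin (N k) → ℂ,
      ∀ μ k, J μ k = jet (N k) fun w => val μ (γ k w) :=
  ⟨⟨⟨fun μ k => jet (N k) fun w => val μ (γ k w), fun μ ν => funext fun k =>
      jet_add ((analyticAt_val μ _).comp (hγ k)) ((analyticAt_val ν _).comp (hγ k))⟩,
    fun r μ => funext fun k => jet_smul (u := fun w => val μ (γ k w)) r⟩, fun _ _ => rfl⟩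

theorem resL_eq_zero {μ : Tens M a} : resL C a μ = 0 ↔ ∀ c ∈ C, val μ c = 0 :=
  ⟨fun h c hc => congrFun h ⟨c, hc⟩, fun h => funext fun c => h c c.2⟩

theorem val_comb [Fintype κ] (x : κ → ℂ) (μ : κ → Tens M a) (c : V M) :
    val (∑ i, x i • μ i) c = ∑ i, x i * val (μ i) c := by
  simp only [val_sum, val_smul']

/-- The dimension of the space of sections in terms of the rank of the jet map. -/
theorem Bas.card_add [Fintype β] [Fintype κ] {F : κ → V M → ℂ} (h : Bas o C χ z u F)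
    (hC : IsCurve o g m C) (hz : Spt o C z) (he : Triv o C χ' z n e) (ha : a ≠ 0)
    (h1 : ∀ i, (a i : ℤ) = χ i + χ' i) (h2 : ∀ k, (N k : ℤ) = u k + n k)
    (hγ : ∀ k, IsBranch o C (γ k) ∧ Orb (z k) (γ k 0))
    {J : Tens M a →ₗ[ℂ] ∀ k, Fin (N k) → ℂ}
    (hJ : ∀ μ k, J μ k = jet (N k) fun w => val μ (γ k w)) :
    (Fintype.card κ : ℤ) + finrank ℂ (LinearMap.range J) =
      dgz m χ - ∑ k, u k + 1 - g + finrank ℂ (∀ k, Fin (N k) → ℂ) := by
  choose μ h3 h4 using fun i => (h.mer i).exists_form hC hz he ha h1 h2 hγ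
  have h5 := rank_of_ker (resL C a) J μ (fun i => funext fun k => (hJ _ k).trans (h3 i k))
    (fun x hx => h.li x fun c hc ho => by
      have e1 := resL_eq_zero.1 hx c hc
      rw [val_comb] at e1
      refine (mul_eq_zero.1 ?_).resolve_right (he.ne c hc ho)
      rw [Finset.sum_mul, ← e1]
      exact Finset.sum_congr rfl fun i _ => by rw [h4 i c hc ho, mul_assoc])
    (fun ν hν => funext fun k => by
      rw [hJ, jet_congr (v := fun _ => 0)
        ((hγ k).1.mem.mono fun w hw => resL_eq_zero.1 hν _ hw)]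
      exact (dv_iff_jet analyticAt_const).1 Dv.const_zero)
    (fun ν hν => by
      obtain ⟨x, hx⟩ := h.span _ (Mer.of_form hC.nod hz he h1 h2 hγ (μ := ν)
        fun k => (hJ ν k).symm.trans (congrFun hν k))
      refine ⟨x, resL_eq_zero.2 (hC.nod.val_eq_zero (z := z) fun c hc ho => ?_)⟩
      have e1 := (div_eq_iff (he.ne c hc ho)).1 (hx c hc ho)
      rw [val_sub, val_comb, e1, Finset.sum_mul, sub_eq_zero]
      exact Finset.sum_congr rfl fun i _ => by rw [h4 i c hc ho, mul_assoc])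
  have h6 := hC.finrank_Hs ha
  have h7 := he.degree hC hz
  have h8 : dg m a = dgz m χ + dgz m χ' := by
    rw [← dgz_nat, ← dgz_add]
    exact congrArg _ (funext h1)
  have h9 : (finrank ℂ (∀ k, Fin (N k) → ℂ) : ℤ) = ∑ k, u k + ∑ k, n k := by
    rw [finrank_pi_fintype, ← Finset.sum_add_distrib, Nat.cast_sum]
    exact Finset.sum_congr rfl fun k _ => by rw [finrank_fin_fun, h2]
  have h10 : (Fintype.card κ : ℤ) + finrank ℂ (LinearMap.range J) = finrank ℂ (Hs C a) := by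
    exact_mod_cast h5
  omega

/-- A basis in terms of a presentation. -/
theorem exists_bas_pres [Finite β] (hC : IsCurve o g m C) (hz : Spt o C z)
    (he : Triv o C χ' z n e) (ha : a ≠ 0) (h1 : ∀ i, (a i : ℤ) = χ i + χ' i)
    (h2 : ∀ k, (N k : ℤ) = u k + n k) (hγ : ∀ k, IsBranch o C (γ k) ∧ Orb (z k) (γ k 0)) :
    ∃ (r : ℕ) (μ : Fin r → Tens M a), (∀ i k, jet (N k) (fun w => val (μ i) (γ k w)) = 0) ∧
      Bas o C χ z u fun i c => val (μ i) c / e c := by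
  obtain ⟨J, hJ⟩ := exists_jetM a N fun k => (hγ k).1.holo
  obtain ⟨r, μ, h3, h4, h5⟩ := exists_of_ker (resL C a) J
  have h6 : ∀ i k, jet (N k) (fun w => val (μ i) (γ k w)) = 0 := fun i k =>
    (hJ _ k).symm.trans (congrFun (h3 i) k)
  have h7 : ∀ (x : Fin r → ℂ) c, ∑ i, x i * (val (μ i) c / e c) =
      val (∑ i, x i • μ i) c / e c := fun x c => by
    simp only [val_comb, Finset.sum_div, mul_div_assoc]
  refine ⟨r, μ, h6, fun i => Mer.of_form hC.nod hz he h1 h2 hγ (h6 i), fun x hx => h4 x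
    (resL_eq_zero.2 (hC.nod.val_eq_zero (z := z) fun c hc ho => ?_)), fun s hs => ?_⟩
  · exact (div_eq_zero_iff.1 ((h7 x c).symm.trans (hx c hc ho))).resolve_right (he.ne c hc ho)
  · obtain ⟨ν, h8, h9⟩ := hs.exists_form hC hz he ha h1 h2 hγ
    obtain ⟨x, hx⟩ := h5 ν (funext fun k => (hJ ν k).trans (h8 k))
    refine ⟨x, fun c hc ho => ?_⟩
    have e1 := resL_eq_zero.1 hx c hc
    rw [val_sub, sub_eq_zero, h9 c hc ho] at e1
    rw [h7, ← e1, mul_div_cancel_right₀ _ (he.ne c hc ho)]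

/-- Removal of special points of order zero. -/
theorem Bas.remove [Finite β] [Finite β'] [Fintype κ] {z' : β' → V M} {F : κ → V M → ℂ}
    (h : Bas o C χ (Sum.elim z z') (Sum.elim u 0) F) (hC : Nod o C)
    (hz : Spt o C (Sum.elim z z')) :
    ∃ F' : κ → V M → ℂ, Bas o C χ z u F' ∧ ∀ i c, Off z' c → F' i c = F i c := by
  choose F' h1 h2 _ using fun i => (h.mer i).remove hC hz le_rfl
  refine ⟨F', ⟨h1, fun x hx => h.li x fun c hc ho => ?_, fun s hs => ?_⟩, h2⟩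
  · rw [← hx c hc (off_sum.1 ho).1]
    exact Finset.sum_congr rfl fun i _ => by rw [h2 i c (off_sum.1 ho).2]
  · obtain ⟨x, hx⟩ := h.span s (hs.ext hz.off_inr)
    refine ⟨x, hs.eq_of_off (z' := z') (Mer.sum Finset.univ fun i _ => (h1 i).smul (x i)) hC
      fun c hc ho ho' => ?_⟩
    rw [hx c hc (off_sum.2 ⟨ho, ho'⟩)]
    exact Finset.sum_congr rfl fun i _ => by rw [h2 i c ho']

/-- Presentations on one curve. -/
theorem Nod.exists_triv [Finite β] (hC : Nod o C) (hz : Spt o C z) (χ : ι → ℤ) (u : β → ℤ) :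
    ∃ (r : ℕ) (w : Fin r → V M) (χ' : ι → ℤ) (d : ℕ) (e : V M → ℂ) (a : ι → ℕ)
      (γ : β ⊕ Fin r → ℂ → V M), Spt o C (Sum.elim z w) ∧
      Triv o C χ' (Sum.elim z w) (fun _ => d) e ∧ a ≠ 0 ∧ (∀ i, (a i : ℤ) = χ i + χ' i) ∧
      (∀ k, 0 ≤ u k + d) ∧ ∀ k, IsBranch o C (γ k) ∧ Orb (Sum.elim z w k) (γ k 0) := by
  obtain ⟨b, l, r, w, hb, h1, h2, h3, -⟩ := hC.exists_pres (β' := Empty) (z' := nofun) hz nofun
  obtain ⟨d, a, h4, h5, h6⟩ := exists_exp o χ u hb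
  choose γ hγ using h1.exists_loc hC
  have h7 := (Triv.of_simp hC (Pol.isSec (val_mem l)) h2 fun k =>
    h3 _ (h2.mem k) (h2.prop k)).2.pow d
  exact ⟨r, w, fun i => (d * b i : ℕ), d, _, a, γ, h1,
    h7.cast (funext fun i => by simp) (funext fun k => by simp), h4, h5, h6,
    fun k => ⟨(hγ k).br true, ((hγ k).zero true).symm ▸ Orb.refl _⟩⟩

theorem sum_elim_zero [Fintype β] [Fintype β'] (u : β → ℤ) :
    ∑ k : β ⊕ β', Sum.elim u 0 k = ∑ k, u k := by
  simp [Fintype.sum_sum_type]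

theorem toNat_elim {d : ℕ} (h : ∀ k, 0 ≤ u k + d) (k : β ⊕ β') :
    (((Sum.elim u 0 k + d).toNat : ℕ) : ℤ) = Sum.elim u 0 k + d := by
  refine Int.toNat_of_nonneg ?_
  rcases k with k | k
  · exact h k
  · simp

/-- The spaces of sections are finite dimensional; the inequality of Riemann. -/
theorem _root_.Vale.Agent.P269.IsCurve.exists_bas' [Fintype β] (hC : IsCurve o g m C)
    (hz : Spt o C z) (χ : ι → ℤ) (u : β → ℤ) : ∃ (r : ℕ) (F : Fin r → V M → ℂ),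
      Bas o C χ z u F ∧ dgz m χ - ∑ k, u k + 1 - g ≤ r := by
  obtain ⟨r, w, χ', d, e, a, γ, h1, h2, h3, h4, h5, h6⟩ := hC.nod.exists_triv hz χ u
  obtain ⟨s, μ, -, h7⟩ := exists_bas_pres hC h1 h2 h3 h4 (toNat_elim h5) h6
  obtain ⟨J, hJ⟩ := exists_jetM a (fun k => (Sum.elim u 0 k + d).toNat) fun k => (h6 k).1.holo
  have h8 := h7.card_add hC h1 h2 h3 h4 (toNat_elim h5) h6 hJ
  obtain ⟨F, hF, -⟩ := h7.remove hC.nod h1
  have h9 := (LinearMap.range J).finrank_le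
  rw [sum_elim_zero, Fintype.card_fin] at h8
  exact ⟨s, F, hF, by omega⟩

/-- `h¹ = 0` means that all jets are attained. -/
theorem Bas.card_iff [Fintype β] [Fintype κ] {F : κ → V M → ℂ} (h : Bas o C χ z u F)
    (hC : IsCurve o g m C) (hz : Spt o C z) (he : Triv o C χ' z n e) (ha : a ≠ 0)
    (h1 : ∀ i, (a i : ℤ) = χ i + χ' i) (h2 : ∀ k, (N k : ℤ) = u k + n k)
    (hγ : ∀ k, IsBranch o C (γ k) ∧ Orb (z k) (γ k 0)) :
    (Fintype.card κ : ℤ) = dgz m χ - ∑ k, u k + 1 - g ↔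
      Surjective fun (μ : Tens M a) k => jet (N k) fun w => val μ (γ k w) := by
  obtain ⟨J, hJ⟩ := exists_jetM a N fun k => (hγ k).1.holo
  have h3 := h.card_add hC hz he ha h1 h2 hγ hJ
  have h4 : (fun (μ : Tens M a) k => jet (N k) fun w => val μ (γ k w)) = J :=
    funext fun μ => funext fun k => (hJ μ k).symm
  rw [h4, ← LinearMap.range_eq_top]
  refine ⟨fun h5 => Submodule.eq_top_of_finrank_eq (by omega), fun h5 => ?_⟩
  rw [h5, finrank_top] at h3
  omega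

/-- Allowing more poles keeps `h¹ = 0`. -/
theorem Bas.mono [Fintype β] [Fintype κ] [Fintype κ'] {F : κ → V M → ℂ} {F' : κ' → V M → ℂ}
    {u' : β → ℤ} (h : Bas o C χ z u F) (h' : Bas o C χ z u' F') (hC : IsCurve o g m C)
    (hz : Spt o C z) (hu : u' ≤ u) (h0 : (Fintype.card κ : ℤ) = dgz m χ - ∑ k, u k + 1 - g) :
    (Fintype.card κ' : ℤ) = dgz m χ - ∑ k, u' k + 1 - g := by
  obtain ⟨r, w, χ', d, e, a, γ, h1, h2, h3, h4, h5, h6⟩ := hC.nod.exists_triv hz χ u'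
  have h7 : ∀ k, 0 ≤ u k + d := fun k => (h5 k).trans (add_le_add (hu k) le_rfl)
  have h8 := ((h.ext hC.nod h1).card_iff hC h1 h2 h3 h4 (toNat_elim h7) h6).1
    (by rw [sum_elim_zero, h0])
  have h9 : ∀ k : β ⊕ Fin r, (Sum.elim u' 0 k + d).toNat ≤ (Sum.elim u 0 k + d).toNat := by
    rintro (k | k)
    · exact Int.toNat_le_toNat (add_le_add (hu k) le_rfl)
    · exact le_rfl
  rw [← sum_elim_zero (β' := Fin r)]
  refine ((h'.ext hC.nod h1).card_iff hC h1 h2 h3 h4 (toNat_elim h5) h6).2 fun v => ?_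
  obtain ⟨μ, hμ⟩ := h8 fun k j => if hj : j.1 < (Sum.elim u' 0 k + d).toNat then v k ⟨j, hj⟩ else 0
  refine ⟨μ, funext fun k => funext fun j => ?_⟩
  exact (congrFun (congrFun hμ k) ⟨j, j.2.trans_le (h9 k)⟩).trans (dif_pos j.2)

end One

variable {T P : Type*} [TopologicalSpace T] [NormedAddCommGroup P] [NormedSpace ℂ P]
  [FiniteDimensional ℂ P] {C : T → Set (V M)} {π : T → P} {t₀ : T} {σ : β → P × ℂ → V M}
  {y : κ → P → V M} {e f : T → V M → ℂ}

/-- A constant complement of the ideals. -/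
theorem LocFam.exists_compl (h : LocFam o C π t₀) (h0 : IsCurve o g m (C t₀)) (ha : a ≠ 0) {r : ℕ}
    (hr : (r : ℤ) = dg m a + 1 - g) : ∃ S : (Fin r → ℂ) →L[ℂ] Tens M a, ∀ᶠ t in 𝓝 t₀,
      (∀ x, (∀ c ∈ C t, val (S x) c = 0) → x = 0) ∧
      ∀ μ : Tens M a, ∃ x, ∀ c ∈ C t, val μ c = val (S x) c := by
  obtain ⟨y, h1, h2⟩ := h.exists_ev h0 ha hr
  obtain ⟨i, hi⟩ := exists_rightInv (l := evP a fun k => y k (π t₀)) h2.self_of_nhds.2.1
  have h5 : AnalyticAt ℂ (fun q => (evP a fun k => y k q).comp i) (π t₀) :=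
    an_comp ((analyticAt_evP _).comp (f := fun q k => y k q) (AnalyticAt.pi fun k => (h1 k).1))
      analyticAt_const
  have h6 : Bijective ((evP a fun k => y k (π t₀)).comp i) :=
    ⟨fun u v e => (hi u).symm.trans (e.trans (hi v)), fun u => ⟨u, hi u⟩⟩
  refine ⟨i, ?_⟩
  filter_upwards [h2,
    h.cont.self_of_nhds.eventually (eventually_bijective h5.continuousAt h6)] with t b1 b4
  refine ⟨fun x hx => b4.1 ((funext fun k => hx _ (b1.1 k)).trans (map_zero _).symm), fun μ => ?_⟩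
  obtain ⟨x, hx⟩ := b4.2 (evP a (fun k => y k (π t)) μ)
  exact ⟨x, fun c hc => sub_eq_zero.1 (b1.2.2 _
    ((Pol.isSec (val_mem μ)).sub (Pol.isSec (val_mem (i x))))
    (fun k => sub_eq_zero.2 (congrFun hx k).symm) c hc)⟩

/-- Presentations exist after adding points. -/
theorem LocFam.exists_Pres [Finite β] [Finite β'] (h : LocFam o C π t₀) (hσ : Pts o C π t₀ σ)
    (χ : ι → ℤ) (u : β → ℤ) {w : β' → V M}
    (hw : ∀ k, (∀ i, w k i ≠ 0) ∧ Off (ctr σ (π t₀)) (w k)) :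
    ∃ (b : ι → ℕ) (lam : P → Tens M b) (r : ℕ) (τ : Fin r → P × ℂ → V M) (d : ℕ) (a : ι → ℕ)
      (N : β ⊕ Fin r → ℕ), AnalyticAt ℂ lam (π t₀) ∧ (∀ k, Off (ctr τ (π t₀)) (w k)) ∧
      FMer o C π t₀ (fun i => b i) (Sum.elim σ τ) 1 (fun t => val (lam (π t))) ∧
      Triv o (C t₀) (fun i => b i) (ctr (Sum.elim σ τ) (π t₀)) 1 (val (lam (π t₀))) ∧
      Pres o C π t₀ χ (Sum.elim σ τ) (Sum.elim u 0) (fun i => (d * b i : ℕ)) (fun _ => d)
        (fun t c => val (lam (π t)) c ^ d) a N := by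
  obtain ⟨b, lam, r, τ, hb, h1, h2, h3, h4, h5⟩ := h.exists_pres hσ hw
  obtain ⟨d, a, h6, h7, h8⟩ := exists_exp o χ u hb
  have h9 : ∀ j, val (lam (π t₀)) (τ j (π t₀, 0)) = 0 := fun j => by
    have e1 := h2.isBranch h (Sum.inr j)
    obtain ⟨x, hx⟩ := h4.ord (Sum.inr j) _ e1 (Orb.refl _)
    exact (Vz.dv (n := 1) hx ((analyticAt_val _ _).comp e1.holo)).eq_zero
  have h10 := h3.zpow h h2 h4 d
  simp only [zpow_natCast] at h10
  refine ⟨b, lam, r, τ, d, a, fun k => (Sum.elim u 0 k + d).toNat, h1, ?_, h3, h4, h, h2,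
    h10.cast (funext fun i => by simp) (funext fun k => by simp),
    (h4.pow d).cast (funext fun i => by simp) (funext fun k => by simp), h6, h7, toNat_elim h8⟩
  rintro k j ⟨s, -, hs⟩
  exact h5 k (by rw [hs, val_smul, ctr, h9, mul_zero])

theorem Mov.eventually [Finite β] [Finite κ] (h : Mov C π t₀ σ y) (hf : LocFam o C π t₀)
    (hσ : Pts o C π t₀ σ) : ∀ᶠ t in 𝓝 t₀, Mov C π t σ y := by
  have hπ := hf.cont.self_of_nhds
  have h1 : ∀ k, ∀ᶠ t in 𝓝 t₀, Off (ctr σ (π t)) (y k (π t)) := fun k =>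
    (continuousAt_id.prodMk ((h.an k).continuousAt.comp hπ)).eventually
      (hσ.eventually_off hf (hf.nod.ne_zero _ (h.mem k).self_of_nhds) (h.off k))
  filter_upwards [eventually_all.2 fun k => hπ.eventually (h.an k).eventually_analyticAt,
    eventually_all.2 fun k => (h.mem k).eventually_nhds, eventually_all.2 h1] with t b1 b2 b3
  exact ⟨b1, b2, b3⟩

omit [FiniteDimensional ℂ P] in
theorem LocFam.exists_mov (h : LocFam o C π t₀) {w : κ → V M}
    (hw : ∀ k, w k ∈ C t₀ ∧ ¬IsNode o (C t₀) (w k) ∧ Off (ctr σ (π t₀)) (w k)) :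
    ∃ y : κ → P → V M, Mov C π t₀ σ y ∧ ∀ k, y k (π t₀) = w k := by
  choose τ h1 h2 using fun k => h.smAt (hw k).1 (hw k).2.1
  exact ⟨fun k p => τ k (p, 0), ⟨fun k => (h2 k).an.comp_of_eq
    (analyticAt_id.prod analyticAt_const) rfl, fun k =>
      ((continuousAt_id.prodMk continuousAt_const).eventually (h2 k).mem).mono
        fun _ ht => ht (mem_univ _), fun k => (h1 k).symm ▸ (hw k).2.2⟩, h1⟩

theorem eq_zero_of_det [Fintype κ] [DecidableEq κ] {A : κ → κ → ℂ} (h : (Matrix.of A).det ≠ 0)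
    {x : κ → ℂ} (hx : ∀ k, ∑ i, x i * A k i = 0) : x = 0 :=
  Matrix.eq_zero_of_mulVec_eq_zero h (funext fun k =>
    (Finset.sum_congr rfl fun _ _ => mul_comm _ _).trans (hx k))

omit [FiniteDimensional ℂ P] in
/-- Evaluation points exist, as many as the dimension of the space of sections. -/
theorem LocFam.exists_evp [Finite β] [Fintype κ] [DecidableEq κ] (h : LocFam o C π t₀)
    {F : κ → V M → ℂ} (hF : Bas o (C t₀) χ (ctr σ (π t₀)) u F) {p : V M → Prop}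
    (hp : ∀ c ∈ C t₀, ∃ᶠ y in 𝓝[C t₀] c, p y ∧ ¬IsNode o (C t₀) y) :
    ∃ y : κ → P → V M, Evp o C π t₀ χ σ u y ∧ (∀ k, p (y k (π t₀)) ∧ ¬IsNode o (C t₀) (y k (π t₀))) ∧
      (Matrix.of fun k i => F i (y k (π t₀))).det ≠ 0 := by
  obtain ⟨w, h1, h2⟩ := h.nod.exists_evp hF.mer hF.li hp
  obtain ⟨y, h3, h4⟩ := h.exists_mov (σ := σ) fun k => ⟨(h1 k).1, (h1 k).2.2.2, (h1 k).2.1⟩
  refine ⟨y, ⟨h3, fun s hs h5 c hc ho => ?_⟩, fun k => (h4 k).symm ▸ (h1 k).2.2,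
    by simpa only [h4] using h2⟩
  obtain ⟨x, hx⟩ := hF.span s hs
  have h6 : x = 0 := eq_zero_of_det h2 fun k =>
    (hx _ (h1 k).1 (h1 k).2.1).symm.trans (h4 k ▸ h5 k)
  simp [hx c hc ho, h6]

/-- Linearly independent sections stay independent. -/
theorem LocFam.eventually_li [Finite β] [Fintype κ] (h : LocFam o C π t₀) (hσ : Pts o C π t₀ σ)
    {F : κ → T → V M → ℂ} (hF : ∀ i, FMer o C π t₀ χ σ u (F i))
    (h1 : ∀ x : κ → ℂ, (∀ c ∈ C t₀, Off (ctr σ (π t₀)) c → ∑ i, x i * F i t₀ c = 0) → x = 0) :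
    ∀ᶠ t in 𝓝 t₀, ∀ x : κ → ℂ,
      (∀ c ∈ C t, Off (ctr σ (π t)) c → ∑ i, x i * F i t c = 0) → x = 0 := by
  classical
  obtain ⟨w, h2, h3⟩ := h.nod.exists_evp (fun i => (hF i).mer h hσ) h1
    (p := fun c => ¬IsNode o (C t₀) c) fun c hc =>
      (h.nod.frequently_not_node (β := Empty) nofun hc).mono fun _ e => e.2
  obtain ⟨y, h4, h5⟩ := h.exists_mov (σ := σ) fun k => ⟨(h2 k).1, (h2 k).2.2, (h2 k).2.1⟩
  have h6 : ∀ k i, ContinuousAt (fun t => F i t (y k (π t))) t₀ := fun k i => by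
    obtain ⟨Φ, e1, e2⟩ := (hF i).holAt h (HolAt.of_an (h4.an k)) (h4.mem k) (h4.off k)
    exact (e1.continuousAt.comp h.cont.self_of_nhds).congr (e2.mono fun _ e => e.symm)
  have h7 : ContinuousAt (fun t => (Matrix.of fun k i => F i t (y k (π t))).det) t₀ :=
    (Continuous.matrix_det continuous_id).continuousAt.comp
      (f := fun t => Matrix.of fun k i => F i t (y k (π t)))
      (continuousAt_pi.2 fun k => continuousAt_pi.2 fun i => h6 k i)
  filter_upwards [h7.eventually_ne (by simpa only [h5] using h3), h4.eventually h hσ]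
    with t b1 b2 x hx
  exact eq_zero_of_det b1 fun k => hx _ (b2.mem k).self_of_nhds (b2.off k)

end Vale.Agent.P269.Base
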