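import Vale.Agent.P269.Holo.Bundle

/-!
# The generalised cross product of covectors, in analytic families
-/

namespace Vale.Agent.P269.Base

open Set Function Topology Filter Module Vale.Agent.P269.Holo

set_option linter.unusedSectionVars false

variable {F P : Type*} [NormedAddCommGroup F] [NormedSpace ℂ F] [FiniteDimensional ℂ F]
  [NormedAddCommGroup P] [NormedSpace ℂ P] {κ : Type} [Fintype κ] [DecidableEq κ]

/-- `ν` is a generalised cross product of families of covectors indexed by `κ`. -/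
structure IsCrs (ν : (κ → F →L[ℂ] ℂ) → F) : Prop where
  an : ∀ g, AnalyticAt ℂ ν g
  ker : ∀ (g : κ → F →L[ℂ] ℂ) k, g k (ν g) = 0
  ne : ∀ g, ν g ≠ 0 ↔ LinearIndependent ℂ g
  smul : ∀ g (c : κ → ℂ), ν (fun k => c k • g k) = (∏ k, c k) • ν g
  add : ∀ g k x y, ν (Function.update g k (x + y)) =
    ν (Function.update g k x) + ν (Function.update g k y)
  comp : ∀ g (A : F →L[ℂ] F),
    A (ν fun k => (g k).comp A) = LinearMap.det (A : F →ₗ[ℂ] F) • ν g

/-- The rows of the determinant defining the cross product. -/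
def crsRow (η : Dual ℂ F) (g : κ → F →L[ℂ] ℂ) : Option κ → Dual ℂ F :=
  fun i => i.elim η fun k => (g k : F →ₗ[ℂ] ℂ)

theorem crsRow_eq (η : Dual ℂ F) (g : κ → F →L[ℂ] ℂ) :
    update (crsRow 0 g) none η = crsRow η g := by
  funext i
  cases i <;> simp [crsRow]

theorem crsRow_update (η : Dual ℂ F) (g : κ → F →L[ℂ] ℂ) (k : κ) (x : F →L[ℂ] ℂ) :
    crsRow η (update g k x) = update (crsRow η g) (some k) (x : F →ₗ[ℂ] ℂ) := by
  funext i
  cases i with
  | none => simp [crsRow]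
  | some j =>
    by_cases h : j = k
    · subst h; simp [crsRow]
    · simp [crsRow, h]

theorem li_coe_iff {ι : Type*} (g : ι → F →L[ℂ] ℂ) :
    LinearIndependent ℂ (fun k => (g k : F →ₗ[ℂ] ℂ)) ↔ LinearIndependent ℂ g :=
  (ContinuousLinearMap.coeLM ℂ).linearIndependent_iff
    (LinearMap.ker_eq_bot.2 ContinuousLinearMap.coe_injective) (v := g)

theorem eq_of_dual {v w : F} (h : ∀ η : Dual ℂ F, η v = η w) : v = w :=
  sub_eq_zero.1 ((forall_dual_apply_eq_zero_iff ℂ _).1 fun η => by rw [map_sub, h, sub_self])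

theorem exists_isCrs (h : Fintype.card κ + 1 = Module.finrank ℂ F) :
    ∃ ν : (κ → F →L[ℂ] ℂ) → F, IsCrs ν := by
  let e : Basis (Option κ) ℂ F := (finBasis ℂ F).reindex
    (Fintype.equivFinOfCardEq (by rw [Fintype.card_option, h])).symm
  let ν : (κ → F →L[ℂ] ℂ) → F := fun g => ∑ j, e.dualBasis.det (crsRow (e.coord j) g) • e j
  have key : ∀ (η : Dual ℂ F) g, η (ν g) = e.dualBasis.det (crsRow η g) := by
    intro η g
    let l : Dual ℂ F →ₗ[ℂ] ℂ := e.dualBasis.det.toMultilinearMap.toLinearMap (crsRow 0 g) none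
    have hl : ∀ η, l η = e.dualBasis.det (crsRow η g) := fun η => by
      rw [← crsRow_eq]; rfl
    rw [← hl, ← e.sum_dual_apply_smul_coord η]
    conv_lhs => rw [e.sum_dual_apply_smul_coord η]
    simp only [ν, ← hl, map_sum, map_smul, smul_eq_mul]
    exact Finset.sum_congr rfl fun _ _ => mul_comm _ _
  refine ⟨ν, fun g => ?_, fun g k => ?_, fun g => ?_, fun g c => ?_, fun g k x y => ?_,
    fun g A => ?_⟩
  · refine Finset.analyticAt_fun_sum _ fun j _ => AnalyticAt.smul ?_ analyticAt_const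
    simp only [Basis.det_apply, Matrix.det_apply', Basis.toMatrix_apply, Basis.dualBasis_repr]
    refine Finset.analyticAt_fun_sum _ fun σ _ => analyticAt_const.mul
      (Finset.analyticAt_fun_prod _ fun i _ => ?_)
    cases i with
    | none => exact analyticAt_const
    | some k =>
      exact ((ContinuousLinearMap.apply ℂ ℂ (e (σ (some k)))).comp
        (ContinuousLinearMap.proj (φ := fun _ : κ => F →L[ℂ] ℂ) k)).analyticAt g
  · exact (key (g k : F →ₗ[ℂ] ℂ) g).trans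
      (e.dualBasis.det.map_eq_zero_of_eq _ (i := none) (j := some k) rfl (by simp))
  · rw [← li_coe_iff]
    constructor
    · intro h0
      by_contra h1
      refine h0 ((forall_dual_apply_eq_zero_iff ℂ _).1 fun η => ?_)
      rw [key]
      exact e.dualBasis.det.map_linearDependent _ fun h2 => h1 (linearIndependent_option.1 h2).1
    · intro h0 h1
      have h2 : Submodule.span ℂ (range fun k => (g k : F →ₗ[ℂ] ℂ)) ≠ ⊤ := by
        intro h3
        have := finrank_span_eq_card h0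
        rw [h3, finrank_top, Subspace.dual_finrank_eq] at this
        omega
      obtain ⟨η, hη⟩ : ∃ η, η ∉ Submodule.span ℂ (range fun k => (g k : F →ₗ[ℂ] ℂ)) := by
        by_contra h3
        exact h2 (eq_top_iff.2 fun η _ => by_contra fun h4 => h3 ⟨η, h4⟩)
      have h3 : LinearIndependent ℂ (crsRow η g) := linearIndependent_option.2 ⟨h0, hη⟩
      have h4 := (e.dualBasis.is_basis_iff_det.1 ⟨h3, h3.span_eq_top_of_card_eq_finrank'
        (by rw [Fintype.card_option, h, Subspace.dual_finrank_eq])⟩).ne_zero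
      rw [← key, h1, map_zero] at h4
      exact h4 rfl
  · refine eq_of_dual fun η => ?_
    have : crsRow η (fun k => c k • g k) = fun i => (i.elim 1 c : ℂ) • crsRow η g i := by
      funext i
      cases i <;> simp [crsRow]
    rw [map_smul, key, key, this, AlternatingMap.map_smul_univ, Fintype.prod_option]
    simp
  · refine eq_of_dual fun η => ?_
    rw [map_add, key, key, key, crsRow_update, crsRow_update, crsRow_update,
      ContinuousLinearMap.toLinearMap_add, AlternatingMap.map_update_add]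
  · refine eq_of_dual fun η => ?_
    have : crsRow (η.comp (A : F →ₗ[ℂ] F)) (fun k => (g k).comp A) =
        (A : F →ₗ[ℂ] F).dualMap ∘ crsRow η g := by
      funext i
      cases i <;> rfl
    refine (key (η.comp (A : F →ₗ[ℂ] F)) _).trans ?_
    rw [this, Basis.det_comp, LinearMap.det_dualMap, map_smul, key, smul_eq_mul]

/-- Vectors killed by all but one of the covectors form a plane. -/
theorem mem_span_two (h : Fintype.card κ + 1 = Module.finrank ℂ F) {g : κ → F →L[ℂ] ℂ} {k₀ : κ}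
    {b₁ b₂ : F} (hb : LinearIndependent ℂ ![b₁, b₂])
    (hi : LinearIndependent ℂ fun k : {k // k ≠ k₀} => g k)
    (h0 : ∀ k ≠ k₀, g k b₁ = 0 ∧ g k b₂ = 0) {v : F} (hv : ∀ k ≠ k₀, g k v = 0) :
    ∃ α β : ℂ, α • b₁ + β • b₂ = v := by
  let W : Subspace ℂ (Dual ℂ F) :=
    Submodule.span ℂ (range fun k : {k // k ≠ k₀} => (g k : F →ₗ[ℂ] ℂ))
  have hW : ∀ v, (∀ k ≠ k₀, g k v = 0) → v ∈ W.dualCoannihilator := fun v hv =>
    (Submodule.mem_dualCoannihilator v).2 fun φ hφ =>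
      (Submodule.span_le (p := LinearMap.ker (Dual.eval ℂ F v))).2
        (by rintro _ ⟨k, rfl⟩; exact hv k k.2) hφ
  have h1 := Subspace.finrank_add_finrank_dualCoannihilator_eq W
  rw [finrank_span_eq_card ((li_coe_iff _).2 hi)] at h1
  have h2 : Fintype.card {k // k ≠ k₀} + 1 = Fintype.card κ := by
    have : 0 < Fintype.card κ := Fintype.card_pos_iff.2 ⟨k₀⟩
    simp only [ne_eq, Fintype.card_subtype_compl, Fintype.card_unique]
    omega
  have h3 : Submodule.span ℂ (range ![b₁, b₂]) = W.dualCoannihilator :=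
    Submodule.eq_of_le_of_finrank_le (Submodule.span_le.2 (by
      rintro _ ⟨i, rfl⟩
      fin_cases i
      · exact hW _ fun k hk => (h0 k hk).1
      · exact hW _ fun k hk => (h0 k hk).2))
      (by rw [finrank_span_eq_card hb, Fintype.card_fin]; omega)
  have h4 := hW v hv
  rw [← h3, Matrix.range_cons, Matrix.range_cons_empty, singleton_union] at h4
  exact Submodule.mem_span_pair.1 h4

theorem IsCrs.two_pt {ν : (κ → F →L[ℂ] ℂ) → F} (hν : IsCrs ν)
    (h : Fintype.card κ + 1 = Module.finrank ℂ F) {g : κ → F →L[ℂ] ℂ} {k₀ : κ} {b₁ b₂ : F}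
    (hi : LinearIndependent ℂ fun k : {k // k ≠ k₀} => g k)
    (h0 : ∀ k ≠ k₀, g k b₁ = 0 ∧ g k b₂ = 0) {x₁ x₂ : F →L[ℂ] ℂ}
    (hΔ : x₂ b₂ * x₁ b₁ - x₂ b₁ * x₁ b₂ ≠ 0) (x : F →L[ℂ] ℂ) :
    ν (update g k₀ x) = (x₁ (ν (update g k₀ x₂)) / (x₂ b₂ * x₁ b₁ - x₂ b₁ * x₁ b₂)) •
      (x b₂ • b₁ - x b₁ • b₂) := by
  have hb : LinearIndependent ℂ ![b₁, b₂] := by
    refine LinearIndependent.pair_iff.2 fun s t hst => ?_
    have e₁ := congrArg x₁ hst
    have e₂ := congrArg x₂ hst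
    simp only [map_add, map_smul, smul_eq_mul, map_zero] at e₁ e₂
    exact ⟨(mul_eq_zero.1 (by linear_combination x₂ b₂ * e₁ - x₁ b₂ * e₂)).resolve_right hΔ,
      (mul_eq_zero.1 (by linear_combination x₁ b₁ * e₂ - x₂ b₁ * e₁)).resolve_right hΔ⟩
  have hN : ∀ y, ∃ α β : ℂ, α • b₁ + β • b₂ = ν (update g k₀ y) := fun y =>
    mem_span_two h hb hi h0 fun k hk => by simpa [hk] using hν.ker (update g k₀ y) k
  have hs : ∀ y : F →L[ℂ] ℂ, y (ν (update g k₀ y)) = 0 := fun y => by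
    simpa using hν.ker (update g k₀ y) k₀
  have ha : ∀ y z : F →L[ℂ] ℂ, y (ν (update g k₀ z)) + z (ν (update g k₀ y)) = 0 := by
    intro y z
    have := hs (y + z)
    rw [hν.add] at this
    simp only [add_apply, map_add, hs] at this
    linear_combination this
  have e₁ := hs x₁
  have e₂ := hs x₂
  have e₃ := ha x₁ x₂
  have e₄ := ha x₁ x
  have e₅ := ha x₂ x
  obtain ⟨α, β, e⟩ := hN x
  obtain ⟨α₁, β₁, e'⟩ := hN x₁
  obtain ⟨α₂, β₂, e''⟩ := hN x₂
  rw [← e'] at e₁ e₃ e₄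
  rw [← e''] at e₂ e₃ e₅ ⊢
  rw [← e] at e₄ e₅ ⊢
  simp only [map_add, map_smul, smul_eq_mul] at e₁ e₂ e₃ e₄ e₅ ⊢
  set a := x₁ b₁
  set b := x₁ b₂
  set c := x₂ b₁
  set d := x₂ b₂
  set u := x b₁
  set w := x b₂
  have g₁ : α₁ * (d * a - c * b) = (α₂ * a + β₂ * b) * b := by
    linear_combination d * e₁ - b * e₃
  have g₂ : β₁ * (d * a - c * b) = -((α₂ * a + β₂ * b) * a) := by
    linear_combination a * e₃ - c * e₁
  have g₃ : α₂ * (d * a - c * b) = (α₂ * a + β₂ * b) * d := by linear_combination (-b) * e₂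
  have g₄ : β₂ * (d * a - c * b) = -((α₂ * a + β₂ * b) * c) := by linear_combination a * e₂
  have f₁ : α = (α₂ * a + β₂ * b) / (d * a - c * b) * w := by
    rw [div_mul_eq_mul_div, eq_div_iff hΔ]
    apply mul_left_cancel₀ hΔ
    linear_combination (d * a - c * b) * (d * e₄ - b * e₅) - d * u * g₁ - d * w * g₂
      + b * u * g₃ + b * w * g₄
  have f₂ : β = -((α₂ * a + β₂ * b) / (d * a - c * b) * u) := by
    rw [div_mul_eq_mul_div, ← neg_div, eq_div_iff hΔ]
    apply mul_left_cancel₀ hΔ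
    linear_combination (d * a - c * b) * (a * e₅ - c * e₄) - a * u * g₃ - a * w * g₄
      + c * u * g₁ + c * w * g₂
  rw [smul_sub, smul_smul, smul_smul, sub_eq_add_neg, ← neg_smul, ← f₁, ← f₂]

theorem IsCrs.two {ν : (κ → F →L[ℂ] ℂ) → F} (hν : IsCrs ν)
    (h : Fintype.card κ + 1 = Module.finrank ℂ F) {g : P → κ → F →L[ℂ] ℂ} {b₁ b₂ : P → F}
    {p₀ : P} (k₀ : κ) (hg : AnalyticAt ℂ g p₀) (h₁ : AnalyticAt ℂ b₁ p₀)
    (h₂ : AnalyticAt ℂ b₂ p₀) (hb : LinearIndependent ℂ ![b₁ p₀, b₂ p₀])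
    (hi : LinearIndependent ℂ fun k : {k // k ≠ k₀} => g p₀ k)
    (h0 : ∀ k ≠ k₀, g p₀ k (b₁ p₀) = 0 ∧ g p₀ k (b₂ p₀) = 0) :
    ∃ ϱ : P → ℂ, AnalyticAt ℂ ϱ p₀ ∧ ϱ p₀ ≠ 0 ∧ ∀ᶠ p in 𝓝 p₀,
      (∀ k ≠ k₀, g p k (b₁ p) = 0 ∧ g p k (b₂ p) = 0) →
        ν (g p) = ϱ p • (g p k₀ (b₂ p) • b₁ p - g p k₀ (b₁ p) • b₂ p) := by
  obtain ⟨l, hl⟩ := (Fintype.linearCombination ℂ ![b₁ p₀, b₂ p₀]).exists_leftInverse_of_injective
    (LinearMap.ker_eq_bot.2 (linearIndependent_iff_injective_fintypeLinearCombination.1 hb))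
  have hl' : ∀ i, l (![b₁ p₀, b₂ p₀] i) = Pi.single i 1 := fun i => by
    simpa using congr($hl (Pi.single i 1))
  let x : Fin 2 → F →L[ℂ] ℂ := fun i =>
    LinearMap.toContinuousLinearMap ((LinearMap.proj i).comp l)
  have x11 : x 0 (b₁ p₀) = 1 := by simpa [x] using congrFun (hl' 0) 0
  have x12 : x 0 (b₂ p₀) = 0 := by simpa [x] using congrFun (hl' 1) 0
  have x21 : x 1 (b₁ p₀) = 0 := by simpa [x] using congrFun (hl' 0) 1
  have x22 : x 1 (b₂ p₀) = 1 := by simpa [x] using congrFun (hl' 1) 1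
  have hΔ : AnalyticAt ℂ (fun p => x 1 (b₂ p) * x 0 (b₁ p) - x 1 (b₁ p) * x 0 (b₂ p)) p₀ :=
    ((((x 1).analyticAt _).comp h₂).mul (((x 0).analyticAt _).comp h₁)).sub
      ((((x 1).analyticAt _).comp h₁).mul (((x 0).analyticAt _).comp h₂))
  have hΔ0 : x 1 (b₂ p₀) * x 0 (b₁ p₀) - x 1 (b₁ p₀) * x 0 (b₂ p₀) ≠ 0 := by
    simp [x11, x12, x21, x22]
  have hgk : ∀ k, AnalyticAt ℂ (fun p => g p k) p₀ := fun k =>
    ((ContinuousLinearMap.proj (R := ℂ) (φ := fun _ : κ => F →L[ℂ] ℂ) k).analyticAt _).comp hg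
  have hu : AnalyticAt ℂ (fun p => update (g p) k₀ (x 1)) p₀ := by
    refine AnalyticAt.pi fun k => ?_
    by_cases hk : k = k₀
    · subst hk
      simpa using analyticAt_const
    · simpa [hk] using hgk k
  refine ⟨fun p => x 0 (ν (update (g p) k₀ (x 1))) /
    (x 1 (b₂ p) * x 0 (b₁ p) - x 1 (b₁ p) * x 0 (b₂ p)),
    (((x 0).analyticAt _).comp ((hν.an _).comp hu)).div hΔ hΔ0, fun h3 => ?_, ?_⟩
  · have h4 := hν.two_pt h hi h0 hΔ0 (x 1)
    rw [show x 0 (ν (update (g p₀) k₀ (x 1))) / _ = 0 from h3, zero_smul] at h4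
    refine (hν.ne _).2 (Fintype.linearIndependent_iff.2 fun c hc => ?_) h4
    rw [Fintype.sum_eq_add_sum_subtype_ne _ k₀, update_self] at hc
    have h5 : ∑ k : {k // k ≠ k₀}, c k • update (g p₀) k₀ (x 1) k =
        ∑ k : {k // k ≠ k₀}, c k • g p₀ k :=
      Finset.sum_congr rfl fun k _ => by rw [update_of_ne k.2]
    rw [h5] at hc
    have h6 : c k₀ = 0 := by
      have := congr($hc (b₂ p₀))
      simp only [add_apply, smul_apply, x22,
        sum_apply, zero_apply] at this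
      rw [Finset.sum_eq_zero fun k _ => by rw [(h0 k k.2).2, smul_zero]] at this
      simpa using this
    rw [h6, zero_smul ℂ (x 1), zero_add] at hc
    intro k
    by_cases hk : k = k₀
    · rw [hk, h6]
    · exact Fintype.linearIndependent_iff.1 hi (fun k => c k) hc ⟨k, hk⟩
  · have h3 : ContinuousAt (fun p => fun k : {k // k ≠ k₀} => g p k) p₀ :=
      continuousAt_pi.2 fun k => (hgk k).continuousAt
    filter_upwards [h3.eventually hi.eventually, hΔ.continuousAt.eventually_ne hΔ0] with p a b c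
    have := hν.two_pt h a c b (g p k₀)
    rwa [update_eq_self] at this

/-- The action of a point of the torus as a continuous linear map. -/
noncomputable def torL {ι : Type*} {M : ι → ℕ} (s : ι → ℂ) :
    (∀ i, Fin (M i) → ℂ) →L[ℂ] (∀ i, Fin (M i) → ℂ) :=
  ContinuousLinearMap.pi fun i => s i • ContinuousLinearMap.proj i

@[simp] theorem torL_apply {ι : Type*} {M : ι → ℕ} (s : ι → ℂ) (v : ∀ i, Fin (M i) → ℂ) :
    torL s v = s • v := rfl

theorem det_torus {ι : Type*} [Fintype ι] [DecidableEq ι] {M : ι → ℕ} (s : ι → ℂ) :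
    LinearMap.det (torL (M := M) s : (∀ i, Fin (M i) → ℂ) →ₗ[ℂ] (∀ i, Fin (M i) → ℂ)) =
      ∏ i, s i ^ M i := by
  let b := Pi.basis fun i => Pi.basisFun ℂ (Fin (M i))
  have : LinearMap.toMatrix b b (torL (M := M) s : _ →ₗ[ℂ] _) = Matrix.diagonal fun x => s x.1 := by
    ext x y
    have h1 : torL s (b y) = s y.1 • b y := by
      obtain ⟨i, j⟩ := y
      funext i'
      by_cases h : i' = i
      · subst h; simp
      · simp [b, h]
    rw [LinearMap.toMatrix_apply, ContinuousLinearMap.coe_coe, h1, map_smul, Basis.repr_self,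
      Matrix.diagonal_apply]
    by_cases h : x = y
    · simp [h]
    · simp [h]
  rw [← LinearMap.det_toMatrix b, this, Matrix.det_diagonal, Fintype.prod_sigma]
  simp

end Vale.Agent.P269.Base
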