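import Vale.Agent.P269.Base.Pol
import Vale.Agent.P269.Base.Fam

/-!
# Local structure of a nodal multicone
-/

namespace Vale.Agent.P269.Base

open Set Function Topology Filter Holo

set_option linter.unusedSectionVars false

variable {ι : Type} [Fintype ι] {M : ι → ℕ} {o : ι} {C : Set (V M)} {c : V M} {a b d : ι → ℕ}

/-- `y` lies in the torus orbit of `c`. -/
def Orb (c y : V M) : Prop := ∃ s : ι → ℂ, (∀ i, s i ≠ 0) ∧ y = s • c

theorem Orb.refl (c : V M) : Orb c c := ⟨1, fun _ => one_ne_zero, (one_smul _ _).symm⟩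

theorem Orb.symm {y : V M} (h : Orb c y) : Orb y c := by
  obtain ⟨s, hs, rfl⟩ := h
  refine ⟨s⁻¹, fun i => inv_ne_zero (hs i), ?_⟩
  rw [smul_smul, show s⁻¹ * s = 1 from funext fun i => inv_mul_cancel₀ (hs i), one_smul]

theorem Orb.trans {y z : V M} (h : Orb c y) (h' : Orb y z) : Orb c z := by
  obtain ⟨s, hs, rfl⟩ := h
  obtain ⟨t, ht, rfl⟩ := h'
  exact ⟨t * s, fun i => mul_ne_zero (ht i) (hs i), smul_smul _ _ _⟩

theorem Orb.of_smul {y : V M} {s : ι → ℂ} (hy : ∀ i, y i ≠ 0) (h : y = s • c) : Orb c y :=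
  ⟨s, fun i hi => hy i (by rw [h, Pi.smul_apply', hi, zero_smul]), h⟩

theorem Nod.orb (h : Nod o C) {y : V M} (hc : c ∈ C) (hy : Orb c y) : y ∈ C := by
  obtain ⟨s, hs, rfl⟩ := hy
  exact h.cone s hs c hc

theorem exists_lin_one (hc : ∀ i, c i ≠ 0) :
    ∃ ζ : ∀ i, (Fin (M i) → ℂ) →L[ℂ] ℂ, ∀ i, ζ i (c i) = 1 := by
  choose ζ hζ using fun i => SeparatingDual.exists_eq_one (R := ℂ) (hc i)
  exact ⟨ζ, hζ⟩

theorem hasFDerivAt_smul {E : Type*} [NormedAddCommGroup E] [NormedSpace ℂ E] {σ : E → V M} {x : E}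
    (hσ : AnalyticAt ℂ σ x) (w : (ι → ℂ) × E) :
    fderiv ℂ (fun w : (ι → ℂ) × E => w.1 • σ w.2) (1, x) w = w.1 • σ x + fderiv ℂ σ x w.2 := by
  have h1 : AnalyticAt ℂ (fun w : (ι → ℂ) × E => w.1 • σ w.2) (1, x) :=
    an_smul analyticAt_fst (hσ.comp_of_eq analyticAt_snd rfl)
  rw [fderiv_prod_apply h1]
  congr 1
  · exact congrArg (fun l : (ι → ℂ) →L[ℂ] V M => l w.1) (ContinuousLinearMap.pi fun i =>
      (ContinuousLinearMap.proj i : (ι → ℂ) →L[ℂ] ℂ).smulRight (σ x i)).fderiv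
  · simp only [one_smul]

/-- coordinates on the cone over an immersed piece -/
theorem exists_retr {E : Type*} [NormedAddCommGroup E] [NormedSpace ℂ E] [FiniteDimensional ℂ E]
    {σ : E → V M} {x : E} (hσ : AnalyticAt ℂ σ x) (hne : ∀ i, σ x i ≠ 0)
    (imm : ∀ (e : E) (s : ℂ), fderiv ℂ σ x e o = s • σ x o → e = 0) :
    ∃ ρ : V M → (ι → ℂ) × E, AnalyticAt ℂ ρ (σ x) ∧
      ∀ᶠ w : (ι → ℂ) × E in 𝓝 (1, x), ρ (w.1 • σ w.2) = w := by
  have h1 : AnalyticAt ℂ (fun w : (ι → ℂ) × E => w.1 • σ w.2) (1, x) :=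
    an_smul analyticAt_fst (hσ.comp_of_eq analyticAt_snd rfl)
  obtain ⟨ρ, h2, h3⟩ := exists_leftInv h1 ((injective_iff_map_eq_zero _).2 fun w hw => by
    rw [hasFDerivAt_smul hσ] at hw
    have h2 : w.2 = 0 := imm _ (-w.1 o) (by
      have := congrFun hw o
      rw [Pi.add_apply, Pi.smul_apply', Pi.zero_apply] at this
      rw [neg_smul]
      exact eq_neg_of_add_eq_zero_right this)
    rw [h2, map_zero, add_zero] at hw
    exact Prod.ext (funext fun i => (smul_eq_zero.1 (congrFun hw i)).resolve_right (hne i)) h2)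
  exact ⟨ρ, by simpa using h2, h3⟩

theorem li_pair_iff {F : Type*} [AddCommGroup F] [Module ℂ F] {u v : F} :
    LinearIndependent ℂ ![u, v] ↔ u ≠ 0 ∧ ∀ e s : ℂ, e • v = s • u → e = 0 := by
  rw [LinearIndependent.pair_iff]
  refine ⟨fun h => ⟨fun hu => by simpa [hu] using h 1 0, fun e s he =>
    (h (-s) e (by rw [he]; simp)).2⟩, fun h s t hst => ?_⟩
  have ht : t = 0 := h.2 t (-s) (by rw [neg_smul]; exact eq_neg_of_add_eq_zero_right hst)
  rw [ht, zero_smul, add_zero] at hst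
  exact ⟨(smul_eq_zero.1 hst).resolve_right h.1, ht⟩

theorem li_triple_iff {F : Type*} [AddCommGroup F] [Module ℂ F] {u v w : F} :
    LinearIndependent ℂ ![u, v, w] ↔
      u ≠ 0 ∧ ∀ e e' s : ℂ, e • v + e' • w = s • u → e = 0 ∧ e' = 0 := by
  rw [Fintype.linearIndependent_iff]
  constructor
  · intro h
    refine ⟨fun hu => by simpa using h ![1, 0, 0] (by simp [Fin.sum_univ_three, hu]) 0,
      fun e e' s he => ?_⟩
    have := h ![-s, e, e'] (by simp [Fin.sum_univ_three, add_assoc, he])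
    exact ⟨this 1, this 2⟩
  · intro h g hg
    rw [Fin.sum_univ_three] at hg
    simp only [Matrix.cons_val_zero, Matrix.cons_val_one, Matrix.cons_val] at hg
    obtain ⟨h1, h2⟩ := h.2 (g 1) (g 2) (-g 0) (by
      rw [neg_smul]; exact eq_neg_of_add_eq_zero_right (by rw [← add_assoc]; exact hg))
    rw [h1, h2, zero_smul, zero_smul, add_zero, add_zero] at hg
    have h0 := (smul_eq_zero.1 hg).resolve_right h.1
    intro i
    fin_cases i
    exacts [h0, h1, h2]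

theorem deriv_apply {γ : ℂ → V M} {t : ℂ} (h : AnalyticAt ℂ γ t) (i : ι) :
    deriv (fun z => γ z i) t = deriv γ t i :=
  (hasDerivAt_pi.1 h.differentiableAt.hasDerivAt i).deriv

theorem fderiv_eq_smul {F : Type*} [NormedAddCommGroup F] [NormedSpace ℂ F] (γ : ℂ → F) (t e : ℂ) :
    fderiv ℂ γ t e = e • deriv γ t := by
  rw [← fderiv_apply_one_eq_deriv, ← map_smul, smul_eq_mul, mul_one]

theorem hasDerivAt_smul' {s : ℂ → ι → ℂ} {γ : ℂ → V M} {t : ℂ} {s' : ι → ℂ} {v : V M}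
    (hs : HasDerivAt s s' t) (hγ : HasDerivAt γ v t) :
    HasDerivAt (fun z => s z • γ z) (s t • v + s' • γ t) t :=
  hasDerivAt_pi.2 fun i => (hasDerivAt_pi.1 hs i).fun_smul (hasDerivAt_pi.1 hγ i)

theorem _root_.Vale.Agent.P269.IsBranch.tendsto {γ : ℂ → V M} (h : IsBranch o C γ) :
    Tendsto γ (𝓝 0) (𝓝[C] γ 0) :=
  tendsto_nhdsWithin_iff.2 ⟨h.holo.continuousAt, h.mem⟩

/-- The branches of `C` through `c`. -/
structure Loc (o : ι) (C : Set (V M)) (c : V M) (γ : Bool → ℂ → V M) : Prop where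
  br : ∀ j, IsBranch o C (γ j)
  zero : ∀ j, γ j 0 = c
  ne : ∀ i, c i ≠ 0
  alt : γ true = γ false ∨ LinearIndependent ℂ ![c o, deriv (γ true) 0 o, deriv (γ false) 0 o]
  ev : ∀ p : V M → Prop, (∀ j, ∀ᶠ w : (ι → ℂ) × ℂ in 𝓝 (1, 0), p (w.1 • γ j w.2)) →
    ∀ᶠ y in 𝓝[C] c, p y

theorem Nod.exists_loc (h : Nod o C) (hc : c ∈ C) : ∃ γ, Loc o C c γ := by
  obtain ⟨γ₁, γ₂, h1, h2⟩ := h.nodal c hc
  have h3 : IsBranch o C γ₁ ∧ IsBranch o C γ₂ ∧ γ₁ 0 = c ∧ γ₂ 0 = c ∧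
      (γ₁ = γ₂ ∨ LinearIndependent ℂ ![c o, deriv γ₁ 0 o, deriv γ₂ 0 o]) := by
    rcases h1 with ⟨h1, h3, rfl⟩ | h1
    exacts [⟨h1, h1, h3, h3, .inl rfl⟩, ⟨h1.1, h1.2.1, h1.2.2.1, h1.2.2.2.1, .inr h1.2.2.2.2⟩]
  obtain ⟨ζ, hζ⟩ := exists_lin_one (h.ne_zero c hc)
  have key : ∀ (γ : ℂ → V M) (p : V M → Prop), IsBranch o C γ → γ 0 = c →
      (∀ᶠ w : (ι → ℂ) × ℂ in 𝓝 (1, 0), p (w.1 • γ w.2)) →
      ∀ᶠ w : V M × ℂ in 𝓝 (c, 0), ∀ t : ι → ℂ, w.1 = t • γ w.2 → p w.1 := by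
    intro γ p hγ h0 hp
    have c1 : ∀ i, ContinuousAt (fun w : V M × ℂ => ζ i (γ w.2 i)) (c, 0) := fun i =>
      (ζ i).continuous.continuousAt.comp ((continuous_apply i).continuousAt.comp
        (hγ.holo.continuousAt.comp_of_eq continuousAt_snd rfl))
    have c2 : ∀ i, ζ i (γ (c, (0 : ℂ)).2 i) ≠ 0 := fun i => by simp [h0, hζ]
    have c3 : ContinuousAt (fun w : V M × ℂ => (fun i => ζ i (w.1 i) / ζ i (γ w.2 i), w.2)) (c, 0) :=
      (continuousAt_pi.2 fun i => ContinuousAt.div (by fun_prop) (c1 i) (c2 i)).prodMk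
        continuousAt_snd
    have c4 : (fun i => ζ i (c i) / ζ i (γ 0 i), (0 : ℂ)) = (1, 0) := by
      simp [h0, hζ, Pi.one_def]
    filter_upwards [c3.tendsto (c4 ▸ hp), eventually_all.2 fun i => (c1 i).eventually_ne (c2 i)]
      with w h1 h2 t ht
    have : (fun i => ζ i (w.1 i) / ζ i (γ w.2 i)) = t := funext fun i => by
      rw [ht, Pi.smul_apply', map_smul, smul_eq_mul, mul_div_cancel_right₀ _ (h2 i)]
    rw [mem_preimage, mem_ofPred_eq, this] at h1
    exact ht ▸ h1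
  refine ⟨fun j => bif j then γ₁ else γ₂, fun j => by cases j; exacts [h3.2.1, h3.1],
    fun j => by cases j; exacts [h3.2.2.2.1, h3.2.2.1], h.ne_zero c hc, h3.2.2.2.2, fun p hp => ?_⟩
  have := (key γ₁ p h3.1 h3.2.2.1 (hp true)).and (key γ₂ p h3.2.1 h3.2.2.2.1 (hp false))
  rw [nhds_prod_eq] at this
  obtain ⟨p1, hp1, p2, hp2, h4⟩ := eventually_prod_iff.1 this
  obtain ⟨ε, hε, h5⟩ := Metric.eventually_nhds_iff.1 hp2
  filter_upwards [h2 ε hε, mem_nhdsWithin_of_mem_nhds hp1] with y ⟨t, z, hz, hy⟩ h6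
  have := h4 h6 (h5 (y := z) (by simpa using hz))
  exact hy.elim (this.1 t) (this.2 t)

theorem ev_ne_one : ∀ᶠ w : (ι → ℂ) × ℂ in 𝓝 (1, 0), ∀ i, w.1 i ≠ 0 :=
  eventually_all.2 fun i => ContinuousAt.eventually_ne (g := fun w : (ι → ℂ) × ℂ => w.1 i)
    (by fun_prop) one_ne_zero

namespace Loc

variable {γ : Bool → ℂ → V M}

theorem an (h : Loc o C c γ) (j : Bool) : AnalyticAt ℂ (γ j) 0 := (h.br j).holo

theorem mem (h : Loc o C c γ) : c ∈ C := h.zero true ▸ (h.br true).mem.self_of_nhds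

theorem tendsto (h : Loc o C c γ) (j : Bool) : Tendsto (γ j) (𝓝 0) (𝓝[C] c) :=
  h.zero j ▸ (h.br j).tendsto

theorem an₂ (h : Loc o C c γ) (j : Bool) :
    AnalyticAt ℂ (fun w : (ι → ℂ) × ℂ => w.1 • γ j w.2) (1, 0) :=
  an_smul analyticAt_fst ((h.an j).comp_of_eq analyticAt_snd rfl)

theorem tendsto₂ (h : Loc o C c γ) (j : Bool) :
    Tendsto (fun w : (ι → ℂ) × ℂ => w.1 • γ j w.2) (𝓝 (1, 0)) (𝓝 c) := by
  simpa [h.zero] using (h.an₂ j).continuousAt.tendsto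

theorem tendsto₂' (h : Loc o C c γ) (hC : Nod o C) (j : Bool) :
    Tendsto (fun w : (ι → ℂ) × ℂ => w.1 • γ j w.2) (𝓝 (1, 0)) (𝓝[C] c) :=
  tendsto_nhdsWithin_iff.2 ⟨h.tendsto₂ j, by
    filter_upwards [ev_ne_one, continuousAt_snd.tendsto.eventually (h.br j).mem] with w h1 h2
    exact hC.cone _ h1 _ h2⟩

theorem exists_coord (h : Loc o C c γ) : ∃ (s : V M → ι → ℂ) (z : Bool → V M → ℂ),
    AnalyticAt ℂ s c ∧ (∀ j, AnalyticAt ℂ (z j) c) ∧ (γ true = γ false → z true = z false) ∧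
    ∀ j, ∀ᶠ w : (ι → ℂ) × ℂ in 𝓝 (1, 0), s (w.1 • γ j w.2) = w.1 ∧ z j (w.1 • γ j w.2) = w.2 ∧
      (γ true ≠ γ false → z (!j) (w.1 • γ j w.2) = 0) := by
  by_cases he : γ true = γ false
  · obtain ⟨ρ, h1, h2⟩ := exists_retr (o := o) (h.an true) (by rw [h.zero]; exact h.ne)
      fun e s hs => (li_pair_iff.1 (h.br true).imm).2 e s (by rwa [fderiv_eq_smul] at hs)
    rw [h.zero] at h1
    refine ⟨fun y => (ρ y).1, fun _ y => (ρ y).2, analyticAt_fst.comp h1,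
      fun _ => analyticAt_snd.comp h1, fun _ => rfl, fun j => h2.mono fun w hw => ?_⟩
    have : γ j = γ true := by cases j; exacts [he.symm, rfl]
    simp only [this, hw, true_and]
    exact fun h => absurd he h
  · have a1 : AnalyticAt ℂ (fun q : ℂ × ℂ => γ true q.1) 0 :=
      (h.an true).comp_of_eq analyticAt_fst rfl
    have a2 : AnalyticAt ℂ (fun q : ℂ × ℂ => γ false q.2) 0 :=
      (h.an false).comp_of_eq analyticAt_snd rfl
    have a3 : AnalyticAt ℂ (fun q : ℂ × ℂ => γ true q.1 + γ false q.2 - c) (0, 0) :=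
      (a1.add a2).sub analyticAt_const
    have e0 : γ true 0 + γ false 0 - c = c := by simp [h.zero]
    obtain ⟨ρ, h1, h2⟩ := exists_retr (o := o) a3 (by simp only [e0]; exact h.ne) fun e s hs => by
      rw [fderiv_prod_apply a3, fderiv_eq_smul, fderiv_eq_smul] at hs
      simp only [deriv_sub_const, deriv_add_const, deriv_const_add, e0] at hs
      obtain ⟨h1, h2⟩ := (li_triple_iff.1 (h.alt.resolve_left he)).2 e.1 e.2 s hs
      exact Prod.ext h1 h2
    simp only [e0] at h1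
    refine ⟨fun y => (ρ y).1, fun j y => bif j then (ρ y).2.1 else (ρ y).2.2,
      analyticAt_fst.comp h1, fun j => ?_, fun h => absurd h he, fun j => ?_⟩
    · cases j
      exacts [analyticAt_snd.comp (analyticAt_snd.comp h1),
        analyticAt_fst.comp (analyticAt_snd.comp h1)]
    · cases j
      · have : Tendsto (fun w : (ι → ℂ) × ℂ => (w.1, ((0 : ℂ), w.2))) (𝓝 (1, 0)) (𝓝 (1, 0, 0)) :=
          Continuous.tendsto' (by fun_prop) _ _ rfl
        refine (this.eventually h2).mono fun w hw => ?_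
        simp only [h.zero, add_sub_cancel_left] at hw
        simp [hw]
      · have : Tendsto (fun w : (ι → ℂ) × ℂ => (w.1, (w.2, (0 : ℂ)))) (𝓝 (1, 0)) (𝓝 (1, 0, 0)) :=
          Continuous.tendsto' (by fun_prop) _ _ rfl
        refine (this.eventually h2).mono fun w hw => ?_
        simp only [h.zero, add_sub_cancel_right] at hw
        simp [hw]

/-- Compatible germs on the branches extend to the ambient space. -/
theorem ext₂ (h : Loc o C c γ) {F : Type*} [NormedAddCommGroup F] [NormedSpace ℂ F]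
    {q : Bool → ℂ → F} (hq : ∀ j, AnalyticAt ℂ (q j) 0) (h0 : q true 0 = q false 0)
    (he : γ true = γ false → q true =ᶠ[𝓝 0] q false) {χ : (ι → ℂ) → ℂ} (hχ : AnalyticAt ℂ χ 1) :
    ∃ Φ : V M → F, AnalyticAt ℂ Φ c ∧
      ∀ j, ∀ᶠ w : (ι → ℂ) × ℂ in 𝓝 (1, 0), Φ (w.1 • γ j w.2) = χ w.1 • q j w.2 := by
  obtain ⟨s, z, hs, hz, -, h1⟩ := h.exists_coord
  have s0 : s c = 1 := by simpa [h.zero] using (h1 true).self_of_nhds.1
  have z0 : ∀ j, z j c = 0 := fun j => by simpa [h.zero] using (h1 j).self_of_nhds.2.1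
  have a1 := hχ.comp_of_eq hs s0
  have a2 := fun j => (hq j).comp_of_eq (hz j) (z0 j)
  by_cases hγ : γ true = γ false
  · refine ⟨fun y => χ (s y) • q true (z true y), a1.smul (a2 true), fun j => ?_⟩
    have e : γ j = γ true := by cases j; exacts [hγ.symm, rfl]
    filter_upwards [h1 true, continuousAt_snd.tendsto.eventually (he hγ)] with w h2 h3
    rw [e, h2.1, h2.2.1]
    cases j
    exacts [congrArg _ h3, rfl]
  · refine ⟨fun y => χ (s y) • (q true (z true y) + q false (z false y) - q true 0),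
      a1.smul (((a2 true).add (a2 false)).sub analyticAt_const), fun j => ?_⟩
    refine (h1 j).mono fun w hw => ?_
    have h2 := hw.2.1
    have h3 := hw.2.2 hγ
    cases j
    · rw [Bool.not_false] at h3
      simp only [hw.1, h2, h3, add_sub_cancel_left]
    · rw [Bool.not_true] at h3
      simp only [hw.1, h2, h3, h0, add_sub_cancel_right]

/-- Every holomorphic disc through `c` factors through one of the branches. -/
theorem lift (h : Loc o C c γ) {δ : ℂ → V M} (ha : AnalyticAt ℂ δ 0) (hm : ∀ᶠ t in 𝓝 0, δ t ∈ C)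
    (h0 : δ 0 = c) : ∃ (j : Bool) (s : ℂ → ι → ℂ) (ψ : ℂ → ℂ), AnalyticAt ℂ s 0 ∧
      AnalyticAt ℂ ψ 0 ∧ s 0 = 1 ∧ ψ 0 = 0 ∧ (∀ᶠ t in 𝓝 0, δ t = s t • γ j (ψ t)) ∧
      deriv δ 0 = deriv ψ 0 • deriv (γ j) 0 + deriv s 0 • c := by
  obtain ⟨s, z, hs, hz, -, h1⟩ := h.exists_coord
  have s0 : s c = 1 := by simpa [h.zero] using (h1 true).self_of_nhds.1
  have z0 : ∀ j, z j c = 0 := fun j => by simpa [h.zero] using (h1 j).self_of_nhds.2.1
  have h2 := h.ev (fun y => ∃ j, y = s y • γ j (z j y)) fun j => (h1 j).mono fun w hw =>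
    ⟨j, by rw [hw.1, hw.2.1]⟩
  have h3 : Tendsto δ (𝓝 0) (𝓝[C] c) := tendsto_nhdsWithin_iff.2 ⟨h0 ▸ ha.continuousAt, hm⟩
  have h4 : ∃ j, ∃ᶠ t in 𝓝[≠] 0, δ t = s (δ t) • γ j (z j (δ t)) := by
    have := ((h3.eventually h2).filter_mono (nhdsWithin_le_nhds (s := {0}ᶜ))).frequently
    simpa only [Bool.exists_bool, frequently_or_distrib] using this
  obtain ⟨j, h4⟩ := h4
  have a1 := hs.comp_of_eq ha h0
  have a2 := (hz j).comp_of_eq ha h0
  have e1 : (z j ∘ δ) 0 = 0 := by simp [h0, z0]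
  have e2 : (s ∘ δ) 0 = 1 := by simp [h0, s0]
  have h5 := (ha.frequently_eq_iff_eventually_eq
    (an_smul a1 ((h.an j).comp_of_eq a2 e1))).1 h4
  refine ⟨j, _, _, a1, a2, e2, e1, h5, ?_⟩
  have d1 : HasDerivAt (γ j) (deriv (γ j) 0) ((z j ∘ δ) 0) :=
    e1.symm ▸ (h.an j).differentiableAt.hasDerivAt
  have d2 := hasDerivAt_smul' a1.differentiableAt.hasDerivAt
    (d1.scomp (0 : ℂ) a2.differentiableAt.hasDerivAt)
  rw [e2, one_smul, comp_apply, e1, h.zero] at d2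
  exact (d2.congr_of_eventuallyEq h5).deriv

theorem reparam (h : Loc o C c γ) {δ : ℂ → V M} (hδ : IsBranch o C δ) (h0 : δ 0 = c) :
    ∃ (j : Bool) (s : ℂ → ι → ℂ) (ψ : ℂ → ℂ), AnalyticAt ℂ s 0 ∧ AnalyticAt ℂ ψ 0 ∧ s 0 = 1 ∧
      ψ 0 = 0 ∧ deriv ψ 0 ≠ 0 ∧ (∀ᶠ t in 𝓝 0, δ t = s t • γ j (ψ t)) ∧
      deriv δ 0 = deriv ψ 0 • deriv (γ j) 0 + deriv s 0 • c := by
  obtain ⟨j, s, ψ, h1, h2, h3, h4, h5, h6⟩ := h.lift hδ.holo hδ.mem h0
  refine ⟨j, s, ψ, h1, h2, h3, h4, fun h7 => one_ne_zero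
    ((li_pair_iff.1 hδ.imm).2 1 (deriv s 0 o) ?_), h5, h6⟩
  rw [h6, h7, zero_smul, zero_add, one_smul, h0, Pi.smul_apply']

theorem isNode_iff (h : Loc o C c γ) : IsNode o C c ↔ γ true ≠ γ false := by
  refine ⟨fun ⟨δ, δ', h1, h2, h3, h4, h5⟩ he => ?_, fun he =>
    ⟨_, _, h.br true, h.br false, h.zero _, h.zero _, h.alt.resolve_left he⟩⟩
  obtain ⟨j, s, ψ, -, -, -, -, h6, -, h7⟩ := h.reparam h1 h3
  obtain ⟨j', s', ψ', -, -, -, -, h6', -, h7'⟩ := h.reparam h2 h4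
  have e : ∀ j, γ j = γ true := fun j => by cases j; exacts [he.symm, rfl]
  refine h6' ((li_triple_iff.1 h5).2 (deriv ψ' 0) (-deriv ψ 0)
    (deriv ψ' 0 * deriv s 0 o - deriv ψ 0 * deriv s' 0 o) ?_).1
  rw [h7, h7', e j, e j']
  simp only [Pi.add_apply, Pi.smul_apply, Pi.smul_apply']
  module

theorem eq_of_not_node (h : Loc o C c γ) (hn : ¬IsNode o C c) (j : Bool) : γ j = γ true := by
  have := not_not.1 (mt h.isNode_iff.2 hn)
  cases j
  exacts [this.symm, rfl]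

end Loc

theorem _root_.Vale.Agent.P269.IsBranch.nearby {γ : ℂ → V M} (h : IsBranch o C γ) (hC : Nod o C) :
    ∀ᶠ t in 𝓝 0, ∀ s : ι → ℂ, (∀ i, s i ≠ 0) → IsBranch o C fun z => s • γ (t + z) := by
  have h1 : ContinuousAt (fun t => ![γ t o, deriv γ t o]) 0 := by
    refine continuousAt_pi.2 fun k => ?_
    fin_cases k
    exacts [(continuous_apply o).continuousAt.comp h.holo.continuousAt,
      (continuous_apply o).continuousAt.comp h.holo.deriv.continuousAt]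
  filter_upwards [h1.eventually (isOpen_setOfPred_linearIndependent.mem_nhds h.imm),
    h.holo.eventually_analyticAt, h.mem.eventually_nhds] with t h2 h3 h4 s hs
  have h5 : Tendsto (fun z => t + z) (𝓝 0) (𝓝 t) := Continuous.tendsto' (by fun_prop) _ _ (by simp)
  have h6 : AnalyticAt ℂ (fun z => γ (t + z)) 0 :=
    h3.comp_of_eq (analyticAt_const.add analyticAt_id) (by simp)
  refine ⟨an_smul analyticAt_const h6, (h5.eventually h4).mono fun z hz => hC.cone s hs _ hz, ?_⟩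
  rw [(hasDerivAt_smul' (hasDerivAt_const _ s) h6.differentiableAt.hasDerivAt).deriv,
    deriv_comp_const_add]
  simp only [add_zero, zero_smul, Pi.smul_apply']
  rw [li_pair_iff] at h2 ⊢
  refine ⟨smul_ne_zero (hs o) h2.1, fun e r he => h2.2 e r ?_⟩
  rw [smul_comm e, smul_comm r] at he
  exact smul_right_injective _ (hs o) he

theorem _root_.Vale.Agent.P269.IsBranch.smul {γ : ℂ → V M} (h : IsBranch o C γ) (hC : Nod o C)
    {s : ι → ℂ} (hs : ∀ i, s i ≠ 0) : IsBranch o C fun z => s • γ z := by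
  simpa using (h.nearby hC).self_of_nhds s hs

namespace Loc

variable {γ : Bool → ℂ → V M}

theorem nearby (h : Loc o C c γ) (hC : Nod o C) (j : Bool) :
    ∀ᶠ w : (ι → ℂ) × ℂ in 𝓝 (1, 0), w.2 ≠ 0 ∨ γ true = γ false →
      Loc o C (w.1 • γ j w.2) fun _ t => w.1 • γ j (w.2 + t) := by
  obtain ⟨s, z, hs, hz, h0, h1⟩ := h.exists_coord
  have h2 := h.ev (fun y => ∃ j, y = s y • γ j (z j y) ∧ (γ true ≠ γ false → z (!j) y = 0))
    fun j => (h1 j).mono fun w hw => ⟨j, by rw [hw.1, hw.2.1], hw.2.2⟩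
  filter_upwards [(h.tendsto₂' hC j).eventually (eventually_eventually_nhdsWithin.2 h2),
    (h.tendsto₂ j).eventually hs.eventually_continuousAt,
    (h.tendsto₂ j).eventually (hz j).eventually_continuousAt, h1 j, ev_ne_one,
    continuousAt_snd.tendsto.eventually ((h.br j).nearby hC),
    (h.tendsto₂' hC j).eventually self_mem_nhdsWithin] with w h3 h4 h5 h6 h7 h8 h9 hw
  refine ⟨fun _ => h8 _ h7, fun _ => by simp, hC.ne_zero _ h9, .inl rfl, fun p hp => ?_⟩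
  have h10 : Tendsto (fun y => (s y * w.1⁻¹, z j y - w.2)) (𝓝 (w.1 • γ j w.2)) (𝓝 (1, 0)) := by
    have := (h4.mul continuousAt_const (g := fun _ => w.1⁻¹)).prodMk
      (h5.sub continuousAt_const (g := fun _ => w.2))
    rwa [ContinuousAt, Pi.mul_apply, Pi.sub_apply, h6.1, h6.2.1, sub_self,
      show w.1 * w.1⁻¹ = 1 from funext fun i => mul_inv_cancel₀ (h7 i)] at this
  have h11 : ∀ᶠ y in 𝓝 (w.1 • γ j w.2), γ true ≠ γ false → z j y ≠ 0 := by
    rcases hw with hw | hw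
    · exact (h5.eventually_ne (by rwa [h6.2.1])).mono fun _ h _ => h
    · exact .of_forall fun _ h => absurd hw h
  filter_upwards [h3, mem_nhdsWithin_of_mem_nhds (h10.eventually (hp true)),
    mem_nhdsWithin_of_mem_nhds h11] with y ⟨j', e1, e2⟩ e3 e4
  have e5 : γ j' = γ j ∧ z j' = z j := by
    by_cases he : γ true = γ false
    · have := h0 he
      cases j <;> cases j' <;> simp [he, this]
    · by_cases hj : j' = j
      · simp [hj]
      · exact absurd (e2 he) (by rw [← Bool.eq_not_of_ne (Ne.symm hj)]; exact e4 he)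
  rw [smul_smul, mul_assoc,
    show w.1⁻¹ * w.1 = 1 from funext fun i => inv_mul_cancel₀ (h7 i), mul_one, add_sub_cancel,
    ← e5.1, ← e5.2, ← e1] at e3
  exact e3

theorem smul (h : Loc o C c γ) (hC : Nod o C) {s : ι → ℂ} (hs : ∀ i, s i ≠ 0) :
    Loc o C (s • c) fun j t => s • γ j t := by
  refine ⟨fun j => (h.br j).smul hC hs, fun j => by rw [h.zero],
    hC.ne_zero _ (hC.cone s hs c h.mem), h.alt.imp (fun e => by rw [e]) fun e => ?_, fun p hp => ?_⟩
  · rw [(hasDerivAt_smul' (hasDerivAt_const _ s) (h.an true).differentiableAt.hasDerivAt).deriv,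
      (hasDerivAt_smul' (hasDerivAt_const _ s) (h.an false).differentiableAt.hasDerivAt).deriv]
    simp only [add_zero, zero_smul, Pi.smul_apply']
    rw [li_triple_iff] at e ⊢
    refine ⟨smul_ne_zero (hs o) e.1, fun x y r he => e.2 x y r ?_⟩
    rw [smul_comm x, smul_comm y, smul_comm r, ← smul_add] at he
    exact smul_right_injective _ (hs o) he
  · have e : ∀ y : V M, s • s⁻¹ • y = y := fun y => by
      rw [smul_smul, show s * s⁻¹ = 1 from funext fun i => mul_inv_cancel₀ (hs i), one_smul]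
    have h1 : Tendsto (fun y : V M => s⁻¹ • y) (𝓝[C] (s • c)) (𝓝[C] c) := by
      refine tendsto_nhdsWithin_iff.2 ⟨tendsto_nhdsWithin_of_tendsto_nhds (Continuous.tendsto'
        (by fun_prop) _ _ (by rw [smul_comm, e])), ?_⟩
      exact eventually_mem_nhdsWithin.mono fun y hy =>
        hC.cone _ (fun i => inv_ne_zero (hs i)) _ hy
    have := h1.eventually (h.ev (fun y => p (s • y)) fun j => (hp j).mono fun w hw => by
      rwa [smul_comm])
    simpa only [e] using this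

end Loc

/-- At a smooth point every branch describes the curve. -/
theorem Nod.loc_of_branch (h : Nod o C) {γ : ℂ → V M} (hγ : IsBranch o C γ)
    (hn : ¬IsNode o C (γ 0)) : Loc o C (γ 0) fun _ => γ := by
  have hc := hγ.mem.self_of_nhds
  obtain ⟨δ, hδ⟩ := h.exists_loc hc
  obtain ⟨j, s, ψ, h1, h2, h3, h4, h5, h6, -⟩ := hδ.reparam hγ rfl
  refine ⟨fun _ => hγ, fun _ => rfl, hδ.ne, .inl rfl, fun p hp => hδ.ev p fun j' => ?_⟩
  obtain ⟨-, φ, h7, h8, -, h9⟩ := ift h2 (bijective_of_injective _ ((injective_iff_map_eq_zero _).2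
    fun e he => by rw [fderiv_eq_smul] at he; exact (smul_eq_zero.1 he).resolve_right h5) rfl)
  rw [h4] at h7 h8 h9
  have c1 : ContinuousAt (fun w : (ι → ℂ) × ℂ => φ w.2) (1, 0) :=
    h7.continuousAt.comp_of_eq continuousAt_snd rfl
  have c2 : ContinuousAt (fun w : (ι → ℂ) × ℂ => s (φ w.2)) (1, 0) :=
    h1.continuousAt.comp_of_eq c1 h8
  have c3 : ∀ i, s (φ ((1 : ι → ℂ), (0 : ℂ)).2) i ≠ 0 := fun i => by simp [h8, h3]
  have c4 : Tendsto (fun w : (ι → ℂ) × ℂ => (fun i => w.1 i / s (φ w.2) i, φ w.2)) (𝓝 (1, 0))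
      (𝓝 (1, 0)) := by
    have := (continuousAt_pi.2 fun i => ContinuousAt.div (f := fun w : (ι → ℂ) × ℂ => w.1 i)
      (by fun_prop) (continuousAt_pi.1 c2 i) (c3 i)).prodMk c1
    simpa [ContinuousAt, h8, h3, Pi.one_def] using this
  filter_upwards [c4.eventually (hp true), (h8 ▸ c1.tendsto :).eventually h6,
    continuousAt_snd.tendsto.eventually h9,
    eventually_all.2 fun i => (continuousAt_pi.1 c2 i).eventually_ne (c3 i)] with w e1 e2 e3 e4
  rw [e2, smul_smul, e3, show (fun i => w.1 i / s (φ w.2) i) * s (φ w.2) = w.1 from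
    funext fun i => div_mul_cancel₀ _ (e4 i), hδ.eq_of_not_node hn j] at e1
  rwa [hδ.eq_of_not_node hn j']

theorem Nod.isNode_orb (h : Nod o C) {y : V M} (hn : IsNode o C c) (hy : Orb c y) :
    IsNode o C y := by
  obtain ⟨s, hs, rfl⟩ := hy
  obtain ⟨γ, hγ⟩ := h.exists_loc (c := c) (by
    obtain ⟨γ, _, h1, -, h2, -⟩ := hn
    exact h2 ▸ h1.mem.self_of_nhds)
  refine (hγ.smul h hs).isNode_iff.2 fun e => hγ.isNode_iff.1 hn (funext fun t => funext fun i => ?_)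
  exact smul_right_injective _ (hs i) (congrFun (congrFun e t) i)

theorem Nod.eventually_node (h : Nod o C) (hc : c ∈ C) :
    ∀ᶠ y in 𝓝[C] c, IsNode o C y → Orb c y := by
  obtain ⟨γ, hγ⟩ := h.exists_loc hc
  refine hγ.ev _ fun j => ?_
  filter_upwards [hγ.nearby h j, ev_ne_one] with w h1 h2 h3
  by_cases hw : w.2 = 0
  · exact ⟨w.1, h2, by rw [hw, hγ.zero]⟩
  · exact absurd rfl ((h1 (.inl hw)).isNode_iff.1 h3)

/-- `z` is a system of representatives of the orbits of the points of `C` satisfying `p`. -/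
structure Reps (C : Set (V M)) (p : V M → Prop) {β : Type*} (z : β → V M) : Prop where
  mem : ∀ l, z l ∈ C
  prop : ∀ l, p (z l)
  ex : ∀ c ∈ C, p c → ∃ l, Orb (z l) c
  inj : ∀ l l', Orb (z l) (z l') → l = l'

theorem Nod.isCompact (h : Nod o C) : IsCompact {c | c ∈ C ∧ ∀ i, ‖c i‖ = 1} := by
  have h1 : IsClosed {c : V M | ∀ i, ‖c i‖ = 1} := by
    rw [ofPred_forall]
    exact isClosed_iInter fun i => isClosed_eq (by fun_prop) continuous_const
  refine Metric.isCompact_of_isClosed_isBounded (isClosed_of_closure_subset fun c hc => ?_)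
    ((Metric.isBounded_closedBall (x := 0) (r := 1)).subset fun c hc => ?_)
  · have h2 := h1.closure_subset (closure_mono (fun _ hy => hy.2) hc)
    exact ⟨h.closed c (closure_mono (fun _ hy => hy.1) hc) fun i hi => by
      simpa [hi] using h2 i, h2⟩
  · exact mem_closedBall_zero_iff.2 ((pi_norm_le_iff_of_nonneg zero_le_one).2 fun i => (hc.2 i).le)

theorem exists_orb_sphere (hc : ∀ i, c i ≠ 0) : ∃ y, Orb c y ∧ ∀ i, ‖y i‖ = 1 :=
  ⟨_, ⟨fun i => ((‖c i‖⁻¹ : ℝ) : ℂ), fun i => by simp [hc i], rfl⟩, fun i => by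
    simp [Pi.smul_apply', norm_smul, hc i]⟩

theorem Nod.exists_reps (h : Nod o C) {p : V M → Prop} (hp : ∀ c ∈ C, ∀ y, p c → Orb c y → p y)
    (hi : ∀ c ∈ C, ∀ᶠ y in 𝓝[C] c, p y → Orb c y) :
    ∃ (n : ℕ) (z : Fin n → V M), Reps C p z := by
  let S : Setoid (V M) := ⟨Orb, Orb.refl, Orb.symm, Orb.trans⟩
  obtain ⟨t, ht⟩ := h.isCompact.elim_nhdsWithin_subcover' (fun c _ => {y | p y → Orb c y})
    fun c hc => nhdsWithin_mono _ (fun _ hy => hy.1) (hi c hc.1)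
  have hf : (Quotient.mk S '' {c | c ∈ C ∧ p c}).Finite := by
    refine ((t.finite_toSet.image Subtype.val).image (Quotient.mk S)).subset ?_
    rintro _ ⟨c, hc, rfl⟩
    obtain ⟨y, h1, h2⟩ := exists_orb_sphere (h.ne_zero c hc.1)
    obtain ⟨x, hx, h3⟩ := mem_iUnion₂.1 (ht ⟨h.orb hc.1 h1, h2⟩)
    exact ⟨x, mem_image_of_mem _ hx, Quotient.sound ((h3 (hp c hc.1 y hc.2 h1)).trans h1.symm)⟩
  obtain ⟨n, f, h1, h2⟩ := hf.fin_param
  have h3 : ∀ l, ∃ c, (c ∈ C ∧ p c) ∧ Quotient.mk S c = f l := fun l => h2.subset ⟨l, rfl⟩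
  choose z h4 h5 using h3
  refine ⟨n, z, fun l => (h4 l).1, fun l => (h4 l).2, fun c hc h6 => ?_, fun l l' h6 =>
    h1 (by rw [← h5, ← h5]; exact Quotient.sound h6)⟩
  obtain ⟨l, hl⟩ := h2.superset ⟨c, ⟨hc, h6⟩, rfl⟩
  exact ⟨l, Quotient.exact ((h5 l).trans hl)⟩

theorem Nod.exists_nodes (h : Nod o C) : ∃ (n : ℕ) (z : Fin n → V M), Reps C (IsNode o C) z :=
  h.exists_reps (fun _ _ _ => h.isNode_orb) fun _ => h.eventually_node

end Vale.Agent.P269.Base
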