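import Vale.Agent.P269.Defs.Curve
import Vale.Agent.P269.Holo.Morse

/-!
# Nodal multicones and local holomorphic families of nodal curves
-/

namespace Vale.Agent.P269.Base

open Set Function Topology Filter

variable {ι : Type} [Fintype ι] {M : ι → ℕ}

/-- The part of `IsCurve` that does not mention sections. -/
structure Nod (o : ι) (C : Set (V M)) : Prop where
  ne_zero : ∀ c ∈ C, ∀ i, c i ≠ 0
  closed : ∀ c ∈ closure C, (∀ i, c i ≠ 0) → c ∈ C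
  cone : ∀ t : ι → ℂ, (∀ i, t i ≠ 0) → ∀ c ∈ C, t • c ∈ C
  nodal : ∀ c ∈ C, ∃ γ₁ γ₂, (IsBranch o C γ₁ ∧ γ₁ 0 = c ∧ γ₂ = γ₁ ∨ IsCross o C c γ₁ γ₂) ∧
    ∀ ε > 0, ∀ᶠ y in 𝓝[C] c, ∃ (t : ι → ℂ) (z : ℂ), ‖z‖ < ε ∧ (y = t • γ₁ z ∨ y = t • γ₂ z)

theorem _root_.Vale.Agent.P269.IsCurve.nod {o : ι} {g : ℤ} {m : ι → ℤ} {C : Set (V M)}
    (h : IsCurve o g m C) : Nod o C :=
  ⟨h.ne_zero, h.closed, h.cone, h.nodal⟩

variable {T P E : Type*} [TopologicalSpace T] [NormedAddCommGroup P] [NormedSpace ℂ P]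
  [NormedAddCommGroup E] [NormedSpace ℂ E]

/-- A chart of the family of multicones `C t` near `(t₀, σ (π t₀, 0))`: up to the torus, the points
of `C t` are the `σ (π t, z)` with `z ∈ X (π t)`. -/
structure Chart (o : ι) (C : T → Set (V M)) (π : T → P) (t₀ : T) (σ : P × E → V M)
    (X : P → Set E) : Prop where
  an : AnalyticAt ℂ σ (π t₀, 0)
  imm : ∀ (e : E) (s : ℂ), fderiv ℂ (fun z => σ (π t₀, z)) 0 e o = s • σ (π t₀, 0) o → e = 0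
  mem : ∀ᶠ q : T × E in 𝓝 (t₀, 0), q.2 ∈ X (π q.1) → σ (π q.1, q.2) ∈ C q.1
  sub : ∀ U ∈ 𝓝 (0 : E), ∀ᶠ q : T × V M in 𝓝 (t₀, σ (π t₀, 0)), q.2 ∈ C q.1 →
    ∃ s : ι → ℂ, ∃ z ∈ U, z ∈ X (π q.1) ∧ q.2 = s • σ (π q.1, z)

/-- The family is a family of discs near `c`. -/
def SmAt (o : ι) (C : T → Set (V M)) (π : T → P) (t₀ : T) (c : V M) : Prop :=
  ∃ σ : P × ℂ → V M, σ (π t₀, 0) = c ∧ Chart o C π t₀ σ fun _ => univ

/-- The family is the deformation `u v = τ` of a node near `c`. -/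
def NdAt (o : ι) (C : T → Set (V M)) (π : T → P) (t₀ : T) (c : V M) (τ : P → ℂ) : Prop :=
  ∃ σ : P × (ℂ × ℂ) → V M, σ (π t₀, 0) = c ∧ AnalyticAt ℂ τ (π t₀) ∧ τ (π t₀) = 0 ∧
    Chart o C π t₀ σ fun p => {z | z.1 * z.2 = τ p}

/-- `C` is a holomorphic family of nodal curves near `t₀`, in the coordinates `π`. -/
structure LocFam (o : ι) (C : T → Set (V M)) (π : T → P) (t₀ : T) : Prop where
  cont : ∀ᶠ t in 𝓝 t₀, ContinuousAt π t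
  ne_zero : ∀ᶠ t in 𝓝 t₀, ∀ c ∈ C t, ∀ i, c i ≠ 0
  cone : ∀ᶠ t in 𝓝 t₀, ∀ s : ι → ℂ, (∀ i, s i ≠ 0) → ∀ c ∈ C t, s • c ∈ C t
  usc : ∀ c : V M, (∀ i, c i ≠ 0) → c ∉ C t₀ → ∀ᶠ q : T × V M in 𝓝 (t₀, c), q.2 ∉ C q.1
  chart : ∀ c ∈ C t₀, SmAt o C π t₀ c ∨ ∃ τ, NdAt o C π t₀ c τ

end Vale.Agent.P269.Base
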