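import Vale.Agent.P269.Base.MerA

/-!
# Trivialisations and bases of spaces of meromorphic sections
-/

namespace Vale.Agent.P269.Base

open Set Function Topology Filter Holo Module

set_option linter.unusedSectionVars false

variable {ι : Type} [Fintype ι] {M : ι → ℕ} {β β' κ : Type*} {o : ι} {C : Set (V M)} {c : V M}
  {χ χ' : ι → ℤ} {z : β → V M} {z' : β' → V M} {u u' : β → ℤ} {f f' e : V M → ℂ} {a b : ι → ℕ}
  {g : ℤ} {m : ι → ℤ}

theorem Spt.off_inr (hz : Spt o C (Sum.elim z z')) (k : β') : Off z (z' k) := fun j hj =>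
  Sum.inl_ne_inr (hz.inj (.inl j) (.inr k) hj)

theorem Off.of_orb {y : β → V M} (h : Off y c) (hy : ∀ k, Orb (z k) (y k)) : Off z c :=
  fun k hk => h k ((hy k).symm.trans hk)

theorem _root_.Vale.Agent.P269.IsBranch.eventually_off' [Finite β] {γ : ℂ → V M}
    (h : IsBranch o C γ) (hC : Nod o C) : ∀ᶠ t in 𝓝[≠] (0 : ℂ), γ t ∈ C ∧ Off z (γ t) :=
  (h.mem.filter_mono nhdsWithin_le_nhds).and (h.eventually_off hC)

theorem Spt.exists_loc (hz : Spt o C z) (hC : Nod o C) (k : β) :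
    ∃ γ : ℂ → V M, Loc o C (z k) fun _ => γ := by
  obtain ⟨γ, hγ⟩ := hC.exists_loc (hz.mem k)
  have := hC.loc_of_branch (hγ.br true) (by rw [hγ.zero]; exact hz.sm k)
  rw [hγ.zero] at this
  exact ⟨_, this⟩

namespace Triv

theorem ord' (h : Triv o C χ z u f) (k : β) {γ : ℂ → V M} (hγ : IsBranch o C γ)
    (hk : Orb (z k) (γ 0)) : ∃ x ≠ 0, Vz (u k) (fun t => f (γ t)) x :=
  (h.ord k γ hγ hk).imp fun x hx => ⟨h.exact k γ x hγ hk hx, hx⟩

theorem of_ord (hom : ∀ s : ι → ℂ, (∀ i, s i ≠ 0) → ∀ c ∈ C, f (s • c) = chz χ s * f c)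
    (reg : ∀ γ, IsBranch o C γ → Off z (γ 0) → AnalyticAt ℂ (fun t => f (γ t)) 0)
    (ne : ∀ c ∈ C, Off z c → f c ≠ 0)
    (ord : ∀ k γ, IsBranch o C γ → Orb (z k) (γ 0) → ∃ x ≠ 0, Vz (u k) (fun t => f (γ t)) x) :
    Triv o C χ z u f :=
  ⟨⟨hom, reg, fun k γ h1 h2 => (ord k γ h1 h2).imp fun _ h => h.2⟩, ne, fun k γ _ h1 h2 h3 => by
    obtain ⟨x, h4, h5⟩ := ord k γ h1 h2
    exact h5.unique h3 ▸ h4⟩

theorem one : Triv o C 0 z 0 fun _ => 1 :=
  of_ord (fun s _ _ _ => by simp [chz]) (fun _ _ _ => analyticAt_const) (fun _ _ _ => one_ne_zero)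
    fun _ _ _ _ => ⟨1, one_ne_zero, Vz.of_an (p := fun _ => 1) analyticAt_const⟩

theorem mul (h : Triv o C χ z u f) (h' : Triv o C χ' z u' f') :
    Triv o C (χ + χ') z (u + u') fun c => f c * f' c :=
  of_ord (h.toMer.mul h'.toMer).hom (h.toMer.mul h'.toMer).reg
    (fun c hc ho => mul_ne_zero (h.ne c hc ho) (h'.ne c hc ho)) fun k _ h1 h2 => by
      obtain ⟨x, h3, h4⟩ := h.ord' k h1 h2
      obtain ⟨y, h5, h6⟩ := h'.ord' k h1 h2
      exact ⟨_, mul_ne_zero h3 h5, h4.mul h6⟩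

theorem inv (h : Triv o C χ z u f) : Triv o C (-χ) z (-u) fun c => (f c)⁻¹ :=
  of_ord (fun s hs c hc => by rw [h.hom s hs c hc, chz_neg, mul_inv])
    (fun γ h1 h2 => (h.reg γ h1 h2).inv (h.ne _ h1.mem.self_of_nhds h2))
    (fun c hc ho => inv_ne_zero (h.ne c hc ho)) fun k _ h1 h2 => by
      obtain ⟨x, h3, h4⟩ := h.ord' k h1 h2
      exact ⟨_, inv_ne_zero h3, h4.inv h3⟩

theorem cast (h : Triv o C χ z u f) (h1 : χ = χ') (h2 : u = u') : Triv o C χ' z u' f :=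
  h1 ▸ h2 ▸ h

theorem pow (h : Triv o C χ z u f) : ∀ n : ℕ, Triv o C (n • χ) z (n • u) fun c => f c ^ n
  | 0 => by simpa using one
  | n + 1 => by simpa only [pow_succ, succ_nsmul] using (pow h n).mul h

theorem zpow (h : Triv o C χ z u f) (n : ℤ) : Triv o C (n • χ) z (n • u) fun c => f c ^ n := by
  obtain ⟨k, rfl | rfl⟩ := n.eq_nat_or_neg
  · simpa only [zpow_natCast, natCast_zsmul] using h.pow k
  · simpa only [zpow_neg, zpow_natCast, natCast_zsmul, neg_smul] using (h.pow k).inv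

theorem prod (S : Finset κ) {X : κ → ι → ℤ} {U : κ → β → ℤ} {F : κ → V M → ℂ}
    (h : ∀ i ∈ S, Triv o C (X i) z (U i) (F i)) :
    Triv o C (∑ i ∈ S, X i) z (∑ i ∈ S, U i) fun c => ∏ i ∈ S, F i c := by
  classical
  induction S using Finset.induction_on with
  | empty => simpa using one
  | insert i S hi ih =>
    simp only [Finset.sum_insert hi, Finset.prod_insert hi]
    exact (h i (by simp)).mul (ih fun j hj => h j (by simp [hj]))

theorem congr [Finite β] (h : Triv o C χ z u f) (hC : Nod o C)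
    (hom : ∀ s : ι → ℂ, (∀ i, s i ≠ 0) → ∀ c ∈ C, f' (s • c) = chz χ s * f' c)
    (e : ∀ c ∈ C, Off z c → f' c = f c) : Triv o C χ z u f' :=
  ⟨h.toMer.congr hC hom e, fun c hc ho => e c hc ho ▸ h.ne c hc ho, fun k γ x h1 h2 h3 =>
    h.exact k γ x h1 h2 (h3.congr ((h1.eventually_off' hC).mono fun _ ht => e _ ht.1 ht.2))⟩

theorem orb {y : β → V M} (h : Triv o C χ z u f) (hy : ∀ k, Orb (z k) (y k)) :
    Triv o C χ y u f :=
  ⟨h.toMer.orb hy, fun c hc ho => h.ne c hc (ho.of_orb hy), fun k γ x h1 h2 =>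
    h.exact k γ x h1 ((hy k).trans h2)⟩

theorem ext (h : Triv o C χ z u f) (hz : ∀ k, Off z (z' k)) :
    Triv o C χ (Sum.elim z z') (Sum.elim u 0) f := by
  refine ⟨h.toMer.ext hz, fun c hc ho => h.ne c hc (off_sum.1 ho).1, ?_⟩
  rintro (k | k) γ x h1 h2 h3
  · exact h.exact k γ x h1 h2 h3
  · have h4 := (hz k).orb h2
    rw [← (Vz.of_an (h.reg γ h1 h4)).unique h3]
    exact h.ne _ h1.mem.self_of_nhds h4

theorem remove [Finite β] [Finite β'] (h : Triv o C χ (Sum.elim z z') (Sum.elim u 0) f)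
    (hC : Nod o C) (hz : Spt o C (Sum.elim z z')) :
    ∃ f', Triv o C χ z u f' ∧ (∀ c, Off z' c → f' c = f c) ∧
      ∀ k γ, IsBranch o C γ → Orb (z' k) (γ 0) → Vz 0 (fun t => f (γ t)) (f' (γ 0)) := by
  obtain ⟨f', h1, h2, h3⟩ := h.toMer.remove hC hz le_rfl
  refine ⟨f', ⟨h1, fun c hc ho => ?_, fun k γ x h4 h5 h6 => h.exact (.inl k) γ x h4 h5
    (h6.congr ((h4.eventually_off hC).mono fun _ ht => h2 _ ht))⟩, h2, h3⟩
  by_cases h4 : Off z' c
  · rw [h2 c h4]
    exact h.ne c hc (off_sum.2 ⟨ho, h4⟩)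
  · obtain ⟨k, hk⟩ := not_forall.1 h4
    obtain ⟨γ, hγ⟩ := hC.exists_loc hc
    have h5 : Orb (z' k) (γ true 0) := by rw [hγ.zero]; exact not_not.1 hk
    have := h.exact (.inr k) _ _ (hγ.br true) h5 (h3 k _ (hγ.br true) h5)
    rwa [hγ.zero] at this

theorem of_simp (hC : Nod o C) (hf : IsSec o C b f) (hz : Reps C (fun c => f c = 0) z)
    (hs : ∀ k, Simp o C f (z k)) : Spt o C z ∧ Triv o C (fun i => b i) z 1 f := by
  refine ⟨⟨hz.mem, fun k => (hs k).1, hz.inj⟩, of_ord (Mer.of_isSec (z := z) hf).hom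
    (Mer.of_isSec hf).reg (fun c hc ho h0 => (hz.ex c hc h0).elim ho) fun k γ h1 h2 => ?_⟩
  have h3 := (hs k).orb hC hf.hm h2
  have h4 := hf.holo γ h1
  exact (Vz.order (n := 1) h4).1 (h4.analyticOrderAt_eq_one_of_zero_deriv_ne_zero h3.2.1
    (h3.deriv_ne hC hf h1 rfl))

theorem nzd [Finite β] (h : Triv o C χ z u f) (hC : Nod o C) : Nzd C f := fun _ hc =>
  ((hC.frequently_not_orb z hc).and_eventually self_mem_nhdsWithin).mono fun y hy =>
    h.ne y hy.2 hy.1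

end Triv

/-- A form vanishing at given points and not at another point. -/
theorem exists_van {y : V M} (hz : ∀ k i, z k i ≠ 0) (hy : ∀ i, y i ≠ 0) (S : Finset β)
    (h : ∀ k ∈ S, ¬Orb (z k) y) {n : ℕ} (hn : S.card ≤ n) :
    ∃ F ∈ Pol M (n • 1), (∀ k ∈ S, F (z k) = 0) ∧ F y ≠ 0 := by
  classical
  choose! μ h1 h2 using fun k (hk : k ∈ S) => exists_pol_sep (hz k) hy (h k hk)
  obtain ⟨ν, h3⟩ := exists_pol_one hy ((n - S.card) • 1)
  refine ⟨_, Pol.mul' (Pol.prod S fun k _ => val_mem (μ k)) (val_mem ν) (by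
    rw [Finset.sum_const, ← add_smul, Nat.add_sub_cancel' hn]), fun k hk => ?_, ?_⟩
  · rw [Finset.prod_apply, Finset.prod_eq_zero hk (h1 k hk), zero_mul]
  · rw [h3, mul_one, Finset.prod_apply]
    exact Finset.prod_ne_zero_iff.2 h2

/-- A form with simple zeros only, through given smooth points, avoiding finitely many points. -/
theorem Nod.exists_pres [Finite β] [Finite β'] (hC : Nod o C) (hz : Spt o C z)
    (hy : ∀ k, (∀ i, z' k i ≠ 0) ∧ Off z (z' k)) :
    ∃ (b : ι → ℕ) (l : Tens M b) (r : ℕ) (w : Fin r → V M), (∀ i, 1 ≤ b i) ∧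
      Spt o C (Sum.elim z w) ∧ Reps C (fun c => val l c = 0) (Sum.elim z w) ∧
      (∀ c ∈ C, val l c = 0 → Simp o C (val l) c) ∧ (∀ k, val l (z' k) ≠ 0) ∧
      Surjective fun (μ : Tens M b) k => val μ (z k) := by
  classical
  have := Fintype.ofFinite β
  have h0 : ∀ k i, z k i ≠ 0 := fun k => hC.ne_zero _ (hz.mem k)
  let b : ι → ℕ := (Fintype.card β + 1) • 1
  let L : Tens M b →ₗ[ℂ] β → ℂ := LinearMap.pi fun k => (evL b (z k)).toLinearMap
  have hL : ∀ μ, μ ∈ LinearMap.ker L ↔ ∀ k, val μ (z k) = 0 := fun μ => funext_iff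
  have h1 : ∀ y : V M, (∀ i, y i ≠ 0) → Off z y → ∃ μ ∈ LinearMap.ker L, val μ y ≠ 0 :=
    fun y h1 h2 => by
      obtain ⟨_, ⟨μ, rfl⟩, h3, h4⟩ := exists_van h0 h1 Finset.univ (fun k _ => h2 k)
        (Nat.le_succ _)
      exact ⟨μ, (hL μ).2 fun k => h3 k (Finset.mem_univ k), h4⟩
  have h2 : ∀ k n, Fintype.card β ≤ n →
      ∃ F ∈ Pol M (n • 1), (∀ j, j ≠ k → F (z j) = 0) ∧ F (z k) ≠ 0 := fun k n hn => by
    obtain ⟨F, h3, h4, h5⟩ := exists_van h0 (h0 k) (Finset.univ.erase k)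
      (fun j hj h => Finset.ne_of_mem_erase hj (hz.inj j k h))
      ((Finset.card_le_univ _).trans hn)
    exact ⟨F, h3, fun j hj => h4 j (by simp [hj]), h5⟩
  obtain ⟨l, h3, h4, h5⟩ := hC.exists_simp (LinearMap.ker L) (fun c hc h3 => by
    obtain ⟨k, hk⟩ : ∃ k, Orb (z k) c := by
      by_contra h4
      obtain ⟨μ, h5, h6⟩ := h1 c (hC.ne_zero c hc) (not_exists.1 h4)
      exact h6 (h3 μ h5)
    obtain ⟨γ, hγ⟩ := hC.exists_loc (hz.mem k)
    obtain ⟨D, h4, h5⟩ := exists_pol_dv (h0 k) (hγ.zero true ▸ (hγ.br true).imm :)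
    obtain ⟨F, h6, h7, h8⟩ := h2 k _ le_rfl
    obtain ⟨μ, hμ⟩ := mem_Pol.1 (Pol.mul' (d := b) h6 (val_mem D) (succ_nsmul _ _).symm)
    refine ⟨μ, (hL μ).2 fun j => ?_, Simp.orb ⟨hz.sm k, by simp [hμ, h4], _, hγ.br true,
      hγ.zero true, ?_⟩ hC (Pol.hm (val_mem μ)) hk⟩
    · by_cases hj : j = k
      · simp [hμ, hj, h4]
      · simp [hμ, h7 j hj]
    · have a1 := ((Pol.an h6 _).comp (hγ.an true)).differentiableAt.hasDerivAt
      have a2 := ((analyticAt_val D _).comp (hγ.an true)).differentiableAt.hasDerivAt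
      rw [hμ]
      refine ne_of_eq_of_ne (a1.fun_mul a2).deriv ?_
      rw [comp_def (val D), deriv_comp_an (analyticAt_val _ _) (hγ.an true)]
      simp [hγ.zero, h4, h5, h8]) fun k => h1 _ (hy k).1 (hy k).2
  have hl : IsSec o C b (val l) := Pol.isSec (val_mem l)
  obtain ⟨n, x, hx⟩ := (nzd_of_simp hC hl h4).exists_reps hC hl
  let ε := (Finite.equivFin {j // Off z (x j)}).symm
  have h6 : Reps C (fun c => val l c = 0) (Sum.elim z fun j => x (ε j)) := by
    refine ⟨?_, ?_, fun c hc h6 => ?_, ?_⟩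
    · rintro (k | k)
      exacts [hz.mem k, hx.mem _]
    · rintro (k | k)
      exacts [(hL l).1 h3 k, hx.prop _]
    · obtain ⟨j, hj⟩ := hx.ex c hc h6
      by_cases h7 : Off z (x j)
      · exact ⟨.inr (ε.symm ⟨j, h7⟩), by simpa using hj⟩
      · obtain ⟨k, hk⟩ := not_forall.1 h7
        exact ⟨.inl k, (not_not.1 hk).trans hj⟩
    · rintro (k | k) (j | j) h7
      · rw [hz.inj k j h7]
      · exact absurd h7 ((ε j).2 k)
      · exact absurd h7.symm ((ε k).2 j)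
      · rw [ε.injective (Subtype.ext (hx.inj _ _ h7))]
  refine ⟨b, l, _, _, fun i => by simp [b], (Triv.of_simp hC hl h6 fun k =>
    h4 _ (h6.mem k) (h6.prop k)).1, h6, h4, h5, fun w => ?_⟩
  choose F h7 h8 h9 using fun k => h2 k _ (Nat.le_succ _)
  choose μ hμ using fun k => mem_Pol.1 (h7 k)
  refine ⟨∑ k, (w k / F k (z k)) • μ k, funext fun j => ?_⟩
  simp only [val_sum, val_smul', hμ]
  rw [Finset.sum_eq_single j (fun k _ hk => by rw [h8 k j hk.symm, mul_zero]) (by simp),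
    div_mul_cancel₀ _ (h9 j)]

namespace Triv

theorem degree_nat [Fintype β] (h : Triv o C (fun i => a i) z u f) (hC : IsCurve o g m C)
    (ha : a ≠ 0) (hz : Spt o C z) (hu : 0 ≤ u) : ∑ k, u k = dg m a := by
  obtain ⟨μ, h1, -⟩ := h.toMer.pol hC ha hz hu
  choose γ hγ using hz.exists_loc hC.nod
  have h2 : ∀ k, ∃ v, AnalyticAt ℂ v 0 ∧ v 0 ≠ 0 ∧
      ∀ᶠ t in 𝓝 0, val μ (γ k t) = t ^ (u k).toNat * v t := fun k => by
    obtain ⟨x, h3, h4⟩ := h.ord' k ((hγ k).br true) (by rw [(hγ k).zero true]; exact .refl _)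
    have h5 : AnalyticAt ℂ (fun t => val μ (γ k t)) 0 :=
      (analyticAt_val μ _).comp ((hγ k).an true)
    rw [← Int.toNat_of_nonneg (hu k)] at h4
    simpa using h5.analyticOrderAt_eq_natCast.1 ((Vz.order h5).2 ⟨x, h3, h4.congr
      ((((hγ k).br true).eventually_off' hC.nod).mono fun t ht => (h1 _ ht.1 ht.2).symm)⟩)
  choose v hv using h2
  rw [← hC.count (val_mem μ) (fun c hc h0 => by
    by_contra h3
    exact h.ne c hc (not_exists.1 h3) (h1 c hc (not_exists.1 h3) ▸ h0)) hz.inj hγ hv]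
  exact Finset.sum_congr rfl fun k _ => (Int.toNat_of_nonneg (hu k)).symm

/-- The degree of the divisor of a meromorphic section. -/
theorem degree [Fintype β] (h : Triv o C χ z u f) (hC : IsCurve o g m C) (hz : Spt o C z) :
    ∑ k, u k = dgz m χ := by
  obtain ⟨b, l, r, w, h1, h2, h3, h4, -⟩ := hC.nod.exists_pres (β' := Empty) (z' := nofun) hz nofun
  have h5 := (of_simp hC.nod (Pol.isSec (val_mem l)) h3 fun k =>
    h4 _ (h3.mem k) (h3.prop k)).2
  obtain ⟨n, h6⟩ := (Set.finite_range (Sum.elim (fun i => (χ i).natAbs + 1)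
    fun k => (u k).natAbs)).bddAbove
  have h7 : ∀ i, (χ i).natAbs + 1 ≤ n := fun i => h6 ⟨.inl i, rfl⟩
  have h8 : ∀ k, (u k).natAbs ≤ n := fun k => h6 ⟨.inr k, rfl⟩
  have h9 : ∀ i, 1 ≤ χ i + n * b i := fun i => by
    have e1 := h7 i
    have e2 : (n : ℤ) * 1 ≤ n * b i :=
      mul_le_mul_of_nonneg_left (by exact_mod_cast h1 i) (by positivity)
    omega
  have e1 : (χ + (n : ℤ) • fun i => (b i : ℤ)) = fun i => ((χ i + n * b i).toNat : ℤ) :=
    funext fun i => (Int.toNat_of_nonneg (zero_le_one.trans (h9 i))).symm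
  have e2 := (((h.ext h2.off_inr).mul (h5.zpow n)).cast e1 rfl).degree_nat hC (fun e => by
    have := congrFun e o
    have := h9 o
    simp only [Pi.zero_apply] at *
    omega) h2 (by
      rintro (k | k)
      · have := h8 k
        simp only [Pi.zero_apply, Pi.add_apply, Sum.elim_inl, Pi.smul_apply, Pi.one_apply,
          smul_eq_mul]
        omega
      · simp)
  have e3 := h5.degree_nat hC (fun e => by simpa [e] using h1 o) h2 fun _ => zero_le_one
  rw [← dgz_nat, ← e1, dgz_add, dgz_smul, dgz_nat, ← e3] at e2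
  simp only [Pi.add_apply, Finset.sum_add_distrib, Pi.smul_apply, smul_eq_mul, ← Finset.mul_sum,
    add_left_inj] at e2
  simpa using e2

end Triv

namespace Bas

variable [Fintype κ] {F : κ → V M → ℂ}

theorem mul [Finite β] (h : Bas o C χ z u F) (he : Triv o C χ' z u' e) :
    Bas o C (χ' + χ) z (u' + u) fun i c => e c * F i c := by
  have h0 : ∀ (x : κ → ℂ) c, ∑ i, x i * (e c * F i c) = e c * ∑ i, x i * F i c := fun x c => by
    rw [Finset.mul_sum]
    exact Finset.sum_congr rfl fun i _ => mul_left_comm _ _ _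
  refine ⟨fun i => he.toMer.mul (h.mer i), fun x hx => h.li x fun c hc ho =>
    (mul_eq_zero.1 ((h0 x c).symm.trans (hx c hc ho))).resolve_left (he.ne c hc ho),
    fun s hs => ?_⟩
  obtain ⟨x, hx⟩ := h.span _ ((he.inv.toMer.mul hs).cast (neg_add_cancel_left _ _)
    (neg_add_cancel_left _ _))
  refine ⟨x, fun c hc ho => ?_⟩
  rw [h0, ← hx c hc ho, mul_inv_cancel_left₀ (he.ne c hc ho)]

theorem cast (h : Bas o C χ z u F) (h1 : χ = χ') (h2 : u = u') : Bas o C χ' z u' F :=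
  h1 ▸ h2 ▸ h

theorem orb {y : β → V M} (h : Bas o C χ z u F) (hy : ∀ k, Orb (z k) (y k)) :
    Bas o C χ y u F :=
  ⟨fun i => (h.mer i).orb hy, fun x hx => h.li x fun c hc ho =>
    hx c hc (ho.of_orb fun k => (hy k).symm), fun s hs =>
      (h.span s (hs.orb fun k => (hy k).symm)).imp fun _ hx c hc ho => hx c hc (ho.of_orb hy)⟩

theorem ext [Finite β] [Finite β'] (h : Bas o C χ z u F) (hC : Nod o C)
    (hz : Spt o C (Sum.elim z z')) : Bas o C χ (Sum.elim z z') (Sum.elim u 0) F := by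
  refine ⟨fun i => (h.mer i).ext hz.off_inr, fun x hx => h.li x
    ((Mer.sum Finset.univ fun i _ => (h.mer i).smul (x i)).eq_of_off (Mer.zero (χ := χ) (u := u))
      hC fun c hc h1 h2 => hx c hc (off_sum.2 ⟨h1, h2⟩)), fun s hs => ?_⟩
  obtain ⟨s', h1, h2, -⟩ := hs.remove hC hz le_rfl
  exact (h.span s' h1).imp fun x hx c hc ho =>
    (h2 c (off_sum.1 ho).2).symm.trans (hx c hc (off_sum.1 ho).1)

theorem exists_coord {κ' : Type*} [Fintype κ'] {F' : κ' → V M → ℂ} (h : Bas o C χ z u F)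
    (h1 : ∀ i, Mer o C χ z u (F' i))
    (h2 : ∀ x : κ' → ℂ, (∀ c ∈ C, Off z c → ∑ i, x i * F' i c = 0) → x = 0) :
    ∃ A : κ' → κ → ℂ, LinearIndependent ℂ A ∧ ∀ x : κ' → ℂ, ∀ c ∈ C, Off z c →
      ∑ j, x j * F' j c = ∑ i, (∑ j, x j • A j) i * F i c := by
  choose A hA using fun j => h.span _ (h1 j)
  have h3 : ∀ x : κ' → ℂ, ∀ c ∈ C, Off z c →
      ∑ j, x j * F' j c = ∑ i, (∑ j, x j • A j) i * F i c := fun x c hc ho => by
    simp only [hA _ c hc ho, Finset.sum_apply, Pi.smul_apply, smul_eq_mul, Finset.mul_sum,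
      Finset.sum_mul, mul_assoc]
    exact Finset.sum_comm
  exact ⟨A, Fintype.linearIndependent_iff.2 fun x hx => congrFun (h2 x fun c hc ho => by
    rw [h3 x c hc ho, hx]
    simp), h3⟩

theorem card_le {κ' : Type*} [Fintype κ'] {F' : κ' → V M → ℂ} (h : Bas o C χ z u F)
    (h1 : ∀ i, Mer o C χ z u (F' i))
    (h2 : ∀ x : κ' → ℂ, (∀ c ∈ C, Off z c → ∑ i, x i * F' i c = 0) → x = 0) :
    Fintype.card κ' ≤ Fintype.card κ := by
  obtain ⟨A, h3, -⟩ := h.exists_coord h1 h2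
  simpa using h3.fintype_card_le_finrank

theorem of_card {κ' : Type*} [Fintype κ'] {F' : κ' → V M → ℂ} (h : Bas o C χ z u F)
    (h1 : ∀ i, Mer o C χ z u (F' i))
    (h2 : ∀ x : κ' → ℂ, (∀ c ∈ C, Off z c → ∑ i, x i * F' i c = 0) → x = 0)
    (h3 : Fintype.card κ' = Fintype.card κ) : Bas o C χ z u F' := by
  obtain ⟨A, h4, h5⟩ := h.exists_coord h1 h2
  refine ⟨h1, h2, fun s hs => ?_⟩
  obtain ⟨x, hx⟩ := h.span s hs
  obtain ⟨y, rfl⟩ := (Submodule.mem_span_range_iff_exists_fun ℂ).1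
    ((h4.span_eq_top_of_card_eq_finrank' (by simpa using h3)).symm ▸ Submodule.mem_top (x := x))
  exact ⟨y, fun c hc ho => (hx c hc ho).trans (h5 y c hc ho).symm⟩

end Bas

/-- Evaluation points for a linearly independent family of sections. -/
theorem Nod.exists_evp [Finite β] [Fintype κ] [DecidableEq κ] (hC : Nod o C) {F : κ → V M → ℂ}
    (h1 : ∀ i, Mer o C χ z u (F i))
    (h2 : ∀ x : κ → ℂ, (∀ c ∈ C, Off z c → ∑ i, x i * F i c = 0) → x = 0) {p : V M → Prop}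
    (hp : ∀ c ∈ C, ∃ᶠ y in 𝓝[C] c, p y) : ∃ y : κ → V M,
      (∀ k, y k ∈ C ∧ Off z (y k) ∧ p (y k)) ∧ (Matrix.of fun k i => F i (y k)).det ≠ 0 := by
  let ev : V M → κ → ℂ := fun c i => F i c
  have h3 : Submodule.span ℂ (ev '' {c | c ∈ C ∧ Off z c ∧ p c}) = ⊤ := by
    by_contra h3
    obtain ⟨φ, h4, h5⟩ := Submodule.exists_le_ker_of_lt_top _ (lt_top_iff_ne_top.2 h3)
    have h6 : ∀ v, φ v = ∑ i, φ (fun j => if i = j then 1 else 0) * v i := fun v => by
      rw [LinearMap.pi_apply_eq_sum_univ]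
      exact Finset.sum_congr rfl fun i _ => mul_comm _ _
    have h7 := h2 (fun i => φ fun j => if i = j then 1 else 0) fun c hc ho => by
      by_contra h7
      obtain ⟨q, h8, h9⟩ := (Mer.sum Finset.univ fun i _ =>
        (h1 i).smul (φ fun j => if i = j then 1 else 0)).hol hC hc ho
      obtain ⟨y, e1, e2, e3, e4, e5⟩ := ((hp c hc).and_eventually (h9.and
        (((h8.continuousAt.eventually_ne (h9.self_of_nhdsWithin hc ▸ h7)).filter_mono
          nhdsWithin_le_nhds).and (((ho.eventually (hC.ne_zero c hc)).filter_mono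
            nhdsWithin_le_nhds).and self_mem_nhdsWithin)))).exists
      exact e3 (e2.symm.trans ((h6 (ev y)).symm.trans
        (h5 (Submodule.subset_span ⟨y, ⟨e5, e4, e1⟩, rfl⟩))))
    exact h4 (LinearMap.ext fun v => by simp [h6 v, congrFun h7])
  obtain ⟨B, h4, h5, h6⟩ := exists_linearIndependent ℂ (ev '' {c | c ∈ C ∧ Off z c ∧ p c})
  let ε := (Basis.mk h6 (by rw [Subtype.range_coe, h5, h3])).indexEquiv (Pi.basisFun ℂ κ)
  choose y h7 h8 using fun k => h4 (ε.symm k).2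
  refine ⟨y, h7, ((Matrix.isUnit_iff_isUnit_det _).1
    (Matrix.linearIndependent_rows_iff_isUnit.1 ?_)).ne_zero⟩
  have h9 := h6.comp _ ε.symm.injective
  rwa [show Subtype.val ∘ ε.symm = fun k => ev (y k) from (funext h8).symm] at h9

theorem _root_.Vale.Agent.P269.IsCurve.exists_bas [Finite β] (h : IsCurve o g m C) (ha : a ≠ 0)
    (hz : Spt o C z) {n : ℕ} (hn : (n : ℤ) = dg m a + 1 - g) :
    ∃ μ : Fin n → Tens M a, Bas o C (fun i => a i) z 0 fun i => val (μ i) := by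
  have hr : finrank ℂ (Hs C a) = n := by have := h.finrank_Hs ha; omega
  let B := finBasisOfFinrankEq ℂ _ hr
  choose μ hμ using fun i => (B i).2
  have h1 : ∀ (x : Fin n → ℂ) (c : C), (∑ i, x i • B i : Hs C a).1 c = ∑ i, x i * val (μ i) c :=
    fun x c => by
      simp only [Submodule.coe_sum, Submodule.coe_smul, Finset.sum_apply, Pi.smul_apply, ← hμ]
      rfl
  refine ⟨μ, fun i => .of_isSec (Pol.isSec (val_mem _)), fun x hx => funext
    (Fintype.linearIndependent_iff.1 B.linearIndependent x (Subtype.ext (funext fun c =>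
      (h1 x c).trans ?_))), fun s hs => ?_⟩
  · exact (Mer.sum (z := fun e : Empty => e.elim) (u := 0) Finset.univ fun i _ =>
      (Mer.of_isSec (Pol.isSec (val_mem (μ i)))).smul (x i)).eq_of_off
        (Mer.zero (χ := 0) (u := 0)) h.nod (fun c hc _ ho => hx c hc ho) c c.2 nofun
  · obtain ⟨ν, h2, -⟩ := hs.pol h ha hz le_rfl
    refine ⟨B.repr ⟨_, ν, rfl⟩, fun c hc ho => ?_⟩
    rw [← h1 _ ⟨c, hc⟩, B.sum_repr, ← h2 c hc ho]
    rfl

end Vale.Agent.P269.Base
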