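import Vale.Agent.P269.Base.FMer
import Vale.Agent.P269.Base.Mer
import Vale.Agent.P269.Base.MerE

/-!
# The first order variation of the jet conditions along a twisting family
-/

namespace Vale.Agent.P269.Base

open Set Function Topology Filter Holo

set_option linter.unusedSectionVars false

namespace Tr

theorem ev_slice {X : Type*} [TopologicalSpace X] {x : X} {p : ℂ × X → Prop}
    (h : ∀ᶠ q in 𝓝 (0, x), p q) : ∀ᶠ y in 𝓝 x, ∀ᶠ ε in 𝓝 0, p (ε, y) :=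
  ((tendsto_inr 0 x).eventually h.eventually_nhds).mono fun y hy => (tendsto_inl 0 y).eventually hy

theorem an_slice {X Y F : Type*} [NormedAddCommGroup X] [NormedSpace ℂ X] [NormedAddCommGroup Y]
    [NormedSpace ℂ Y] [NormedAddCommGroup F] [NormedSpace ℂ F] {f : X × Y → F} {x : X} {y : Y}
    (h : AnalyticAt ℂ f (x, y)) : AnalyticAt ℂ (fun z => f (x, z)) y :=
  h.comp (f := fun z => (x, z)) (analyticAt_const.prod analyticAt_id)

theorem an_slice' {X Y F : Type*} [NormedAddCommGroup X] [NormedSpace ℂ X] [NormedAddCommGroup Y]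
    [NormedSpace ℂ Y] [NormedAddCommGroup F] [NormedSpace ℂ F] {f : X × Y → F} {x : X} {y : Y}
    (h : AnalyticAt ℂ f (x, y)) : AnalyticAt ℂ (fun z => f (z, y)) x :=
  h.comp (f := fun z => (z, y)) (analyticAt_id.prod analyticAt_const)

theorem hasDerivAt_id_smul {F : Type*} [NormedAddCommGroup F] [NormedSpace ℂ F] {k : ℂ → F}
    (h : AnalyticAt ℂ k 0) : HasDerivAt (fun ε => ε • k ε) (k 0) 0 := by
  simpa using (hasDerivAt_id' (0 : ℂ)).fun_smul h.differentiableAt.hasDerivAt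

theorem hasDerivAt_zpow' {f : ℂ → ℂ} {f' x : ℂ} (h : HasDerivAt f f' x) (d : ℤ) (h0 : f x ≠ 0) :
    HasDerivAt (fun t => f t ^ d) (d * f x ^ (d - 1) * f') x :=
  (hasDerivAt_zpow d (f x) (.inl h0)).comp x h

/-- The partial derivative of an analytic function. -/
theorem exists_pd {X : Type*} [NormedAddCommGroup X] [NormedSpace ℂ X] [FiniteDimensional ℂ X]
    {F : ℂ × X → ℂ} {x : X} (h : AnalyticAt ℂ F (0, x)) :
    ∃ G, AnalyticAt ℂ G x ∧ ∀ᶠ y in 𝓝 x, HasDerivAt (fun ε => F (ε, y)) (G y) 0 := by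
  obtain ⟨G, h1, h2⟩ := exists_div h
  refine ⟨_, an_slice h1, ((tendsto_inr 0 x).eventually h1.eventually_analyticAt).mono
    fun y hy => ?_⟩
  rw [show (fun ε => F (ε, y)) = fun ε => F (0, y) + ε • G (ε, y) from funext fun ε => h2 (ε, y)]
  exact (hasDerivAt_id_smul (an_slice' hy)).const_add _

theorem deriv_jet {F G : ℂ × ℂ → ℂ} (h : AnalyticAt ℂ F (0, 0)) (h1 : AnalyticAt ℂ G (0, 0))
    (h2 : ∀ p, F p = F (0, p.2) + p.1 • G p) (n : ℕ) :
    HasDerivAt (fun ε => jet n fun w => F (ε, w)) (jet n fun w => G (0, w)) 0 := by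
  refine ((hasDerivAt_id_smul (an_jet h1 n)).const_add
    (jet n fun w => F (0, w))).congr_of_eventuallyEq ?_
  filter_upwards [(tendsto_inl (0 : ℂ) (0 : ℂ)).eventually h1.eventually_analyticAt] with ε h3
  rw [← jet_smul, ← jet_add (an_slice h) (analyticAt_const.fun_mul (an_slice h3))]
  exact congrArg _ (funext fun w => h2 (ε, w))

theorem vz_pole {R : ℂ × ℂ → ℂ} (h : AnalyticAt ℂ R (0, 0)) (d : ℤ) (y : ℂ) :
    Vz (-1) (fun w => deriv (fun ε => (w / (w - ε * y)) ^ d * R (ε, w)) 0) (d * y * R (0, 0)) := by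
  obtain ⟨G, h1, h2⟩ := exists_pd h
  refine ⟨fun w => d * y * R (0, w) + w * G w, (analyticAt_const.mul (an_slice h)).add
    (analyticAt_id.mul h1), by simp, ?_⟩
  filter_upwards [mem_nhdsWithin_of_mem_nhds h2, self_mem_nhdsWithin] with w h3 hw
  have hw : w ≠ 0 := hw
  have h4 : HasDerivAt (fun ε : ℂ => w / (w - ε * y)) (y / w) 0 := by
    refine ((hasDerivAt_const (0 : ℂ) w).fun_div
      (((hasDerivAt_id' (0 : ℂ)).mul_const y).const_sub w) (by simpa using hw)).congr_deriv ?_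
    simp only [zero_mul, sub_zero]
    field_simp
    ring
  rw [((hasDerivAt_zpow' h4 d (by simpa using hw)).fun_mul h3).deriv]
  simp [hw]
  field_simp

theorem exists_var {A φ F G : ℂ × ℂ → ℂ} {g : ℂ → ℂ} {u n : ℤ} {N : ℕ} (hN : (N : ℤ) = u + n)
    (hA : AnalyticAt ℂ A (0, 0)) (hφ : AnalyticAt ℂ φ (0, 0)) (hG : AnalyticAt ℂ G (0, 0))
    (hg : AnalyticAt ℂ g 0) (h1 : ∀ p, F p = F (0, p.2) + p.1 • G p) (h2 : Dv N fun w => F (0, w))
    (h3 : ∀ᶠ w in 𝓝 0, φ (0, w) = w ∧ g w * A (0, w) = 1)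
    (h4 : u = 0 ∨ ∀ᶠ ε in 𝓝 0, φ (ε, 0) = 0) :
    ∃ r, AnalyticAt ℂ r 0 ∧ ∀ᶠ w in 𝓝[≠] (0 : ℂ), w ^ n * g w *
      deriv (fun ε => A (ε, w) * F (ε, φ (ε, w)) / φ (ε, w) ^ n) 0 = G (0, w) + w ^ N * r w := by
  obtain ⟨m, h5, h6⟩ := h2
  have φ0 : φ (0, 0) = 0 := h3.self_of_nhds.1
  have aB : AnalyticAt ℂ (fun q => A q * m (φ q)) (0, 0) := hA.mul (h5.comp_of_eq hφ φ0)
  have aD : AnalyticAt ℂ (fun q => A q * G (q.1, φ q)) (0, 0) :=
    hA.mul (hG.comp_of_eq (analyticAt_fst.prod hφ) (by rw [φ0]))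
  obtain ⟨B', b1, b2⟩ := exists_pd aB
  obtain ⟨φ', p1, p2⟩ := exists_pd hφ
  obtain ⟨ψ, s1, s2⟩ : Dv 1 fun w => u * φ' w := by
    refine Dv.one (analyticAt_const.mul p1) ?_
    rcases h4 with h4 | h4
    · simp [h4]
    · rw [← p2.self_of_nhds.deriv, EventuallyEq.deriv_eq h4]
      simp
  have t1 : Tendsto φ (𝓝 (0, 0)) (𝓝 0) := hφ.continuousAt.tendsto.trans_eq (by rw [φ0])
  refine ⟨fun w => g w * (B' w + A (0, w) * m (φ (0, w)) * ψ w),
    hg.mul (b1.add ((an_slice aB).mul s1)), ?_⟩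
  filter_upwards [mem_nhdsWithin_of_mem_nhds (h3.and (b2.and (p2.and (s2.and
    ((ev_slice (t1.eventually h6)).and (((tendsto_inr (0 : ℂ) (0 : ℂ)).eventually
      (aD.eventually_analyticAt.and hφ.eventually_analyticAt)))))))), self_mem_nhdsWithin]
    with w ⟨⟨e1, e2⟩, e3, e4, e5, e6, e7, e8⟩ hw
  have hw : w ≠ 0 := hw
  have hw' : φ (0, w) ≠ 0 := by rwa [e1]
  have d1 := (e3.fun_mul (hasDerivAt_zpow' e4 u hw')).fun_add
    (hasDerivAt_id_smul ((an_slice' e7).mul ((an_slice' e8).zpow (n := -n) hw')))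
  have d2 : (fun ε => A (ε, w) * F (ε, φ (ε, w)) / φ (ε, w) ^ n) =ᶠ[𝓝 0] fun ε =>
      A (ε, w) * m (φ (ε, w)) * φ (ε, w) ^ u +
        ε • (A (ε, w) * G (ε, φ (ε, w)) * φ (ε, w) ^ (-n)) := by
    filter_upwards [e6, e4.continuousAt.eventually_ne hw'] with ε k1 k2
    rw [h1, k1, ← zpow_natCast, hN, zpow_add₀ k2, zpow_neg]
    simp only [smul_eq_mul]
    field_simp
  rw [(d1.congr_of_eventuallyEq d2).deriv, ← zpow_natCast, hN, zpow_add₀ hw]
  simp only [Pi.mul_apply, Pi.inv_apply, Pi.pow_apply, e1, zpow_neg, zpow_sub_one₀ hw]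
  have hn := zpow_ne_zero n hw
  field_simp
  linear_combination (w ^ n * g w * w ^ u * A (0, w) * m w) * e5 + w * G (0, w) * e2

theorem vz_one {p : ℂ → ℂ} (h : AnalyticAt ℂ p 0) (h0 : p 0 = 0) : Vz 1 p (deriv p 0) := by
  obtain ⟨q, hq⟩ := h
  exact ⟨dslope p 0, ⟨_, hq.has_fpower_series_dslope_fslope⟩, dslope_same _ _,
    .of_forall fun t => by simpa [h0] using (sub_smul_dslope p 0 t).symm⟩

end Tr

open Tr

variable {ι : Type} [Fintype ι] {M : ι → ℕ} {β β' : Type*} [Fintype β] [Fintype β'] {o : ι}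
  {χ χ' : ι → ℤ} {u n : β → ℤ} {a b : ι → ℕ} {g : ℤ} {m : ι → ℤ} {N : β → ℕ}
  {T P : Type*} [TopologicalSpace T] [NormedAddCommGroup P] [NormedSpace ℂ P]
  [FiniteDimensional ℂ P] {C : T → Set (V M)} {π : T → P} {t₀ : T} {σ : β → P × ℂ → V M}
  {e : T → V M → ℂ} {l : V M → ℂ} {γ : β' → ℂ → V M} {μ : Tens M a}

section
variable {x : ℂ → T} {v : ι → ℤ} {y : β' → ℂ} {I : ℂ → V M → V M}

omit [Fintype β] [FiniteDimensional ℂ P] in
theorem Pres.tr_pull (h : Pres o C π (x 0) χ σ u χ' n e a N) (hx : ContinuousAt x 0)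
    (hx' : AnalyticAt ℂ (fun ε => π (x ε)) 0) {X : Type*} [NormedAddCommGroup X] [NormedSpace ℂ X]
    {J : ℂ × X → V M} {ξ : X} (hJ : AnalyticAt ℂ J (0, ξ)) (hm : J (0, ξ) ∈ C (x 0))
    (ho : Off (ctr σ (π (x 0))) (J (0, ξ))) : ∃ Ψ, AnalyticAt ℂ Ψ (0, ξ) ∧ Ψ (0, ξ) ≠ 0 ∧
      ∀ᶠ q in 𝓝 (0, ξ), J q ∈ C (x q.1) → e (x q.1) (J q) = Ψ q := by
  obtain ⟨Φ, h1, h2⟩ := h.mer.reg _ hm ho
  have h3 : Tendsto (fun q : ℂ × X => (x q.1, J q)) (𝓝 (0, ξ)) (𝓝 (x 0, J (0, ξ))) :=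
    (hx.tendsto.comp (continuousAt_fst (p := (0, ξ)))).prodMk_nhds hJ.continuousAt
  exact ⟨fun q => Φ (π (x q.1), J q), h1.comp_of_eq ((hx'.comp_of_eq analyticAt_fst rfl).prod hJ)
    rfl, (h2.self_of_nhds hm).symm.trans_ne (h.triv.ne _ hm ho), h3.eventually h2⟩

omit [Fintype β] [Fintype β'] [FiniteDimensional ℂ P] in
theorem Pres.tr_pole (h : Pres o C π (x 0) χ σ u χ' n e a N) (hx : ContinuousAt x 0)
    (hx' : AnalyticAt ℂ (fun ε => π (x ε)) 0) (hI : Tw (C (x 0)) γ v y (fun ε => C (x ε)) I)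
    {k : β'} (ho : Off (ctr σ (π (x 0))) (γ k 0)) :
    Vz (-1) (fun w => e (x 0) (γ k w) *
      deriv (fun ε => val μ (I ε (γ k w)) / e (x ε) (I ε (γ k w))) 0)
      (dgz v χ * y k * val μ (γ k 0)) := by
  obtain ⟨H, h1, h2, h3⟩ := hI.pole k
  have e0 := h2.self_of_nhds
  obtain ⟨Ψ, h4, h5, h6⟩ := h.tr_pull hx hx' h1 h3.self_of_nhds.1 (e0 ▸ ho)
  have h7 := (vz_pole ((an_val (μ := fun _ => μ) analyticAt_const h1).fun_div h4 h5) (dgz v χ)
    (y k)).an_mul (an_slice h4)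
  rw [e0, mul_left_comm, mul_div_cancel₀ _ h5] at h7
  refine h7.congr ?_
  filter_upwards [mem_nhdsWithin_of_mem_nhds (h2.and (ev_slice (h3.and h6))), self_mem_nhdsWithin]
    with w ⟨k1, k2⟩ hw
  have hw : w ≠ 0 := hw
  rw [← k2.self_of_nhds.2 k2.self_of_nhds.1.1, k1]
  refine congrArg _ (EventuallyEq.deriv_eq ?_)
  filter_upwards [k2, hx.eventually h.mer.hom, ContinuousAt.eventually_ne
    (g := fun ε : ℂ => w - ε * y k) (x := 0) (y := 0) (by fun_prop) (by simpa using hw)]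
    with ε ⟨⟨k3, k4⟩, k5⟩ k6 k7
  have k8 := div_ne_zero hw k7
  have k9 := fun i => zpow_ne_zero (v i) k8
  rw [k4 hw (sub_ne_zero.1 k7), val_smul, k6 _ k9 _ k3, k5 k3, ← chz_nat, funext h.deg,
    ← Pi.add_def, chz_add k9, chz_zpow k8, mul_right_comm, mul_comm (chz χ' _),
    mul_div_mul_right _ _ (chz_ne_zero k9), mul_div_assoc]

omit [Fintype β] in
theorem Pres.tr_jet (h : Pres o C π (x 0) χ σ u χ' n e a N) (hx : ContinuousAt x 0)
    (hx' : AnalyticAt ℂ (fun ε => π (x ε)) 0) (hI : Tw (C (x 0)) γ v y (fun ε => C (x ε)) I)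
    {k : β} (ho : Off (fun k => γ k 0) (σ k (π (x 0), 0)))
    (hfix : u k = 0 ∨ ∀ᶠ ε in 𝓝 (0 : ℂ), Orb (I ε (σ k (π (x 0), 0))) (σ k (π (x ε), 0)))
    (hμ : jetL a σ N (π (x 0)) μ k = 0) :
    ∃ G r, AnalyticAt ℂ G 0 ∧ AnalyticAt ℂ r 0 ∧
      HasDerivAt (fun ε => jetL a σ N (π (x ε)) μ k) (jet (N k) G) 0 ∧
      ∀ᶠ w in 𝓝[≠] (0 : ℂ), e (x 0) (σ k (π (x 0), w)) * deriv (fun ε =>
        val μ (I ε (σ k (π (x 0), w))) / e (x ε) (I ε (σ k (π (x 0), w)))) 0 =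
          G w + w ^ N k * r w := by
  have hc := h.pts.chart k
  have hb := h.pts.isBranch h.fam k
  have hne := h.pts.ne h.fam k
  obtain ⟨Φ, h1, h2⟩ := hI.reg _ (h.pts.mem k) ho
  obtain ⟨g, g1, g2, g3⟩ := h.mer.ord_ne h.fam h.pts h.triv k
  obtain ⟨S, W, s1, w1, s2, w2, h3⟩ := hc.normal h.fam h.mer.hom g3
  have aπ : AnalyticAt ℂ (fun q : ℂ × ℂ => π (x q.1)) (0, 0) := hx'.comp_of_eq analyticAt_fst rfl
  have a0 : AnalyticAt ℂ (fun q : ℂ × ℂ => (q.1, σ k (π (x 0), q.2))) (0, 0) :=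
    analyticAt_fst.prod (hb.holo.comp_of_eq analyticAt_snd rfl)
  have aJ : AnalyticAt ℂ (fun q : ℂ × ℂ => Φ (q.1, σ k (π (x 0), q.2))) (0, 0) :=
    h1.comp_of_eq a0 rfl
  have m1 : ∀ᶠ q : ℂ × ℂ in 𝓝 (0, 0), I q.1 (σ k (π (x 0), q.2)) = Φ (q.1, σ k (π (x 0), q.2)) ∧
      Φ (q.1, σ k (π (x 0), q.2)) ∈ C (x q.1) := by
    filter_upwards [a0.continuousAt.tendsto.eventually h2,
      continuousAt_snd.tendsto.eventually hb.mem] with q k1 k2 using k1 k2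
  have m2 : ∀ᶠ w in 𝓝 (0 : ℂ), Φ (0, σ k (π (x 0), w)) = σ k (π (x 0), w) := by
    filter_upwards [(tendsto_inr _ _).eventually m1, hb.mem,
      hb.holo.continuousAt.tendsto.eventually (ho.eventually hne)] with w k1 k2 k3
    exact k1.1.symm.trans (hI.zero _ k2 k3)
  set J : ℂ × ℂ → V M := fun q => Φ (q.1, σ k (π (x 0), q.2))
  have J0 : J (0, 0) = σ k (π (x 0), 0) := m2.self_of_nhds
  have aS : AnalyticAt ℂ (fun q => S (π (x q.1), J q)) (0, 0) :=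
    s1.comp_of_eq (aπ.prod aJ) (by rw [J0])
  have aW : AnalyticAt ℂ (fun q => W (π (x q.1), J q)) (0, 0) :=
    w1.comp_of_eq (aπ.prod aJ) (by rw [J0])
  have W0 : W (π (x 0), J (0, 0)) = 0 := by rw [J0, w2]
  have t1 : Tendsto (fun q : ℂ × ℂ => (x q.1, J q)) (𝓝 (0, 0)) (𝓝 (x 0, σ k (π (x 0), 0))) :=
    (hx.tendsto.comp (continuousAt_fst (p := (0, 0)))).prodMk_nhds (J0 ▸ aJ.continuousAt.tendsto :)
  have m3 := m1.and (t1.eventually h3)
  have tW : Tendsto (fun q => W (π (x q.1), J q)) (𝓝 (0, 0)) (𝓝 0) :=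
    aW.continuousAt.tendsto.trans_eq (by rw [W0])
  have aF : AnalyticAt ℂ (fun q : ℂ × ℂ => val μ (σ k (π (x q.1), q.2))) (0, 0) :=
    an_val analyticAt_const (hc.an.comp_of_eq (aπ.prod analyticAt_snd) rfl)
  obtain ⟨G, G1, G2⟩ := exists_div aF
  have ag : AnalyticAt ℂ (fun q => g (π (x q.1), W (π (x q.1), J q))) (0, 0) :=
    g1.comp_of_eq (aπ.prod aW) (by rw [W0])
  have S0 : ∀ i, S (π (x 0), J (0, 0)) i ≠ 0 := by simp [J0, s2]
  have m4 : ∀ᶠ w in 𝓝 (0 : ℂ), S (π (x 0), J (0, w)) = 1 ∧ W (π (x 0), J (0, w)) = w := by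
    filter_upwards [(tendsto_inr _ _).eventually m3, m2,
      ((tendsto_const_nhds (x := π (x 0))).prodMk_nhds ((tW.comp (tendsto_inr _ _)).prodMk_nhds
        tendsto_id)).eventually (hc.inj hne)] with w k1 k2 k3 using k3 _ (k2.symm.trans (k1.2.2.2 k1.1.2).1)
  obtain ⟨r, r1, r2⟩ := exists_var (A := fun q => chr a (S (π (x q.1), J q)) /
      (chz χ' (S (π (x q.1), J q)) * g (π (x q.1), W (π (x q.1), J q)))) (h.ord k)
    (((analyticAt_chr _).comp aS).fun_div (((analyticAt_chz S0).comp_of_eq aS rfl).mul ag)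
      (mul_ne_zero (chz_ne_zero S0) (by rwa [W0]))) aW G1 (an_slice g1) G2
    ((dv_iff_jet (an_slice aF)).2 ((jetL_apply hc.an μ).symm.trans hμ))
    (by
      filter_upwards [m4, (an_slice g1).continuousAt.eventually_ne g2] with w k1 k2
      simp [k1.1, k1.2, k2])
    (hfix.imp_right fun hf => by
      filter_upwards [hf, (tendsto_inl _ _).eventually m3, (hx'.continuousAt.tendsto.prodMk_nhds
        ((tW.comp (tendsto_inl _ _)).prodMk_nhds (tendsto_const_nhds (x := (0 : ℂ))))).eventually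
        (hc.inj hne)] with ε ⟨s, _, k1⟩ k2 k3
      exact (k3 _ ((k1.trans (congrArg _ (k2.1.1.trans (k2.2.2.2 k2.1.2).1))).trans
        (smul_smul _ _ _))).2)
  refine ⟨_, r, an_slice G1, r1, (deriv_jet aF G1 G2 _).congr_of_eventuallyEq ?_, ?_⟩
  · exact ((hx'.continuousAt.tendsto.prodMk_nhds tendsto_const_nhds).eventually
      hc.an.eventually_analyticAt).mono fun ε k1 => jetL_apply k1 μ
  · filter_upwards [r2, self_mem_nhdsWithin, mem_nhdsWithin_of_mem_nhds (m4.and ((ev_slice m3).and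
      (((tendsto_inr _ _).eventually g3).and
        ((tendsto_inr _ _).eventually aW.eventually_analyticAt))))] with w k1 hw ⟨k2, k3, k4, k5⟩
    rw [← k1, k4 hw]
    refine congrArg _ (EventuallyEq.deriv_eq ?_)
    filter_upwards [k3, (an_slice' k5).continuousAt.eventually_ne (y := 0) (by rw [k2.2]; exact hw)]
      with ε ⟨⟨k6, k7⟩, k8, k9, k10⟩ k11
    rw [k6, (k10 k7).2, k9 k11, congrArg (val μ) (k10 k7).1, val_smul]
    ring

end

theorem Pres.trans (h : Pres o C π t₀ χ σ u χ' n e a N) (h0 : IsCurve o g m (C t₀))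
    (hl : l ∈ Pol M b) (hz : Reps (C t₀) (fun c => l c = 0) fun k => γ k 0)
    (hs : ∀ k, Simp o (C t₀) l (γ k 0)) (hγ : ∀ k, IsBranch o (C t₀) (γ k))
    (hσ : ∀ k, l (σ k (π t₀, 0)) ≠ 0) {x : ℂ → T} (hx0 : x 0 = t₀) (hx : ContinuousAt x 0)
    (hx' : AnalyticAt ℂ (fun ε => π (x ε)) 0) {v : ι → ℤ} {y : β' → ℂ} {I : ℂ → V M → V M}
    (hI : Tw (C t₀) γ v y (fun ε => C (x ε)) I)
    (hfix : ∀ k, u k = 0 ∨
      ∀ᶠ ε in 𝓝 (0 : ℂ), Orb (I ε (σ k (π t₀, 0))) (σ k (π (x ε), 0)))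
    (hμ : jetL a σ N (π t₀) μ = 0) {S : V M → ℂ} (hS : S ∈ Pol M (a + b))
    (hv : ∀ k, S (γ k 0) = dgz v χ * y k * deriv (fun w => l (γ k w)) 0 * val μ (γ k 0)) :
    ∃ μ' : Tens M a, deriv (fun ε => jetL a σ N (π (x ε)) μ) 0 + jetL a σ N (π t₀) μ' =
      fun k => jet (N k) fun w => S (σ k (π t₀, w)) / l (σ k (π t₀, w)) := by
  subst hx0
  have hC := h0.nod
  have sl : IsSec o (C (x 0)) b l := Pol.isSec hl
  have o1 : ∀ c, l c ≠ 0 → Off (fun k => γ k 0) c := fun c h1 k hk =>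
    h1 ((sl.hm.orb (hz.mem k) hk).2 (hz.prop k))
  have o2 : ∀ k, Off (ctr σ (π (x 0))) (γ k 0) := fun k j hj => o1 _ (hσ j) k hj.symm
  have hZ := (h.pts.spt h.fam).sum (Triv.of_simp hC sl hz hs).1 o2
  have hb := h.pts.isBranch h.fam
  choose G r g1 r1 g2 g3 using fun k =>
    h.tr_jet hx hx' hI (o1 _ (hσ k)) (hfix k) (congrFun hμ k)
  have p1 := fun k =>
    (vz_one (sl.holo _ (hγ k)) (hz.prop k)).mul (h.tr_pole (μ := μ) hx hx' hI (o2 k))
  rw [add_neg_cancel] at p1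
  have key : Mer o (C (x 0)) (fun i => (a + b) i) (Sum.elim (ctr σ (π (x 0))) fun k => γ k 0) 0
      fun c => l c * (e (x 0) c * deriv (fun ε => val μ (I ε c) / e (x ε) (I ε c)) 0) := by
    refine Mer.of_loc hC hZ (fun s hs c hc => ?_) (fun c hc ho => ⟨c, .refl c, ?_⟩) ?_
    · rw [Pol.hom hl, chz_nat]
      by_cases h1 : l c = 0
      · simp [h1]
      obtain ⟨Φ, -, h2⟩ := hI.reg c hc (o1 c h1)
      have h3 : (fun ε => val μ (I ε (s • c)) / e (x ε) (I ε (s • c))) =ᶠ[𝓝 0]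
          fun ε => chr a s / chz χ' s * (val μ (I ε c) / e (x ε) (I ε c)) := by
        filter_upwards [hI.hom, hx.eventually h.mer.hom, (tendsto_inl _ _).eventually h2]
          with ε k1 k2 k3
        rw [k1 s hs c hc, val_smul, k2 s hs _ ((k3 hc).1 ▸ (k3 hc).2), mul_div_mul_comm]
      rw [h3.deriv_eq, deriv_const_mul_field, h.triv.hom s hs c hc, chr_add]
      field_simp [chz_ne_zero (χ := χ') hs]
    · obtain ⟨Φ, h1, h2⟩ := hI.reg c hc (off_sum.1 ho).2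
      have e0 : Φ (0, c) = c := (h2.self_of_nhds hc).1.symm.trans (hI.zero c hc (off_sum.1 ho).2)
      obtain ⟨Ψ, h3, h4, h5⟩ := h.tr_pull hx hx' h1 (h2.self_of_nhds hc).2
        (e0.symm ▸ (off_sum.1 ho).1)
      obtain ⟨D, h6, h7⟩ := exists_pd ((an_val (μ := fun _ => μ) analyticAt_const h1).fun_div h3 h4)
      obtain ⟨q, h8, h9⟩ := h.triv.toMer.hol hC hc (off_sum.1 ho).1
      refine ⟨_, (Pol.an hl c).fun_mul (h8.fun_mul h6), ?_⟩
      filter_upwards [h9, self_mem_nhdsWithin, mem_nhdsWithin_of_mem_nhds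
        (h7.and (ev_slice (h2.and h5)))] with y k1 k2 ⟨k3, k4⟩
      rw [k1, ← k3.deriv]
      refine congrArg _ (congrArg _ (EventuallyEq.deriv_eq (k4.mono fun ε k5 => ?_)))
      simp only [(k5.1 k2).1, k5.2 (k5.1 k2).2]
    · rintro (k | k)
      · exact ⟨_, hb k, .refl _, _, (Vz.of_an ((sl.holo _ (hb k)).fun_mul ((g1 k).fun_add
          ((analyticAt_id.fun_pow (N k)).fun_mul (r1 k))))).congr
            ((g3 k).mono fun w hw => congrArg _ hw.symm)⟩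
      · exact ⟨_, hγ k, .refl _, _, p1 k⟩
  obtain ⟨ν, h1, -⟩ := key.pol h0 (add_ne h.ne b) hZ le_rfl
  have sS := (Pol.isSec (o := o) (C := C (x 0)) hS).sub (Pol.isSec (val_mem ν))
  obtain ⟨_, ⟨μ', rfl⟩, h2⟩ := h0.div h.ne (nzd_of_simp hC sl fun c hc h2 =>
    (hz.ex c hc h2).elim fun k hk => (hs k).orb hC sl.hm hk) sl sS fun c hc h2 => by
      obtain ⟨k, hk⟩ := hz.ex c hc h2
      refine ((hs k).ld hC sl sS (sub_eq_zero.2 ((hv k).trans (Eq.trans ?_ (((p1 k).congr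
        (((hγ k).eventually_off' hC).mono fun t ht => (h1 _ ht.1 ht.2).symm)).unique
          (Vz.of_an ((analyticAt_val ν _).comp (hγ k).holo))))))).orb hC sl.hm sS.hm hk
      rw [comp_def]
      ring
  refine ⟨μ', funext fun k => ?_⟩
  have a1 := (analyticAt_val μ' _).comp (hb k).holo
  have a2 := ((Pol.an hS _).comp (hb k).holo).fun_div (sl.holo _ (hb k)) (hσ k)
  rw [(hasDerivAt_pi.2 g2).deriv, Pi.add_apply, jetL_apply (h.pts.chart k).an]
  refine (jet_add (g1 k) a1).symm.trans ((jet_eq_iff ((g1 k).add a1) a2).2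
    (Vz.dv ⟨_, (r1 k).neg, rfl, ?_⟩ (((g1 k).add a1).sub a2)))
  filter_upwards [g3 k, ((hb k).eventually_off' hC).mono fun w hw => h1 _ hw.1 hw.2,
    mem_nhdsWithin_of_mem_nhds ((hb k).mem.and
      ((sl.holo _ (hb k)).continuousAt.eventually_ne (hσ k)))] with w k1 k2 ⟨k3, k5⟩
  have k4 : _ = _ * val μ' _ := h2 _ k3
  rw [k2, k1] at k4
  simp only [Pi.add_apply, Pi.neg_apply, comp_apply, zpow_natCast] at k5 ⊢
  field_simp
  linear_combination -k4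

/-- All jets are attained when the bundle is trivial. -/
theorem Pres.exists_vel (h : Pres o C π t₀ χ σ u χ' n e a N) (h0 : IsCurve o g m (C t₀))
    (hl : l ∈ Pol M b) (hb : b ≠ 0) (hz : Reps (C t₀) (fun c => l c = 0) fun k => γ k 0)
    (hs : ∀ k, Simp o (C t₀) l (γ k 0)) (hγ : ∀ k, IsBranch o (C t₀) (γ k))
    (hσ : ∀ k, l (σ k (π t₀, 0)) ≠ 0)
    (hμ : Triv o (C t₀) (fun i => a i) (ctr σ (π t₀)) (fun k => N k) (val μ)) {d : ℤ} (hd : d ≠ 0)
    (j : ∀ k, Fin (N k) → ℂ) : ∃ (y : β' → ℂ) (S : V M → ℂ), S ∈ Pol M (a + b) ∧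
      (∀ k, S (γ k 0) = d * y k * deriv (fun w => l (γ k w)) 0 * val μ (γ k 0)) ∧
      (fun k => jet (N k) fun w => S (σ k (π t₀, w)) / l (σ k (π t₀, w))) = j := by
  have hC := h0.nod
  have sl : IsSec o (C t₀) b l := Pol.isSec hl
  have hB := h.pts.isBranch h.fam
  have aL := fun k => sl.holo _ (hB k)
  choose q q1 q2 using fun k => exists_jet_eq (j k)
  obtain ⟨S, h1, h2, -⟩ := h0.exists_jet (n := N) hb (hμ.nzd hC) (val_mem μ) (h.pts.loc h.fam)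
    h.pts.inj (fun k => (hμ.ord k _ (hB k) (.refl _)).elim fun _ hx =>
      hx.dv ((analyticAt_val μ _).comp (hB k).holo)) fun k => (aL k).mul (q1 k)
  refine ⟨fun k => S (γ k 0) / (d * deriv (fun w => l (γ k w)) 0 * val μ (γ k 0)), S,
    add_comm b a ▸ h1, fun k => ?_, funext fun k => ?_⟩
  · have e1 : (d : ℂ) ≠ 0 := Int.cast_ne_zero.2 hd
    have e2 := (hs k).deriv_ne hC sl (hγ k) rfl
    have e3 := hμ.ne _ (hz.mem k) fun j hj => hσ j ((sl.hm.orb (h.pts.mem j) hj).1 (hz.prop k))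
    field_simp
  · refine ((jet_eq_iff (((Pol.an h1 _).comp (hB k).holo).fun_div (aL k) (hσ k)) (q1 k)).2
      (((h2 k).mul_an ((aL k).inv (hσ k))).congr ?_)).trans (q2 k)
    filter_upwards [(aL k).continuousAt.eventually_ne (hσ k)] with w hw
    simp only [Pi.mul_apply, Pi.inv_apply, comp_apply] at hw ⊢
    field_simp

end Vale.Agent.P269.Base
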