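import Vale.Agent.P269.Base.Cbc
import Vale.Agent.P269.Base.Trans

/-!
# Double ramification loci
-/

namespace Vale.Agent.P269.Base

open Set Function Topology Filter Holo

variable {ι : Type} [Fintype ι] {M : ι → ℕ} {β κ J : Type*} [Fintype β] [Fintype κ] [Fintype J]
  {o : ι} {g : ℤ} {m : ι → ℤ} {T P : Type*} [TopologicalSpace T] [NormedAddCommGroup P]
  [NormedSpace ℂ P] [FiniteDimensional ℂ P] {C : T → Set (V M)} {π : T → P} {t₀ : T}
  {σ : β → P × ℂ → V M}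

section Comp

variable {T' P' : Type*} [TopologicalSpace T'] [NormedAddCommGroup P'] [NormedSpace ℂ P']
  {x : T' → T} {t' : T'} {π' : T' → P'} {r : P' → P} {y : κ → P → V M} {χ : ι → ℤ} {u : β → ℤ}

omit [Fintype β] [Fintype κ] [FiniteDimensional ℂ P] in
theorem Evp.comp (h : Evp o C π (x t') χ σ u y) (hx : ContinuousAt x t')
    (hr : AnalyticAt ℂ r (π' t')) (he : ∀ᶠ t in 𝓝 t', π (x t) = r (π' t)) :
    Evp o (fun t => C (x t)) π' t' χ (fun k q => σ k (r q.1, q.2)) u fun k p => y k (r p) := by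
  have e0 := he.self_of_nhds
  refine ⟨⟨fun k => AnalyticAt.comp (e0 ▸ h.an k) hr, fun k => ?_, fun k => ?_⟩, ?_⟩
  · filter_upwards [hx.eventually (h.mem k), he] with t h1 h2 using h2 ▸ h1
  · have := h.off k
    rwa [e0] at this
  · have := h.inj
    rwa [e0] at this

/-- The universal family of sections. -/
theorem Evp.fmer_comp [FiniteDimensional ℂ P'] (hy : Evp o C π (x t') χ σ u y)
    (h : LocFam o C π (x t')) (h0 : IsCurve o g m (C (x t'))) (hσ : Pts o C π (x t') σ)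
    (hx : ContinuousAt x t') (hπ : ∀ᶠ t in 𝓝 t', ContinuousAt π' t) (hr : AnalyticAt ℂ r (π' t'))
    (he : ∀ᶠ t in 𝓝 t', π (x t) = r (π' t)) {f : T' → V M → ℂ}
    (hf : ∀ᶠ t in 𝓝 t', Mer o (C (x t)) χ (ctr σ (π (x t))) u (f t))
    (hv : ∀ k, HolAt π' (fun t => f t (y k (π (x t)))) t') :
    FMer o (fun t => C (x t)) π' t' χ (fun k q => σ k (r q.1, q.2)) u f :=
  (hy.comp hx hr he).fmer (h.comp hx hπ hr he) h0 (hσ.comp hx hr he)
    ((hf.and he).mono fun t ht => by have := ht.1; rwa [ht.2] at this)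
    fun k => (hv k).congr (he.mono fun t ht => by simp only [ht])

end Comp

namespace Dr

open Cbc

section

variable {A B E F : Type*} [NormedAddCommGroup A] [NormedSpace ℂ A] [NormedAddCommGroup B]
  [NormedSpace ℂ B] [NormedAddCommGroup E] [NormedSpace ℂ E] [NormedAddCommGroup F]
  [NormedSpace ℂ F]

theorem fderiv_comp_const {K : A → E →L[ℂ] F} {a : A} (hK : AnalyticAt ℂ K a) (i : B →L[ℂ] E)
    (p : A) (w : B) : fderiv ℂ (fun a => (K a).comp i) a p w = fderiv ℂ K a p (i w) := by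
  rw [fderiv_clm_comp hK.differentiableAt (differentiableAt_const i)]
  simp

theorem fderiv_pair {K : A → E →L[ℂ] F} {a : A} (hK : AnalyticAt ℂ K a) (i : B →L[ℂ] E)
    (b : B) (p : A) (w : B) : fderiv ℂ (fun q : A × B => K q.1 (i q.2)) (a, b) (p, w) =
      fderiv ℂ K a p (i b) + K a (i w) := by
  have h1 : HasFDerivAt (fun q : A × B => K q.1) _ (a, b) :=
    hK.differentiableAt.hasFDerivAt.comp (a, b) hasFDerivAt_fst
  have h := (h1.clm_apply (i.comp (ContinuousLinearMap.snd ℂ A B)).hasFDerivAt).fderiv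
  exact (congrArg (· (p, w)) h).trans (add_comm _ _)

theorem deriv_fst {f : ℂ → E × F} (h : AnalyticAt ℂ f 0) :
    deriv (fun ε => (f ε).1) 0 = (deriv f 0).1 :=
  ((ContinuousLinearMap.fst ℂ E F).hasFDerivAt.comp_hasDerivAt 0
    h.differentiableAt.hasDerivAt).deriv

end

theorem arc {χ χ' : ι → ℤ} {u n : β → ℤ} {e : T → V M → ℂ} {a : ι → ℕ} {N : β → ℕ}
    {y : κ → P → V M} (h : Good o g m C π χ σ u χ' n e a N y t₀) {B : Type*}
    [NormedAddCommGroup B] [NormedSpace ℂ B]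
    {K : P → ((∀ k, Fin (N k) → ℂ) × (κ → ℂ)) →L[ℂ] B} (hK : AnalyticAt ℂ K (π t₀))
    (h1 : ∀ᶠ t in 𝓝 t₀, ∀ μ, K (π t) (jv π σ e a N y t μ) = 0) {x : ℂ → T} (hx0 : x 0 = t₀)
    (hx : ContinuousAt x 0) (hx' : AnalyticAt ℂ (fun ε => π (x ε)) 0) {μ μ' : Tens M a}
    {j : ∀ k, Fin (N k) → ℂ}
    (hj : deriv (fun ε => jetL a σ N (π (x ε)) μ) 0 + jetL a σ N (π t₀) μ' = j) :
    ∃ w, fderiv ℂ K (π t₀) (deriv (fun ε => π (x ε)) 0) (jv π σ e a N y t₀ μ) +
      K (π t₀) (j, w) = 0 := by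
  subst hx0
  have h2 := (h.hol.apply (HolAt.const μ)).an_comp hx hx'
  have h3 := ((hK.differentiableAt.hasFDerivAt.comp_hasDerivAt (f := fun ε => π (x ε)) 0
    hx'.differentiableAt.hasDerivAt).clm_apply h2.differentiableAt.hasDerivAt).unique
      ((hasDerivAt_const (0 : ℂ) (0 : B)).congr_of_eventuallyEq
        ((hx.eventually h1).mono fun ε hε => hε μ))
  refine ⟨(deriv (fun ε => jv π σ e a N y (x ε) μ) 0 + jv π σ e a N y (x 0) μ').2, ?_⟩
  have h4 : j = (deriv (fun ε => jv π σ e a N y (x ε) μ) 0 + jv π σ e a N y (x 0) μ').1 :=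
    hj.symm.trans (congrArg (· + jetL a σ N (π (x 0)) μ') (deriv_fst h2))
  rw [h4, Prod.mk.eta, map_add, h1.self_of_nhds μ', add_zero]
  exact h3

theorem exists_lin {C : Set (V M)} (hC : Nod o C) {β' : Type*} [Finite β'] {z : β' → V M}
    (hz : ∀ k i, z k i ≠ 0) : ∃ (b : ι → ℕ) (l : V M → ℂ) (n : ℕ) (γ : Fin n → ℂ → V M),
      b ≠ 0 ∧ l ∈ Pol M b ∧ Reps C (fun c => l c = 0) (fun k => γ k 0) ∧
      (∀ k, Simp o C l (γ k 0)) ∧ (∀ k, IsBranch o C (γ k)) ∧ ∀ k, l (z k) ≠ 0 := by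
  obtain ⟨b, l, n, w, h1, -, h2, h3, h4, -⟩ := hC.exists_pres (z := (nofun : Empty → V M))
    ⟨nofun, nofun, nofun⟩ fun k => ⟨hz k, nofun⟩
  have h5 := fun k => h3 _ (h2.mem (.inr k)) (h2.prop (.inr k))
  choose γ h6 h7 _ using fun k => (h5 k).2.2
  have h8 : (fun k => γ k 0) = w := funext h7
  refine ⟨b, val l, n, γ, fun e => by simpa [e] using h1 o, val_mem l, h8 ▸ ⟨fun k =>
    h2.mem (.inr k), fun k => h2.prop (.inr k), fun c hc h0 => ?_, fun k k' e =>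
      Sum.inr_injective (h2.inj (.inr k) (.inr k') e)⟩, fun k => (h7 k).symm ▸ h5 k, h6, h4⟩
  obtain ⟨k | k, hk⟩ := h2.ex c hc h0
  exacts [k.elim, ⟨k, hk⟩]

end Dr

variable {χ v : J → ι → ℤ} {u : J → β → ℤ} {f₀ : J → V M → ℂ} {y : J → κ → P → V M}

open Cbc in
/-- The equations of the spaces of sections are transverse at trivialisations. -/
theorem LocFam.dr (h : LocFam o C π t₀) (h0 : IsCurve o g m (C t₀)) (hσ : Pts o C π t₀ σ)
    (hv : ∀ j j', dgz (v j) (χ j') = 0 ↔ j ≠ j') (hw : ∀ j, HasTw o C π t₀ σ (v j))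
    (hf : ∀ j, Triv o (C t₀) (χ j) (ctr σ (π t₀)) (u j) (f₀ j))
    (hy : ∀ j, Evp o C π t₀ (χ j) σ (u j) (y j)) :
    ∃ (r : J → ℕ) (D : ∀ j, P → (κ → ℂ) →L[ℂ] Fin (r j) → ℂ),
      (∀ j, (Fintype.card κ - r j : ℤ) = 1 - g ∧ AnalyticAt ℂ (D j) (π t₀)) ∧
      (∀ᶠ t in 𝓝 t₀, ∀ j w, D j (π t) w = 0 ↔ (t, w) ∈ Sol o C π (χ j) σ (u j) (y j)) ∧
      ∀ b : ∀ j, Fin (r j) → ℂ, ∃ p ∈ tan π t₀, ∃ w : J → κ → ℂ, ∀ j,
        fderiv ℂ (D j) (π t₀) p (fun k => f₀ j (y j k (π t₀))) + D j (π t₀) (w j) = b j := by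
  classical
  choose s τ χ' n e a N h1 h2 using fun j => Cbc.exists_pres (hy j) h hσ
  choose r K h3 h4 h5 h6 using fun j => (h1 j).exists_coker h0 (h2 j)
  have hG := fun j => good (h1 j) h0 (h2 j).toMov
  refine ⟨r, fun j p => (K j p).comp (ContinuousLinearMap.inr ℂ _ _), fun j =>
    ⟨?_, an_comp (h3 j) analyticAt_const⟩, ?_, fun b => ?_⟩
  · have := h5 j
    rw [Fintype.sum_sum_type, ← (hf j).degree h0 (hσ.spt h)] at this
    simpa using this
  · filter_upwards [eventually_all.2 h6, eventually_all.2 hG] with t h7 h8 j w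
    exact ((h7 j).2 w).trans (sol_ext (h8 j).mov (h8 j).pres.pts (h8 j).pres.fam w)
  have h7 : ∀ j, Triv o (C t₀) (χ j) (ctr (Sum.elim σ (τ j)) (π t₀)) (Sum.elim (u j) 0) (f₀ j) :=
    fun j => ctr_sum (σ := σ) (σ' := τ j) (π t₀) ▸ (hf j).ext (off_of_sum (h1 j).pts)
  choose μ h8 h9 using fun j => (hG j).self_of_nhds.form (h7 j).toMer
  have h10 : ∀ j, Triv o (C t₀) (fun i => a j i) (ctr (Sum.elim σ (τ j)) (π t₀)) (fun k => N j k)
      (val (μ j)) := fun j => (((h7 j).mul (h1 j).triv).cast (funext fun i => ((h1 j).deg i).symm)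
        (funext fun k => ((h1 j).ord k).symm)).congr h0.nod
          (fun s _ c _ => by rw [val_smul, chz_nat]) (h9 j)
  obtain ⟨b', l, n', γ, k1, k2, k3, k4, k5, k6⟩ := Dr.exists_lin h0.nod
    (z := Sum.elim (ctr σ (π t₀)) fun q : Σ j, Fin (s j) => ctr (τ q.1) (π t₀) q.2) (by
      rintro (k | ⟨j, k⟩)
      exacts [h0.ne_zero _ ((hσ.spt h).mem k), h0.ne_zero _ (((h1 j).pts.spt h).mem (.inr k))])
  have k7 : ∀ j k, l (Sum.elim σ (τ j) k (π t₀, 0)) ≠ 0 := fun j =>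
    Sum.rec (fun k => k6 (.inl k)) fun k => k6 (.inr ⟨j, k⟩)
  choose q hq using fun j => h4 j (b j)
  have key : ∀ j, ∃ p ∈ tan π t₀, ∀ j', ∃ w, fderiv ℂ (K j') (π t₀) p
      (0, fun k => f₀ j' (y j' k (π t₀))) +
        K j' (π t₀) (if j = j' then -(q j').1 else 0, w) = 0 := fun j => by
    obtain ⟨c, S, m1, m2, m3⟩ := (h1 j).exists_vel h0 k2 k1 k3 k4 k5 (k7 j) (h10 j)
      (fun e => (hv j j).1 e rfl) (-(q j).1)
    obtain ⟨x, I, m4, m5, m6, m7, m8⟩ := hw j b' l n' γ c k2 k3 k4 k5 fun k => k6 (.inl k)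
    refine ⟨deriv (fun ε => π (x ε)) 0, m4 ▸ fderiv_mem_tan m5 m6 1, fun j' => ?_⟩
    have m9 : ∃ μ' : Tens M (a j'), deriv (fun ε => jetL (a j') (Sum.elim σ (τ j')) (N j')
        (π (x ε)) (μ j')) 0 + jetL (a j') (Sum.elim σ (τ j')) (N j') (π t₀) μ' =
          if j = j' then -(q j').1 else 0 := by
      have m10 := fun S => (h1 j').trans h0 k2 k3 k4 k5 (k7 j') m4 m5 m6 m7
        (Sum.rec (fun k => .inr (m8 k)) fun _ => .inl rfl) (congrArg Prod.fst (h8 j')) (S := S)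
      split_ifs with e
      · subst e
        exact m3 ▸ m10 S m1 m2
      · obtain ⟨μ', m11⟩ := m10 0 (zero_mem _) fun k => by simp [(hv j j').2 e]
        exact ⟨μ', m11.trans (funext fun k => by
          simpa using (dv_iff_jet analyticAt_const).1 Dv.const_zero)⟩
    obtain ⟨μ', m9⟩ := m9
    exact h8 j' ▸ Dr.arc (hG j').self_of_nhds (h3 j') (((h6 j').and (hG j')).mono fun t ht ν =>
      (ht.1.1 _ _).2 ⟨ν, ht.2.jv_eq.1 rfl⟩) m4 m5 m6 m9
  choose p m1 w m2 using key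
  refine ⟨∑ j, p j, Submodule.sum_mem _ fun j _ => m1 j, fun j' => (q j').2 + ∑ j, w j j',
    fun j' => ?_⟩
  have m4 := Finset.sum_eq_zero (s := Finset.univ) fun j _ => m2 j j'
  rw [Finset.sum_add_distrib, ← map_sum, ← sum_apply, ← map_sum,
    ← prod_mk_sum, Finset.sum_ite_eq', if_pos (Finset.mem_univ _)] at m4
  rw [Dr.fderiv_comp_const (h3 j'), ← hq j']
  rw [ContinuousLinearMap.comp_apply, ContinuousLinearMap.inr_apply, ContinuousLinearMap.inr_apply,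
    eq_neg_of_add_eq_zero_left m4, ← map_neg, ← map_add]
  congr 1
  ext <;> simp

/-- The space of pairs of a curve and sections is a manifold near a trivialisation. -/
theorem LocFam.dr_mfd (h : LocFam o C π t₀) (h0 : IsCurve o g m (C t₀)) (hσ : Pts o C π t₀ σ)
    (hv : ∀ j j', dgz (v j) (χ j') = 0 ↔ j ≠ j') (hw : ∀ j, HasTw o C π t₀ σ (v j))
    (hf : ∀ j, Triv o (C t₀) (χ j) (ctr σ (π t₀)) (u j) (f₀ j))
    (hy : ∀ j, Evp o C π t₀ (χ j) σ (u j) (y j)) {n d : ℕ} (hT : IsMfd π n t₀)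
    (hd : (d : ℤ) = n + Fintype.card J * (1 - g)) {Z : Type*} [TopologicalSpace Z]
    {i : Z → T × (J → κ → ℂ)} (hi : IsEmbedding i) {z : Z}
    (hz : i z = (t₀, fun j k => f₀ j (y j k (π t₀))))
    (hr : ∀ᶠ q in 𝓝 (i z), q ∈ range i ↔ ∀ j, (q.1, q.2 j) ∈ Sol o C π (χ j) σ (u j) (y j)) :
    IsMfd (fun s => Prod.map π id (i s)) d z := by
  obtain ⟨r, D, h1, h2, h3⟩ := h.dr h0 hσ hv hw hf hy
  have h4 := IsMfd.self (A := J → κ → ℂ) fun j k => f₀ j (y j k (π t₀))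
  have h5 : ∀ j, AnalyticAt ℂ (fun q : P × (J → κ → ℂ) => D j q.1 (q.2 j))
      (π t₀, fun j k => f₀ j (y j k (π t₀))) := fun j =>
    an_apply ((h1 j).2.comp_of_eq analyticAt_fst rfl) (analyticAt_pi_iff.1 analyticAt_snd j)
  refine (IsMfd.sub (ι := Prod.map π id) (m := n + Module.finrank ℂ (J → κ → ℂ))
    (Φ := fun q j => D j q.1 (q.2 j)) hi ?_ ?_ (fun b => ?_) ?_ ?_).1
  · exact hz ▸ hT.prod h4
  · rw [hz]
    exact AnalyticAt.pi h5
  · obtain ⟨p, h6, w, h7⟩ := h3 b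
    rw [hz]
    refine ⟨(p, w), (hT.tan_prod h4).ge ⟨h6, (tan_id _).ge trivial⟩, funext fun j => ?_⟩
    rw [← h7 j, Prod.map_apply, id, fderiv_pi fun j => (h5 j).differentiableAt]
    exact Dr.fderiv_pair (h1 j).2 (ContinuousLinearMap.proj j : (J → κ → ℂ) →L[ℂ] _) _ p w
  · rw [hz] at hr ⊢
    filter_upwards [hr, continuousAt_fst.eventually h2] with q h6 h7
    exact h6.trans ((forall_congr' fun j => (h7 j _).symm).trans funext_iff.symm)
  · have h6 := Finset.sum_congr (s₁ := Finset.univ) rfl fun j _ => (h1 j).1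
    simp only [Finset.sum_sub_distrib, Finset.sum_const, Finset.card_univ, nsmul_eq_mul] at h6
    simp only [Module.finrank_pi_fintype, Module.finrank_self, Finset.sum_const, Finset.card_univ,
      Fintype.card_fin, smul_eq_mul, mul_one]
    zify
    linear_combination hd - h6

omit [Fintype J] in
/-- Dual cocharacters. -/
theorem exists_dual [Finite J] (h : LinearIndependent ℤ χ) :
    ∃ v : J → ι → ℤ, ∀ j j', dgz (v j) (χ j') = 0 ↔ j ≠ j' := by
  classical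
  have := Fintype.ofFinite J
  let A : Matrix J ι ℤ := Matrix.of χ
  have h1 : (A * A.transpose).det ≠ 0 := fun e => by
    obtain ⟨x, h1, h2⟩ := Matrix.exists_mulVec_eq_zero_iff.2 e
    have h3 : Matrix.vecMul x A = 0 := by
      rw [← dotProduct_self_eq_zero, ← Matrix.dotProduct_mulVec, ← Matrix.mulVec_transpose,
        Matrix.mulVec_mulVec, h2, dotProduct_zero]
    exact h1 (funext (Fintype.linearIndependent_iff.1 h x (funext fun i => by
      simpa [Matrix.vecMul, dotProduct, A] using congrFun h3 i)))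
  refine ⟨fun j => ((A * A.transpose).adjugate * A) j, fun j j' => ?_⟩
  have h2 : dgz (((A * A.transpose).adjugate * A) j) (χ j') =
      ((A * A.transpose).adjugate * A * A.transpose) j j' :=
    Finset.sum_congr rfl fun i _ => mul_comm _ _
  rw [h2, Matrix.mul_assoc, Matrix.adjugate_mul]
  simp [Matrix.one_apply, h1]

end Vale.Agent.P269.Base
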