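import Vale.Agent.P269.Base.TwB
import Vale.Agent.P269.Base.Dr
import Vale.Agent.P269.Base.Match

/-!
# Double ramification loci in the base of a chart
-/

set_option linter.unusedSectionVars false

namespace Vale.Agent.P269.Ch

open Set Function Topology Filter Holo Base

variable {J ι ν I κ E : Type} [Fintype J] [Fintype ι] [DecidableEq ι] [Fintype ν] [Fintype I]
  [Fintype κ] [Fintype E] {ch : Ch ι J} {x : ch.W ν} {l : Option J}

/-- Moving points at which sections of `O(χ)(-∑ u n • p n)` are determined by their values. -/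
structure EvB (x : ch.W ν) (χ : ι → ℤ) (u : ν → ℤ) (y : κ → ch.W ν → V ch.M) : Prop where
  an : ∀ k, AnalyticAt ℂ (y k) x
  ev : ∀ᶠ s in 𝓝 x, s ∈ ch.base ν → (∀ k, y k s ∈ crv s ∧ Off s.p (y k s)) ∧
    ∀ f, Mer ch.o (crv s) χ s.p u f → (∀ k, f (y k s) = 0) → ∀ c ∈ crv s, Off s.p c → f c = 0

/-- Points of the base with the values of sections of `O(χ i)(-∑ u i n • p n)`. -/
def DR (χ : I → ι → ℤ) (u : I → ν → ℤ) (y : κ → ch.W ν → V ch.M) :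
    Set ((I → κ → ℂ) × ch.W ν) :=
  {z | z.2 ∈ ch.base ν ∧ ∀ i, ∃ f, Mer ch.o (crv z.2) (χ i) z.2.p (u i) f ∧
    ∀ k, f (y k z.2) = z.1 i k}

variable {χ : I → ι → ℤ} {u : I → ν → ℤ} {y : κ → ch.W ν → V ch.M} {f : I → V ch.M → ℂ}

theorem exists_pts_base (hl : ∀ i, 4 ≤ ch.a l i) (x : ch.base ν) :
    ∃ σ : ν → ch.W ν × ℂ → V ch.M, Pts ch.o (fun t : ch.base ν => crv t.1) Subtype.val x σ ∧
      ∀ᶠ t : ch.base ν in 𝓝 x, ctr σ t.1 = t.1.p :=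
  exists_pts (locFam_base hl x) .self (.of_forall fun t => t.2)

theorem exists_evB (hl : ∀ i, 4 ≤ ch.a l i) (hx : x ∈ ch.base ν) (χ : I → ι → ℤ) (u : I → ν → ℤ) :
    ∃ (r : ℕ) (y : Fin r → ch.W ν → V ch.M), ∀ i, EvB x (χ i) (u i) y := by
  obtain ⟨σ, h1, h2⟩ := exists_pts_base hl ⟨x, hx⟩
  have hf := locFam_base hl ⟨x, hx⟩
  choose r F hF _ using fun i => hx.2.2.1.exists_bas' (h1.spt hf) (χ i) (u i)
  choose y hy _ using fun i => hf.exists_evp (hF i) (p := fun _ => True) fun c hc =>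
    (hf.nod.frequently_not_node x.p hc).mono fun _ b => ⟨trivial, b.2⟩
  let e := Fintype.equivFin (Σ i, Fin (r i))
  refine ⟨_, fun k => y (e.symm k).1 (e.symm k).2, fun i => ⟨fun k => (hy _).an _, ?_⟩⟩
  have h3 : Evp ch.o (fun t : ch.base ν => crv t.1) Subtype.val ⟨x, hx⟩ (χ i) σ (u i)
      fun k => y (e.symm k).1 (e.symm k).2 :=
    ⟨⟨fun k => (hy _).an _, fun k => (hy _).mem _, fun k => (hy _).off _⟩, fun f a b =>
      (hy i).inj f a fun k => by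
        have := b (e ⟨i, k⟩)
        rwa [e.symm_apply_apply] at this⟩
  refine (ev_sub hx).1 ?_
  filter_upwards [h3.eventually hf hx.2.2.1 h1, h2] with t b1 b2
  exact b2 ▸ ⟨fun k => ⟨(b1.mem k).self_of_nhds, b1.off k⟩, b1.inj⟩

section One

variable {χ : ι → ℤ} {u : ν → ℤ}

theorem EvB.ev_eq (hy : EvB x χ u y) : ∀ᶠ s in 𝓝 x, s ∈ ch.base ν → ∀ f f',
    Mer ch.o (crv s) χ s.p u f → Mer ch.o (crv s) χ s.p u f' → (∀ k, f (y k s) = f' (y k s)) →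
      ∀ c ∈ crv s, Off s.p c → f c = f' c :=
  hy.ev.mono fun _ b hs _ _ h h' e c hc ho =>
    sub_eq_zero.1 ((b hs).2 _ (h.sub h') (fun k => sub_eq_zero.2 (e k)) c hc ho)

variable {T P : Type*} [TopologicalSpace T] [NormedAddCommGroup P] [NormedSpace ℂ P]
  {π : T → P} {t₀ : T} {x : T → ch.W ν} {σ : ν → P × ℂ → V ch.M}

theorem EvB.evp (hy : EvB (x t₀) χ u y) (hπ : ContinuousAt π t₀) {Φ : P → ch.W ν}
    (h1 : AnalyticAt ℂ Φ (π t₀)) (h2 : ∀ᶠ t in 𝓝 t₀, x t = Φ (π t))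
    (hb : ∀ᶠ t in 𝓝 t₀, x t ∈ ch.base ν) (hp : ctr σ (π t₀) = (x t₀).p) :
    Evp ch.o (fun t => crv (x t)) π t₀ χ σ u fun k p => y k (Φ p) := by
  have h3 := h2.self_of_nhds
  obtain ⟨h4, h5⟩ := hy.ev.self_of_nhds hb.self_of_nhds
  refine ⟨⟨fun k => AnalyticAt.comp (h3 ▸ hy.an k) h1, fun k => ?_, fun k => ?_⟩, ?_⟩
  · filter_upwards [(HolAt.cont ⟨Φ, h1, h2⟩ hπ).eventually hy.ev, h2, hb] with t b1 b2 b3
    exact b2 ▸ ((b1 b3).1 k).1
  · exact hp ▸ h3 ▸ (h4 k).2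
  · exact hp ▸ h3 ▸ h5

/-- Families of sections with holomorphic values are holomorphic. -/
theorem EvB.fmer [FiniteDimensional ℂ P] (hy : EvB (x t₀) χ u y)
    (hf : LocFam ch.o (fun t => crv (x t)) π t₀)
    (hx : HolAt π x t₀) (hb : ∀ᶠ t in 𝓝 t₀, x t ∈ ch.base ν)
    (hσ : Pts ch.o (fun t => crv (x t)) π t₀ σ) (hp : ∀ᶠ t in 𝓝 t₀, ctr σ (π t) = (x t).p)
    {f : T → V ch.M → ℂ} (h : ∀ᶠ t in 𝓝 t₀, Mer ch.o (crv (x t)) χ (x t).p u (f t))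
    (hv : ∀ k, HolAt π (fun t => f t (y k (x t))) t₀) :
    FMer ch.o (fun t => crv (x t)) π t₀ χ σ u f := by
  obtain ⟨Φ, h1, h2⟩ := hx
  refine (hy.evp hf.cont.self_of_nhds h1 h2 hb hp.self_of_nhds).fmer hf hb.self_of_nhds.2.2.1 hσ ?_
    fun k => (hv k).congr (h2.mono fun t b => by simp only [b])
  filter_upwards [h, hp] with t b1 b2 using b2 ▸ b1

end One

/-- **Double ramification loci with signed orders.** -/
theorem mfd_DR (hl : ∀ i, 4 ≤ ch.a l i) (ha : ∀ l, ch.a l ≠ 0) {N : ℕ}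
    (hx : MfdAt (ch.base ν) N x) (hi : LinearIndependent ℤ fun o : Option I => o.elim ch.χ χ)
    (hf : ∀ i, Triv ch.o (crv x) (χ i) x.p (u i) (f i)) (hy : ∀ i, EvB x (χ i) (u i) y) :
    ∃ d : ℕ, (d : ℤ) = N + Fintype.card I * (1 - ch.g) ∧
      MfdAt (DR χ u y) d (fun i k => f i (y k x), x) := by
  obtain ⟨hb, hx⟩ := hx
  obtain ⟨σ, h1, h2⟩ := exists_pts_base hl ⟨x, hb⟩
  obtain ⟨v, hv⟩ := exists_dual hi
  have h3 := locFam_base hl ⟨x, hb⟩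
  have h4 : ∀ j j', dgz (v (some j)) (χ j') = 0 ↔ j ≠ j' := fun j j' => by
    simpa using hv (some j) (some j')
  have h5 := fun j => hasTw hl ha ⟨x, hb⟩ h2 ((hv (some j) none).2 (by simp))
  have h6 : ∀ i, Triv ch.o (crv x) (χ i) (ctr σ x) (u i) (f i) := h2.self_of_nhds ▸ hf
  have h7 := fun i => EvB.evp (x := (Subtype.val : ch.base ν → _)) (t₀ := ⟨x, hb⟩) (Φ := id) (hy i)
    continuous_subtype_val.continuousAt analyticAt_id (.of_forall fun _ => rfl)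
    (.of_forall fun t => t.2) h2.self_of_nhds
  have h8 : (0 : ℤ) ≤ N + Fintype.card I * (1 - ch.g) := by
    obtain ⟨r, D, a1, -, a2⟩ := h3.dr hb.2.2.1 h1 h4 h5 h6 h7
    let L : (tan (Subtype.val : ch.base ν → _) ⟨x, hb⟩ × (I → κ → ℂ)) →ₗ[ℂ] ∀ j, Fin (r j) → ℂ :=
      .pi fun j => .coprod (((fderiv ℂ (D j) x).flip fun k => f j (y k x)).toLinearMap ∘ₗ
        Submodule.subtype _) ((D j x).toLinearMap ∘ₗ .proj j)
    have a5 := L.finrank_le_finrank_of_surjective fun b =>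
      let ⟨p, b1, w, b2⟩ := a2 b
      ⟨(⟨p, b1⟩, w), funext b2⟩
    have a6 : ∀ j, (r j : ℤ) = Fintype.card κ - (1 - ch.g) := fun j => by linarith [(a1 j).1]
    rw [Module.finrank_prod, hx.finrank_tan, Module.finrank_pi_fintype, Module.finrank_pi_fintype,
      ← Nat.cast_le (α := ℤ)] at a5
    simp [a6, mul_sub] at a5 ⊢
    linarith
  have h9 : (fun i k => f i (y k x), x) ∈ DR χ u y :=
    ⟨hb, fun i => ⟨f i, (hf i).toMer, fun _ => rfl⟩⟩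
  refine ⟨_, Int.toNat_of_nonneg h8, h9, (h3.dr_mfd hb.2.2.1 h1 h4 h5 h6 h7 hx
    (Int.toNat_of_nonneg h8) (Z := DR χ u y) (i := fun z => (⟨z.1.2, z.2.1⟩, z.1.1)) ?_
    (z := ⟨_, h9⟩) rfl ?_).change ⟨Prod.swap, analyticAt_snd.prod analyticAt_fst,
      .of_forall fun _ => rfl⟩ ⟨Prod.swap, analyticAt_snd.prod analyticAt_fst,
      .of_forall fun _ => rfl⟩⟩
  · exact .of_comp (g := fun q => (q.2, q.1.1)) (by fun_prop) (by fun_prop) .subtypeVal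
  · filter_upwards [continuousAt_fst.eventually h2] with q b
    simp only [Sol, mem_ofPred_eq, b]
    exact ⟨fun ⟨z, e⟩ => e ▸ z.2.2, fun e => ⟨⟨(q.2, q.1.1), q.1.2, e⟩, rfl⟩⟩

/-- Arcs along which the pointed curve does not change. -/
theorem arc_DR (hx : x ∈ ch.base ν) (hf : ∀ i, Mer ch.o (crv x) (χ i) x.p (u i) (f i))
    (hy : ∀ i, EvB x (χ i) (u i) y) {c : ℂ → ch.W ν} (hc : Arc (ch.base ν) x c)
    (h : ∀ᶠ ε in 𝓝 (0 : ℂ), crv (c ε) = crv x ∧ ∀ n, Orb (x.p n) ((c ε).p n)) :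
    Arc (DR χ u y) (fun i k => f i (y k x), x) fun ε => (fun i k => f i (y k (c ε)), c ε) := by
  refine ⟨(analyticAt_pi_iff.2 fun i => analyticAt_pi_iff.2 fun k => ?_).prod hc.an,
    by simp only [hc.zero], ?_⟩
  · obtain ⟨h1, h2⟩ := ((hy i).ev.self_of_nhds hx).1 k
    obtain ⟨q, h3, h4⟩ := (hf i).hol hx.2.2.1.nod h1 h2
    refine HolOn.arc (S := crv x) (c := fun ε => y k (c ε)) ⟨q, h3, eventually_nhdsWithin_iff.1 h4⟩
      ⟨AnalyticAt.comp (hc.zero ▸ (hy i).an k) hc.an, by rw [hc.zero], ?_⟩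
    filter_upwards [hc.ev (hy i).ev, h] with ε b1 b2 using b2.1 ▸ (b1.1 k).1
  · filter_upwards [hc.mem, h] with ε b1 b2
    exact ⟨b1, fun i => ⟨f i, b2.1 ▸ (hf i).orb b2.2, fun _ => rfl⟩⟩

end Vale.Agent.P269.Ch
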