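import Vale.Agent.P269.Base.Cut

/-!
# Charts of families of zero sets of forms
-/

namespace Vale.Agent.P269.Base

open Set Function Topology Filter Holo Module

set_option linter.unusedSectionVars false

variable {ι : Type} [Fintype ι] {M : ι → ℕ} {o : ι} {c : V M} {a : ι → ℕ} {β : Type*} [Fintype β]
  {P E : Type*} [NormedAddCommGroup P] [NormedSpace ℂ P] [FiniteDimensional ℂ P]
  [NormedAddCommGroup E] [NormedSpace ℂ E] [FiniteDimensional ℂ E]

/-- The values of a family of forms. -/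
noncomputable def vals (f : β → Tens M a) (y : V M) : β → ℂ := fun l => val (f l) y

/-- The zero set of a family of forms. -/
def Zs (f : β → Tens M a) : Set (V M) := {y | (∀ i, y i ≠ 0) ∧ vals f y = 0}

theorem an_vals {f : P → β → Tens M a} {y : P → V M} {p : P} (hf : AnalyticAt ℂ f p)
    (hy : AnalyticAt ℂ y p) : AnalyticAt ℂ (fun q => vals (f q) (y q)) p :=
  AnalyticAt.pi fun l => an_val (analyticAt_pi_iff.1 hf l) hy

theorem analyticAt_vals (f : β → Tens M a) (y : V M) : AnalyticAt ℂ (vals f) y :=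
  an_vals analyticAt_const analyticAt_id

theorem vals_smul (f : β → Tens M a) (s : ι → ℂ) (y : V M) :
    vals f (s • y) = chr a s • vals f y := funext fun l => val_smul (f l) s y

theorem fderiv_vals (f : β → Tens M a) (y v : V M) (l : β) :
    fderiv ℂ (vals f) y v l = fderiv ℂ (val (f l)) y v := by
  rw [show vals f = fun y l => val (f l) y from rfl,
    fderiv_pi fun l => (analyticAt_val (f l) y).differentiableAt]
  rfl

theorem Zs.cone {f : β → Tens M a} (s : ι → ℂ) (hs : ∀ i, s i ≠ 0) (y : V M) (hy : y ∈ Zs f) :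
    s • y ∈ Zs f := ⟨smul_ne hs hy.1, by rw [vals_smul, hy.2, smul_zero]⟩

theorem Zs.usc {T : Type*} [TopologicalSpace T] {f : T → β → Tens M a} {t : T}
    (hf : ContinuousAt f t) (hc : ∀ i, c i ≠ 0) (hn : c ∉ Zs (f t)) :
    ∀ᶠ q : T × V M in 𝓝 (t, c), q.2 ∉ Zs (f q.1) :=
  (ContinuousAt.eventually_ne (g := fun q : T × V M => vals (f q.1) q.2) (continuousAt_pi.2 fun l =>
    continuous_val₂.continuousAt.comp (f := fun q : T × V M => (f q.1 l, q.2))
      (((continuousAt_pi.1 hf l).comp_of_eq continuousAt_fst rfl).prodMk continuousAt_snd))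
    fun h => hn ⟨hc, h⟩).mono fun _ h h' => h h'.2

theorem chart_zs {f : P → β → Tens M a} {p₀ : P} (hf : AnalyticAt ℂ f p₀) {σ₀ : E → V M}
    (hσ : AnalyticAt ℂ σ₀ 0) (hc : σ₀ 0 ∈ Zs (f p₀))
    (imm : ∀ (e : E) (s : ℂ), fderiv ℂ σ₀ 0 e o = s • σ₀ 0 o → e = 0)
    (hs : Surjective (fderiv ℂ (vals (f p₀)) (σ₀ 0)))
    (hk : ∀ v, fderiv ℂ (vals (f p₀)) (σ₀ 0) v = 0 ↔
      ∃ (s : ι → ℂ) (e : E), v = s • σ₀ 0 + fderiv ℂ σ₀ 0 e) :
    ∃ σ : P × E → V M, Chart o (fun p => Zs (f p)) id p₀ σ (fun _ => univ) ∧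
      (∀ᶠ e in 𝓝 0, σ₀ e ∈ Zs (f p₀) → σ (p₀, e) = σ₀ e) ∧
      fderiv ℂ (fun e => σ (p₀, e)) 0 = fderiv ℂ σ₀ 0 := by
  obtain ⟨j, hj⟩ := exists_rightInv hs
  have a1 : AnalyticAt ℂ (fun x : E × (β → ℂ) => σ₀ x.1 + j x.2) (0, 0) :=
    (hσ.comp_of_eq analyticAt_fst rfl).add ((j.analyticAt _).comp analyticAt_snd)
  have d1 : ∀ x, fderiv ℂ (fun x : E × (β → ℂ) => σ₀ x.1 + j x.2) (0, 0) x =
      fderiv ℂ σ₀ 0 x.1 + j x.2 := fun x => by
    rw [fderiv_prod_apply a1]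
    simp only [fderiv_add_const, fderiv_const_add, j.fderiv]
  obtain ⟨-, g, g1, g2, -, g3⟩ := ift (f := fun w : (ι → ℂ) × E × (β → ℂ) =>
      w.1 • (σ₀ w.2.1 + j w.2.2)) (x := (1, 0, 0))
    (an_smul analyticAt_fst (a1.comp_of_eq analyticAt_snd rfl))
    ⟨(injective_iff_map_eq_zero _).2 fun w hw => by
      rw [hasFDerivAt_smul a1, d1, map_zero, add_zero, ← add_assoc] at hw
      have h1 : w.2.2 = 0 := by
        rw [← hj w.2.2, eq_neg_of_add_eq_zero_right hw, map_neg, (hk _).2 ⟨_, _, rfl⟩, neg_zero]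
      rw [h1, map_zero, add_zero] at hw
      have h2 : w.2.1 = 0 := imm _ (-w.1 o) (by
        rw [neg_smul]; exact eq_neg_of_add_eq_zero_right (congrFun hw o))
      rw [h2, map_zero, add_zero] at hw
      exact Prod.ext (funext fun i => (smul_eq_zero.1 (congrFun hw i)).resolve_right (hc.1 i))
        (Prod.ext h2 h1),
    fun v => by
      obtain ⟨s, e, h⟩ := (hk (v - j (fderiv ℂ (vals (f p₀)) (σ₀ 0) v))).1 (by simp [hj])
      exact ⟨(s, e, fderiv ℂ (vals (f p₀)) (σ₀ 0) v), by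
        rw [hasFDerivAt_smul a1, d1, map_zero, add_zero, ← add_assoc, ← h, sub_add_cancel]⟩⟩
  simp only [map_zero, add_zero, one_smul] at g1 g2 g3
  obtain ⟨k, k1, k2, k3⟩ := implicit
    (f := fun x : (β → ℂ) × P × E => vals (f x.2.1) (σ₀ x.2.2 + j x.1)) (x := 0) (w := (p₀, 0))
    (an_vals (hf.comp_of_eq (analyticAt_fst.comp analyticAt_snd) rfl)
      (a1.comp_of_eq ((analyticAt_snd.comp analyticAt_snd).prod analyticAt_fst) rfl)) (by
      have : fderiv ℂ (fun b => vals (f p₀) (σ₀ 0 + j b)) 0 = ContinuousLinearMap.id ℂ _ := by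
        rw [fderiv_comp_an (analyticAt_vals _ _) (analyticAt_const.fun_add (j.analyticAt _)),
          fderiv_const_add, j.fderiv, map_zero, add_zero]
        exact ContinuousLinearMap.ext hj
      rw [this]
      exact bijective_id)
  simp only [map_zero, add_zero, hc.2] at k3
  have a2 : AnalyticAt ℂ (fun q : P × E => σ₀ q.2 + j (k q)) (p₀, 0) :=
    (hσ.comp_of_eq analyticAt_snd rfl).add ((j.analyticAt _).comp k1)
  have m1 : ∀ᶠ q : P × E in 𝓝 (p₀, 0), σ₀ q.2 + j (k q) ∈ Zs (f q.1) := by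
    have t1 : Tendsto (fun q => (k q, q)) (𝓝 (p₀, 0)) (𝓝 (0, p₀, 0)) :=
      (k2 ▸ k1.continuousAt.tendsto :).prodMk_nhds tendsto_id
    filter_upwards [t1.eventually k3, a2.continuousAt.eventually (eventually_ne (by
      simpa [k2] using hc.1))] with q h1 h2
    exact ⟨h2, h1.2 rfl⟩
  have a3 : AnalyticAt ℂ (fun e => k (p₀, e)) 0 :=
    k1.comp_of_eq (analyticAt_const.prod analyticAt_id) rfl
  have d2 : fderiv ℂ (fun e => σ₀ e + j (k (p₀, e))) 0 = fderiv ℂ σ₀ 0 := by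
    have h1 : fderiv ℂ (fun e => σ₀ e + j (k (p₀, e))) 0 =
        fderiv ℂ σ₀ 0 + j.comp (fderiv ℂ (fun e => k (p₀, e)) 0) :=
      (hσ.differentiableAt.hasFDerivAt.add (j.hasFDerivAt.comp _
        a3.differentiableAt.hasFDerivAt)).fderiv
    have h2 := EventuallyEq.fderiv_eq (𝕜 := ℂ) (((tendsto_inr p₀ (0 : E)).eventually m1).mono
      fun e he => he.2)
    simp only at h2
    rw [fderiv_comp_an (analyticAt_vals _ _) (hσ.fun_add ((j.analyticAt _).fun_comp a3)), h1,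
      k2, map_zero, add_zero, fderiv_fun_const] at h2
    refine h1.trans (add_eq_left.2 (ContinuousLinearMap.ext fun e => ?_))
    have := congrArg (fun L : E →L[ℂ] β → ℂ => L e) h2
    have h3 : fderiv ℂ (vals (f p₀)) (σ₀ 0) (fderiv ℂ σ₀ 0 e) = 0 := (hk _).2 ⟨0, e, by simp⟩
    simp only [ContinuousLinearMap.comp_apply, add_apply, map_add, hj, h3, zero_add, Pi.zero_apply,
      zero_apply] at this
    simp [this]
  refine ⟨fun q => σ₀ q.2 + j (k q), ⟨a2, fun e s h => imm e s (by simpa [d2, k2] using h),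
    m1.mono fun q h _ => h, fun U hU => ?_⟩, ?_, d2⟩
  · simp only [id, k2, map_zero, add_zero]
    have t1 : Tendsto (fun q : P × V M => g q.2) (𝓝 (p₀, σ₀ 0)) (𝓝 (1, 0, 0)) :=
      (g2 ▸ g1.continuousAt.tendsto :).comp continuousAt_snd
    have t2 := (continuous_snd.tendsto _).comp t1
    filter_upwards [(((continuous_snd.tendsto _).comp t2).prodMk_nhds
      (continuousAt_fst.tendsto.prodMk_nhds ((continuous_fst.tendsto _).comp t2))).eventually k3,
      continuousAt_snd.tendsto.eventually g3, (continuous_fst.tendsto _).comp t2 hU]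
      with q h1 h2 h3 h4
    have h5 := h4.2
    rw [← h2, vals_smul, smul_eq_zero,
      or_iff_right (chr_ne_zero (ne_of_smul_ne (h2.symm ▸ h4.1 :)))] at h5
    exact ⟨(g q.2).1, (g q.2).2.1, h3, trivial, by
      rw [← show (g q.2).2.2 = k (q.1, (g q.2).2.1) from h1.1 h5, h2]⟩
  · filter_upwards [((tendsto_inr (0 : β → ℂ) (p₀, (0 : E))).comp
      (tendsto_inr p₀ (0 : E))).eventually k3] with e h1 h2
    simp only [comp_apply, map_zero, add_zero] at h1
    rw [← h1.1 h2.2, map_zero, add_zero]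

theorem chart_node {Y : P → Set (V M)} {p₀ : P} {σ' : P × (ℂ × ℂ) → V M}
    (h : Chart o Y id p₀ σ' fun _ => univ) (hne : ∀ i, σ' (p₀, 0) i ≠ 0) {μ : P → Tens M a} (hμ : AnalyticAt ℂ μ p₀)
    {G : ℂ × ℂ → ℂ × ℂ} (hG : AnalyticAt ℂ G 0) (h0 : G 0 = 0) (hb : Bijective (fderiv ℂ G 0))
    (he : ∀ᶠ q in 𝓝 0, val (μ p₀) (σ' (p₀, q)) = (G q).1 * (G q).2) :
    ∃ (σ : P × (ℂ × ℂ) → V M) (τ : P → ℂ), AnalyticAt ℂ τ p₀ ∧ τ p₀ = 0 ∧
      Chart o (fun p => Y p ∩ {y | val (μ p) y = 0}) id p₀ σ (fun p => {z | z.1 * z.2 = τ p}) ∧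
      Chart o Y id p₀ σ (fun _ => univ) ∧ (∀ᶠ q in 𝓝 0, σ (p₀, G q) = σ' (p₀, q)) ∧
      ∀ᶠ r : P × ℂ × ℂ in 𝓝 (p₀, 0), val (μ r.1) (σ r) = r.2.1 * r.2.2 - τ r.1 := by
  obtain ⟨-, ψ, g1, g2, g3, g4⟩ := ift hG hb
  rw [h0] at g1 g2 g4
  have a1 : AnalyticAt ℂ (fun r : (ℂ × ℂ) × P => val (μ r.2) (σ' (r.2, ψ r.1))) (0, p₀) :=
    an_val (hμ.comp_of_eq analyticAt_snd rfl) (h.an.comp_of_eq
      (analyticAt_snd.prod (g1.comp_of_eq analyticAt_fst rfl)) (by simp [g2]))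
  obtain ⟨θ, τ, t1, t2, t3, t4, t5, t6⟩ := node_form a1 (b := fun _ => 1) analyticAt_const
    one_ne_zero (by
      filter_upwards [(g2 ▸ g1.continuousAt.tendsto :).eventually he, g4] with q h1 h2
      rw [h1, h2, mul_one])
  have t7 : θ (0, p₀) = 0 := t4.self_of_nhds.trans (by simp [Prod.ext_iff])
  obtain ⟨ϑ, s1, s2, s3, s4⟩ := ift_fibre t1 t5
  rw [t7] at s1 s2 s4
  have sw : AnalyticAt ℂ (fun r : P × ℂ × ℂ => ϑ (r.2, r.1)) (p₀, 0) :=
    s1.comp_of_eq (analyticAt_snd.prod analyticAt_fst) rfl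
  have a2 : AnalyticAt ℂ (fun r : P × ℂ × ℂ => ψ (ϑ (r.2, r.1))) (p₀, 0) := g1.comp_of_eq sw s2
  have e1 : ∀ᶠ q in 𝓝 0, ϑ (q, p₀) = q := by
    filter_upwards [(tendsto_inl (0 : ℂ × ℂ) p₀).eventually s3, t4] with q h1 h2
    simpa [h2] using h1
  have c1 : Chart o Y id p₀ (fun r => σ' (r.1, ψ (ϑ (r.2, r.1)))) fun _ => univ :=
    h.reparam continuousAt_id a2 (by simp [s2, g2]) (fun e he => by
      have : (fun z => ψ (ϑ (z, p₀))) =ᶠ[𝓝 0] ψ := e1.mono fun q hq => congrArg ψ hq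
      rw [show fderiv ℂ (fun z => ψ (ϑ (z, id p₀))) 0 = _ from this.fderiv_eq] at he
      exact injective_fderiv_of_leftInv (g := G) (by rwa [g2]) g1 g4 (by rw [he, map_zero]))
      (.of_forall fun _ _ => trivial) fun U hU => by
        have t8 : Tendsto (fun q : P × ℂ × ℂ => (G q.2, q.1)) (𝓝 (p₀, 0)) (𝓝 (0, p₀)) :=
          ((h0 ▸ hG.continuousAt.tendsto :).comp (continuous_snd.tendsto (p₀, 0))).prodMk_nhds
            continuousAt_fst
        filter_upwards [t8.eventually s3, continuousAt_snd.tendsto.eventually g3,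
          ((t7 ▸ t1.continuousAt.tendsto :).comp t8) hU] with q h1 h2 h3 _
        exact ⟨_, h3, trivial, by simp only [comp_apply, h1, h2]⟩
  have e2 : ∀ᶠ r : P × ℂ × ℂ in 𝓝 (p₀, 0),
      val (μ r.1) (σ' (r.1, ψ (ϑ (r.2, r.1)))) = r.2.1 * r.2.2 - τ r.1 := by
    filter_upwards [((s2 ▸ sw.continuousAt.tendsto :).prodMk_nhds continuousAt_fst).eventually t6,
      (continuousAt_snd.prodMk continuousAt_fst).tendsto.eventually s4] with r h1 h2
    rw [h1, h2]
  refine ⟨_, τ, t2, t3, ⟨c1.an, c1.imm, ?_, fun U hU => ?_⟩, c1, ?_, e2⟩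
  · filter_upwards [c1.mem, e2] with q h1 h2 h3
    exact ⟨h1 trivial, h2.trans (sub_eq_zero.2 h3)⟩
  · rw [nhds_prod_eq] at e2
    obtain ⟨p1, h1, p2, h2, h3⟩ := eventually_prod_iff.1 e2
    filter_upwards [c1.sub _ (inter_mem hU h2), continuousAt_fst.tendsto.eventually h1,
      continuousAt_snd.tendsto.eventually (eventually_ne (by simpa [s2, g2] using hne))]
      with q h4 h5 h6 h7
    obtain ⟨s, z, h8, -, h9⟩ := h4 h7.1
    have h10 := h7.2
    rw [mem_ofPred_eq, h9, val_smul, mul_eq_zero,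
      or_iff_right (chr_ne_zero (ne_of_smul_ne (h9 ▸ h6 :)))] at h10
    exact ⟨s, z, h8.1, sub_eq_zero.1 ((h3 h5 h8.2).symm.trans h10), h9⟩
  · filter_upwards [(h0 ▸ hG.continuousAt.tendsto :).eventually e1, g3] with q h1 h2
    simp only [h1, h2]

end Vale.Agent.P269.Base
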