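import Vale.Agent.P269.Base.FMer
import Vale.Agent.P269.Base.LF
import Vale.Agent.P269.Base.FldA
import Vale.Agent.P269.Holo.Set

/-!
# Evaluation, fields and residues in holomorphic families of points of a chart
-/

set_option linter.unusedSectionVars false

namespace Vale.Agent.P269.Ch

open Set Function Topology Filter Holo Base

variable {J ι ν β : Type} [Fintype J] [Fintype ι] [DecidableEq ι] [Fintype ν] {ch : Ch ι J}
  {x : ch.W ν} {j : J} {l : Option J} {c : V ch.M} {z : β → V ch.M} {u : β → ℤ} {f : V ch.M → ℂ}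

/-- The marked points as a linear function on the ambient space. -/
noncomputable def pL (n : ν) : ch.W ν →L[ℂ] V ch.M :=
  (ContinuousLinearMap.proj n).comp
    ((ContinuousLinearMap.fst ℂ _ _).comp (ContinuousLinearMap.snd ℂ _ _))

/-- The tensor `Ξ` as a linear function on the ambient space. -/
noncomputable def XiL : ch.W ν →L[ℂ] Tn ch.M ch.slot →L[ℂ] ch.E none :=
  (ContinuousLinearMap.fst ℂ _ _).comp
    ((ContinuousLinearMap.snd ℂ _ _).comp (ContinuousLinearMap.snd ℂ _ _))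

theorem an_mark (n : ν) (x : ch.W ν) : AnalyticAt ℂ (fun y : ch.W ν => y.p n) x :=
  ContinuousLinearMap.analyticAt (𝕜 := ℂ) (E := ch.W ν) (F := V ch.M) (pL n) x

theorem an_XiL (x : ch.W ν) : AnalyticAt ℂ (fun y : ch.W ν => y.Ξ) x :=
  ContinuousLinearMap.analyticAt (𝕜 := ℂ) (E := ch.W ν) (F := Tn ch.M ch.slot →L[ℂ] ch.E none) XiL x

/-- The derivative in the second variable of an analytic map is analytic. -/
theorem an_deriv_snd {P F : Type*} [NormedAddCommGroup P] [NormedSpace ℂ P] [NormedAddCommGroup F]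
    [NormedSpace ℂ F] [CompleteSpace F] {G : P × ℂ → F} {q : P × ℂ} (h : AnalyticAt ℂ G q) :
    AnalyticAt ℂ (fun q : P × ℂ => deriv (fun t => G (q.1, t)) q.2) q := by
  refine (an_apply h.fderiv (analyticAt_const (v := (0, 1)))).congr
    (h.eventually_analyticAt.mono fun q hq => ?_)
  simp only
  rw [← fderiv_inr (x := q.1) (y := q.2) hq, fderiv_apply_one_eq_deriv]

section Fam

variable {T P : Type*} [TopologicalSpace T] [NormedAddCommGroup P] [NormedSpace ℂ P]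
  [FiniteDimensional ℂ P] {π : T → P} {t₀ : T} {x : T → ch.W ν} {σ : β → P × ℂ → V ch.M}

theorem locFam_of_hol {l : Option J} (hl : ∀ i, 4 ≤ ch.a l i)
    (hπ : ∀ᶠ t in 𝓝 t₀, ContinuousAt π t) (hx : HolAt π x t₀) (hb : ∀ᶠ t in 𝓝 t₀, x t ∈ ch.base ν) :
    LocFam ch.o (fun t => crv (x t)) π t₀ := by
  obtain ⟨Q, h1, h2⟩ := hx.comp_an (an_Q l _)
  have h0 := hb.self_of_nhds
  refine (ext_of_hilb (Q := Q) (g := ch.g) (m := ch.m) hl hπ h1 (h2.self_of_nhds ▸ h0.1 l)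
    (fun μ hμ => h2.self_of_nhds ▸ h0.2.1 l μ hμ) ?_).locFam
  filter_upwards [h2, hb] with t k1 k2
  exact ⟨k2.2.2.1, fun μ hμ c => val_eq_zero (k1 ▸ hμ)⟩

theorem exists_pts (hf : LocFam ch.o (fun t => crv (x t)) π t₀) (hx : HolAt π x t₀)
    (hb : ∀ᶠ t in 𝓝 t₀, x t ∈ ch.base ν) : ∃ σ : ν → P × ℂ → V ch.M,
      Pts ch.o (fun t => crv (x t)) π t₀ σ ∧ ∀ᶠ t in 𝓝 t₀, ctr σ (π t) = (x t).p := by
  choose y h1 h2 using fun n => hx.comp_an (an_mark n _)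
  obtain ⟨σ, h3, h4⟩ := hf.exists_pts (y := y) (fun n => ⟨h1 n, by
    filter_upwards [h2 n, hb] with t k1 k2
    exact k1 ▸ (k2.2.2.2.1 n).1⟩) (by
      rw [show (fun n => y n (π t₀)) = (x t₀).p from funext fun n => (h2 n).self_of_nhds.symm]
      exact spt_p hb.self_of_nhds)
  refine ⟨σ, h3, ?_⟩
  filter_upwards [eventually_all.2 h2, eventually_all.2 h4] with t k1 k2
  exact funext fun n => (k2 n).trans (k1 n).symm

/-- The same with finitely many given moving points; only `Q` has to be holomorphic. -/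
theorem holAt_E' {κ : Type} [Fintype κ] (hπ : ContinuousAt π t₀)
    (hx : ∀ l, HolAt π (fun t => (x t).Q l) t₀) (hb : ∀ l, Surjective ((x t₀).Q l))
    {y : κ → T → V ch.M} (hy : ∀ k, HolAt π (y k) t₀ ∧ ∀ᶠ t in 𝓝 t₀, y k t ∈ crv (x t))
    (hi : ∀ v : ch.E l, (∀ k w, (y k t₀, w) ∈ gr (x t₀) → w l v = 0) → v = 0) {s : T → ch.E l}
    (hv : ∀ k, ∃ F : T → ℂ, HolAt π F t₀ ∧
      ∀ᶠ t in 𝓝 t₀, ∀ w, (y k t, w) ∈ gr (x t) → w l (s t) = F t) : HolAt π s t₀ := by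
  let x' : T → ch.W ν := fun t => ((x t).1, 0)
  have h1 : HolAt π x' t₀ := (HolAt.pi hx).prod (HolAt.const _)
  choose U h2 h3 using fun k => exists_an_ev (x := x' t₀) hb (y k t₀)
  choose F h4 h5 using hv
  have h6 : ∀ k, HolAt π (fun t => U k (x' t, y k t) l) t₀ := fun k =>
    ((h1.prod (hy k).1).comp_an (h2 k)).proj l
  have h7 : ∀ k, ∀ᶠ t in 𝓝 t₀, ∀ w, (y k t, w) ∈ gr (x t) → w = U k (x' t, y k t) := fun k =>
    ((h1.prod (hy k).1).cont hπ).eventually (h3 k)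
  let A : T → ch.E l →L[ℂ] κ → ℂ := fun t => .pi fun k => U k (x' t, y k t) l
  have h8 : HolAt π A t₀ := HolAt.of_apply fun v => HolAt.pi fun k => (h6 k).apply (HolAt.const v)
  have h9 : Injective (A t₀) := (injective_iff_map_eq_zero _).2 fun v hv => hi v fun k w hw => by
    rw [(h7 k).self_of_nhds w hw]
    exact congrFun hv k
  obtain ⟨L, hL⟩ := (A t₀ : ch.E l →ₗ[ℂ] κ → ℂ).exists_leftInverse_of_injective
    (LinearMap.ker_eq_bot.2 h9)
  have k1 : HolAt π (fun t => (LinearMap.toContinuousLinearMap L).comp (A t)) t₀ :=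
    (HolAt.const _).clm_comp h8
  have k2 : Bijective ((LinearMap.toContinuousLinearMap L).comp (A t₀)) :=
    ⟨fun a b e => (LinearMap.congr_fun hL a).symm.trans (e.trans (LinearMap.congr_fun hL b)),
      fun a => ⟨a, LinearMap.congr_fun hL a⟩⟩
  refine ((k1.inverse k2).apply ((HolAt.pi h4).clm (LinearMap.toContinuousLinearMap L))).congr ?_
  filter_upwards [eventually_bijective (k1.cont hπ) k2, eventually_all.2 h5, eventually_all.2 h7,
    eventually_all.2 fun k => (hy k).2] with t k3 k4 k5 k6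
  have k7 : (fun k => F k t) = A t (s t) := funext fun k => by
    obtain ⟨w, hw⟩ := mem_crv.1 (k6 k)
    rw [← k4 k w hw, k5 k w hw]
    rfl
  rw [k7]
  exact (isInvertible_of_bijective k3).inverse_apply_self _

/-- A family of sections is holomorphic if its values at good moving points are holomorphic. -/
theorem holAt_E (hf : LocFam ch.o (fun t => crv (x t)) π t₀) (hx : HolAt π x t₀)
    (hb : ∀ᶠ t in 𝓝 t₀, x t ∈ ch.base ν) (ha : ch.a l ≠ 0) {s : T → ch.E l} {p : V ch.M → Prop}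
    (hp : ∀ c ∈ crv (x t₀), ∃ᶠ y in 𝓝[crv (x t₀)] c, p y ∧ ¬IsNode ch.o (crv (x t₀)) y)
    (hv : ∀ y : P → V ch.M, AnalyticAt ℂ y (π t₀) → p (y (π t₀)) →
      (∀ᶠ t in 𝓝 t₀, y (π t) ∈ crv (x t)) → ∃ F : T → ℂ, HolAt π F t₀ ∧
        ∀ᶠ t in 𝓝 t₀, ∀ w, (y (π t), w) ∈ gr (x t) → w l (s t) = F t) : HolAt π s t₀ := by
  have h0 := hb.self_of_nhds
  obtain ⟨y, h1, h2⟩ := hf.exists_ev' h0.2.2.1 ha (h_eq h0 ha) hp
  refine holAt_E' (y := fun k t => y k (π t)) hf.cont.self_of_nhds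
    (fun l => hx.comp_an (an_Q l _)) h0.1
    (fun k => ⟨.of_an (h1 k).1, h2.mono fun t ht => ht.1 k⟩) (fun v hv => ?_)
    fun k => hv (y k) (h1 k).1 (h1 k).2.2 (h2.mono fun t ht => ht.1 k)
  obtain ⟨μ, rfl⟩ := h0.1 l v
  refine h0.2.1 l μ (h2.self_of_nhds.2.2 _ (Pol.isSec (val_mem μ)) fun k => ?_)
  obtain ⟨w, hw⟩ := mem_crv.1 (h2.self_of_nhds.1 k)
  exact (hw.2 l μ).symm.trans (hv k w hw)

theorem fmer_fld (hf : LocFam ch.o (fun t => crv (x t)) π t₀) (hx : HolAt π x t₀)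
    (hb : x t₀ ∈ ch.base ν) (hσ : Pts ch.o (fun t => crv (x t)) π t₀ σ)
    (h : ∀ᶠ t in 𝓝 t₀, ∀ c ∈ crv (x t), ∃ y, Val (x t) j c y) :
    FMer ch.o (fun t => crv (x t)) π t₀ (ch.wd j) σ 0 fun t c => fld (x t) c j := by
  have hπ := hf.cont.self_of_nhds
  obtain ⟨X, h1, h2⟩ := id hx
  have key : ∀ c ∈ crv (x t₀), ∃ Φ : P × V ch.M → ℂ, AnalyticAt ℂ Φ (π t₀, c) ∧
      ∀ᶠ q : T × V ch.M in 𝓝 (t₀, c), q.2 ∈ crv (x q.1) → fld (x q.1) q.2 j = Φ (π q.1, q.2) :=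
    fun c hc => by
      obtain ⟨Φ, k1, k2⟩ := exists_an_fld hb.1 (crv_ne hc) j
      refine ⟨fun q => Φ (X q.1, q.2), k1.comp_of_eq
        ((h1.comp_of_eq analyticAt_fst rfl).prod analyticAt_snd) (by rw [h2.self_of_nhds]), ?_⟩
      filter_upwards [(tendsto_pm (hx.cont hπ) c).eventually k2,
        (continuousAt_fst (p := (t₀, c))).eventually (h2.and h)] with q k3 k4 hq
      rw [← k4.1]
      exact k3 hq (k4.2 _ hq)
  refine ⟨h.mono fun t ht s hs c hc => ?_, fun c hc _ => key c hc, fun k => ?_⟩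
  · obtain ⟨y, hy⟩ := ht c hc
    rw [Cv.fld_eq hc hy]
    exact Cv.fld_eq (crv_smul hc hs) (hy.smul hs)
  · obtain ⟨Φ, k1, k2⟩ := key _ (hσ.mem k)
    refine ⟨fun q => Φ (q.1, σ k q), k1.comp_of_eq (analyticAt_fst.prod (hσ.chart k).an) rfl, ?_⟩
    have t1 : Tendsto (fun q : T × ℂ => (q.1, σ k (π q.1, q.2))) (𝓝 (t₀, 0))
        (𝓝 (t₀, σ k (π t₀, 0))) :=
      Tendsto.prodMk_nhds continuousAt_fst ((hσ.chart k).tendsto hπ)
    filter_upwards [t1.eventually k2, (hσ.chart k).mem] with q k3 k4 _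
    simpa using k3 (k4 trivial)

/-- The field induced by a holomorphic family of sections is holomorphic. -/
theorem holAt_X [Finite β] (hf : LocFam ch.o (fun t => crv (x t)) π t₀) (hx : HolAt π x t₀)
    (hb : ∀ᶠ t in 𝓝 t₀, x t ∈ ch.base ν) (ha : ch.a (some j) ≠ 0)
    (hσ : Pts ch.o (fun t => crv (x t)) π t₀ σ) {f : T → V ch.M → ℂ}
    (h : FMer ch.o (fun t => crv (x t)) π t₀ (ch.wd j) σ u f)
    {X : T → Tens ch.M (ch.b j) →L[ℂ] ch.E (some j)}
    (hX : ∀ᶠ t in 𝓝 t₀, IndOff (x t) j (X t) (ctr σ (π t)) (f t)) : HolAt π X t₀ := by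
  refine HolAt.of_apply fun μ => holAt_E hf hx hb ha (p := Off (ctr σ (π t₀)))
    (fun c hc => hf.nod.frequently_not_node _ hc) fun y h1 h2 h3 => ?_
  have h4 : HolAt π (fun t => y (π t)) t₀ := .of_an h1
  refine ⟨fun t => f t (y (π t)) • val μ (y (π t)),
    (h.holAt hf h4 h3 h2).smul (h4.comp_an (analyticAt_val μ _)), ?_⟩
  have t1 : Tendsto (fun t => (t, y (π t))) (𝓝 t₀) (𝓝 (t₀, y (π t₀))) :=
    Tendsto.prodMk_nhds tendsto_id (h4.cont hf.cont.self_of_nhds)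
  filter_upwards [hX, t1.eventually (hσ.eventually_off hf (crv_ne h3.self_of_nhds) h2)]
    with t k1 k2 w hw
  exact k1 _ w hw k2 μ

theorem holAt_rsd (hf : LocFam ch.o (fun t => crv (x t)) π t₀) (hx : HolAt π x t₀)
    (hb : ∀ᶠ t in 𝓝 t₀, x t ∈ ch.base ν) (n : ν) : HolAt π (fun t => rsd (x t) n) t₀ := by
  classical
  have hπ := hf.cont.self_of_nhds
  obtain ⟨σ, hσ, hc⟩ := exists_pts hf hx hb
  obtain ⟨X, h1, h2⟩ := hx
  have h0 := hb.self_of_nhds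
  obtain ⟨μ, hμ⟩ := exists_wedge_ne (hσ.ne hf n) (hσ.isBranch hf n).imm
  obtain ⟨U, h3, h4⟩ := exists_an_ev (x := X (π t₀)) (h2.self_of_nhds ▸ h0.1) (σ n (π t₀, 0))
  have a1 : AnalyticAt ℂ (fun q : P × ℂ => X q.1) (π t₀, 0) := h1.comp_of_eq analyticAt_fst rfl
  have a2 := a1.prod (hσ.chart n).an
  have a3 : AnalyticAt ℂ (fun q : P × ℂ => wedge μ (σ n q) (deriv (fun w => σ n (q.1, w)) q.2))
      (π t₀, 0) := an_wedge analyticAt_const (hσ.chart n).an (an_deriv_snd (hσ.chart n).an)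
  have a4 : AnalyticAt ℂ (fun q : P × ℂ => U (X q.1, σ n q) none ((X q.1).Ξ μ) /
      wedge μ (σ n q) (deriv (fun w => σ n (q.1, w)) q.2)) (π t₀, 0) :=
    (an_apply (analyticAt_pi_iff.1 (h3.comp_of_eq a2 rfl) none)
      (an_apply ((an_XiL _).comp_of_eq a1 rfl) analyticAt_const)).div a3 hμ
  obtain ⟨G, h5, h6⟩ := exists_taylor_div a4 ch.k
  refine ⟨fun p => G (p, 0), h5.comp_of_eq (analyticAt_id.prod analyticAt_const) rfl, ?_⟩
  have t1 : Tendsto (fun t => (π t, (0 : ℂ))) (𝓝 t₀) (𝓝 (π t₀, 0)) :=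
    Tendsto.prodMk_nhds hπ tendsto_const_nhds
  filter_upwards [h2, hb, hc, hσ.eventually hf, hf.eventually, t1.eventually
    (h5.eventually_analyticAt.and (a4.eventually_analyticAt.and (eventually_eventually_nhds.2
      (h6.and ((a2.continuousAt.eventually h4).and (a3.continuousAt.eventually_ne hμ))))))]
    with t k1 k2 k3 k4 k5 ⟨k6, k7, k8⟩
  have k9 := k4.isBranch k5 n
  have e0 : σ n (π t, 0) = (x t).p n := congrFun k3 n
  obtain ⟨φ, b1, b2, b3⟩ := (lead_iff_rsd k2 k9 e0).2 rfl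
  have e1 : IsNode ch.o (crv (x t)) (σ n (π t, 0)) ∨ ∃ n', ∃ s : ι → ℂ,
      σ n (π t, 0) = s • (x t).p n' := .inr ⟨n, 1, by rw [one_smul]; exact e0⟩
  simp only [if_pos e1] at b3
  have b4 : ∀ᶠ w in 𝓝 (0 : ℂ), U (X (π t), σ n (π t, w)) none ((X (π t)).Ξ μ) /
      wedge μ (σ n (π t, w)) (deriv (fun w => σ n (π t, w)) w) = w ^ ch.k * φ w := by
    filter_upwards [b3, k9.mem, (tendsto_inr (π t) (0 : ℂ)).eventually k8] with w c1 c2 c3
    obtain ⟨r, hr⟩ := mem_crv.1 c2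
    rw [div_eq_iff c3.2.2, ← c3.2.1 r (k1 ▸ hr), ← k1, c1 r hr μ, mul_comm (φ w)]
  have b5 := (dv_iff_jet (k7.comp_of_eq (analyticAt_const.prod analyticAt_id) rfl)).1 ⟨φ, b1, b4⟩
  rw [← b2]
  refine tendsto_nhds_unique_of_eventuallyEq (l := 𝓝[≠] (0 : ℂ))
    (b1.continuousAt.tendsto.mono_left nhdsWithin_le_nhds)
    ((k6.continuousAt.tendsto.comp (tendsto_inr (π t) (0 : ℂ))).mono_left nhdsWithin_le_nhds) ?_
  filter_upwards [(b4.and ((tendsto_inr (π t) (0 : ℂ)).eventually k8)).filter_mono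
    nhdsWithin_le_nhds, self_mem_nhdsWithin] with w c1 c2
  exact mul_left_cancel₀ (pow_ne_zero ch.k c2) (c1.1.symm.trans (c1.2.1 b5))

end Fam

theorem exists_an_rsd (hl : ∀ i, 4 ≤ ch.a l i) (hx : x ∈ ch.base ν) (n : ν) :
    ∃ Φ : ch.W ν → ℂ, AnalyticAt ℂ Φ x ∧ ∀ᶠ y in 𝓝 x, y ∈ ch.base ν → rsd y n = Φ y :=
  (holAt_val_iff hx (f := fun y => rsd y n)).1
    (holAt_rsd (locFam_base hl ⟨x, hx⟩) HolAt.self (.of_forall fun y => y.2) n)

end Vale.Agent.P269.Ch
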