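import Mathlib

/-! Generic members of linear systems: Bertini on discs. -/

namespace Vale.Agent.P269.Base

open Set Function Topology Filter

set_option linter.unusedSectionVars false

variable {E F : Type*} [NormedAddCommGroup E] [NormedSpace ℂ E] [FiniteDimensional ℂ E]
  [NormedAddCommGroup F] [NormedSpace ℂ F]

omit [NormedSpace ℂ E] [FiniteDimensional ℂ E] in
/-- density from density along a family of perturbations -/
theorem dense_of_param {P : Type*} [TopologicalSpace P] [Zero P] {j : P → E} (hj : Continuous j)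
    (h0 : j 0 = 0) {G : Set E} (h : ∀ e, Dense {s | e + j s ∈ G}) : Dense G := fun e => by
  have h1 := map_mem_closure (f := fun s => e + j s) (continuous_const.add hj) (h e 0)
    (t := G) fun _ hs => hs
  simpa only [h0, add_zero] using h1

omit [FiniteDimensional ℂ E] in
theorem dense_of_line {e₀ : E} {G : Set E}
    (h : ∀ (e : E) (s s' : ℂ), e + s • e₀ ∉ G → e + s' • e₀ ∉ G → s = s') : Dense G := by
  refine dense_of_param (j := fun s : ℂ => s • e₀) (by fun_prop) (zero_smul _ _) fun e => ?_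
  have h1 : {s : ℂ | e + s • e₀ ∉ G}.Countable :=
    Set.Subsingleton.countable fun s hs s' hs' => h e s s' hs hs'
  simpa only [compl_ofPred, not_not] using h1.dense_compl ℂ

theorem residual_ne {l : E →ₗ[ℂ] F} (h : l ≠ 0) (y : F) : ∀ᶠ e in residual E, l e ≠ y := by
  obtain ⟨e₀, he⟩ : ∃ e₀, l e₀ ≠ 0 := by
    by_contra h1
    push Not at h1
    exact h (LinearMap.ext h1)
  refine residual_of_dense_open (isOpen_ne_fun l.continuous_of_finiteDimensional continuous_const)
    (dense_of_line (e₀ := e₀) fun e s s' hs hs' => ?_)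
  simp only [mem_ofPred_eq, not_not, map_add, map_smul] at hs hs'
  exact smul_left_injective ℂ he (add_left_cancel (hs.trans hs'.symm))

theorem residual_notMem {K : Submodule ℂ E} (h : K ≠ ⊤) : ∀ᶠ e in residual E, e ∉ K := by
  obtain ⟨e₀, he⟩ : ∃ e₀, e₀ ∉ K := by
    by_contra h1
    push Not at h1
    exact h (Submodule.eq_top_iff'.2 h1)
  refine residual_of_dense_open K.closed_of_finiteDimensional.isOpen_compl
    (dense_of_line (e₀ := e₀) fun e s s' hs hs' => ?_)
  simp only [mem_ofPred_eq, not_not] at hs hs'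
  by_contra hne
  have h1 := K.sub_mem hs hs'
  rw [add_sub_add_left_eq_sub, ← sub_smul] at h1
  exact he ((K.smul_mem_iff (sub_ne_zero.2 hne)).1 h1)

omit [FiniteDimensional ℂ E] in
/-- not vanishing on a compact set is an open condition -/
theorem isOpen_forall_ne {Φ : ℂ → E →L[ℂ] F} {K : Set ℂ} (hK : IsCompact K)
    (hΦ : ∀ z ∈ K, ContinuousAt Φ z) : IsOpen {e | ∀ z ∈ K, Φ z e ≠ 0} :=
  isOpen_iff_mem_nhds.2 fun _ he => hK.eventually_forall_of_forall_eventually
    (P := fun e z => Φ z e ≠ 0) fun z hz =>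
      ContinuousAt.eventually_ne (g := fun q : E × ℂ => Φ q.2 q.1)
        ((ContinuousAt.comp (g := Φ) (f := Prod.snd) (hΦ z hz) continuousAt_snd).clm_apply
          continuousAt_fst) (he z hz)

theorem exists_closedBall {p : ℂ → Prop} (h : ∀ᶠ z in 𝓝 (0 : ℂ), p z) :
    ∃ r > 0, ∀ z ∈ Metric.closedBall (0 : ℂ) r, p z :=
  Metric.nhds_basis_closedBall.eventually_iff.1 h

/-- critical values of a holomorphic function have dense complement -/
theorem dense_compl_crit {g : ℂ → ℂ} {S : Set ℂ} (h : ∀ z ∈ S, HasDerivAt g 0 z) :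
    Dense (g '' S)ᶜ := by
  refine MeasureTheory.Measure.dense_of_ae (μ := MeasureTheory.volume)
    (MeasureTheory.measure_eq_zero_iff_ae_notMem.1 ?_)
  refine MeasureTheory.addHaar_image_eq_zero_of_det_fderivWithin_eq_zero MeasureTheory.volume
    (f' := fun _ => (0 : ℂ →L[ℝ] ℂ)) (fun z hz => ?_) fun _ _ => ?_
  · have h1 := ((h z hz).hasFDerivAt.restrictScalars ℝ).hasFDerivWithinAt (s := S)
    refine h1.congr_fderiv ?_
    ext
    all_goals simp
  · exact LinearMap.det_zero''

theorem residual_simple {Λ : ℂ → E →L[ℂ] ℂ} (hΛ : AnalyticAt ℂ Λ 0) (h0 : Λ 0 ≠ 0) :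
    ∃ r > 0, ∀ᶠ e in residual E, ∀ z : ℂ, ‖z‖ < r → Λ z e = 0 →
      deriv (fun z => Λ z e) z ≠ 0 := by
  have := FiniteDimensional.complete ℂ E
  obtain ⟨e₀, he⟩ : ∃ e₀, Λ 0 e₀ ≠ 0 := by
    by_contra h1
    push Not at h1
    exact h0 (ContinuousLinearMap.ext h1)
  obtain ⟨r, hr, h⟩ := exists_closedBall (hΛ.eventually_analyticAt.and
    ((hΛ.continuousAt.clm_apply continuousAt_const).eventually_ne he))
  have hd : ∀ z ∈ Metric.closedBall (0 : ℂ) r, ∀ e,
      HasDerivAt (fun z => Λ z e) (deriv Λ z e) z := fun z hz e => by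
    simpa using (h z hz).1.differentiableAt.hasDerivAt.clm_apply (hasDerivAt_const z e)
  have hG : {e | ∀ z ∈ Metric.closedBall (0 : ℂ) r, (Λ z).prod (deriv Λ z) e ≠ 0} ∈ residual E := by
    refine residual_of_dense_open (isOpen_forall_ne (isCompact_closedBall 0 r) fun z hz => ?_)
      (dense_of_param (j := fun s : ℂ => s • e₀) (by fun_prop) (zero_smul _ _) fun e => ?_)
    · exact (ContinuousLinearMap.prodₗᵢ ℂ).continuous.continuousAt.comp
        ((h z hz).1.continuousAt.prodMk (h z hz).1.deriv.continuousAt)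
    · refine (dense_compl_crit (g := fun z => -Λ z e / Λ z e₀)
        (S := {z | HasDerivAt (fun z => -Λ z e / Λ z e₀) 0 z}) fun _ hz => hz).mono ?_
      refine fun s hs z hz h1 => hs ?_
      simp only [ContinuousLinearMap.prod_apply, map_add, map_smul, Prod.mk_add_mk, Prod.smul_mk,
        Prod.mk_eq_zero, smul_eq_mul] at h1
      have h2 := (h z hz).2
      refine ⟨z, ?_, ?_⟩
      · refine ((hd z hz e).neg.div (hd z hz e₀) h2).congr_deriv ?_
        rw [div_eq_zero_iff]
        left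
        simp only [Pi.neg_apply]
        linear_combination Λ z e₀ * -h1.2 + deriv Λ z e₀ * h1.1
      · rw [div_eq_iff h2]
        linear_combination -h1.1
  refine ⟨r, hr, mem_of_superset hG fun e he' z hz h1 h2 => ?_⟩
  have hz' : z ∈ Metric.closedBall (0 : ℂ) r := mem_closedBall_zero_iff.2 hz.le
  rw [(hd z hz' e).deriv] at h2
  exact he' z hz' (Prod.ext h1 h2)

/-- a holomorphic curve in the plane has dense complement -/
theorem dense_compl_curve {g : ℂ → ℂ × ℂ} {r : ℝ}
    (h : ∀ z ∈ Metric.closedBall (0 : ℂ) r, AnalyticAt ℂ g z) :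
    Dense (g '' Metric.closedBall 0 r)ᶜ := by
  refine ContDiffOn.dense_compl_image_of_dimH_lt_finrank (s := Metric.closedBall 0 r)
    (fun z hz => ((h z hz).contDiffAt.restrict_scalars ℝ).contDiffWithinAt)
    (convex_closedBall 0 r) Subset.rfl ((dimH_mono (subset_univ _)).trans_lt ?_)
  rw [Real.dimH_univ_eq_finrank, Module.finrank_prod, Complex.finrank_real_complex]
  norm_num

theorem residual_ne_zero [FiniteDimensional ℂ F] {Λ : ℂ → E →L[ℂ] F} (hΛ : AnalyticAt ℂ Λ 0)
    (h0 : 2 ≤ Module.finrank ℂ (LinearMap.range (Λ 0 : E →ₗ[ℂ] F))) :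
    ∃ r > 0, ∀ᶠ e in residual E, ∀ z : ℂ, ‖z‖ < r → Λ z e ≠ 0 := by
  have := FiniteDimensional.complete ℂ F
  obtain ⟨v, hv⟩ := exists_linearIndependent_of_le_finrank h0
  have hv' := hv.map' _ (Submodule.ker_subtype _)
  obtain ⟨p, hp⟩ := (Fintype.linearCombination ℂ _).exists_leftInverse_of_injective
    (LinearMap.ker_eq_bot.2 (linearIndependent_iff_injective_fintypeLinearCombination.1 hv'))
  choose u hu using fun i => (v i).2
  have hpu : ∀ i, p (Λ 0 (u i)) = Pi.single i 1 := fun i => by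
    have h1 := LinearMap.congr_fun hp (Pi.single i 1)
    rw [LinearMap.comp_apply, Fintype.linearCombination_apply_single, one_smul] at h1
    exact (congrArg p (hu i)).trans h1
  let a : Fin 2 → E → ℂ → ℂ := fun i e z => p (Λ z e) i
  have ha : ∀ z, AnalyticAt ℂ Λ z → ∀ i e, AnalyticAt ℂ (a i e) z := fun z hz i e =>
    (((LinearMap.proj i ∘ₗ p).toContinuousLinearMap).comp
      (ContinuousLinearMap.apply ℂ F e)).analyticAt _ |>.comp hz
  let D : ℂ → ℂ := fun z => a 0 (u 0) z * a 1 (u 1) z - a 0 (u 1) z * a 1 (u 0) z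
  have hD : ∀ z, AnalyticAt ℂ Λ z → AnalyticAt ℂ D z := fun z hz =>
    ((ha z hz _ _).mul (ha z hz _ _)).sub ((ha z hz _ _).mul (ha z hz _ _))
  obtain ⟨r, hr, h⟩ := exists_closedBall (hΛ.eventually_analyticAt.and
    ((hD 0 hΛ).continuousAt.eventually_ne (y := 0) (by simp [D, a, hpu])))
  have hG : {e | ∀ z ∈ Metric.closedBall (0 : ℂ) r, Λ z e ≠ 0} ∈ residual E := by
    refine residual_of_dense_open (isOpen_forall_ne (isCompact_closedBall 0 r) fun z hz =>
      (h z hz).1.continuousAt) (dense_of_param (j := fun s : ℂ × ℂ => s.1 • u 0 + s.2 • u 1)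
        (by fun_prop) (by simp) fun e => ?_)
    refine (dense_compl_curve (r := r) (g := fun z =>
      ((a 0 (u 1) z * a 1 e z - a 0 e z * a 1 (u 1) z) / D z,
        (a 0 e z * a 1 (u 0) z - a 0 (u 0) z * a 1 e z) / D z)) fun z hz => ?_).mono ?_
    · have h1 := ha z (h z hz).1
      exact ((((h1 _ _).mul (h1 _ _)).sub ((h1 _ _).mul (h1 _ _))).div (hD z (h z hz).1)
        (h z hz).2).prod ((((h1 _ _).mul (h1 _ _)).sub ((h1 _ _).mul (h1 _ _))).div
          (hD z (h z hz).1) (h z hz).2)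
    · refine fun s hs z hz h1 => hs ⟨z, hz, ?_⟩
      have h2 : ∀ i, a i e z + (s.1 * a i (u 0) z + s.2 * a i (u 1) z) = 0 := fun i => by
        simpa [a] using congrArg (fun y => p y i) h1
      refine Prod.ext ((div_eq_iff (h z hz).2).2 ?_) ((div_eq_iff (h z hz).2).2 ?_)
      · simp only [D]
        linear_combination a 0 (u 1) z * h2 1 - a 1 (u 1) z * h2 0
      · simp only [D]
        linear_combination a 1 (u 0) z * h2 0 - a 0 (u 0) z * h2 1
  exact ⟨r, hr, mem_of_superset hG fun e he z hz => he z (mem_closedBall_zero_iff.2 hz.le)⟩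

omit [NormedSpace ℂ E] [FiniteDimensional ℂ E] in
theorem residual_forall {X : Type*} [TopologicalSpace X] [SecondCountableTopology X] {S : Set X}
    {p : X → E → Prop} (h : ∀ x ∈ S, ∃ N ∈ 𝓝[S] x, ∀ᶠ e in residual E, ∀ y ∈ N, p y e) :
    ∀ᶠ e in residual E, ∀ x ∈ S, p x e := by
  choose! N hN hp using h
  obtain ⟨t, hts, htc, hcov⟩ := TopologicalSpace.countable_cover_nhdsWithin hN
  filter_upwards [(eventually_countable_ball htc).2 fun x hx => hp x (hts hx)] with e he x hx
  obtain ⟨y, hy, hxy⟩ := mem_iUnion₂.1 (hcov hx)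
  exact he y hy x hxy

theorem exists_of_residual {p : E → Prop} (h : ∀ᶠ e in residual E, p e) {e₀ : E} {U : Set E}
    (hU : U ∈ 𝓝 e₀) : ∃ e ∈ U, p e := by
  have := FiniteDimensional.complete ℂ E
  obtain ⟨e, h1, h2⟩ := (dense_of_mem_residual h).inter_nhds_nonempty hU
  exact ⟨e, h2, h1⟩

end Vale.Agent.P269.Base
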