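import Vale.Agent.P269.Base.Crv

/-!
# The family of curves inside a family of cones with residual discs; push-forward families
-/

namespace Vale.Agent.P269.Base

open Set Function Topology Filter Holo

set_option linter.unusedSectionVars false

variable {ι : Type} [Fintype ι] {M : ι → ℕ}

theorem Orb.ne {c y : V M} (h : Orb c y) (hc : ∀ i, c i ≠ 0) (i : ι) : y i ≠ 0 := by
  obtain ⟨s, hs, rfl⟩ := h
  exact smul_ne hs hc i

theorem Orb.smul (c : V M) {s : ι → ℂ} (hs : ∀ i, s i ≠ 0) : Orb c (s • c) := ⟨s, hs, rfl⟩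

theorem orb_of_cross {a b : V M} (ha : ∀ i, a i ≠ 0) (hb : ∀ i, b i ≠ 0)
    (h : ∀ i k l, a i k * b i l = a i l * b i k) : Orb a b := by
  choose k hk using fun i => Function.ne_iff.1 (ha i)
  refine Orb.of_smul (s := fun i => b i (k i) / a i (k i)) hb (funext fun i => funext fun l => ?_)
  have h1 : a i (k i) ≠ 0 := hk i
  change b i l = b i (k i) / a i (k i) * a i l
  field_simp
  linear_combination h i (k i) l

/-- Different orbits stay different. -/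
theorem ev_not_orb {α : Type*} {l : Filter α} {u v : α → V M} {a b : V M}
    (hu : Tendsto u l (𝓝 a)) (hv : Tendsto v l (𝓝 b)) (ha : ∀ i, a i ≠ 0) (hb : ∀ i, b i ≠ 0)
    (h : ¬Orb a b) : ∀ᶠ x in l, ¬Orb (u x) (v x) := by
  obtain ⟨i, k, m, h1⟩ : ∃ i k m, a i k * b i m ≠ a i m * b i k := by
    by_contra h1
    push Not at h1
    exact h (orb_of_cross ha hb h1)
  have h2 := fun k => tendsto_pi_nhds.1 (tendsto_pi_nhds.1 hu i) k
  have h3 := fun k => tendsto_pi_nhds.1 (tendsto_pi_nhds.1 hv i) k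
  filter_upwards [(((h2 k).mul (h3 m)).sub ((h2 m).mul (h3 k))).eventually_ne (sub_ne_zero.2 h1)]
    with x hx ⟨s, _, e⟩
  refine hx ?_
  rw [e]
  change u x i k * (s i * u x i m) - u x i m * (s i * u x i k) = 0
  ring

variable {T P E : Type*} [TopologicalSpace T] [NormedAddCommGroup P] [NormedSpace ℂ P]
  [NormedAddCommGroup E] [NormedSpace ℂ E] {o : ι} {π : T → P} {t₀ : T}

/-- Transport along an orbit. -/
theorem Orb.ev {c c' : V M} (h : Orb c' c) {p : T × V M → Prop}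
    (hp : ∀ᶠ q in 𝓝 (t₀, c'), p q) :
    ∃ s : ι → ℂ, (∀ i, s i ≠ 0) ∧ ∀ᶠ q : T × V M in 𝓝 (t₀, c), p (q.1, s • q.2) := by
  obtain ⟨s, hs, rfl⟩ := h.symm
  exact ⟨s, hs, (Tendsto.prodMk_nhds continuousAt_fst
    (tendsto_smul tendsto_const_nhds (continuousAt_snd (p := (t₀, c))))).eventually hp⟩

theorem Chart.congr {C C' : T → Set (V M)} {σ : P × E → V M} {X : P → Set E}
    (h : Chart o C π t₀ σ X) (hπ : ContinuousAt π t₀)
    (he : ∀ᶠ q : T × V M in 𝓝 (t₀, σ (π t₀, 0)), q.2 ∈ C' q.1 ↔ q.2 ∈ C q.1) :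
    Chart o C' π t₀ σ X := by
  refine ⟨h.an, h.imm, ?_, fun U hU => ?_⟩
  · filter_upwards [h.mem, (Tendsto.prodMk_nhds continuousAt_fst (h.tendsto hπ)).eventually he]
      with q h1 h2 h3 using h2.2 (h1 h3)
  · filter_upwards [h.sub U hU, he] with q h1 h2 h3 using h1 (h2.1 h3)

theorem LocFam.eventually_sub {C C' : T → Set (V M)} (h' : LocFam o C' π t₀)
    (hcone : ∀ᶠ t in 𝓝 t₀, ∀ s : ι → ℂ, (∀ i, s i ≠ 0) → ∀ c ∈ C t, s • c ∈ C t)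
    (h : ∀ c ∈ C' t₀, ∃ c', Orb c' c ∧
      ∀ᶠ q : T × V M in 𝓝 (t₀, c'), q.2 ∈ C' q.1 → q.2 ∈ C q.1) :
    ∀ᶠ t in 𝓝 t₀, C' t ⊆ C t := by
  have h0 : ∀ᶠ t in 𝓝 t₀, ∀ s : ι → ℂ, (∀ i, s i ≠ 0) → ∀ c, s • c ∈ C t → c ∈ C t :=
    hcone.mono fun t ht s hs c hc => by
      simpa only [inv_smul_smul' hs] using ht s⁻¹ (fun i => inv_ne_zero (hs i)) _ hc
  refine h'.compact (p := fun q => q.2 ∈ C q.1) (fun c hc => ?_)
    (h0.mono fun t ht s hs c _ => ht s hs c)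
  obtain ⟨c', h1, h2⟩ := h c hc
  obtain ⟨s, hs, h3⟩ := h1.ev h2
  filter_upwards [h3, continuousAt_fst.eventually h0, continuousAt_fst.eventually h'.cone]
    with q k1 k2 k3 k4 using k2 s hs _ (k1 (k3 s hs _ k4))

variable [FiniteDimensional ℂ P]

/-- The residual branch of a chart. -/
def Res (σ : P × (ℂ × ℂ) → V M) (r : ℝ) (p : P) (y : V M) : Prop :=
  ∃ v : ℂ, v ≠ 0 ∧ ‖v‖ < r ∧ Orb (σ (p, (0, v))) y

theorem Res.orb {σ : P × (ℂ × ℂ) → V M} {r : ℝ} {p : P} {y y' : V M} (h : Res σ r p y)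
    (h' : Orb y y') : Res σ r p y' :=
  let ⟨v, h1, h2, h3⟩ := h
  ⟨v, h1, h2, h3.trans h'⟩

section One

variable {Y : T → Set (V M)} {σ : P × (ℂ × ℂ) → V M} {r : ℝ}

theorem Chart.exists_rad (h : Chart o Y π t₀ σ fun _ => {z | z.1 * z.2 = 0})
    (hπ : ∀ᶠ t in 𝓝 t₀, ContinuousAt π t) (hne : ∀ i, σ (π t₀, 0) i ≠ 0)
    (hcone : ∀ t, ∀ s : ι → ℂ, (∀ i, s i ≠ 0) → ∀ c ∈ Y t, s • c ∈ Y t) {p : ℂ × ℂ → Prop}
    (hp : ∀ᶠ z in 𝓝 (0 : ℂ × ℂ), p z) : ∃ r > 0,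
      (∀ z : ℂ × ℂ, ‖z‖ ≤ r → p z ∧ ContinuousAt σ (π t₀, z) ∧ (∀ i, σ (π t₀, z) i ≠ 0) ∧
        Chart o Y π t₀ (fun q => σ (q.1, z + q.2)) fun _ => {e | (z + e).1 * (z + e).2 = 0}) ∧
      ∀ᶠ q : T × ℂ in 𝓝 (t₀, 0), ¬Res σ r (π q.1) (σ (π q.1, (q.2, 0))) := by
  have h1 := h.inj hne
  rw [nhds_prod_eq] at h1
  obtain ⟨A, hA, B, hB, h2⟩ := eventually_prod_iff.1 h1
  have h3 := hp.and (((tendsto_inr (π t₀) (0 : ℂ × ℂ)).eventually
    h.an.eventually_continuousAt).and ((h.an0.continuousAt.eventually (eventually_ne hne)).and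
      ((tendsto_inr t₀ (0 : ℂ × ℂ)).eventually (h.shift hπ hne (.of_forall hcone)))))
  obtain ⟨r, hr, h4⟩ := Metric.nhds_basis_closedBall.eventually_iff.1
    (hB.and ((continuousAt_fst (p := ((0 : ℂ × ℂ), (0 : ℂ × ℂ)))).eventually h3))
  refine ⟨r, hr, fun z hz => (@h4 (z, 0) (by simpa [hr.le] using hz)).2, ?_⟩
  filter_upwards [(hπ.self_of_nhds.comp continuousAt_fst).eventually hA,
    (continuousAt_snd (p := (t₀, (0 : ℂ)))).eventually (Metric.closedBall_mem_nhds 0 hr)]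
    with q k1 k2 ⟨v, k3, k4, s, _, k5⟩
  have k6 := (h2 k1 (@h4 ((0, v), (q.2, 0)) (by
    rw [dist_zero_right] at k2
    simp [← Prod.zero_eq_mk, Prod.norm_def, k2, k4.le])).1 s k5).2
  exact k3 (congrArg Prod.snd k6)

theorem Chart.sub_res (h : Chart o Y π t₀ σ fun _ => {z | z.1 * z.2 = 0})
    (hne : ∀ t, ∀ c ∈ Y t, ∀ i, c i ≠ 0) (hr : 0 < r) {U : Set ℂ} (hU : U ∈ 𝓝 (0 : ℂ)) :
    ∀ᶠ q : T × V M in 𝓝 (t₀, σ (π t₀, 0)), q.2 ∈ Y q.1 → ¬Res σ r (π q.1) q.2 →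
      ∃ u ∈ U, Orb (σ (π q.1, (u, 0))) q.2 := by
  filter_upwards [h.sub _ (prod_mem_nhds hU (Metric.ball_mem_nhds 0 hr))] with q h1 h2 h3
  obtain ⟨s, ⟨u, v⟩, h4, h5, h6⟩ := h1 h2
  have h7 := Orb.of_smul (hne _ _ h2) h6
  by_cases hv : v = 0
  · exact ⟨u, h4.1, hv ▸ h7⟩
  · obtain rfl : u = 0 := (mul_eq_zero.1 h5).resolve_right hv
    exact absurd ⟨v, hv, mem_ball_zero_iff.1 h4.2, h7⟩ h3

theorem Chart.ev_res {v : ℂ} (h : Chart o Y π t₀ (fun q => σ (q.1, ((0 : ℂ), v) + q.2)) fun _ =>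
      {e | (((0 : ℂ), v) + e).1 * (((0 : ℂ), v) + e).2 = 0}) (hne : ∀ t, ∀ c ∈ Y t, ∀ i, c i ≠ 0)
    (hv : v ≠ 0) (hr : ‖v‖ < r) : ∀ᶠ q : T × V M in 𝓝 (t₀, σ (π t₀, (0, v))),
      q.2 ∈ Y q.1 → Res σ r (π q.1) q.2 := by
  have c1 : ContinuousAt (fun e : ℂ × ℂ => v + e.2) 0 := by fun_prop
  have h1 := h.sub _ ((c1.eventually_ne (by simpa using hv)).and
    (c1.norm.eventually_lt continuousAt_const (by simpa using hr)))
  rw [add_zero] at h1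
  filter_upwards [h1] with q h2 h3
  obtain ⟨s, ⟨a, b⟩, h4, h5, h6⟩ := h2 h3
  obtain rfl : a = 0 := by simpa [h4.1] using h5
  exact ⟨v + b, h4.1, h4.2, Orb.of_smul (hne _ _ h3) (by simpa using h6)⟩

theorem eventually_not_res (hπ : ContinuousAt π t₀) {c : V M} (hc : ∀ i, c i ≠ 0)
    (h : ∀ v : ℂ, ‖v‖ ≤ r → ContinuousAt σ (π t₀, (0, v)) ∧ (∀ i, σ (π t₀, (0, v)) i ≠ 0) ∧
      ¬Orb (σ (π t₀, (0, v))) c) :
    ∀ᶠ q : T × V M in 𝓝 (t₀, c), ¬Res σ r (π q.1) q.2 := by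
  have h1 := (isCompact_closedBall (0 : ℂ) r).eventually_forall_of_forall_eventually
    (x₀ := (t₀, c)) (P := fun (q : T × V M) v => ¬Orb (σ (π q.1, (0, v))) q.2) fun v hv => by
      obtain ⟨k1, k2, k3⟩ := h v (mem_closedBall_zero_iff.1 hv)
      refine ev_not_orb (k1.tendsto.comp (Tendsto.prodMk_nhds
        (hπ.tendsto.comp ((continuous_fst.comp continuous_fst).tendsto' _ _ rfl))
        ((by fun_prop : Continuous fun z : (T × V M) × ℂ => ((0 : ℂ), z.2)).tendsto' _ _ rfl)))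
        ((continuous_snd.comp continuous_fst).tendsto' _ _ rfl) k2 hc k3
  exact h1.mono fun q hq ⟨v, _, k1, k2⟩ => hq v (mem_closedBall_zero_iff.2 k1.le) k2

end One

theorem exists_glue {Y : T → Set (V M)} {C₀ : Set (V M)} (hC : Nod o C₀)
    (hπ : ∀ᶠ t in 𝓝 t₀, ContinuousAt π t) (hne : ∀ t, ∀ c ∈ Y t, ∀ i, c i ≠ 0)
    (hcone : ∀ t, ∀ s : ι → ℂ, (∀ i, s i ≠ 0) → ∀ c ∈ Y t, s • c ∈ Y t)
    (husc : ∀ c : V M, (∀ i, c i ≠ 0) → c ∉ Y t₀ → ∀ᶠ q : T × V M in 𝓝 (t₀, c), q.2 ∉ Y q.1)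
    {β : Type*} [Fintype β] {σ : β → P × (ℂ × ℂ) → V M}
    (hq : ∀ j j', Orb (σ j (π t₀, 0)) (σ j' (π t₀, 0)) → j = j')
    (hσ : ∀ j, Chart o Y π t₀ (σ j) fun _ => {z | z.1 * z.2 = 0})
    (hσC : ∀ j, ∀ᶠ z in 𝓝 (0 : ℂ × ℂ), σ j (π t₀, z) ∈ C₀ ↔ z.2 = 0)
    (hY : ∀ c ∈ C₀, (∀ j, ¬Orb (σ j (π t₀, 0)) c) →
      (SmAt o Y π t₀ c ∨ ∃ τ, NdAt o Y π t₀ c τ) ∧ ∀ᶠ y in 𝓝 c, y ∈ Y t₀ → y ∈ C₀) :
    ∃ C : T → Set (V M), C t₀ = C₀ ∧ LocFam o C π t₀ ∧ (∀ t, C t ⊆ Y t) ∧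
      (∀ c ∈ C₀, (∀ j, ¬Orb (σ j (π t₀, 0)) c) →
        ∀ᶠ q : T × V M in 𝓝 (t₀, c), q.2 ∈ C q.1 ↔ q.2 ∈ Y q.1) ∧
      ∀ j, Chart o C π t₀ (fun r => σ j (r.1, (r.2, 0))) fun _ => univ := by
  have hπ0 := hπ.self_of_nhds
  have q0 : ∀ j, σ j (π t₀, 0) ∈ C₀ := fun j => (hσC j).self_of_nhds.2 rfl
  have yo : ∀ {t c y}, c ∈ Y t → Orb c y → y ∈ Y t := fun {t c y} hc ⟨s, hs, e⟩ =>
    e ▸ hcone t s hs c hc
  choose r hr h1 h2 using fun j =>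
    (hσ j).exists_rad hπ (hC.ne_zero _ (q0 j)) hcone (hσC j)
  have nr : ∀ c ∈ C₀, ∀ j v, ‖v‖ ≤ r j → Orb (σ j (π t₀, (0, v))) c → v = 0 :=
    fun c hc j v hv k => (h1 j (0, v) (by simpa using hv)).1.1 (hC.orb hc k.symm)
  have er : ∀ c ∈ C₀, ∀ j, ¬Orb (σ j (π t₀, 0)) c →
      ∀ᶠ q : T × V M in 𝓝 (t₀, c), ¬Res (σ j) (r j) (π q.1) q.2 := fun c hc j hj =>
    eventually_not_res hπ0 (hC.ne_zero c hc) fun v hv =>
      ⟨(h1 j (0, v) (by simpa using hv)).2.1, (h1 j (0, v) (by simpa using hv)).2.2.1, fun k => by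
        obtain rfl := nr c hc j v hv k
        exact hj k⟩
  have hW : ∀ c ∈ C₀, ∀ᶠ y in 𝓝 c, (∀ i, y i ≠ 0) ∧
      (y ∈ Y t₀ → (∀ j, ¬Res (σ j) (r j) (π t₀) y) → y ∈ C₀) := by
    intro c hc
    refine (eventually_ne (hC.ne_zero c hc)).and ?_
    by_cases hj : ∃ j, Orb (σ j (π t₀, 0)) c
    · obtain ⟨j, hj⟩ := hj
      obtain ⟨s, hs, k1⟩ := hj.ev ((hσ j).sub_res hne (hr j) (Metric.closedBall_mem_nhds 0 (hr j)))
      filter_upwards [(tendsto_inr t₀ c).eventually k1] with y k2 k3 k4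
      obtain ⟨u, k5, k6⟩ := k2 (hcone _ s hs _ k3) fun k5 => k4 j (k5.orb (Orb.smul y hs).symm)
      exact hC.orb ((h1 j (u, 0) (by simpa using k5)).1.2 rfl) (k6.trans (Orb.smul y hs).symm)
    · exact (hY c hc (not_exists.1 hj)).2.mono fun y hy k _ => hy k
  obtain ⟨L, hL, k1, k2⟩ := exists_compact_between hC.isCompact isOpen_interior
    fun c hc => mem_interior_iff_mem_nhds.2 (hW c hc.1)
  replace k2 := fun y (hy : y ∈ L) => interior_subset (k2 hy)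
  have tube : ∀ c ∈ C₀, ∀ᶠ y in 𝓝 c, ∃ y' ∈ L, Orb y' y := by
    intro c hc
    obtain ⟨_, ⟨s, hs, rfl⟩, k3⟩ := exists_orb_sphere (hC.ne_zero c hc)
    filter_upwards [(tendsto_smul tendsto_const_nhds tendsto_id).eventually
      (mem_interior_iff_mem_nhds.1 (k1 ⟨hC.cone s hs c hc, k3⟩))] with y hy
    exact ⟨_, hy, (Orb.smul y hs).symm⟩
  have back : ∀ y ∈ Y t₀, (∃ y' ∈ L, Orb y' y) → (∀ j, ¬Res (σ j) (r j) (π t₀) y) → y ∈ C₀ :=
    fun y hy ⟨y', k3, k4⟩ k5 =>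
      hC.orb ((k2 y' k3).2 (yo hy k4.symm) fun j k6 => k5 j (k6.orb k4)) k4
  let C : T → Set (V M) := fun t =>
    {y | y ∈ Y t ∧ (∃ y' ∈ L, Orb y' y) ∧ ∀ j, ¬Res (σ j) (r j) (π t) y}
  have e0 : C t₀ = C₀ := by
    refine Subset.antisymm (fun y hy => back y hy.1 hy.2.1 hy.2.2) fun c hc =>
      ⟨?_, (tube c hc).self_of_nhds, fun j ⟨v, k3, k4, k5⟩ => k3 (nr c hc j v k4.le k5)⟩
    by_cases hj : ∃ j, Orb (σ j (π t₀, 0)) c
    · obtain ⟨j, hj⟩ := hj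
      exact yo ((hσ j).mem0.self_of_nhds (by simp)) hj
    · exact (hY c hc (not_exists.1 hj)).1.elim SmAt.mem fun ⟨_, k⟩ => k.mem
  have cone : ∀ t, ∀ s : ι → ℂ, (∀ i, s i ≠ 0) → ∀ c ∈ C t, s • c ∈ C t :=
    fun t s hs c ⟨k3, ⟨y, k4, k5⟩, k6⟩ => ⟨hcone t s hs c k3, ⟨y, k4, k5.trans (Orb.smul c hs)⟩,
      fun j k7 => k6 j (k7.orb (Orb.smul c hs).symm)⟩
  have loc : ∀ c ∈ C₀, (∀ j, ¬Orb (σ j (π t₀, 0)) c) →
      ∀ᶠ q : T × V M in 𝓝 (t₀, c), q.2 ∈ C q.1 ↔ q.2 ∈ Y q.1 := fun c hc hj => by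
    filter_upwards [eventually_all.2 fun j => er c hc j (hj j),
      (continuousAt_snd (p := (t₀, c))).eventually (tube c hc)] with q k3 k4
    exact ⟨fun k => k.1, fun k => ⟨k, k4, k3⟩⟩
  have ch : ∀ j, Chart o C π t₀ (fun r => σ j (r.1, (r.2, 0))) fun _ => univ := by
    intro j
    have c1 : Tendsto (fun q : T × ℂ => (q.1, (q.2, (0 : ℂ)))) (𝓝 (t₀, 0)) (𝓝 (t₀, 0)) :=
      (by fun_prop : Continuous fun q : T × ℂ => (q.1, (q.2, (0 : ℂ)))).tendsto' _ _ rfl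
    have c2 := ((hσ j).tendsto hπ0).comp c1
    refine ⟨AnalyticAt.comp (f := fun q : P × ℂ => (q.1, (q.2, (0 : ℂ)))) (hσ j).an
      (analyticAt_fst.prod (analyticAt_snd.prod analyticAt_const)), fun e s he => ?_, ?_,
      fun U hU => ?_⟩
    · rw [fderiv_inl (f := fun z => σ j (π t₀, z)) (x := 0) (y := 0) (hσ j).an0] at he
      exact congrArg Prod.fst ((hσ j).imm (e, 0) s he)
    · have c3 : ∀ j', ∀ᶠ q : T × ℂ in 𝓝 (t₀, 0),
          ¬Res (σ j') (r j') (π q.1) (σ j (π q.1, (q.2, 0))) := fun j' => by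
        by_cases hj : j' = j
        · subst hj
          exact h2 j'
        · exact (Tendsto.prodMk_nhds continuousAt_fst c2).eventually
            (er _ (q0 j) j' fun k => hj (hq _ _ k))
      filter_upwards [c1.eventually (hσ j).mem, c2.eventually (tube _ (q0 j)),
        eventually_all.2 c3] with q k3 k4 k5 _
      exact ⟨k3 (mul_zero _), k4, k5⟩
    · filter_upwards [(hσ j).sub_res hne (hr j) hU] with q k3 k4
      obtain ⟨u, k5, s, -, k6⟩ := k3 k4.1 (k4.2.2 j)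
      exact ⟨s, u, k5, trivial, k6⟩
  refine ⟨C, e0, ⟨hπ, .of_forall fun t c hc => hne t c hc.1, .of_forall cone,
    fun c hc k3 => ?_, fun c hc => ?_⟩, fun t c hc => hc.1, loc, ch⟩
  · by_cases k4 : c ∈ Y t₀
    swap
    · exact (husc c hc k4).mono fun q k5 k6 => k5 k6.1
    by_cases k5 : ∃ y' ∈ L, Orb y' c
    · obtain ⟨j, v, k6, k7, k8⟩ : ∃ j, Res (σ j) (r j) (π t₀) c := by
        by_contra k6
        exact k3 ⟨k4, k5, not_exists.1 k6⟩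
      obtain ⟨s, hs, k9⟩ := k8.ev (Chart.ev_res (h1 j (0, v) (by simpa using k7.le)).2.2.2 hne k6 k7)
      filter_upwards [k9] with q k10 k11
      exact k11.2.2 j ((k10 (hcone _ s hs _ k11.1)).orb (Orb.smul _ hs).symm)
    · have k6 := hL.eventually_forall_of_forall_eventually (x₀ := c)
        (P := fun y y' => ¬Orb y' y) fun y' hy => ev_not_orb continuousAt_snd
          continuousAt_fst (k2 y' hy).1 hc fun k => k5 ⟨y', hy, k⟩
      filter_upwards [(continuousAt_snd (p := (t₀, c))).eventually k6] with q k7 ⟨_, ⟨y, k8, k9⟩, _⟩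
      exact k7 y k8 k9
  · rw [e0] at hc
    by_cases hj : ∃ j, Orb (σ j (π t₀, 0)) c
    · obtain ⟨j, s, hs, rfl⟩ := hj
      exact .inl (SmAt.smul ⟨_, rfl, ch j⟩ (.of_forall cone) hs)
    · have k3 := loc c hc (not_exists.1 hj)
      rcases (hY c hc (not_exists.1 hj)).1 with ⟨σ', rfl, k4⟩ | ⟨τ, σ', rfl, k5, k6, k4⟩
      · exact .inl ⟨σ', rfl, k4.congr hπ0 k3⟩
      · exact .inr ⟨τ, σ', rfl, k5, k6, k4.congr hπ0 k3⟩

theorem tau_eq_zero {T' P' : Type*} [TopologicalSpace T'] [NormedAddCommGroup P']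
    [NormedSpace ℂ P'] [FiniteDimensional ℂ P'] {C' : T' → Set (V M)} {π' : T' → P'} {t' : T'}
    (h' : LocFam o C' π' t') {Y : T' → Set (V M)}
    (hcone : ∀ t, ∀ s : ι → ℂ, (∀ i, s i ≠ 0) → ∀ c ∈ Y t, s • c ∈ Y t)
    (hsub : ∀ᶠ t in 𝓝 t', C' t ⊆ Y t)
    {σ : P' × (ℂ × ℂ) → V M} {τ : P' → ℂ}
    (hσ : Chart o Y π' t' σ fun p => {z | z.1 * z.2 = τ p})
    (hσC : ∀ᶠ z in 𝓝 (0 : ℂ × ℂ), σ (π' t', z) ∈ C' t' ↔ z.2 = 0) :
    (∀ᶠ t in 𝓝 t', τ (π' t) = 0) ∧ ∀ U ∈ 𝓝 (0 : ℂ),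
      ∀ᶠ q : T' × V M in 𝓝 (t', σ (π' t', 0)), q.2 ∈ C' q.1 →
        ∃ s : ι → ℂ, ∃ w ∈ U, q.2 = s • σ (π' q.1, (w, 0)) := by
  have hπ := h'.cont.self_of_nhds
  have hc : σ (π' t', 0) ∈ C' t' := hσC.self_of_nhds.2 rfl
  have hne := h'.ne_zero.self_of_nhds _ hc
  have fac : ∀ δ : ℂ → V M, AnalyticAt ℂ δ 0 → δ 0 = σ (π' t', 0) → (∀ᶠ z in 𝓝 0, δ z ∈ C' t') →
      ∃ (a : ι → ℂ) (e : ℂ),
        deriv δ 0 = a • σ (π' t', 0) + e • fderiv ℂ (fun z => σ (π' t', z)) 0 (1, 0) := by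
    intro δ k1 k2 k3
    obtain ⟨s, φ, -, k4, -, k5, k6, k7⟩ := hσ.factor hπ hne (.of_forall hcone) k1 k2
      (k3.mono fun z hz => hsub.self_of_nhds hz)
    have k8 : ∀ᶠ z in 𝓝 0, (φ z).2 = 0 := by
      filter_upwards [k6, k3, (k5 ▸ k4.continuousAt.tendsto :).eventually hσC] with z k9 k10 k11
      exact k11.1 (h'.nod.orb k10 (Orb.of_smul (h'.nod.ne_zero _ k10) k9.2).symm)
    have k9 : (deriv φ 0).2 = 0 :=
      (hasFDerivAt_snd.comp_hasDerivAt (0 : ℂ) k4.differentiableAt.hasDerivAt).unique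
        ((hasDerivAt_const (0 : ℂ) (0 : ℂ)).congr_of_eventuallyEq k8)
    refine ⟨deriv s 0, (deriv φ 0).1, k7.trans ?_⟩
    rw [← map_smul]
    congr 2
    exact Prod.ext (by simp) (by simp [k9])
  obtain ⟨σ', e0, h1⟩ : SmAt o C' π' t' (σ (π' t', 0)) := by
    refine (h'.chart _ hc).resolve_right fun ⟨_, k⟩ => ?_
    obtain ⟨γ₁, γ₂, k1, k2, k3, k4, k5⟩ := k.isNode h'
    obtain ⟨a₁, e₁, k6⟩ := fac γ₁ k1.holo k3 k1.mem
    obtain ⟨a₂, e₂, k7⟩ := fac γ₂ k2.holo k4 k2.mem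
    rw [k6, k7] at k5
    exact not_li_triple _ _ _ _ _ _ k5
  obtain ⟨ρ, r1, r2, -, r3⟩ := hσ.exists_mem_iff hπ hne (.of_forall hcone)
  have a0 : AnalyticAt ℂ (fun q : P' × ℂ => ρ (q.1, σ' q)) (π' t', 0) :=
    AnalyticAt.comp (f := fun q : P' × ℂ => (q.1, σ' q)) (by simpa only [e0] using r1)
      (analyticAt_fst.prod h1.an)
  have z0 : ρ (π' t', σ' (π' t', 0)) = (1, 0) := by rw [e0, r2]
  have a1 : AnalyticAt ℂ (fun q : P' × ℂ => (ρ (q.1, σ' q)).2.1) (π' t', 0) :=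
    analyticAt_fst.comp (analyticAt_snd.comp a0)
  have a2 : AnalyticAt ℂ (fun q : P' × ℂ => (ρ (q.1, σ' q)).2.2) (π' t', 0) :=
    analyticAt_snd.comp (analyticAt_snd.comp a0)
  have tp := tendsto_pm hπ (0 : ℂ)
  have m1 : ∀ᶠ q : T' × ℂ in 𝓝 (t', 0),
      (ρ (π' q.1, σ' (π' q.1, q.2))).2.1 * (ρ (π' q.1, σ' (π' q.1, q.2))).2.2 = τ (π' q.1) ∧
      σ' (π' q.1, q.2) = (ρ (π' q.1, σ' (π' q.1, q.2))).1 •
        σ (π' q.1, (ρ (π' q.1, σ' (π' q.1, q.2))).2) := by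
    filter_upwards [(Tendsto.prodMk_nhds continuousAt_fst (e0 ▸ h1.tendsto hπ)).eventually r3,
      h1.mem, continuousAt_fst.eventually hsub] with q k1 k2 k3 using k1.1 (k3 (k2 trivial))
  have d1 : fderiv ℂ (fun q : P' × ℂ => (ρ (q.1, σ' q)).2.1) (π' t', 0) (0, 1) ≠ 0 := by
    intro hd
    rw [← fderiv_inr a1, fderiv_apply_one_eq_deriv] at hd
    have b0 : AnalyticAt ℂ (fun w => ρ (π' t', σ' (π' t', w))) 0 :=
      a0.comp (f := fun w => (π' t', w)) (analyticAt_const.prod analyticAt_id)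
    have b1 := (analyticAt_fst.comp b0).differentiableAt.hasDerivAt
    have b2 := (analyticAt_fst.comp (analyticAt_snd.comp b0)).differentiableAt.hasDerivAt
    have b3 : ∀ᶠ w in 𝓝 (0 : ℂ), σ' (π' t', w) = (ρ (π' t', σ' (π' t', w))).1 •
        σ (π' t', ((ρ (π' t', σ' (π' t', w))).2.1, 0)) := by
      filter_upwards [(tendsto_inr t' (0 : ℂ)).eventually m1, h1.mem0,
        (continuous_snd.continuousAt.tendsto.comp (z0 ▸ b0.continuousAt.tendsto :)).eventually hσC]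
        with w k1 k2 k3
      have k4 := k3.1 (h'.nod.orb (k2 trivial)
        (Orb.of_smul (h'.nod.ne_zero _ (k2 trivial)) k1.2).symm)
      rw [← show (ρ (π' t', σ' (π' t', w))).2.2 = 0 from k4]
      exact k1.2
    have b4 : AnalyticAt ℂ (fun u : ℂ => σ (π' t', (u, 0))) 0 :=
      hσ.an0.comp (f := fun z => (z, (0 : ℂ))) (analyticAt_id.prod analyticAt_const)
    have b5 := hasDerivAt_smul b1 (HasDerivAt.scomp_of_eq (0 : ℂ)
      b4.differentiableAt.hasDerivAt b2 (by simp [z0]))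
    have b6 := (b5.congr_of_eventuallyEq b3).deriv
    erw [hd] at b6
    refine one_ne_zero (h1.imm 1 (deriv (Prod.fst ∘ fun w => ρ (π' t', σ' (π' t', w))) 0 o) ?_)
    rw [fderiv_apply_one_eq_deriv, b6, e0]
    simp [z0, Prod.mk_zero_zero]
  obtain ⟨k, k1, k2, k3⟩ := implicit (f := fun q : ℂ × P' => (ρ (q.2, σ' (q.2, q.1))).2.1)
    (x := 0) (w := π' t') (a1.comp (f := fun q : ℂ × P' => (q.2, q.1)) (x := (0, π' t'))
      (analyticAt_snd.prod analyticAt_fst))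
    (bijective_of_injective _ ((injective_iff_map_eq_zero _).2 fun e he => by
      rw [fderiv_eq_smul, ← fderiv_apply_one_eq_deriv, fderiv_inr a1] at he
      exact (smul_eq_zero.1 he).resolve_right d1) rfl)
  have t1 : Tendsto (fun t => k (π' t)) (𝓝 t') (𝓝 0) := k2 ▸ k1.continuousAt.tendsto.comp hπ
  have m2 : ∀ᶠ t in 𝓝 t', τ (π' t) = 0 := by
    filter_upwards [(Tendsto.prodMk_nhds tendsto_id t1).eventually m1,
      (Tendsto.prodMk_nhds t1 hπ).eventually k3] with t k4 k5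
    have k6 := k5.2 rfl
    simp only [z0, Prod.fst_zero] at k6
    simpa only [id, k6, zero_mul] using k4.1.symm
  have m3 : ∀ᶠ q : T' × ℂ in 𝓝 (t', 0), (ρ (π' q.1, σ' (π' q.1, q.2))).2.2 = 0 := by
    have k4 := (an_apply a1.fderiv (analyticAt_const (v := ((0 : P'), (1 : ℂ))))).continuousAt
    filter_upwards [(m1.and (continuousAt_fst.eventually m2)).eventually_nhds,
      tp.eventually a1.eventually_analyticAt, tp.eventually a2.eventually_continuousAt,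
      tp.eventually (k4.eventually_ne d1)] with q k5 k6 k7 k8
    by_cases k9 : (ρ (π' q.1, σ' (π' q.1, q.2))).2.1 = 0
    · rw [← fderiv_inr k6, fderiv_apply_one_eq_deriv] at k8
      have k10 := (k6.comp (f := fun w => (π' q.1, w))
        (analyticAt_const.prod analyticAt_id)).differentiableAt.hasDerivAt.eventually_ne
          (c := 0) k8
      refine tendsto_nhds_unique ((k7.tendsto.comp (tendsto_inr _ _)).mono_left
        (nhdsWithin_le_nhds (s := {q.2}ᶜ))) (tendsto_const_nhds.congr' ?_)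
      filter_upwards [k10, mem_nhdsWithin_of_mem_nhds ((tendsto_inr q.1 q.2).eventually k5)]
        with w k11 k12
      exact ((mul_eq_zero.1 (k12.1.1.trans k12.2)).resolve_left k11).symm
    · exact (mul_eq_zero.1 (k5.self_of_nhds.1.1.trans k5.self_of_nhds.2)).resolve_left k9
  refine ⟨m2, fun U hU => ?_⟩
  have m4 := (m1.and m3).and ((a1.continuousAt.tendsto.comp tp).eventually
    (p := fun w => w ∈ U) (by simp only [z0, Prod.fst_zero]; exact hU))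
  rw [nhds_prod_eq] at m4
  obtain ⟨A, hA, B, hB, m5⟩ := eventually_prod_iff.1 m4
  filter_upwards [e0 ▸ h1.sub _ hB, continuousAt_fst.eventually hA] with q k4 k5 k6
  obtain ⟨s, w, k7, -, k8⟩ := k4 k6
  obtain ⟨⟨k9, k10⟩, k11⟩ := m5 k5 k7
  refine ⟨s * (ρ (π' q.1, σ' (π' q.1, w))).1, _, k11, ?_⟩
  rw [mul_smul, k8, ← show (ρ (π' q.1, σ' (π' q.1, w))).2.2 = 0 from k10]
  exact congrArg _ k9.2

section Push

variable {C₀ : Set (V M)} {R : P → V M → V M → Prop} {p₀ : P}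

theorem Nod.push_ev (h : Nod o C₀) (hR : ∀ p c c' y y', R p c y → Orb c c' → Orb y y' → R p c' y')
    {α : Type*} [TopologicalSpace α] {a : α} {u : α → P} {Q : α → V M → Prop}
    (hQ : ∀ c₀ ∈ C₀, ∀ᶠ q : α × V M in 𝓝 (a, c₀), q.2 ∈ C₀ → ∀ y, R (u q.1) q.2 y → Q q.1 y) :
    ∀ᶠ x in 𝓝 a, ∀ c ∈ C₀, ∀ y, R (u x) c y → Q x y := by
  filter_upwards [h.isCompact.eventually_forall_of_forall_eventually (x₀ := a)
    (P := fun x c => c ∈ C₀ → ∀ y, R (u x) c y → Q x y) fun c hc => hQ c hc.1] with x hx c hc y hy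
  obtain ⟨c', k1, k2⟩ := exists_orb_sphere (h.ne_zero c hc)
  exact hx c' ⟨h.orb hc k1, k2⟩ (h.orb hc k1) y (hR _ _ _ _ _ hy k1 (Orb.refl y))

theorem Nod.push_near (h : Nod o C₀)
    (hR : ∀ p c c' y y', R p c y → Orb c c' → Orb y y' → R p c' y')
    (hΦ : ∀ c₀ ∈ C₀, ∃ Φ : P × V M → V M, AnalyticAt ℂ Φ (p₀, c₀) ∧
      (∀ᶠ c in 𝓝[C₀] c₀, Φ (p₀, c) = c) ∧
      ∀ᶠ q : P × V M in 𝓝 (p₀, c₀), q.2 ∈ C₀ → ∀ y, R q.1 q.2 y ↔ Orb (Φ q) y)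
    {c₁ : V M} (hc : ∀ i, c₁ i ≠ 0) {N : Set (V M)} (hN : N ∈ 𝓝 c₁) :
    ∀ᶠ q : P × V M in 𝓝 (p₀, c₁), ∀ c ∈ C₀, R q.1 c q.2 → ∃ c' ∈ C₀, c' ∈ N ∧ R q.1 c' q.2 := by
  refine (h.push_ev hR (a := (p₀, c₁)) (u := Prod.fst)
    (Q := fun q y => y = q.2 → ∃ c' ∈ C₀, c' ∈ N ∧ R q.1 c' q.2) fun c₀ h0 => ?_).mono
      fun q hq c k1 k2 => hq c k1 _ k2 rfl
  by_cases ho : Orb c₀ c₁
  · obtain ⟨s, hs, rfl⟩ := ho
    filter_upwards [(tendsto_smul tendsto_const_nhds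
      (continuousAt_snd (p := ((p₀, s • c₀), c₀)))).eventually hN] with q k1 k2 y k3 k4
    exact ⟨_, h.cone s hs _ k2, k1, hR _ _ _ _ _ (k4 ▸ k3) (Orb.smul _ hs) (Orb.refl _)⟩
  · obtain ⟨Φ, k1, k2, k3⟩ := hΦ c₀ h0
    have k4 := tendsto_pm (continuousAt_fst (p := (p₀, c₁))) c₀
    have k5 := k1.continuousAt.tendsto.comp k4
    rw [k2.self_of_nhdsWithin h0] at k5
    filter_upwards [k4.eventually k3, ev_not_orb k5
      ((continuous_snd.comp continuous_fst).tendsto' _ _ rfl) (h.ne_zero c₀ h0) hc ho]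
      with q k6 k7 k8 y k9 k10
    subst k10
    exact absurd ((k6 k8 _).1 k9) k7

theorem Nod.push_chart (h : Nod o C₀)
    (hR : ∀ p c c' y y', R p c y → Orb c c' → Orb y y' → R p c' y')
    (hΦ : ∀ c₀ ∈ C₀, ∃ Φ : P × V M → V M, AnalyticAt ℂ Φ (p₀, c₀) ∧
      (∀ᶠ c in 𝓝[C₀] c₀, Φ (p₀, c) = c) ∧
      ∀ᶠ q : P × V M in 𝓝 (p₀, c₀), q.2 ∈ C₀ → ∀ y, R q.1 q.2 y ↔ Orb (Φ q) y)
    {c₀ : V M} (h0 : c₀ ∈ C₀) {Φ : P × V M → V M} (h1 : AnalyticAt ℂ Φ (p₀, c₀))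
    (h2 : Φ (p₀, c₀) = c₀)
    (h3 : ∀ᶠ q : P × V M in 𝓝 (p₀, c₀), q.2 ∈ C₀ → ∀ y, R q.1 q.2 y ↔ Orb (Φ q) y)
    {g : E → V M} {X : Set E} (hg : AnalyticAt ℂ g 0) (g0 : g 0 = c₀)
    (hi : ∀ (e : E) (s : ℂ), fderiv ℂ (fun z => Φ (p₀, g z)) 0 e o = s • c₀ o → e = 0)
    (hm : ∀ᶠ z in 𝓝 0, z ∈ X → g z ∈ C₀)
    (hs : ∀ U ∈ 𝓝 (0 : E), ∀ᶠ c in 𝓝[C₀] c₀, ∃ z ∈ U, z ∈ X ∧ Orb (g z) c) :
    Chart o (fun p => {y | ∃ c ∈ C₀, R p c y}) id p₀ (fun r : P × E => Φ (r.1, g r.2))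
      fun _ => X := by
  have k0 : Tendsto g (𝓝 0) (𝓝 c₀) := g0 ▸ hg.continuousAt
  refine ⟨AnalyticAt.comp (f := fun r : P × E => (r.1, g r.2)) (by simpa only [id, g0] using h1)
    (analyticAt_fst.prod (hg.comp_of_eq analyticAt_snd rfl)), by simpa only [id, g0, h2] using hi,
    ?_, fun U hU => ?_⟩
  · filter_upwards [(Tendsto.prodMk_nhds continuousAt_fst
      (k0.comp (continuousAt_snd (p := (p₀, (0 : E)))))).eventually h3,
      (continuousAt_snd (p := (p₀, (0 : E)))).eventually hm] with q k1 k2 k3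
    exact ⟨_, k2 k3, (k1 (k2 k3) _).2 (Orb.refl _)⟩
  · rw [nhds_prod_eq] at h3
    obtain ⟨A, hA, B, hB, k1⟩ := eventually_prod_iff.1 h3
    simp only [id, g0, h2]
    filter_upwards [h.push_near hR hΦ (h.ne_zero c₀ h0)
      (eventually_nhdsWithin_iff.1 (hs _ (inter_mem hU (k0.eventually hB)))),
      continuousAt_fst.eventually hA] with q k2 k3 ⟨c, k4, k5⟩
    obtain ⟨c', k6, k7, k8⟩ := k2 c k4 k5
    obtain ⟨z, k9, k10, k11⟩ := k7 k6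
    obtain ⟨s, -, k12⟩ := (k1 k3 k9.2 (h.orb k6 k11.symm) _).1
      (hR _ _ _ _ _ k8 k11.symm (Orb.refl _))
    exact ⟨s, z, k9.1, k10, k12⟩

theorem Nod.push (h : Nod o C₀) {R : P → V M → V M → Prop} {p₀ : P}
    (hR : ∀ p c c' y y', R p c y → Orb c c' → Orb y y' → R p c' y')
    (hΦ : ∀ c₀ ∈ C₀, ∃ Φ : P × V M → V M, AnalyticAt ℂ Φ (p₀, c₀) ∧
      (∀ᶠ c in 𝓝[C₀] c₀, Φ (p₀, c) = c) ∧
      ∀ᶠ q : P × V M in 𝓝 (p₀, c₀), q.2 ∈ C₀ → ∀ y, R q.1 q.2 y ↔ Orb (Φ q) y) :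
    {y | ∃ c ∈ C₀, R p₀ c y} = C₀ ∧ LocFam o (fun p => {y | ∃ c ∈ C₀, R p c y}) id p₀ ∧
      (∀ c₀ γ Φ, Loc o C₀ c₀ γ → AnalyticAt ℂ Φ (p₀, c₀) → (∀ᶠ c in 𝓝[C₀] c₀, Φ (p₀, c) = c) →
        (∀ᶠ q : P × V M in 𝓝 (p₀, c₀), q.2 ∈ C₀ → ∀ y, R q.1 q.2 y ↔ Orb (Φ q) y) →
        (γ true = γ false → Chart o (fun p => {y | ∃ c ∈ C₀, R p c y}) id p₀
          (fun r : P × ℂ => Φ (r.1, γ true r.2)) fun _ => univ) ∧
        (γ true ≠ γ false → Chart o (fun p => {y | ∃ c ∈ C₀, R p c y}) id p₀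
          (fun r : P × (ℂ × ℂ) => Φ (r.1, γ true r.2.1 + γ false r.2.2 - c₀))
            fun _ => {z | z.1 * z.2 = 0})) := by
  have e0 : {y | ∃ c ∈ C₀, R p₀ c y} = C₀ := by
    refine Subset.antisymm (fun y ⟨c, hc, hy⟩ => ?_) fun c hc => ⟨c, hc, ?_⟩
    · obtain ⟨Φ, -, k2, k3⟩ := hΦ c hc
      exact h.orb hc (k2.self_of_nhdsWithin hc ▸ (k3.self_of_nhds hc y).1 hy)
    · obtain ⟨Φ, -, k2, k3⟩ := hΦ c hc
      exact (k3.self_of_nhds hc c).2 ((k2.self_of_nhdsWithin hc).symm ▸ Orb.refl c)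
  have ch : ∀ c₀ γ Φ, Loc o C₀ c₀ γ → AnalyticAt ℂ Φ (p₀, c₀) →
      (∀ᶠ c in 𝓝[C₀] c₀, Φ (p₀, c) = c) →
      (∀ᶠ q : P × V M in 𝓝 (p₀, c₀), q.2 ∈ C₀ → ∀ y, R q.1 q.2 y ↔ Orb (Φ q) y) →
      (γ true = γ false → Chart o (fun p => {y | ∃ c ∈ C₀, R p c y}) id p₀
        (fun r : P × ℂ => Φ (r.1, γ true r.2)) fun _ => univ) ∧
      (γ true ≠ γ false → Chart o (fun p => {y | ∃ c ∈ C₀, R p c y}) id p₀
        (fun r : P × (ℂ × ℂ) => Φ (r.1, γ true r.2.1 + γ false r.2.2 - c₀))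
          fun _ => {z | z.1 * z.2 = 0}) := by
    intro c₀ γ Φ hγ k1 k2 k3
    have k4 := k2.self_of_nhdsWithin hγ.mem
    have k5 : ∀ j e, fderiv ℂ (fun z => Φ (p₀, γ j z)) 0 e = e • deriv (γ j) 0 := fun j e => by
      rw [fderiv_eq_smul]
      exact congrArg _ (EventuallyEq.deriv_eq ((hγ.tendsto j).eventually k2))
    refine ⟨fun he => h.push_chart hR hΦ hγ.mem k1 k4 k3 (hγ.an true) (hγ.zero true)
      (fun e s k => ?_) ((hγ.br true).mem.mono fun z hz _ => hz) fun U hU => hγ.ev _ fun j => ?_,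
      fun he => ?_⟩
    · rw [k5, ← hγ.zero true] at k
      exact (li_pair_iff.1 (hγ.br true).imm).2 e s k
    · filter_upwards [ev_ne_one, continuousAt_snd.tendsto.eventually hU] with w k6 k7
      exact ⟨w.2, k7, trivial, w.1, k6, by cases j; exacts [by rw [he], rfl]⟩
    · have a3 : AnalyticAt ℂ (fun q : ℂ × ℂ => γ true q.1 + γ false q.2 - c₀) (0, 0) :=
        (((hγ.an true).comp_of_eq analyticAt_fst rfl).add
          ((hγ.an false).comp_of_eq analyticAt_snd rfl)).sub analyticAt_const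
      have e1 : γ true 0 + γ false 0 - c₀ = c₀ := by simp [hγ.zero]
      refine h.push_chart hR hΦ hγ.mem k1 k4 k3 (g := fun q : ℂ × ℂ => γ true q.1 + γ false q.2 - c₀)
        a3 e1 (fun e s k => ?_) ?_ fun U hU => hγ.ev _ fun j => ?_
      · have a4 : AnalyticAt ℂ (fun q : ℂ × ℂ => Φ (p₀, γ true q.1 + γ false q.2 - c₀)) (0, 0) :=
          k1.comp_of_eq (analyticAt_const.prod a3) (by simp only [e1])
        erw [fderiv_prod_apply a4 e.1 e.2] at k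
        simp only [hγ.zero, add_sub_cancel_left, add_sub_cancel_right, k5] at k
        exact Prod.ext_iff.2 ((li_triple_iff.1 (hγ.alt.resolve_left he)).2 e.1 e.2 s k)
      · filter_upwards [(continuousAt_fst (p := ((0 : ℂ), (0 : ℂ)))).eventually (hγ.br true).mem,
          (continuousAt_snd (p := ((0 : ℂ), (0 : ℂ)))).eventually (hγ.br false).mem] with z k6 k7 k8
        rcases mul_eq_zero.1 k8 with e | e
        · simpa only [e, hγ.zero, add_sub_cancel_left] using k7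
        · simpa only [e, hγ.zero, add_sub_cancel_right] using k6
      · cases j
        · filter_upwards [ev_ne_one, ((tendsto_inr (0 : ℂ) (0 : ℂ)).comp
            continuousAt_snd.tendsto).eventually hU] with w k6 k7
          exact ⟨_, k7, zero_mul _, w.1, k6, by simp [hγ.zero]⟩
        · filter_upwards [ev_ne_one, ((tendsto_inl (0 : ℂ) (0 : ℂ)).comp
            continuousAt_snd.tendsto).eventually hU] with w k6 k7
          exact ⟨_, k7, mul_zero _, w.1, k6, by simp [hγ.zero]⟩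
  refine ⟨e0, ⟨.of_forall fun _ => continuousAt_id, ?_,
    .of_forall fun p s hs y ⟨c, hc, hy⟩ => ⟨c, hc, hR _ _ _ _ _ hy (Orb.refl c) (Orb.smul y hs)⟩,
    fun c hc k1 => ?_, fun c hc => ?_⟩, ch⟩
  · refine (h.push_ev hR (a := p₀) (u := id) (Q := fun _ y => ∀ i, y i ≠ 0) fun c₀ h0 => ?_).mono
      fun p hp y ⟨c, hc, hy⟩ => hp c hc y hy
    obtain ⟨Φ, k1, k2, k3⟩ := hΦ c₀ h0
    filter_upwards [k3, k1.continuousAt.eventually (eventually_ne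
      ((k2.self_of_nhdsWithin h0).symm ▸ h.ne_zero c₀ h0))] with q k4 k5 k6 y k7
    exact ((k4 k6 y).1 k7).ne k5
  · rw [e0] at k1
    filter_upwards [h.push_near hR hΦ hc (N := C₀ᶜ) (not_frequently.1 fun k2 =>
      k1 (h.closed c (mem_closure_iff_frequently.2 k2) hc))] with q k2 ⟨c', k3, k4⟩
    obtain ⟨_, k5, k6, -⟩ := k2 c' k3 k4
    exact k6 k5
  · rw [e0] at hc
    obtain ⟨γ, hγ⟩ := h.exists_loc hc
    obtain ⟨Φ, k1, k2, k3⟩ := hΦ c hc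
    have k4 := k2.self_of_nhdsWithin hc
    by_cases he : γ true = γ false
    · exact .inl ⟨_, by simpa only [id, hγ.zero] using k4, (ch c γ Φ hγ k1 k2 k3).1 he⟩
    · exact .inr ⟨fun _ => 0, _, by simpa [hγ.zero] using k4, analyticAt_const, rfl,
        (ch c γ Φ hγ k1 k2 k3).2 he⟩

end Push

end Vale.Agent.P269.Base
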