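import Vale.Agent.P269.Base.HilbA

/-!
# The universal family of embedded curves
-/

namespace Vale.Agent.P269.Base

open Set Function Topology Filter Holo Module

set_option linter.unusedSectionVars false

variable {ι : Type} [Fintype ι] [DecidableEq ι] {M : ι → ℕ} {o : ι} {a : ι → ℕ} {g : ℤ}
  {m : ι → ℤ} {β κ : Type} [Fintype β] [Fintype κ] {C : Set (V M)}
  {P E : Type*} [NormedAddCommGroup P] [NormedSpace ℂ P] [FiniteDimensional ℂ P]
  [NormedAddCommGroup E] [NormedSpace ℂ E] [FiniteDimensional ℂ E]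

/-- The zero set of a submersion. -/
theorem exists_slice {f : P → E} {x : P} (hf : AnalyticAt ℂ f x) (h0 : f x = 0)
    (hs : Surjective (fderiv ℂ f x)) : ∃ (d : ℕ) (ψ : (Fin d → ℂ) → P) (k : P → Fin d → ℂ),
      d + finrank ℂ E = finrank ℂ P ∧ AnalyticAt ℂ ψ 0 ∧ ψ 0 = x ∧ AnalyticAt ℂ k x ∧ k x = 0 ∧
      (∀ᶠ y in 𝓝 0, f (ψ y) = 0) ∧ (∀ᶠ p in 𝓝 x, f p = 0 → ψ (k p) = p) ∧
      Injective (fderiv ℂ ψ 0) ∧ ∀ v, fderiv ℂ f x v = 0 → ∃ w, fderiv ℂ ψ 0 w = v := by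
  have hn := (fderiv ℂ f x : P →ₗ[ℂ] E).finrank_range_add_finrank_ker
  rw [LinearMap.range_eq_top.2 hs, finrank_top, add_comm] at hn
  generalize finrank ℂ (LinearMap.ker (fderiv ℂ f x : P →ₗ[ℂ] E)) = d at hn
  obtain ⟨S, Θ, h1, h2, h3, h4, -, h5, h6, h7⟩ := submersion_form hf hs hn
  rw [h0] at h1 h2 h4 h6
  have a1 : AnalyticAt ℂ (fun y => S (y, 0)) 0 :=
    h1.comp_of_eq (analyticAt_id.prod analyticAt_const) rfl
  have a2 : AnalyticAt ℂ (fun p => (Θ p).1) x := analyticAt_fst.comp h3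
  have e1 := (tendsto_inl _ (0 : E)).eventually h6
  refine ⟨_, fun y => S (y, 0), fun p => (Θ p).1, hn, a1, h2, a2, congrArg Prod.fst h4,
    e1.mono fun y hy => by rw [← h7, hy], h5.mono fun p hp e => by rw [← e, ← h7]; exact hp,
    injective_fderiv_of_leftInv (g := fun p => (Θ p).1) (by rwa [h2]) a1
      (e1.mono fun y hy => by rw [hy]), fun v hv => ⟨(fderiv ℂ Θ x v).1, ?_⟩⟩
  have e2 := fderiv_leftInv (g := S) (by rwa [h4]) h3 h5 v
  have e3 : (fderiv ℂ Θ x v).2 = 0 := by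
    rw [← hv, ← funext h7, fderiv.snd h3.differentiableAt]
    rfl
  rw [h4] at e2
  rw [fderiv_inl h1, ← e2]
  exact congrArg _ (Prod.ext (by rw [e2]) e3.symm)

variable {F : P → Option β → Tens M a} {p₀ : P}

theorem NFam.dtau {σ : P × (ℂ × ℂ) → V M} {τ : P → ℂ} (h : NFam o F p₀ σ τ) (hF : AnalyticAt ℂ F p₀)
    (v : P) : ∃ ρ, ∀ l, val (fderiv ℂ (fun p => F p l) p₀ v) (σ (p₀, 0)) +
      fderiv ℂ (val (F p₀ l)) (σ (p₀, 0)) ρ = l.elim (-fderiv ℂ τ p₀ v) fun _ => 0 := by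
  have a1 : AnalyticAt ℂ (fun p => σ (p, 0)) p₀ :=
    h.chart.an.comp_of_eq (analyticAt_id.prod analyticAt_const) rfl
  have e1 := (tendsto_inl p₀ (0 : ℂ × ℂ)).eventually h.eq
  refine ⟨fderiv ℂ (fun p => σ (p, 0)) p₀ v, fun l => ?_⟩
  rw [← fderiv_val₂ (analyticAt_pi_iff.1 hF l) a1]
  cases l with
  | none =>
    rw [EventuallyEq.fderiv_eq (f := fun p => -τ p) (e1.mono fun p hp => by simpa using hp.2),
      fderiv_fun_neg]
    rfl
  | some l =>
    exact congrArg (fun L : P →L[ℂ] ℂ => L v) ((EventuallyEq.fderiv_eq (f := fun _ => 0)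
      (e1.mono fun p hp => congrFun hp.1 l)).trans (show _ = 0 by simp))

theorem NF.exists_field {G : Option β → Tens M a} {σ : ℂ × ℂ → V M} (h : NF o (tl G) (G none) σ)
    (x : ℂ) (b : Bool) : ∃ v : ℂ → V M, AnalyticAt ℂ v 0 ∧ ∀ᶠ t in 𝓝 0,
      fderiv ℂ (vals G) (σ (if b then (t, 0) else (0, t))) (v t) =
        t • fun l => l.elim x fun _ => 0 := by
  have a1 : AnalyticAt ℂ (fun t : ℂ => if b then (t, (0 : ℂ)) else (0, t)) 0 := by
    cases b
    exacts [analyticAt_const.prod analyticAt_id, analyticAt_id.prod analyticAt_const]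
  have e0 : (if b then ((0 : ℂ), (0 : ℂ)) else (0, 0)) = 0 := ite_self _
  refine ⟨fun t => x • fderiv ℂ σ (if b then (t, 0) else (0, t)) (if b then (0, 1) else (1, 0)),
    analyticAt_const.fun_smul (an_apply (h.an.fderiv.comp_of_eq a1 e0) analyticAt_const), ?_⟩
  filter_upwards [(e0 ▸ a1.continuousAt.tendsto :).eventually
    (h.an.eventually_analyticAt.and (h.zero.and h.eq).eventually_nhds)] with t k1
  obtain ⟨k2, k3⟩ := fderiv_chart (x := 0) k1.1 (by simpa only [sub_zero] using k1.2)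
    (if b then (0, 1) else (1, 0))
  funext l
  rw [fderiv_vals, map_smul]
  cases l with
  | none =>
    rw [k3]
    cases b <;> simp [mul_comm]
  | some l =>
    have := congrFun k2 l
    rw [fderiv_vals] at this
    rw [show fderiv ℂ (val (G (some l))) _ _ = 0 from this]
    simp

/-- In a complete family the double points are smoothed independently. -/
theorem surj_tau (h : IsCurve o g m C) (ha : a ≠ 0) (hF : AnalyticAt ℂ F p₀)
    (hd : Fintype.card β + Fintype.card ι + 2 = ∑ i, M i)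
    (hs : ∀ c ∈ C, Surjective (fderiv ℂ (vals (tl (F p₀))) c))
    (hv : ∀ f' : Option β → Tens M a, ∃ v : P, ∀ l, ∀ c ∈ C,
      val (fderiv ℂ (fun p => F p l) p₀ v) c = val (f' l) c)
    {σ₀ : κ → ℂ × ℂ → V M} (h0 : ∀ j, NF o (tl (F p₀)) (F p₀ none) (σ₀ j))
    (hγ : ∀ j, (Loc o C (σ₀ j 0) fun _ t => σ₀ j (t, 0)) ∨ IsNode o C (σ₀ j 0) ∧
      Loc o C (σ₀ j 0) fun b t => σ₀ j (if b then (t, 0) else (0, t)))
    (hz : ∀ j j', Orb (σ₀ j 0) (σ₀ j' 0) → j = j') {σ : κ → P × (ℂ × ℂ) → V M} {τ : κ → P → ℂ}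
    (h1 : ∀ j, NFam o F p₀ (σ j) (τ j)) (h2 : ∀ j, σ j (p₀, 0) = σ₀ j 0) :
    Surjective (fderiv ℂ (fun p j => τ j p) p₀) := fun x => by
  have key : ∀ j, ∃ (γ v : Bool → ℂ → V M), Loc o C (σ₀ j 0) γ ∧ (∀ b, AnalyticAt ℂ (v b) 0) ∧
      (γ true = γ false → v true = v false) ∧ ∀ b, ∀ᶠ t in 𝓝 0,
        fderiv ℂ (vals (F p₀)) (γ b t) (v b t) = t • fun l => l.elim (-x j) fun _ => 0 := fun j => by
    choose v k1 k2 using (h0 j).exists_field (-x j)
    rcases hγ j with k | ⟨k3, k⟩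
    · exact ⟨_, fun _ => v true, k, fun _ => k1 true, fun _ => rfl, fun _ => k2 true⟩
    · exact ⟨_, v, k, k1, fun e => absurd e (k.isNode_iff.1 k3), k2⟩
  choose γ v k1 k2 k3 k4 using key
  obtain ⟨f', k5⟩ := h.tau ha (F p₀) k1 hz k2 k3 k4
  obtain ⟨u, hu⟩ := hv f'
  refine ⟨u, funext fun j => ?_⟩
  rw [fderiv_pi fun j => (h1 j).an.differentiableAt]
  change fderiv ℂ (τ j) p₀ u = x j
  obtain ⟨ρ, k6⟩ := k5 j
  obtain ⟨ρ', k7⟩ := (h1 j).dtau hF u
  have k8 : ∀ l, fderiv ℂ (val (F p₀ l)) (σ₀ j 0) (ρ + ρ') =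
      l.elim (x j - fderiv ℂ (τ j) p₀ u) fun _ => 0 := fun l => by
    have e1 := k7 l
    have e2 := congrFun k6 l
    rw [Pi.add_apply, fderiv_vals] at e2
    rw [h2, hu l _ (k1 j).mem, show val (f' l) _ = _ from e2] at e1
    rw [map_add]
    cases l <;> simp only [Option.elim] at e1 ⊢ <;> linear_combination e1
  obtain ⟨s, e, k9⟩ := (ker_iff (h0 j).an (k1 j).ne (h0 j).imm (h0 j).zero (hs _ (k1 j).mem)
    (by simpa using hd) (ρ + ρ')).1 (funext fun l => (fderiv_vals _ _ _ l).trans (k8 (some l)))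
  have k10 := k8 none
  rw [k9, fderiv_cone (h0 j).an (by simpa using (h0 j).eq.self_of_nhds) (by
    rw [EventuallyEq.fderiv_eq (h0 j).eq, (hasFDerivAt_fst.fun_mul hasFDerivAt_snd).fderiv]
    exact ContinuousLinearMap.ext fun e => by simp)] at k10
  exact (sub_eq_zero.1 k10.symm).symm

theorem CI.exists_univ (h : IsCurve o g m C) (ha : ∀ i, 4 ≤ a i) {f₀ : β → Tens M a}
    {μ₀ : Tens M a} {q₀ : κ → V M} (hc : CI o C f₀ μ₀ q₀) :
    ∃ (d : ℕ) (D : (Fin d → ℂ) → Set (V M)) (f : (Fin d → ℂ) → β → Tens M a)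
      (μ : (Fin d → ℂ) → Tens M a) (q : (Fin d → ℂ) → κ → V M), D 0 = C ∧
      Univ o a D (fun _ => (Empty.elim : Empty → V M)) 0 ∧ AnalyticAt ℂ f 0 ∧ AnalyticAt ℂ μ 0 ∧
      AnalyticAt ℂ q 0 ∧ q 0 = q₀ ∧ (∀ᶠ y in 𝓝 0, CI o (D y) (f y) (μ y) (q y)) ∧
      (d + Fintype.card κ : ℤ) = (Fintype.card β + 1) * (dg m a + 1 - g) := by
  have ha' : a ≠ 0 := fun e => by simpa [e] using ha o
  have hC := h.nod
  have hn := h.finrank_Hs ha'
  generalize finrank ℂ (Hs C a) = n at hn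
  obtain ⟨y, y1, y2, y3⟩ := h.exists_ev ha' hn
  obtain ⟨S, hS⟩ := exists_rightInv (l := evP a y) y2
  obtain ⟨F₀, rfl, rfl⟩ : ∃ F₀ : Option β → Tens M a, tl F₀ = f₀ ∧ F₀ none = μ₀ :=
    ⟨fun l => l.elim μ₀ f₀, rfl, rfl⟩
  have v0 : ∀ l, ∀ c ∈ C, val (F₀ l) c = 0 := fun l c k =>
    congrFun (vals_eq_zero.2 (hc.van c k)) l
  obtain ⟨F, hF⟩ : ∃ F : (Option β → Fin n → ℂ) → Option β → Tens M a,
    ∀ p l, F p l = F₀ l + S (p l) := ⟨_, fun _ _ => rfl⟩
  let L : Option β → (Option β → Fin n → ℂ) →L[ℂ] Tens M a := fun l =>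
    S.comp (ContinuousLinearMap.proj l)
  have dF : ∀ l p, HasFDerivAt (fun p => F p l) (L l) p := fun l p => by
    simp only [hF]
    exact (L l).hasFDerivAt.const_add _
  have aF : ∀ p, AnalyticAt ℂ F p := fun p => AnalyticAt.pi fun l => by
    simp only [hF]
    exact analyticAt_const.add ((L l).analyticAt _)
  obtain rfl : F 0 = F₀ := funext fun l => by rw [hF, Pi.zero_apply, map_zero, add_zero]
  have hv : ∀ f' : Option β → Tens M a, ∃ v, ∀ l, ∀ c ∈ C,
      val (fderiv ℂ (fun p => F p l) 0 v) c = val (f' l) c := fun f' =>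
    ⟨fun l => evP a y (f' l), fun l c k => by
      rw [(dF l 0).fderiv]
      exact sub_eq_zero.1 (y3 (S (evP a y (f' l)) - f' l)
        (fun j => sub_eq_zero.2 (congrFun (hS _) j)) c k)⟩
  choose σ₀ s1 s2 using hc.res
  have s3 : ∀ j, σ₀ j 0 = q₀ j := fun j => (s2 j).zero true
  choose σ τ s4 s5 using fun j => (s1 j).chart (aF 0) (s3 j ▸ (s2 j).ne)
    (hc.surj _ (s3 j ▸ (s2 j).mem)) hc.card
  have s6 : ∀ j, σ j (0, 0) = q₀ j := fun j => (s5 j).self_of_nhds.trans (s3 j)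
  obtain ⟨d, ψ, k, p1, p2, p3, p4, p5, p6, p7, p8, p9⟩ := exists_slice
    (AnalyticAt.pi fun j => (s4 j).an) (funext fun j => (s4 j).zero)
    (surj_tau h ha' (aF 0) hc.card hc.surj hv s1 (fun j => .inl (s3 j ▸ s2 j))
      (by simpa only [s3] using hc.inj) s4 fun j => (s5 j).self_of_nhds)
  have aG : AnalyticAt ℂ (fun y => F (ψ y)) 0 := (aF _).comp p2
  have s7 : ∀ j, ∀ᶠ z in 𝓝 (0 : ℂ × ℂ), σ j (0, z) ∈ C ↔ z.2 = 0 := fun j => by
    filter_upwards [s5 j, (s1 j).mem_iff (s2 j)] with z k1 k2 using k1 ▸ k2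
  obtain ⟨D, d0, hD, d1, d2, d3, d4⟩ := CI.glue (F := fun y => F (ψ y)) (p₀ := 0) (q₀ := q₀)
    (by rw [p3]; exact hc) hC aG (fun j => (s4 j).comp p2 p3)
    (fun j => p6.mono fun y hy => congrFun hy j) (by simpa only [p3] using s6)
    (by simpa only [p3] using s7)
  refine ⟨d, D, fun y => tl (F (ψ y)), fun y => F (ψ y) none, fun y j => σ j (ψ y, 0), d0,
    ⟨hD, analyticAt_const, .of_forall fun _ => nofun, ?_, fun v _ hv => ?_, fun r z z1 z2 => ?_⟩,
    an_tl aG, analyticAt_pi_iff.1 aG none, AnalyticAt.pi fun j => (s4 j).chart.an.comp_of_eq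
      (p2.prod analyticAt_const) (by rw [p3]; rfl), funext fun j => by simp only [p3, s6], d4, ?_⟩
  · intro T' P' _ _ _ _ C' π' t' p' h' e0 _ _ _
    rw [d0] at e0
    have hπ := h'.cont.self_of_nhds
    obtain ⟨y', m1, m2⟩ := h'.move_ev (a := a) (z := y) (e0 ▸ y1) y2 (by
      rw [e0]
      intro s hs k1 c k2
      obtain ⟨μ, hμ⟩ := h.normal a ha' s hs
      exact (hμ c k2).trans (y3 μ (fun j => (hμ _ (y1 j).1).symm.trans (k1 j)) c k2))
    have m3 : (fun j => y' j (π' t')) = y := funext fun j => (m1 j).2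
    have aQ : AnalyticAt ℂ (fun p => evP a fun j => y' j p) (π' t') :=
      (analyticAt_evP _).comp (AnalyticAt.pi fun j => (m1 j).1)
    have m4 := fun l => exists_proj_ker aQ (S := S) (by simpa only [m3] using hS) (F 0 l)
    obtain ⟨w, hw⟩ : ∃ w : P' → Option β → Fin n → ℂ, w = fun p l =>
      -((evP a fun j => y' j p).comp S).inverse (evP a (fun j => y' j p) (F 0 l)) := ⟨_, rfl⟩
    have w1 : AnalyticAt ℂ w (π' t') := hw ▸ AnalyticAt.pi fun l => (m4 l).1.neg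
    have w0 : w (π' t') = 0 := funext fun l => by
      have : evP a y (F 0 l) = 0 := funext fun j => v0 l _ (y1 j).1
      simp only [hw, m3, this, map_zero, neg_zero, Pi.zero_apply]
    have w2 : ∀ᶠ t in 𝓝 t', C' t ⊆ Zs (F (w (π' t))) := by
      filter_upwards [m2, h'.ne_zero, hπ.eventually (eventually_all.2 fun l => (m4 l).2)]
        with t k1 k2 k3 c k4
      refine ⟨k2 c k4, funext fun l => k1.2.2 _ (Pol.isSec (val_mem _)) (fun j => ?_) c k4⟩
      rw [hF, hw, map_neg, ← sub_eq_add_neg]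
      exact congrFun (k3 l) j
    have cw : ContinuousAt (fun t => w (π' t)) t' := w1.continuousAt.comp hπ
    have w3 := fun j => tau_eq_zero h' (Y := fun t => Zs (F (w (π' t)))) (fun _ => Zs.cone) w2
      (Chart.comp (u := fun t => w (π' t)) (π := id) (by rw [w0]; exact (s4 j).chart) cw w1
        (.of_forall fun _ => rfl)) (by simpa only [w0, e0] using s7 j)
    have w4 : ∀ᶠ t in 𝓝 t', ψ (k (w (π' t))) = w (π' t) := by
      filter_upwards [(w0 ▸ cw.tendsto :).eventually p7, eventually_all.2 fun j => (w3 j).1]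
        with t k1 k2 using k1 (funext k2)
    have k0 : k (w (π' t')) = 0 := by rw [w0, p5]
    have ak : AnalyticAt ℂ (fun p => k (w p)) (π' t') := p4.comp_of_eq w1 w0
    have ck : Tendsto (fun t => k (w (π' t))) (𝓝 t') (𝓝 0) :=
      k0 ▸ (ak.continuousAt.comp hπ).tendsto
    have w5 : ∀ᶠ t in 𝓝 t', C' t ⊆ D (k (w (π' t))) := by
      refine h'.eventually_sub (ck.eventually hD.cone) fun c hc' => ?_
      rw [e0] at hc'
      by_cases k1 : ∃ j, Orb (q₀ j) c
      · obtain ⟨j, k1⟩ := k1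
        refine ⟨_, k1, ?_⟩
        have k2 := (d3 j).mem
        rw [nhds_prod_eq] at k2
        obtain ⟨A, hA, B, hB, k3⟩ := eventually_prod_iff.1 k2
        have k4 := (w3 j).2 _ hB
        simp only [w0, s6] at k4
        filter_upwards [k4, continuousAt_fst.eventually ((ck.eventually (hA.and hD.cone)).and
          (w4.and h'.ne_zero))] with q l1 l2 l3
        obtain ⟨s, x, l4, l5⟩ := l1 l3
        have l6 := k3 l2.1.1 l4 trivial
        simp only [id, l2.2.1] at l6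
        rw [l5]
        exact l2.1.2 s (ne_of_smul_ne (l5 ▸ l2.2.2 _ l3 :)) _ l6
      · refine ⟨c, .refl c, ?_⟩
        filter_upwards [(Tendsto.prodMk_nhds (ck.comp (continuousAt_fst (p := (t', c))))
          continuousAt_snd).eventually (d2 c hc' (not_exists.1 k1)),
          continuousAt_fst.eventually (w2.and w4)] with q l1 l2 l3
        exact l1.2 (by simpa only [comp_apply, l2.2] using l2.1 l3)
    refine ⟨_, ak, k0, ?_⟩
    filter_upwards [w5, h'.isCurve (e0 ▸ h), ck.eventually (hD.isCurve (d0 ▸ h))] with t l1 l2 l3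
    exact ⟨l2.eq_of_subset l3 l1, funext nofun⟩
  · refine (injective_iff_map_eq_zero _).1 p8 v (funext fun l => ?_)
    have k1 := hv (fun y => F (ψ y) l) (analyticAt_pi_iff.1 aG l)
      (.of_forall fun y c k => congrFun (d1 y k).2 l)
    rw [show fderiv ℂ (fun y => F (ψ y) l) 0 = _ from
      ((dF l _).comp 0 p2.differentiableAt.hasFDerivAt).fderiv, d0] at k1
    exact (hS _).symm.trans (funext fun j => k1 _ (y1 j).1)
  · rw [d0] at z1
    choose σ₁ σ' τ' n1 n2 n3 n4 n5 _ using fun e => hc.chart_nd hC (aF 0) (z1 e)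
    have n6 : ∀ e, IsNode o C (σ₁ e 0) := fun e => hC.isNode_orb (z1 e) (n2 e).symm
    have n7 : ∀ j e, ¬Orb (q₀ j) (σ₁ e 0) := fun j e k1 =>
      (s2 j).isNode_iff.1 (hC.isNode_orb (n6 e) k1.symm) rfl
    have n8 := surj_tau h ha' (aF 0) hc.card hc.surj hv (σ₀ := Sum.elim σ₀ σ₁)
      (by rintro (j | e); exacts [s1 j, n1 e])
      (by rintro (j | e); exacts [.inl (s3 j ▸ s2 j :), .inr ⟨n6 e, n3 e⟩])
      (by
        rintro (j | e) (j' | e') k1
        · exact congrArg _ (hc.inj j j' (by simpa only [Sum.elim_inl, s3] using k1))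
        · exact absurd k1 (s3 j ▸ n7 j e' :)
        · exact absurd k1.symm (s3 j' ▸ n7 j' e :)
        · exact congrArg _ (z2 _ _ ((n2 e).symm.trans (k1.trans (n2 e')))))
      (σ := Sum.elim σ σ') (τ := Sum.elim τ τ') (by rintro (j | e); exacts [s4 j, n4 e])
      (by rintro (j | e); exacts [(s5 j).self_of_nhds, n5 e])
    refine ⟨fun e y => τ' e (ψ y), fun e => ?_, fun x => ?_⟩
    · obtain ⟨s, hs, k1⟩ := n2 e
      have k2 := (n4 e).comp p2 p3
      have k3 : σ' e (ψ 0, 0) = σ₁ e 0 := by rw [p3, n5]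
      rw [k1]
      exact NdAt.smul (π := id) ⟨fun r => σ' e (ψ r.1, r.2), k3, k2.an, k2.zero,
        k2.chart.congr continuousAt_id (by
        simp only [id, k3]; exact d2 _ (n3 e).mem fun j => n7 j e)⟩ hD.cone hs
    · obtain ⟨v, k1⟩ := n8 (Sum.elim 0 x)
      rw [fderiv_pi (by rintro (j | e); exacts [(s4 j).an.differentiableAt,
        (n4 e).an.differentiableAt])] at k1
      obtain ⟨u, rfl⟩ := p9 v (by
        rw [fderiv_pi fun j => (s4 j).an.differentiableAt]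
        exact funext fun j => congrFun k1 (.inl j))
      refine ⟨u, funext fun e => ?_⟩
      rw [fderiv_pi fun e => ((n4 e).comp p2 p3).an.differentiableAt,
        ContinuousLinearMap.pi_apply, fderiv_comp_an (by rw [p3]; exact (n4 e).an) p2, p3]
      exact congrFun k1 (.inr e)
  · rw [finrank_fintype_fun_eq_card, finrank_pi_fintype] at p1
    simp only [finrank_fin_fun, Finset.sum_const, Finset.card_univ, Fintype.card_option,
      smul_eq_mul] at p1
    rw [← hn]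
    exact_mod_cast p1

end Vale.Agent.P269.Base
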