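import Vale.Agent.P269.Base.Tau

/-!
# Families of complete intersections through a curve: charts, removal of the residual curve
-/

namespace Vale.Agent.P269.Base

open Set Function Topology Filter Holo Module

set_option linter.unusedSectionVars false

variable {ι : Type} [Fintype ι] {M : ι → ℕ} {o : ι} {a : ι → ℕ} {β κ : Type} [Fintype β]
  [Fintype κ] {C : Set (V M)} {c : V M}
  {T P E : Type*} [TopologicalSpace T] [NormedAddCommGroup P] [NormedSpace ℂ P]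
  [FiniteDimensional ℂ P] [NormedAddCommGroup E] [NormedSpace ℂ E] [FiniteDimensional ℂ E]

theorem fderiv_val₂ {μ : E → Tens M a} {y : E → V M} {p : E} (hμ : AnalyticAt ℂ μ p)
    (hy : AnalyticAt ℂ y p) (v : E) : fderiv ℂ (fun p => val (μ p) (y p)) p v =
      val (fderiv ℂ μ p v) (y p) + fderiv ℂ (val (μ p)) (y p) (fderiv ℂ y p v) := by
  rw [fderiv_comp_an (g := fun q : Tens M a × V M => val q.1 q.2) (f := fun p => (μ p, y p))
    (analyticAt_val₂ _) (hμ.prod hy), hμ.differentiableAt.fderiv_prodMk hy.differentiableAt,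
    ContinuousLinearMap.comp_apply, ContinuousLinearMap.prod_apply,
    fderiv_prod_apply (analyticAt_val₂ _)]
  congr 1
  exact congrArg (fun l : Tens M a →L[ℂ] ℂ => l _) (evL a (y p)).fderiv

theorem fderiv_vals_smul {β : Type*} [Fintype β] (f : β → Tens M a) (s : ι → ℂ) (c v : V M) :
    fderiv ℂ (vals f) (s • c) (s • v) = chr a s • fderiv ℂ (vals f) c v := funext fun l => by
  rw [Pi.smul_apply, fderiv_vals, fderiv_vals, fderiv_val_smul, smul_eq_mul]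

theorem eventually_surj_vals {β : Type*} [Fintype β] {f : P → β → Tens M a} {p : P}
    (hf : AnalyticAt ℂ f p) (h : Surjective (fderiv ℂ (vals (f p)) c)) :
    ∀ᶠ q : P × V M in 𝓝 (p, c), Surjective (fderiv ℂ (vals (f q.1)) q.2) := by
  have a1 : AnalyticAt ℂ (fun q : P × V M => vals (f q.1) q.2) (p, c) :=
    an_vals (hf.comp_of_eq analyticAt_fst rfl) analyticAt_snd
  have e : ∀ q : P × V M, AnalyticAt ℂ (fun q : P × V M => vals (f q.1) q.2) q →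
      fderiv ℂ (vals (f q.1)) q.2 = (fderiv ℂ (fun q : P × V M => vals (f q.1) q.2) q).comp
        (ContinuousLinearMap.inr ℂ P (V M)) := fun q hq =>
    ContinuousLinearMap.ext fun v => fderiv_inr (f := fun q : P × V M => vals (f q.1) q.2) hq v
  filter_upwards [eventually_surjective (a1.fderiv.continuousAt.clm_comp continuousAt_const)
    (e _ a1 ▸ h), a1.eventually_analyticAt] with q h1 h2 using e q h2 ▸ h1

theorem fderiv_cone {σ₀ : E → V M} (hσ : AnalyticAt ℂ σ₀ 0) {μ : Tens M a} (h0 : val μ (σ₀ 0) = 0)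
    (h1 : fderiv ℂ (fun z => val μ (σ₀ z)) 0 = 0) (s : ι → ℂ) (e : E) :
    fderiv ℂ (val μ) (σ₀ 0) (s • σ₀ 0 + fderiv ℂ σ₀ 0 e) = 0 := by
  rw [fderiv_comp_an (analyticAt_val _ _) hσ] at h1
  have h2 := fderiv_comp_an (g := val μ) (f := fun s : ι → ℂ => s • σ₀ 0) (x := 1)
    (analyticAt_val _ _) (an_smul analyticAt_id analyticAt_const)
  simp only [val_smul, h0, mul_zero, fderiv_fun_const, one_smul] at h2
  have h3 := congrArg (fun l : (ι → ℂ) →L[ℂ] ℂ => l s) h2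
  simp only [ContinuousLinearMap.comp_apply] at h3
  rw [fderiv_smul_apply (s := fun y => y) (v := fun _ => σ₀ 0) differentiableAt_id
    (differentiableAt_const _)] at h3
  have h4 := congrArg (fun l : E →L[ℂ] ℂ => l e) h1
  simp only [ContinuousLinearMap.comp_apply, zero_apply] at h4
  rw [map_add, h4, add_zero]
  simpa using h3.symm

/-- The tangent space of a smooth zero set, by counting dimensions. -/
theorem ker_iff {β : Type*} [Fintype β] {f : β → Tens M a} {σ₀ : E → V M} (hσ : AnalyticAt ℂ σ₀ 0)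
    (hne : ∀ i, σ₀ 0 i ≠ 0) (imm : ∀ (e : E) (s : ℂ), fderiv ℂ σ₀ 0 e o = s • σ₀ 0 o → e = 0)
    (hz : ∀ᶠ z in 𝓝 0, vals f (σ₀ z) = 0) (hs : Surjective (fderiv ℂ (vals f) (σ₀ 0)))
    (hd : Fintype.card β + Fintype.card ι + finrank ℂ E = ∑ i, M i) (v : V M) :
    fderiv ℂ (vals f) (σ₀ 0) v = 0 ↔ ∃ (s : ι → ℂ) (e : E), v = s • σ₀ 0 + fderiv ℂ σ₀ 0 e := by
  let L := fderiv ℂ (fun w : (ι → ℂ) × E => w.1 • σ₀ w.2) (1, 0)
  have hL : ∀ w, L w = w.1 • σ₀ 0 + fderiv ℂ σ₀ 0 w.2 := hasFDerivAt_smul hσ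
  have h1 : Injective L := (injective_iff_map_eq_zero _).2 fun w hw => by
    rw [hL] at hw
    have h2 : w.2 = 0 := imm _ (-w.1 o) (by
      rw [neg_smul]; exact eq_neg_of_add_eq_zero_right (congrFun hw o))
    rw [h2, map_zero, add_zero] at hw
    exact Prod.ext (funext fun i => (smul_eq_zero.1 (congrFun hw i)).resolve_right (hne i)) h2
  have h2 : LinearMap.range (L : (ι → ℂ) × E →ₗ[ℂ] V M) =
      LinearMap.ker (fderiv ℂ (vals f) (σ₀ 0) : V M →ₗ[ℂ] β → ℂ) := by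
    refine Submodule.eq_of_le_of_finrank_le ?_ (le_of_eq ?_)
    · rintro _ ⟨w, rfl⟩
      refine funext fun l => ?_
      have h3 := fderiv_cone hσ (μ := f l) (congrFun hz.self_of_nhds l)
        ((EventuallyEq.fderiv_eq (f := fun _ => 0) (hz.mono fun z h => congrFun h l)).trans
          (by simp)) w.1 w.2
      rw [← hL, ← fderiv_vals] at h3
      exact h3
    · have h3 := (fderiv ℂ (vals f) (σ₀ 0) : V M →ₗ[ℂ] β → ℂ).finrank_range_add_finrank_ker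
      rw [LinearMap.range_eq_top.2 hs, finrank_top, finrank_fintype_fun_eq_card, finrank_pi_fintype]
        at h3
      simp only [finrank_fin_fun] at h3
      rw [LinearMap.finrank_range_of_inj h1, finrank_prod, finrank_fintype_fun_eq_card]
      omega
  refine ⟨fun h => ?_, fun ⟨s, e, h⟩ => h2.le ⟨(s, e), (hL _).trans h.symm⟩⟩
  obtain ⟨w, hw⟩ := h2.ge (show v ∈ _ from h)
  exact ⟨w.1, w.2, hw.symm.trans (hL w)⟩

theorem fderiv_chart {f : β → Tens M a} {μ : Tens M a} {σ : ℂ × ℂ → V M} {z : ℂ × ℂ} {x : ℂ}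
    (ha : AnalyticAt ℂ σ z)
    (h : ∀ᶠ w in 𝓝 z, vals f (σ w) = 0 ∧ val μ (σ w) = w.1 * w.2 - x) (e : ℂ × ℂ) :
    fderiv ℂ (vals f) (σ z) (fderiv ℂ σ z e) = 0 ∧
      fderiv ℂ (val μ) (σ z) (fderiv ℂ σ z e) = z.1 * e.2 + z.2 * e.1 := by
  constructor
  · rw [← ContinuousLinearMap.comp_apply, ← fderiv_comp_an (analyticAt_vals _ _) ha,
      EventuallyEq.fderiv_eq (h.mono fun w hw => hw.1)]
    simp
  · rw [← ContinuousLinearMap.comp_apply, ← fderiv_comp_an (analyticAt_val _ _) ha,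
      EventuallyEq.fderiv_eq (h.mono fun w hw => hw.2),
      ((hasFDerivAt_fst.fun_mul hasFDerivAt_snd).sub_const x).fderiv]
    simp

/-- The complete intersection `f = μ = 0` is smooth at `c`. -/
def RegP (f : β → Tens M a) (μ : Tens M a) (c : V M) : Prop :=
  ∃ v, fderiv ℂ (vals f) c v = 0 ∧ fderiv ℂ (val μ) c v ≠ 0

theorem RegP.orb {f : β → Tens M a} {μ : Tens M a} (h : RegP f μ c) {y : V M} (hy : Orb c y) :
    RegP f μ y := by
  obtain ⟨v, h1, h2⟩ := h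
  obtain ⟨s, hs, rfl⟩ := hy
  exact ⟨s • v, by rw [fderiv_vals_smul, h1, smul_zero],
    by rw [fderiv_val_smul]; exact mul_ne_zero (chr_ne_zero hs) h2⟩

theorem regP_of_chart {f : β → Tens M a} {μ : Tens M a} {σ : ℂ × ℂ → V M} {z : ℂ × ℂ} {x : ℂ}
    (ha : AnalyticAt ℂ σ z) (h : ∀ᶠ w in 𝓝 z, vals f (σ w) = 0 ∧ val μ (σ w) = w.1 * w.2 - x)
    (hz : z ≠ 0) : RegP f μ (σ z) := by
  by_cases h1 : z.1 = 0
  · exact ⟨_, (fderiv_chart ha h (1, 0)).1, by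
      rw [(fderiv_chart ha h (1, 0)).2]; simpa using fun e => hz (Prod.ext h1 e)⟩
  · exact ⟨_, (fderiv_chart ha h (0, 1)).1, by rw [(fderiv_chart ha h (0, 1)).2]; simpa using h1⟩

/-- The equations of the surface. -/
def tl (F : Option β → Tens M a) : β → Tens M a := fun l => F (some l)

theorem vals_eq_zero {F : Option β → Tens M a} :
    vals F c = 0 ↔ vals (tl F) c = 0 ∧ val (F none) c = 0 :=
  ⟨fun h => ⟨funext fun l => congrFun h (some l), congrFun h none⟩,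
    fun h => funext fun l => by cases l; exacts [h.2, congrFun h.1 _]⟩

theorem Zs_eq (F : Option β → Tens M a) : Zs (tl F) ∩ {y | val (F none) y = 0} = Zs F :=
  Set.ext fun _ => ⟨fun h => ⟨h.1.1, vals_eq_zero.2 ⟨h.1.2, h.2⟩⟩,
    fun h => ⟨⟨h.1, (vals_eq_zero.1 h.2).1⟩, (vals_eq_zero.1 h.2).2⟩⟩

theorem RegP.surj {F : Option β → Tens M a} (h : RegP (tl F) (F none) c)
    (hs : Surjective (fderiv ℂ (vals (tl F)) c)) : Surjective (fderiv ℂ (vals F) c) := fun x => by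
  obtain ⟨v, h1, h2⟩ := h
  obtain ⟨u, hu⟩ := hs fun l => x (some l)
  refine ⟨u + ((x none - fderiv ℂ (val (F none)) c u) / fderiv ℂ (val (F none)) c v) • v,
    funext fun l => ?_⟩
  rw [fderiv_vals, map_add, map_smul, smul_eq_mul]
  cases l with
  | none => rw [div_mul_cancel₀ _ h2, add_sub_cancel]
  | some l =>
    have h3 := congrFun h1 l
    have h4 := congrFun hu l
    rw [fderiv_vals] at h3 h4
    rw [show fderiv ℂ (val (F (some l))) c v = 0 from h3, mul_zero, add_zero]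
    exact h4

theorem regP_of_surj {F : Option β → Tens M a} (hs : Surjective (fderiv ℂ (vals F) c)) :
    RegP (tl F) (F none) c := by
  obtain ⟨v, hv⟩ := hs fun l => l.elim 1 fun _ => 0
  refine ⟨v, funext fun l => ?_, ?_⟩
  · rw [fderiv_vals]
    exact (fderiv_vals F c v (some l)).symm.trans (congrFun hv (some l))
  · rw [← fderiv_vals, hv]
    exact one_ne_zero

theorem an_tl {F : P → Option β → Tens M a} {p : P} (h : AnalyticAt ℂ F p) :
    AnalyticAt ℂ (fun p => tl (F p)) p := AnalyticAt.pi fun l => analyticAt_pi_iff.1 h (some l)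

section Charts

variable {D : T → Set (V M)} {π : T → P} {t₀ : T} {σ : P × E → V M} {X X' : P → Set E}

theorem Chart.congrX (h : Chart o D π t₀ σ X) (e : ∀ᶠ t in 𝓝 t₀, X (π t) = X' (π t)) :
    Chart o D π t₀ σ X' := by
  refine ⟨h.an, h.imm, ?_, fun U hU => ?_⟩
  · filter_upwards [h.mem, continuousAt_fst.eventually e] with q h1 h2 using h2 ▸ h1
  · filter_upwards [h.sub U hU, continuousAt_fst.eventually e] with q h1 h2 using h2 ▸ h1

theorem Chart.ev (h : Chart o D π t₀ σ X) (hne : ∀ i, σ (π t₀, 0) i ≠ 0) {p : T × E → Prop}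
    (hp : ∀ᶠ r in 𝓝 (t₀, 0), p r) : ∀ᶠ q : T × V M in 𝓝 (t₀, σ (π t₀, 0)), q.2 ∈ D q.1 →
      ∃ z ∈ X (π q.1), p (q.1, z) ∧ Orb (σ (π q.1, z)) q.2 := by
  rw [nhds_prod_eq] at hp
  obtain ⟨A, hA, B, hB, h1⟩ := eventually_prod_iff.1 hp
  filter_upwards [h.sub _ hB, continuousAt_fst.eventually hA,
    continuousAt_snd.eventually (eventually_ne hne)] with q k1 k2 k3 k4
  obtain ⟨s, z, k5, k6, k7⟩ := k1 k4
  exact ⟨z, k6, h1 k2 k5, .of_smul k3 k7⟩

theorem Chart.loc2 {σ : P × (ℂ × ℂ) → V M} {τ : P → ℂ}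
    (h : Chart o D π t₀ σ fun p => {z | z.1 * z.2 = τ p}) (hτ : τ (π t₀) = 0)
    (hπ : ContinuousAt π t₀) (hne : ∀ i, σ (π t₀, 0) i ≠ 0) :
    Loc o (D t₀) (σ (π t₀, 0)) fun b t => σ (π t₀, if b then (t, 0) else (0, t)) := by
  obtain ⟨h1, h2, -, -, h3⟩ := h.isCross hτ (hne o)
  refine ⟨fun b => by cases b; exacts [h2, h1], fun b => by cases b <;> rfl, hne, .inr h3,
    fun p hp => ?_⟩
  have c1 : Tendsto (fun w : (ι → ℂ) × ℂ × ℂ => (w.1, w.2.1)) (𝓝 (1, 0)) (𝓝 (1, 0)) :=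
    Continuous.tendsto' (by fun_prop) _ _ rfl
  have c2 : Tendsto (fun w : (ι → ℂ) × ℂ × ℂ => (w.1, w.2.2)) (𝓝 (1, 0)) (𝓝 (1, 0)) :=
    Continuous.tendsto' (by fun_prop) _ _ rfl
  filter_upwards [mem_nhdsWithin_of_mem_nhds ((tendsto_inr t₀ _).eventually (h.sub' hπ hne _
    ((c1.eventually (hp true)).and (c2.eventually (hp false))))), self_mem_nhdsWithin]
    with y k1 k2
  obtain ⟨⟨s, u, v⟩, k3, k4, k5⟩ := k1 k2
  rw [show y = _ from k5]
  rcases mul_eq_zero.1 (k4.trans hτ) with rfl | rfl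
  exacts [k3.2, k3.1]

theorem LocFam.compact' (h : LocFam o D π t₀) {p : T × V M → Prop}
    (hp : ∀ c ∈ D t₀, ∃ c', Orb c' c ∧ ∀ᶠ q in 𝓝 (t₀, c'), q.2 ∈ D q.1 → p q)
    (hinv : ∀ᶠ t in 𝓝 t₀, ∀ c y, Orb c y → p (t, c) → p (t, y)) :
    ∀ᶠ t in 𝓝 t₀, ∀ c ∈ D t, p (t, c) := by
  refine h.compact (fun c hc => ?_) (hinv.mono fun t ht s hs c _ => ht _ _ (Orb.smul c hs).symm)
  obtain ⟨c', h1, h2⟩ := hp c hc
  obtain ⟨s, hs, h3⟩ := h1.ev h2
  filter_upwards [h3, continuousAt_fst.eventually hinv, continuousAt_fst.eventually h.cone]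
    with q k1 k2 k3 k4 using k2 _ _ (Orb.smul _ hs).symm (k1 (k3 s hs _ k4))

end Charts

variable {F : P → Option β → Tens M a} {p₀ : P}

/-- A chart of a family of surfaces in which the last equation is `u v - τ`. -/
structure NFam (o : ι) (F : P → Option β → Tens M a) (p₀ : P) (σ : P × (ℂ × ℂ) → V M) (τ : P → ℂ) :
    Prop where
  an : AnalyticAt ℂ τ p₀
  zero : τ p₀ = 0
  chart : Chart o (fun p => Zs (F p)) id p₀ σ fun p => {z | z.1 * z.2 = τ p}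
  eq : ∀ᶠ r : P × (ℂ × ℂ) in 𝓝 (p₀, 0),
    vals (tl (F r.1)) (σ r) = 0 ∧ val (F r.1 none) (σ r) = r.2.1 * r.2.2 - τ r.1

theorem NFam.comp {P' : Type*} [NormedAddCommGroup P'] [NormedSpace ℂ P'] {ψ : P' → P} {p' : P'}
    {σ : P × (ℂ × ℂ) → V M} {τ : P → ℂ} (h : NFam o F p₀ σ τ) (hψ : AnalyticAt ℂ ψ p')
    (e : ψ p' = p₀) :
    NFam o (fun p => F (ψ p)) p' (fun r => σ (ψ r.1, r.2)) fun p => τ (ψ p) := by
  subst e
  exact ⟨h.an.comp hψ, h.zero, h.chart.comp (π' := id) hψ.continuousAt hψ (.of_forall fun _ => rfl),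
    (tendsto_pm hψ.continuousAt 0).eventually h.eq⟩

theorem NF.chart {σ₀ : ℂ × ℂ → V M} (h : NF o (tl (F p₀)) (F p₀ none) σ₀) (hF : AnalyticAt ℂ F p₀)
    (hne : ∀ i, σ₀ 0 i ≠ 0) (hs : Surjective (fderiv ℂ (vals (tl (F p₀))) (σ₀ 0)))
    (hd : Fintype.card β + Fintype.card ι + 2 = ∑ i, M i) :
    ∃ σ τ, NFam o F p₀ σ τ ∧ ∀ᶠ z in 𝓝 0, σ (p₀, z) = σ₀ z := by
  obtain ⟨σ', h1, h2, -⟩ := chart_zs (an_tl hF) h.an ⟨hne, h.zero.self_of_nhds⟩ h.imm hs
    (ker_iff h.an hne h.imm h.zero hs (by simpa using hd))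
  have h3 : ∀ᶠ z in 𝓝 0, σ' (p₀, z) = σ₀ z := by
    filter_upwards [h2, h.zero, h.an.continuousAt.eventually (eventually_ne hne)] with z k1 k2 k3
      using k1 ⟨k3, k2⟩
  obtain ⟨σ, τ, s1, s2, s3, s4, s5, s6⟩ := chart_node h1 (h3.self_of_nhds ▸ hne)
    (analyticAt_pi_iff.1 hF none) (G := id) analyticAt_id rfl (by rw [fderiv_id]; exact bijective_id)
    (by filter_upwards [h3, h.eq] with z k1 k2 using k1 ▸ k2)
  simp only [Zs_eq] at s3
  exact ⟨σ, τ, ⟨s1, s2, s3, by filter_upwards [s4.mem, s6] with r k1 k2 using ⟨(k1 trivial).2, k2⟩⟩,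
    by filter_upwards [s5, h3] with z k1 k2 using k1.trans k2⟩

theorem NF.mem_iff {f : β → Tens M a} {μ : Tens M a} {σ₀ : ℂ × ℂ → V M} (h : NF o f μ σ₀)
    (hγ : Loc o C c fun _ t => σ₀ (t, 0)) : ∀ᶠ z in 𝓝 0, σ₀ z ∈ C ↔ z.2 = 0 := by
  obtain rfl : σ₀ 0 = c := hγ.zero true
  obtain ⟨ρ, -, h1⟩ := exists_retr (o := o) h.an hγ.ne h.imm
  have c1 : Tendsto (fun w : (ι → ℂ) × ℂ => (w.1, w.2, (0 : ℂ))) (𝓝 (1, 0)) (𝓝 (1, 0)) :=
    Continuous.tendsto' (by fun_prop) _ _ rfl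
  have h2 := hγ.ev (fun y => (ρ y).2.2 = 0) fun _ => (c1.eventually h1).mono fun w hw => by rw [hw]
  filter_upwards [h.an.continuousAt.eventually (eventually_nhdsWithin_iff.1 h2),
    (tendsto_inr (1 : ι → ℂ) (0 : ℂ × ℂ)).eventually h1,
    (continuousAt_fst (p := ((0 : ℂ), (0 : ℂ)))).eventually (hγ.br true).mem] with z k1 k2 k3
  rw [one_smul] at k2
  exact ⟨fun k => by simpa only [k2] using k1 k, fun k => by rwa [← k] at k3⟩

variable {q₀ : κ → V M}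

theorem CI.chart_reg (hc : CI o C (tl (F p₀)) (F p₀ none) q₀) (hC : Nod o C)
    (hF : AnalyticAt ℂ F p₀) (h1 : c ∈ C) (h2 : ¬IsNode o C c) (h3 : ∀ j, ¬Orb (q₀ j) c) :
    SmAt o (fun p => Zs (F p)) id p₀ c ∧ ∀ᶠ y in 𝓝 c, y ∈ Zs (F p₀) → y ∈ C := by
  obtain ⟨γ, hγ⟩ := hC.exists_loc h1
  obtain rfl := hγ.zero true
  have k1 := RegP.surj (hc.reg _ h1 h2 h3) (hc.surj _ h1)
  have k2 : ∀ (e s : ℂ), fderiv ℂ (γ true) 0 e o = s • γ true 0 o → e = 0 := fun e s he =>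
    (li_pair_iff.1 (hγ.br true).imm).2 e s (by rwa [fderiv_eq_smul] at he)
  have k3 : ∀ y ∈ C, y ∈ Zs (F p₀) := fun y hy => ⟨hC.ne_zero y hy, vals_eq_zero.2 (hc.van y hy)⟩
  obtain ⟨σ, s1, s2, -⟩ := chart_zs hF (hγ.an true) (k3 _ h1) k2 k1
    (ker_iff (hγ.an true) hγ.ne k2 ((hγ.br true).mem.mono fun z hz => (k3 _ hz).2) k1 (by
      rw [← hc.card, Fintype.card_option, finrank_self]; ring))
  have s3 : ∀ᶠ z in 𝓝 0, σ (p₀, z) = γ true z ∧ γ true z ∈ C := by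
    filter_upwards [s2, (hγ.br true).mem] with z l1 l2 using ⟨l1 (k3 _ l2), l2⟩
  have s4 := s3.self_of_nhds.1
  refine ⟨⟨σ, s4, s1⟩, ?_⟩
  have s5 := (tendsto_inr p₀ _).eventually (s1.ev (s4 ▸ hγ.ne :)
    ((continuousAt_snd (p := (p₀, (0 : ℂ)))).eventually s3))
  rw [id, s4] at s5
  refine s5.mono fun y hy l1 => ?_
  obtain ⟨z, -, l2, l3⟩ := hy l1
  exact hC.orb (l2.1 ▸ l2.2 :) l3

theorem CI.chart_nd (hc : CI o C (tl (F p₀)) (F p₀ none) q₀) (hC : Nod o C)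
    (hF : AnalyticAt ℂ F p₀) (h1 : IsNode o C c) :
    ∃ σ₀ σ τ, NF o (tl (F p₀)) (F p₀ none) σ₀ ∧ Orb (σ₀ 0) c ∧
      Loc o C (σ₀ 0) (fun b t => σ₀ (if b then (t, 0) else (0, t))) ∧ NFam o F p₀ σ τ ∧
      σ (p₀, 0) = σ₀ 0 ∧ ∀ᶠ y in 𝓝 c, y ∈ Zs (F p₀) → y ∈ C := by
  obtain ⟨σ₀, k1, k2, k3⟩ := hc.nd c h1
  obtain ⟨σ, τ, k4, k5⟩ := k1.chart hF k3.ne (hc.surj _ k3.mem) hc.card
  refine ⟨σ₀, σ, τ, k1, k2, k3, k4, k5.self_of_nhds, ?_⟩
  have k6 : ∀ᶠ z : ℂ × ℂ in 𝓝 0, z.1 * z.2 = 0 → σ (p₀, z) ∈ C := by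
    filter_upwards [k5, (continuousAt_fst (p := ((0 : ℂ), (0 : ℂ)))).eventually (k3.br true).mem,
      (continuousAt_snd (p := ((0 : ℂ), (0 : ℂ)))).eventually (k3.br false).mem]
      with ⟨u, v⟩ l1 l2 l3 l4
    rw [l1]
    rcases mul_eq_zero.1 l4 with rfl | rfl
    exacts [l3, l2]
  have k7 := k4.chart.ev (k5.self_of_nhds ▸ k3.ne :)
    ((continuousAt_snd (p := (p₀, (0 : ℂ × ℂ)))).eventually k6)
  rw [id, k5.self_of_nhds] at k7
  obtain ⟨s, hs, k8⟩ := k2.ev k7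
  filter_upwards [(tendsto_inr p₀ c).eventually k8] with y l1 l2
  obtain ⟨z, l3, l4, l5⟩ := l1 (Zs.cone s hs y l2)
  exact hC.orb (l4 (l3.trans k4.zero)) (l5.trans (Orb.smul y hs).symm)

/-- If the points `q₀` stay singular on the complete intersections, the curve moves with them. -/
theorem CI.glue (hc : CI o C (tl (F p₀)) (F p₀ none) q₀) (hC : Nod o C) (hF : AnalyticAt ℂ F p₀)
    {σ : κ → P × (ℂ × ℂ) → V M} {τ : κ → P → ℂ} (h1 : ∀ j, NFam o F p₀ (σ j) (τ j))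
    (h2 : ∀ j, ∀ᶠ p in 𝓝 p₀, τ j p = 0) (h3 : ∀ j, σ j (p₀, 0) = q₀ j)
    (h4 : ∀ j, ∀ᶠ z in 𝓝 (0 : ℂ × ℂ), σ j (p₀, z) ∈ C ↔ z.2 = 0) :
    ∃ D : P → Set (V M), D p₀ = C ∧ LocFam o D id p₀ ∧ (∀ p, D p ⊆ Zs (F p)) ∧
      (∀ c ∈ C, (∀ j, ¬Orb (q₀ j) c) →
        ∀ᶠ q : P × V M in 𝓝 (p₀, c), q.2 ∈ D q.1 ↔ q.2 ∈ Zs (F q.1)) ∧
      (∀ j, Chart o D id p₀ (fun r => σ j (r.1, (r.2, 0))) fun _ => univ) ∧
      ∀ᶠ p in 𝓝 p₀, CI o (D p) (tl (F p)) (F p none) fun j => σ j (p, 0) := by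
  classical
  have c0 : ∀ j, Chart o (fun p => Zs (F p)) id p₀ (σ j) fun _ => {z | z.1 * z.2 = 0} := fun j =>
    (h1 j).chart.congrX ((h2 j).mono fun p hp => by rw [id, hp])
  obtain ⟨D, d0, hD, d1, d2, d3⟩ := exists_glue (Y := fun p => Zs (F p)) (π := id) (t₀ := p₀) hC
    (.of_forall fun _ => continuousAt_id) (fun _ _ h => h.1) (fun _ => Zs.cone)
    (fun _ => Zs.usc hF.continuousAt) (fun j j' => by rw [id, h3, h3]; exact hc.inj j j') c0 h4
    fun c k1 k2 => by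
      by_cases k3 : IsNode o C c
      · obtain ⟨σ₀, σ', τ', -, ⟨s, hs, rfl⟩, -, l1, l2, l3⟩ := hc.chart_nd hC hF k3
        exact ⟨.inr ⟨τ', NdAt.smul ⟨σ', l2, l1.an, l1.zero, l1.chart⟩
          (.of_forall fun _ => Zs.cone) hs⟩, l3⟩
      · exact (hc.chart_reg hC hF k1 k3 (by simpa only [id, h3] using k2)).imp_left .inl
  simp only [id, h3] at d2
  refine ⟨D, d0, hD, d1, d2, d3, ?_⟩
  have hne : ∀ j i, σ j (p₀, 0) i ≠ 0 := fun j => hC.ne_zero _ ((h4 j).self_of_nhds.2 rfl)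
  have e1 := hD.compact' (p := fun q => Surjective (fderiv ℂ (vals (tl (F q.1))) q.2))
    (fun c k => ⟨c, .refl c, (eventually_surj_vals (an_tl hF) (hc.surj c (d0 ▸ k))).mono
      fun _ k _ => k⟩) (.of_forall fun p c y ⟨s, hs, e⟩ k x => by
        obtain ⟨v, hv⟩ := k ((chr a s)⁻¹ • x)
        exact ⟨s • v, by rw [e, fderiv_vals_smul, hv, smul_inv_smul₀ (chr_ne_zero hs)]⟩)
  have e2 : ∀ᶠ p in 𝓝 p₀, ∀ j j', Orb (σ j (p, 0)) (σ j' (p, 0)) → j = j' :=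
    eventually_all.2 fun j => eventually_all.2 fun j' => by
      by_cases e : j = j'
      · exact .of_forall fun _ _ => e
      · exact (ev_not_orb ((c0 j).an.continuousAt.tendsto.comp (tendsto_inl p₀ 0))
          ((c0 j').an.continuousAt.tendsto.comp (tendsto_inl p₀ 0)) (hne j) (hne j') fun k =>
            e (hc.inj j j' (by simpa only [id, h3] using k))).mono fun p k1 k2 => absurd k2 k1
  have e3 : ∀ j, ∀ᶠ p in 𝓝 p₀, ∃ σ', NF o (tl (F p)) (F p none) σ' ∧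
      Loc o (D p) (σ j (p, 0)) fun _ t => σ' (t, 0) := fun j => by
    filter_upwards [(tendsto_inl p₀ 0).eventually ((c0 j).shift (.of_forall fun _ =>
      continuousAt_id) (hne j) (.of_forall fun _ => Zs.cone)),
      (tendsto_inl p₀ 0).eventually ((d3 j).shift hD.cont (hne j) hD.cone),
      (tendsto_inl p₀ 0).eventually (h1 j).eq.eventually_nhds, h2 j, hD.ne_zero]
      with p k1 k2 k3 k4 k5
    simp only [zero_add] at k1 k2
    have k6 := (tendsto_inr p (0 : ℂ × ℂ)).eventually k3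
    have k7 := k2.mem0.mono fun z hz => hz trivial
    exact ⟨fun z => σ j (p, z), ⟨k1.an0, k1.imm, k6.mono fun z hz => hz.1,
      k6.mono fun z hz => by simpa only [k4, sub_zero] using hz.2⟩,
      Chart.loc k2 continuousAt_id (k5 _ k7.self_of_nhds) Subset.rfl k7⟩
  have e4 := hD.compact' (p := fun q => (IsNode o (D q.1) q.2 → ∃ σ', NF o (tl (F q.1)) (F q.1 none) σ' ∧
      Orb (σ' 0) q.2 ∧ Loc o (D q.1) (σ' 0) fun b t => σ' (if b then (t, 0) else (0, t))) ∧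
      (¬IsNode o (D q.1) q.2 → (∀ j, ¬Orb (σ j (q.1, 0)) q.2) → RegP (tl (F q.1)) (F q.1 none) q.2))
    (fun c k => ?_) ?_
  · filter_upwards [e1, e2, eventually_all.2 e3, e4] with p k1 k2 k3 k4
    exact ⟨hc.card, fun c k => vals_eq_zero.1 (d1 p k).2, k1, k2, k3, fun c k => (k4 c (by
      obtain ⟨γ, _, l1, -, l2, -⟩ := k
      exact l2 ▸ l1.mem.self_of_nhds)).1 k, fun c k => (k4 c k).2⟩
  swap
  · filter_upwards [hD.eventually] with p k c y l1 l2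
    refine ⟨fun l3 => ?_, fun l3 l4 => (l2.2 (fun l5 => l3 (k.nod.isNode_orb l5 l1))
      fun j l5 => l4 j (l5.trans l1)).orb l1⟩
    obtain ⟨σ', l4, l5, l6⟩ := l2.1 (k.nod.isNode_orb l3 l1.symm)
    exact ⟨σ', l4, l5.trans l1, l6⟩
  have sm : ∀ {c}, SmAt o D id p₀ c → ∀ᶠ q : P × V M in 𝓝 (p₀, c), q.2 ∈ D q.1 →
      ¬IsNode o (D q.1) q.2 := fun {c} k => by
    filter_upwards [k.eventually hD, continuousAt_fst.eventually hD.eventually] with q l1 l2 l3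
      using (l1 l3).not_isNode l2
  rw [d0] at k
  by_cases k1 : ∃ j, Orb (q₀ j) c
  · obtain ⟨j, k1⟩ := k1
    refine ⟨σ j (p₀, 0), (h3 j).symm ▸ k1, ?_⟩
    have c1 : Tendsto (fun r : P × ℂ => (r.1, r.2, (0 : ℂ))) (𝓝 (p₀, 0)) (𝓝 (p₀, 0)) :=
      Continuous.tendsto' (by fun_prop) _ _ rfl
    filter_upwards [sm ⟨_, rfl, d3 j⟩, (d3 j).ev (hne j) (c1.eventually
      ((c0 j).an.eventually_analyticAt.and (h1 j).eq.eventually_nhds))] with q l1 l2 l3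
    refine ⟨fun l4 => absurd l4 (l1 l3), fun _ l4 => ?_⟩
    obtain ⟨w, -, l5, l6⟩ := l2 l3
    refine (regP_of_chart (σ := fun z => σ j (q.1, z)) (x := τ j q.1) (l5.1.comp_of_eq
      (analyticAt_const.prod analyticAt_id) rfl) ((tendsto_inr _ _).eventually l5.2)
      fun e => l4 j ?_).orb l6
    rwa [e] at l6
  replace k1 := not_exists.1 k1
  by_cases k2 : IsNode o C c
  swap
  · refine ⟨c, .refl c, ?_⟩
    filter_upwards [sm (hD.smAt (d0 ▸ k) (d0 ▸ k2)), eventually_surj_vals hF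
      (RegP.surj (hc.reg c k k2 k1) (hc.surj c k))] with q l1 l2 l3
    exact ⟨fun l4 => absurd l4 (l1 l3), fun _ _ => regP_of_surj l2⟩
  obtain ⟨σ₀, σ', τ', -, k3, k4, k5, k6, -⟩ := hc.chart_nd hC hF k2
  have k7 : Chart o D id p₀ σ' fun p => {z | z.1 * z.2 = τ' p} :=
    k5.chart.congr continuousAt_id (by
      rw [id, k6]; exact d2 _ k4.mem fun j e => k1 j (e.trans k3))
  refine ⟨σ' (p₀, 0), k6 ▸ k3, ?_⟩
  filter_upwards [k7.ev (k6 ▸ k4.ne :) ((k7.eventually_smAt k5.an k5.zero hD).and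
    (k7.an.eventually_analyticAt.and k5.eq.eventually_nhds)),
    continuousAt_fst.eventually ((k7.eventually_node k5.zero hD).and
      (k5.an.eventually_analyticAt.and hD.eventually))] with q l1 l2 l3
  obtain ⟨z, l4, ⟨l5, l6, l7⟩, l8⟩ := l1 l3
  have l9 := (tendsto_inr _ _).eventually l7
  by_cases hz : z = 0
  · subst hz
    have l10 : τ' q.1 = 0 := by simpa using l4.symm
    refine ⟨fun _ => ⟨fun z => σ' (q.1, z), ⟨l2.1.an0, l2.1.imm, l9.mono fun z hz => hz.1,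
      l9.mono fun z hz => by simpa only [l10, sub_zero] using hz.2⟩, l8,
      l2.1.loc2 l10 continuousAt_id (l8.symm.ne (d1 _ l3).1)⟩, fun l11 => absurd ?_ l11⟩
    exact l2.2.2.nod.isNode_orb (NdAt.isNode ⟨σ', rfl, l2.2.1, l10, l2.1⟩ l2.2.2) l8
  · exact ⟨fun l10 => absurd (l2.2.2.nod.isNode_orb l10 l8.symm) ((l5 l4 hz).not_isNode l2.2.2),
      fun _ _ => (regP_of_chart (σ := fun z => σ' (q.1, z)) (x := τ' q.1) (l6.comp_of_eq
        (analyticAt_const.prod analyticAt_id) rfl) l9 hz).orb l8⟩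

end Vale.Agent.P269.Base
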