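import Vale.Agent.P269.Base.VDef

/-!
# Re-embedding a curve along a moving divisor
-/

namespace Vale.Agent.P269.Base

open Set Function Topology Filter Holo

set_option linter.unusedSectionVars false

variable {ι : Type} [Fintype ι] [DecidableEq ι] {M : ι → ℕ} {o : ι} {a b w : ι → ℕ} {g : ℤ}
  {m : ι → ℤ} {β κ ν : Type} [Fintype β] [Fintype κ] [Fintype ν] {C : Set (V M)}

namespace Reemb

theorem orb_const (c : V M) {r : ℂ} (hr : r ≠ 0) : Orb c (r • c) :=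
  ⟨fun _ => r, fun _ => hr, rfl⟩

theorem orb_congr {c c' y : V M} (h : Orb c c') : Orb c y ↔ Orb c' y :=
  ⟨h.symm.trans, h.trans⟩

/-- Nearby points of a branch lie in different orbits. -/
theorem br_inj {γ : ℂ → V M} (h : IsBranch o C γ) (hne : ∀ i, γ 0 i ≠ 0) :
    ∀ᶠ q : ℂ × ℂ in 𝓝 (0, 0), Orb (γ q.1) (γ q.2) → q.1 = q.2 := by
  obtain ⟨ρ, -, h2⟩ := exists_retr (o := o) h.holo hne
    fun e s hs => (li_pair_iff.1 h.imm).2 e s (by rwa [fderiv_eq_smul] at hs)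
  obtain ⟨ζ, hζ⟩ := exists_lin_one hne
  have c0 : ∀ i, Tendsto (fun t => ζ i (γ t i)) (𝓝 0) (𝓝 1) := fun i => by
    simpa [hζ, comp_def] using ((ζ i).continuous.continuousAt.comp
      ((continuous_apply i).continuousAt.comp h.holo.continuousAt)).tendsto
  have t1 : Tendsto (Prod.fst : ℂ × ℂ → ℂ) (𝓝 (0, 0)) (𝓝 0) := continuousAt_fst
  have t2 : Tendsto (Prod.snd : ℂ × ℂ → ℂ) (𝓝 (0, 0)) (𝓝 0) := continuousAt_snd
  have c1 : Tendsto (fun q : ℂ × ℂ => (fun i => ζ i (γ q.2 i) / ζ i (γ q.1 i), q.1)) (𝓝 (0, 0))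
      (𝓝 (1, 0)) := Tendsto.prodMk_nhds (tendsto_pi_nhds.2 fun i => by
    simpa [comp_def, Pi.div_def] using ((c0 i).comp t2).div ((c0 i).comp t1) one_ne_zero) t1
  filter_upwards [c1.eventually h2, ((tendsto_inr (1 : ι → ℂ) (0 : ℂ)).comp t2).eventually h2,
    eventually_all.2 fun i => ((c0 i).comp t1).eventually_ne one_ne_zero] with q e1 e2 e3 ⟨r, _, e⟩
  have e4 : (fun i => ζ i (γ q.2 i) / ζ i (γ q.1 i)) = r := funext fun i => by
    rw [e, Pi.smul_apply', map_smul, smul_eq_mul]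
    exact mul_div_cancel_right₀ _ (e3 i)
  simp only [comp_apply, one_smul] at e2
  simp only [e4, ← e, e2] at e1
  exact (congrArg Prod.snd e1).symm

/-- Translation of a local push-forward map by the torus. -/
theorem transl (h : Nod o C) {R : ℂ → V M → V M → Prop}
    (hR : ∀ p c c' y y', R p c y → Orb c c' → Orb y y' → R p c' y') {c₀ : V M} {r : ι → ℂ}
    (hr : ∀ i, r i ≠ 0) {Φ : ℂ × V M → V M} (h1 : AnalyticAt ℂ Φ (0, c₀))
    (h2 : ∀ᶠ c in 𝓝[C] c₀, Φ (0, c) = c)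
    (h3 : ∀ᶠ q : ℂ × V M in 𝓝 (0, c₀), q.2 ∈ C → ∀ y, R q.1 q.2 y ↔ Orb (Φ q) y) :
    ∃ Φ : ℂ × V M → V M, AnalyticAt ℂ Φ (0, r • c₀) ∧ (∀ᶠ c in 𝓝[C] (r • c₀), Φ (0, c) = c) ∧
      ∀ᶠ q : ℂ × V M in 𝓝 (0, r • c₀), q.2 ∈ C → ∀ y, R q.1 q.2 y ↔ Orb (Φ q) y := by
  have hr' : ∀ i, r⁻¹ i ≠ 0 := fun i => inv_ne_zero (hr i)
  have a1 : AnalyticAt ℂ (fun q : ℂ × V M => (q.1, r⁻¹ • q.2)) (0, r • c₀) :=
    analyticAt_fst.prod (an_smul analyticAt_const analyticAt_snd)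
  have e1 : ((0 : ℂ), r⁻¹ • r • c₀) = (0, c₀) := by rw [inv_smul_smul' hr]
  have t1 : Tendsto (fun c : V M => r⁻¹ • c) (𝓝[C] (r • c₀)) (𝓝[C] c₀) :=
    tendsto_nhdsWithin_iff.2 ⟨tendsto_nhdsWithin_of_tendsto_nhds (Continuous.tendsto'
      (by fun_prop) _ _ (inv_smul_smul' hr _)),
      eventually_mem_nhdsWithin.mono fun y hy => h.cone _ hr' _ hy⟩
  refine ⟨fun q => r • Φ (q.1, r⁻¹ • q.2), an_smul analyticAt_const (h1.comp_of_eq a1 e1),
    (t1.eventually h2).mono fun c hc => by simp only [hc, smul_inv_smul' hr], ?_⟩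
  filter_upwards [(e1 ▸ a1.continuousAt.tendsto :).eventually h3] with q k1 k2 y
  rw [← orb_congr (Orb.smul _ hr), ← k1 (h.cone _ hr' _ k2) y]
  exact ⟨fun k => hR _ _ _ _ _ k (Orb.smul _ hr') (.refl _),
    fun k => hR _ _ _ _ _ k (Orb.smul _ hr').symm (.refl _)⟩

/-- The linear system `l • c` deformed so as to vanish at moving points. -/
theorem exists_sys (h : IsCurve o g m C) {l : Tens M b} {y : ℂ → β → V M} (hn : Nzd C (val l))
    (hy : AnalyticAt ℂ y 0) (hm : ∀ k, y 0 k ∈ C) (hz : ∀ k k', Orb (y 0 k) (y 0 k') → k = k')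
    (h0 : ∀ k, val l (y 0 k) = 0) : ∃ A : ℂ × V M → V M, (∀ c, AnalyticAt ℂ A (0, c)) ∧
      (∀ c, A (0, c) = val l c • c) ∧ (∀ x c (s : ι → ℂ), A (x, s • c) = chr b s • s • A (x, c)) ∧
      ∀ᶠ x in 𝓝 0, ∀ k, A (x, y x k) = 0 := by
  have h1 : ∀ i j, ∃ s : ℂ → Tens M (Pi.single i 1 + b), AnalyticAt ℂ s 0 ∧
      (∀ c, val (s 0) c = val l c * c i j) ∧ ∀ᶠ x in 𝓝 0, ∀ k, val (s x) (y x k) = 0 := by
    intro i j
    obtain ⟨μ, hμ⟩ := mem_Pol.1 (Pol.mul' (Pol.lin i (ContinuousLinearMap.proj j)) (val_mem l) rfl)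
    obtain ⟨S, hS⟩ := exists_rightInv (l := evP (Pi.single i 1 + b) (y 0)) fun v => by
      obtain ⟨_, ⟨μ, rfl⟩, h2, -⟩ := h.exists_val (a := Pi.single i 1)
        (fun e => by simpa using congrFun e i) hn (val_mem l) hm hz h0 v
      exact ⟨μ, funext h2⟩
    obtain ⟨h2, h3⟩ := exists_proj_ker (Q := fun x => evP (Pi.single i 1 + b) (y x))
      ((analyticAt_evP _).comp hy) hS μ
    have h4 : evP (Pi.single i 1 + b) (y 0) μ = 0 := funext fun k => by simp [hμ, h0]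
    exact ⟨_, analyticAt_const.sub ((S.analyticAt _).comp h2), fun c => by simp [h4, hμ, mul_comm],
      h3.mono fun x hx k => congrFun hx k⟩
  choose s h2 h3 h4 using h1
  refine ⟨fun q i j => val (s i j q.1) q.2, fun c => analyticAt_pi_iff.2 fun i =>
    analyticAt_pi_iff.2 fun j => an_val ((h2 i j).comp_of_eq analyticAt_fst rfl) analyticAt_snd,
    fun c => funext fun i => funext fun j => h3 i j c, fun x c t => funext fun i => funext fun j => ?_,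
    (eventually_all.2 fun i => eventually_all.2 (h4 i)).mono fun x hx k =>
      funext fun i => funext fun j => hx i j k⟩
  have : chr (Pi.single i 1) t = t i := by
    rw [chr, Finset.prod_eq_single i (fun j _ hj => by simp [hj]) (by simp)]
    simp
  change val (s i j x) (t • c) = chr b t * (t i * val (s i j x) c)
  rw [val_smul, chr_add, this]
  ring

/-- Division by the moving zero. -/
theorem exists_pole {A : ℂ × V M → V M} {l : V M → ℂ} {γ : ℂ → V M} {e : ℂ}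
    (hγ : AnalyticAt ℂ γ 0) (hl : AnalyticAt ℂ (fun t => l (γ t)) 0) (h0 : l (γ 0) = 0)
    (hd : deriv (fun t => l (γ t)) 0 ≠ 0) (hA : AnalyticAt ℂ A (0, γ 0))
    (h1 : ∀ c, A (0, c) = l c • c) (h2 : ∀ᶠ x in 𝓝 0, A (x, γ (x * e)) = 0) :
    ∃ (δ : ℂ × ℂ → V M) (u : ℂ → ℂ), AnalyticAt ℂ δ (0, 0) ∧ (∀ᶠ t in 𝓝 0, δ (0, t) = γ t) ∧
      ∀ᶠ q : ℂ × ℂ in 𝓝 (0, 0), u q.2 ≠ 0 ∧ l (γ q.2) = q.2 * u q.2 ∧
        A (q.1, γ q.2) = ((q.2 - q.1 * e) * u q.2) • δ q := by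
  have a1 : AnalyticAt ℂ (dslope (fun t => l (γ t)) 0) 0 := by
    obtain ⟨_, hp⟩ := hl
    exact ⟨_, hp.has_fpower_series_dslope_fslope⟩
  have e1 : ∀ t, l (γ t) = t * dslope (fun t => l (γ t)) 0 t := fun t => by
    simpa [h0] using (sub_smul_dslope (fun t => l (γ t)) 0 t).symm
  rw [← dslope_same] at hd
  generalize dslope (fun t => l (γ t)) 0 = u at a1 e1 hd
  obtain ⟨G, a2, e2⟩ := exists_div (f := fun p : ℂ × ℂ => A (p.2, γ (p.2 * e + p.1))) (w := 0)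
    (hA.comp_of_eq (analyticAt_snd.prod (hγ.comp_of_eq
      ((analyticAt_snd.mul analyticAt_const).add analyticAt_fst) (by simp))) (by simp))
  have a3 : AnalyticAt ℂ (fun q : ℂ × ℂ => (u q.2)⁻¹ • G (q.2 - q.1 * e, q.1)) (0, 0) :=
    ((a1.inv hd).comp_of_eq analyticAt_snd rfl).smul (a2.comp_of_eq
      ((analyticAt_snd.sub (analyticAt_fst.mul analyticAt_const)).prod analyticAt_fst) (by simp))
  have e3 : ∀ᶠ q : ℂ × ℂ in 𝓝 (0, 0), u q.2 ≠ 0 ∧ l (γ q.2) = q.2 * u q.2 ∧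
      A (q.1, γ q.2) = ((q.2 - q.1 * e) * u q.2) • (u q.2)⁻¹ • G (q.2 - q.1 * e, q.1) := by
    filter_upwards [continuousAt_fst.tendsto.eventually h2,
      continuousAt_snd.tendsto.eventually (a1.continuousAt.eventually_ne hd)] with q k1 k2
    refine ⟨k2, e1 _, ?_⟩
    have := e2 (q.2 - q.1 * e, q.1)
    simp only [add_zero, add_sub_cancel, k1, zero_add] at this
    rw [this, smul_smul, mul_inv_cancel_right₀ k2]
  refine ⟨_, u, a3, ((a3.comp_of_eq (analyticAt_const.prod analyticAt_id)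
    rfl).frequently_eq_iff_eventually_eq hγ).1 (Eventually.frequently ?_), e3⟩
  filter_upwards [mem_nhdsWithin_of_mem_nhds ((tendsto_inr (0 : ℂ) (0 : ℂ)).eventually e3),
    self_mem_nhdsWithin] with t k1 ht
  have k2 := k1.2.2
  simp only [h1, e1, zero_mul, sub_zero] at k2
  simpa using (smul_right_injective _ (mul_ne_zero ht k1.1) k2).symm

end Reemb

open Reemb

theorem _root_.Vale.Agent.P269.IsCurve.reemb (h : IsCurve o g m C) {l : Tens M b} {z : β → V M}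
    (hz : Reps C (fun c => val l c = 0) z) (hs : ∀ k, Simp o C (val l) (z k)) {γ : β → ℂ → V M}
    (hγ : ∀ k, Loc o C (z k) fun _ => γ k) (e : β → ℂ) :
    ∃ (Φ : ℂ × V M → V M) (D : ℂ → Set (V M)), D 0 = C ∧ LocFam o D id 0 ∧
      (∀ x c, ∀ s : ι → ℂ, (∀ i, s i ≠ 0) → Φ (x, s • c) = s • Φ (x, c)) ∧
      (∀ c, val l c ≠ 0 → AnalyticAt ℂ Φ (0, c) ∧ Φ (0, c) = c) ∧
      (∀ c ∈ C, val l c ≠ 0 → ∀ᶠ q : ℂ × V M in 𝓝 (0, c), q.2 ∈ C → Φ q ∈ D q.1) ∧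
      (∀ c δ, Loc o C c (fun _ => δ) → val l c ≠ 0 →
        Chart o D id 0 (fun r : ℂ × ℂ => Φ (r.1, δ r.2)) fun _ => univ) ∧
      ∀ k, ∃ δ : ℂ × ℂ → V M, AnalyticAt ℂ δ 0 ∧ (∀ᶠ t in 𝓝 0, δ (0, t) = γ k t) ∧
        ∀ᶠ q : ℂ × ℂ in 𝓝 0, δ q ∈ D q.1 ∧
          (q.2 ≠ 0 → q.2 • Φ (q.1, γ k q.2) = (q.2 - q.1 * e k) • δ q) := by
  have hC := h.nod
  have hl : IsSec o C b (val l) := Pol.isSec (val_mem l)
  have g0 : ∀ k, γ k 0 = z k := fun k => (hγ k).zero true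
  have a0 : ∀ k, AnalyticAt ℂ (fun x => γ k (x * e k)) 0 := fun k =>
    ((hγ k).an true).comp_of_eq (analyticAt_id.mul analyticAt_const) (by simp)
  have t0 : ∀ k, Tendsto (fun x => γ k (x * e k)) (𝓝 0) (𝓝 (z k)) := fun k => by
    simpa [g0] using (a0 k).continuousAt.tendsto
  obtain ⟨A, hA, A0, As, Az⟩ := exists_sys h (l := l) (y := fun x k => γ k (x * e k))
    (nzd_of_simp hC hl fun c hc h0 => (hz.ex c hc h0).elim fun k hk => (hs k).orb hC hl.hm hk)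
    (analyticAt_pi_iff.2 a0) (by simpa [g0] using hz.mem) (by simpa [g0] using hz.inj)
    (by simpa [g0] using hz.prop)
  choose δ u d1 d2 d3 using fun k => exists_pole (e := e k) ((hγ k).an true)
    (hl.holo _ ((hγ k).br true)) (by rw [g0]; exact hz.prop k)
    ((hs k).deriv_ne hC hl ((hγ k).br true) (g0 k)) (hA _) A0 (Az.mono fun x hx => hx k)
  obtain ⟨R, hRe⟩ : ∃ R : ℂ → V M → V M → Prop, ∀ x c y, R x c y ↔
      ((∀ k, ¬Orb (γ k (x * e k)) c) ∧ Orb (A (x, c)) y) ∨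
        ∃ k, Orb (γ k (x * e k)) c ∧ Orb (δ k (x, x * e k)) y := ⟨_, fun _ _ _ => .rfl⟩
  have hR : ∀ p c c' y y', R p c y → Orb c c' → Orb y y' → R p c' y' := by
    intro x c c' y y' k1 k2 k3
    rw [hRe] at k1 ⊢
    refine k1.imp (fun k => ⟨fun j k4 => k.1 j (k4.trans k2.symm), ?_⟩)
      (Exists.imp fun j k => ⟨k.1.trans k2, k.2.trans k3⟩)
    obtain ⟨s, hs, rfl⟩ := k2
    rw [As]
    exact ((Orb.smul _ hs).trans (orb_const _ (chr_ne_zero hs))).symm.trans (k.2.trans k3)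
  have p1 : ∀ c, val l c ≠ 0 →
      AnalyticAt ℂ (fun q : ℂ × V M => (val l q.2)⁻¹ • A q) (0, c) := fun c hc =>
    (((analyticAt_val l c).inv hc).comp_of_eq analyticAt_snd rfl).smul (hA c)
  have p2 : ∀ c, val l c ≠ 0 → (val l c)⁻¹ • A (0, c) = c := fun c hc => by
    rw [A0, inv_smul_smul₀ hc]
  have p3 : ∀ c, val l c ≠ 0 → ∀ᶠ y in 𝓝[C] c, (val l y)⁻¹ • A (0, y) = y := fun c hc =>
    mem_nhdsWithin_of_mem_nhds (((analyticAt_val l c).continuousAt.eventually_ne hc).mono p2)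
  have p4 : ∀ c ∈ C, val l c ≠ 0 → ∀ᶠ q : ℂ × V M in 𝓝 (0, c), q.2 ∈ C →
      ∀ y, R q.1 q.2 y ↔ Orb ((val l q.2)⁻¹ • A q) y := fun c hc h0 => by
    filter_upwards [eventually_all.2 fun k => ev_not_orb ((t0 k).comp continuousAt_fst)
      (continuousAt_snd (p := ((0 : ℂ), c))) (hγ k).ne (hC.ne_zero c hc)
      fun k1 => h0 ((hl.hm.orb (hz.mem k) k1).2 (hz.prop k)), continuousAt_snd.tendsto.eventually
      ((analyticAt_val l c).continuousAt.eventually_ne h0)] with q k1 k2 _ y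
    rw [hRe, ← orb_congr (orb_const _ (inv_ne_zero k2))]
    exact ⟨fun k => k.elim And.right fun ⟨j, k⟩ => absurd k.1 (k1 j), fun k => .inl ⟨k1, k⟩⟩
  have p5 : ∀ k, ∀ᶠ q : ℂ × ℂ in 𝓝 (0, 0), ∀ y, R q.1 (γ k q.2) y ↔ Orb (δ k q) y := fun k => by
    have k1 : ∀ j, ∀ᶠ q : ℂ × ℂ in 𝓝 (0, 0), Orb (γ j (q.1 * e j)) (γ k q.2) →
        j = k ∧ q.1 * e k = q.2 := fun j => by
      by_cases hj : j = k
      · subst hj
        exact (((by fun_prop : Continuous fun q : ℂ × ℂ => (q.1 * e j, q.2)).tendsto' (0, 0) (0, 0)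
          (by simp)).eventually (br_inj ((hγ j).br true) (g0 j ▸ (hγ j).ne))).mono
          fun q hq k2 => ⟨rfl, hq k2⟩
      · exact (ev_not_orb ((t0 j).comp (continuousAt_fst (p := ((0 : ℂ), (0 : ℂ))))) ((g0 k ▸
          ((hγ k).an true).continuousAt.tendsto :).comp (continuousAt_snd (p := ((0 : ℂ), (0 : ℂ)))))
          (hγ j).ne (hγ k).ne fun k2 => hj (hz.inj j k k2)).mono fun q hq k2 => absurd k2 hq
    filter_upwards [eventually_all.2 k1, d3 k] with ⟨x, t⟩ k2 k3 y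
    rw [hRe]
    by_cases ht : x * e k = t
    · subst ht
      refine ⟨fun k4 => k4.elim (fun k5 => absurd (.refl _) (k5.1 k)) fun ⟨j, k5, k6⟩ => ?_,
        fun k4 => .inr ⟨k, .refl _, k4⟩⟩
      obtain rfl := (k2 j k5).1
      exact k6
    · rw [k3.2.2, ← orb_congr (orb_const _ (mul_ne_zero (sub_ne_zero.2 (Ne.symm ht)) k3.1))]
      exact ⟨fun k4 => k4.elim And.right fun ⟨j, k5⟩ => absurd (k2 j k5.1).2 ht,
        fun k4 => .inl ⟨fun j k5 => ht (k2 j k5).2, k4⟩⟩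
  obtain ⟨q1, q2, q3⟩ := hC.push (p₀ := 0) hR fun c hc => by
    by_cases h0 : val l c = 0
    swap
    · exact ⟨_, p1 c h0, p3 c h0, p4 c hc h0⟩
    obtain ⟨k, r, hr, rfl⟩ := hz.ex c hc h0
    obtain ⟨s, ζ, s1, s2, -, s3⟩ := (hγ k).exists_coord
    have s0 : s (z k) = 1 := by simpa [g0] using (s3 true).self_of_nhds.1
    have z0 : ζ true (z k) = 0 := by simpa [g0] using (s3 true).self_of_nhds.2.1
    have s4 : ∀ᶠ c in 𝓝[C] z k, c = s c • γ k (ζ true c) := (hγ k).ev _ fun _ =>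
      (s3 true).mono fun w hw => by rw [hw.1, hw.2.1]
    have a1 : AnalyticAt ℂ (fun q : ℂ × V M => (q.1, ζ true q.2)) (0, z k) :=
      analyticAt_fst.prod ((s2 true).comp_of_eq analyticAt_snd rfl)
    have e1 : ((0 : ℂ), ζ true (z k)) = (0, 0) := by rw [z0]
    refine transl hC hR hr (Φ := fun q => s q.2 • δ k (q.1, ζ true q.2))
      (an_smul (s1.comp_of_eq analyticAt_snd rfl) ((d1 k).comp_of_eq a1 e1)) ?_ ?_
    · filter_upwards [s4, mem_nhdsWithin_of_mem_nhds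
        ((z0 ▸ (s2 true).continuousAt.tendsto :).eventually (d2 k))] with c k1 k2
      rw [k2, ← k1]
    · filter_upwards [(e1 ▸ a1.continuousAt.tendsto :).eventually (p5 k),
        continuousAt_snd.tendsto.eventually (eventually_nhdsWithin_iff.1 s4)] with q k1 k2 k3 y
      have k4 := Orb.of_smul (hC.ne_zero _ k3) (k2 k3)
      have k5 := ne_of_smul_ne (k2 k3 ▸ hC.ne_zero _ k3)
      rw [← orb_congr (Orb.smul _ k5), ← k1 y]
      exact ⟨fun k => hR _ _ _ _ _ k k4.symm (.refl _), fun k => hR _ _ _ _ _ k k4 (.refl _)⟩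
  refine ⟨fun q => (val l q.2)⁻¹ • A q, _, q1, q2, fun x c s hs => ?_,
    fun c hc => ⟨p1 c hc, p2 c hc⟩,
    fun c hc h0 => (p4 c hc h0).mono fun q k1 k2 => ⟨_, k2, (k1 k2 _).2 (.refl _)⟩,
    fun c δ hδ h0 => (q3 c _ _ hδ (p1 c h0) (p3 c h0) (p4 c hδ.mem h0)).1 rfl,
    fun k => ⟨δ k, d1 k, d2 k, ?_⟩⟩
  · simp only [As, val_smul]
    rw [smul_smul, mul_inv_rev, inv_mul_cancel_right₀ (chr_ne_zero hs), smul_comm]
  · filter_upwards [p5 k, d3 k, (continuousAt_snd (p := ((0 : ℂ), (0 : ℂ)))).tendsto.eventually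
      ((hγ k).br true).mem] with q k1 k2 k3
    refine ⟨⟨_, k3, (k1 _).2 (.refl _)⟩, fun ht => ?_⟩
    simp only [k2.2.1, k2.2.2, smul_smul]
    congr 1
    field_simp [k2.1]

end Vale.Agent.P269.Base
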