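import Vale.Agent.P269.Base.JetA
import Vale.Agent.P269.Base.Mark
import Vale.Agent.P269.Base.Punct
import Vale.Agent.P269.Base.Reemb

/-!
# The jets of a form along the moving zeros of the vector field are a submersion
-/

namespace Vale.Agent.P269.Base

open Set Function Topology Filter Holo

set_option linter.unusedSectionVars false

variable {ι : Type} [Fintype ι] [DecidableEq ι] {M : ι → ℕ} {o : ι} {a b w : ι → ℕ} {g : ℤ}
  {m : ι → ℤ} {β κ ν : Type} [Fintype β] [Fintype κ] [Fintype ν] {l : Tens M b}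
  {Φ : ℂ × V M → V M} {D : ℂ → Set (V M)} {ξ : ℂ → V M → V M}

theorem Nod.ext_punct' {C : Set (V M)} (h : Nod o C) {F : V M → ℂ}
    (h2 : ∀ c ∈ C, ∃ c' γ, Orb c' c ∧ Loc o C c' γ ∧ ∃ r : Bool → ℂ → ℂ,
      (∀ j, AnalyticAt ℂ (r j) 0) ∧ r true 0 = r false 0 ∧ ∀ j, ∀ᶠ t in 𝓝[≠] 0,
        ∀ s : ι → ℂ, (∀ i, s i ≠ 0) → F (s • γ j t) = chr a s * r j t) :
    ∃ f, IsSec o C a f ∧ ∀ γ, IsBranch o C γ → ∀ᶠ t in 𝓝[≠] 0, f (γ t) = F (γ t) := by
  refine h.ext_punct (fun δ hδ => ?_) fun c hc => ?_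
  · obtain ⟨c', γ, ⟨s₀, hs₀, h0⟩, hγ, r, -, -, h3⟩ := h2 _ hδ.mem.self_of_nhds
    obtain ⟨j, s, ψ, k1, k2, k3, k4, k5, k6, -⟩ := (hγ.smul h hs₀).reparam hδ h0
    have k7 := k2.differentiableAt.hasDerivAt.tendsto_nhdsNE k5
    rw [k4] at k7
    have k8 : ∀ᶠ t in 𝓝 0, ∀ i, s t i ≠ 0 := eventually_all.2 fun i =>
      ((continuous_apply i).continuousAt.comp k1.continuousAt).eventually_ne (by simp [k3])
    filter_upwards [k7.eventually (h3 j), mem_nhdsWithin_of_mem_nhds (k6.and k8)] with t m1 m2 s' hs'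
    have m3 : ∀ i, (s t * s₀) i ≠ 0 := fun i => mul_ne_zero (m2.2 i) (hs₀ i)
    rw [m2.1, smul_smul (s t), smul_smul, m1 _ m3,
      m1 (s' * (s t * s₀)) fun i => mul_ne_zero (hs' i) (m3 i), chr_mul, mul_assoc]
  · obtain ⟨c', γ, h0, hγ, r, k1, k2, k3⟩ := h2 c hc
    exact ⟨c', γ, h0, hγ, r, k1, k2, fun j => (k3 j).mono fun t ht => by simpa using ht 1 (by simp)⟩

theorem eq_of_punct {u v : ℂ → ℂ} (hu : AnalyticAt ℂ u 0) (hv : AnalyticAt ℂ v 0)
    (h : ∀ᶠ t in 𝓝[≠] 0, u t = v t) : ∀ᶠ t in 𝓝 0, u t = v t :=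
  (hu.frequently_eq_iff_eventually_eq hv).1 h.frequently

theorem RE.cross {z : ℂ → κ → V M} (h : RE o l Φ D) (hV : VFam o D id 0 w ξ z) {c : V M}
    {γ : Bool → ℂ → V M} (hγ : Loc o (D 0) c γ) (hn : γ true ≠ γ false) (hl : val l c ≠ 0) :
    ∀ᶠ x in 𝓝 0, IsCross o (D x) (Φ (x, c)) (fun t => Φ (x, γ true t))
      fun t => Φ (x, γ false t) := by
  have hδ := fun j => h.lift (hγ.br j) (hγ.zero j ▸ hl)
  choose φ h1 h2 using fun j => (hδ j).along (hγ.br j) h.fam hV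
  have h3 : ContinuousAt (fun x => ![Φ (x, c) o, deriv (fun t => Φ (x, γ true t)) 0 o,
      deriv (fun t => Φ (x, γ false t)) 0 o]) 0 := by
    refine continuousAt_pi.2 fun k => ?_
    fin_cases k
    exacts [(continuous_apply o).continuousAt.comp ((h.an c hl).1.comp_of_eq
        (analyticAt_id.prod analyticAt_const) rfl).continuousAt,
      (continuous_apply o).continuousAt.comp (an_dt (hδ true).an).continuousAt,
      (continuous_apply o).continuousAt.comp (an_dt (hδ false).an).continuousAt]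
  have h4 : LinearIndependent ℂ ![Φ (0, c) o, deriv (fun t => Φ (0, γ true t)) 0 o,
      deriv (fun t => Φ (0, γ false t)) 0 o] := by
    rw [(h.an c hl).2, EventuallyEq.deriv_eq (hδ true).zero, EventuallyEq.deriv_eq (hδ false).zero]
    exact hγ.alt.resolve_left hn
  filter_upwards [h3.eventually (isOpen_setOfPred_linearIndependent.mem_nhds h4),
    (tendsto_inl (0 : ℂ) (0 : ℂ)).eventually (h2 true),
    (tendsto_inl (0 : ℂ) (0 : ℂ)).eventually (h2 false)] with x k1 k2 k3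
  exact ⟨by simpa using k2.1, by simpa using k3.1, by simp [hγ.zero], by simp [hγ.zero], k1⟩

theorem RE.exists_var (h : RE o l Φ D) (h0 : IsCurve o g m (D 0)) {z : ℂ → κ → V M}
    {p : ℂ → ν → V M} (hV : VFam o D id 0 w ξ fun x => Sum.elim (z x) (p x))
    (hp : ∀ᶠ x in 𝓝 0, ∀ n, p x n = Φ (x, p 0 n)) (hlp : ∀ n, val l (p 0 n) ≠ 0)
    (hlz : ∀ j, val l (z 0 j) ≠ 0) {σ : κ → ℂ × ℂ → V M}
    (hσ : ∀ j, Chart o D id 0 (σ j) fun _ => univ) (hz : ∀ j, ∀ᶠ x in 𝓝 0, σ j (x, 0) = z x j)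
    (hc : ∀ c δ, Loc o (D 0) c (fun _ => δ) → val l c ≠ 0 →
      Chart o D id 0 (fun r : ℂ × ℂ => Φ (r.1, δ r.2)) fun _ => univ)
    {F : Tens M a} {k : ℕ} (hF : Dvs o (D 0) (val F) (z 0) k) {y : β → V M}
    (hy : Reps (D 0) (fun c => val l c = 0) y) {γ u : β → ℂ → _}
    (hγ : ∀ i, Loc o (D 0) (y i) fun _ => γ i)
    (hu : ∀ i, AnalyticAt ℂ (u i) 0 ∧ u i 0 ≠ 0 ∧ ∀ᶠ t in 𝓝 0, val l (γ i t) = t * u i t)
    {e : β → ℂ} {δ : β → ℂ × ℂ → V M} (hδ : ∀ i, Lift Φ D (γ i) (e i) (δ i)) (hab : a + b ≠ 0) :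
    ∃ W ∈ Pol M (a + b),
      (∀ i, W (y i) = (k * (∑ i, w i : ℕ) - (∑ i, a i : ℕ)) * (u i 0 * e i) * val F (y i)) ∧
      ∀ j, ∃ r, AnalyticAt ℂ r 0 ∧ (∀ᶠ t in 𝓝 0, W (σ j (0, t)) = val l (σ j (0, t)) * r t) ∧
        HasDerivAt (fun x => jet k fun s => val F (σ j (x, s))) (jet k r) 0 := by
  have hC := h0.nod
  have v0 := hV.vf.self_of_nhds
  have lo : ∀ {c c'}, c ∈ D 0 → Orb c c' → (val l c' = 0 ↔ val l c = 0) := fun hc hc' =>
    (Pol.hm (val_mem l)).orb hc hc'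
  have A : ∀ i, ∃ r, Ex l Φ ξ F k (γ i) r ∧
      r 0 = (k * (∑ i, w i : ℕ) - (∑ i, a i : ℕ)) * (u i 0 * e i) * val F (y i) := fun i => by
    have e0 : γ i 0 = y i := (hγ i).zero true
    obtain ⟨r, h1, h2⟩ := h.ex_reg F k hV ((hγ i).br true) (hδ i) (by
      filter_upwards [self_mem_nhdsWithin, mem_nhdsWithin_of_mem_nhds ((hu i).2.2.and
        ((hu i).1.continuousAt.eventually_ne (hu i).2.1))] with t k1 k2
      rw [k2.1]
      exact mul_ne_zero k1 k2.2) (e0 ▸ fun k => (hγ i).isNode_iff.1 k rfl) (fun j k => by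
        have := (lo (v0.mem j).1 k).1 (e0 ▸ hy.prop i)
        cases j
        exacts [hlz _ this, hlp _ this]) ((hu i).1.fun_mul (analyticAt_const (v := e i)))
      ((hu i).2.2.mono fun t ht => by rw [ht, mul_assoc])
    exact ⟨r, h1, e0 ▸ h2 (e0 ▸ hy.prop i)⟩
  have B : ∀ j, (Loc o (D 0) (z 0 j) fun _ t => σ j (0, t)) ∧ ∃ r, AnalyticAt ℂ r 0 ∧
      Ex l Φ ξ F k (fun t => σ j (0, t)) (fun t => val l (σ j (0, t)) * r t) ∧
      HasDerivAt (fun x => jet k fun s => val F (σ j (x, s))) (jet k r) 0 := fun j => by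
    have e0 : σ j (0, 0) = z 0 j := (hz j).self_of_nhds
    have h1 := (hσ j).loc continuousAt_id (e0 ▸ hC.ne_zero _ (v0.mem (.inl j)).1) subset_rfl
      ((hσ j).mem0.mono fun t ht => ht trivial)
    obtain ⟨v, h2, -, h3⟩ := hF.ord _ j (h1.br true) (e0 ▸ Orb.refl _)
    exact ⟨e0 ▸ h1, h.ex_sig F k hV (hσ j) (j := .inl j) (hz j) (e0 ▸ hlz j)
      (hc _ _ h1 (e0 ▸ hlz j)) h2 h3⟩
  obtain ⟨f, f1, f2⟩ := hC.ext_punct' (a := a + b) (F := vari l Φ ξ F k) fun c hc => by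
    suffices H : ∃ c' γ, Orb c' c ∧ Loc o (D 0) c' γ ∧ ∃ r : Bool → ℂ → ℂ,
        r true 0 = r false 0 ∧ ∀ j, Ex l Φ ξ F k (γ j) (r j) by
      obtain ⟨c', γ, k1, k2, r, k3, k4⟩ := H
      exact ⟨c', γ, k1, k2, r, fun j => (k4 j).1, k3, fun j => (k4 j).2⟩
    by_cases c1 : val l c = 0
    · obtain ⟨i, hi⟩ := hy.ex c hc c1
      obtain ⟨r, h1, -⟩ := A i
      exact ⟨_, _, hi, hγ i, fun _ => r, rfl, fun _ => h1⟩
    by_cases c2 : IsNode o (D 0) c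
    · obtain ⟨γ, hγ⟩ := hC.exists_loc hc
      have h1 := h.cross hV hγ (hγ.isNode_iff.1 c2) c1
      choose U h2 h3 h4 using fun j => h.ex_van F k hV (hγ.br j) (hγ.zero j ▸ c1)
        (h1.mono fun x hx => .inl (hγ.zero j ▸ ⟨_, _, hx⟩))
      have h5 : ∀ᶠ x in 𝓝 0, U true (x, 0) = -U false (x, 0) := by
        filter_upwards [h1, h3 true, h3 false, hV.vf,
          (tendsto_inl (0 : ℂ) (0 : ℂ)).eventually (h2 true).eventually_analyticAt,
          (tendsto_inl (0 : ℂ) (0 : ℂ)).eventually (h2 false).eventually_analyticAt]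
          with x k1 k2 k3 k4 k5 k6
        have := k4.res _ _ _ _ _ k1 k2 k3
        rw [((hasDerivAt_id' (0 : ℂ)).fun_mul (an_inr k5).differentiableAt.hasDerivAt).deriv,
          ((hasDerivAt_id' (0 : ℂ)).fun_mul (an_inr k6).differentiableAt.hasDerivAt).deriv] at this
        simpa using this
      have h6 : dx (U true) 0 = -dx (U false) 0 :=
        (EventuallyEq.deriv_eq h5).trans (hasDerivAt_dx (h2 false)).fun_neg.deriv
      refine ⟨c, γ, .refl c, hγ, _, ?_, h4⟩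
      simp only [h6, h5.self_of_nhds, hγ.zero, mul_neg, neg_div_neg_eq]
      simp only [dx, hγ.zero]
    by_cases c3 : ∃ j, Orb (z 0 j) c
    · obtain ⟨j, hj⟩ := c3
      obtain ⟨h1, r, -, h2, -⟩ := B j
      exact ⟨_, _, hj, h1, fun _ => _, rfl, fun _ => h2⟩
    by_cases c4 : ∃ n, Orb (p 0 n) c
    · obtain ⟨n, hn⟩ := c4
      obtain ⟨γ, hγ⟩ := hC.exists_loc (v0.mem (.inr n)).1
      obtain ⟨U, -, -, h1⟩ := h.ex_van F k hV (hγ.br true) (hγ.zero true ▸ hlp n)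
        (hp.mono fun x hx => .inr ⟨.inr n, by
          rw [hγ.zero]; exact (hx n ▸ Orb.refl _ : Orb (p x n) (Φ (x, p 0 n)))⟩)
      obtain ⟨r, h2⟩ : ∃ r, Ex l Φ ξ F k (γ true) r := ⟨_, h1⟩
      exact ⟨_, γ, hn, hγ, fun _ => r, rfl, fun j =>
        hγ.eq_of_not_node (v0.mem (.inr n)).2 j ▸ h2⟩
    obtain ⟨γ, hγ⟩ := hC.exists_loc hc
    have c5 : val l (γ true 0) ≠ 0 := hγ.zero true ▸ c1
    obtain ⟨r, h1, -⟩ := h.ex_reg F k hV (hγ.br true) (h.lift (hγ.br true) c5)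
      (mem_nhdsWithin_of_mem_nhds
        (((analyticAt_val l _).comp (hγ.an true)).continuousAt.eventually_ne c5))
      (hγ.zero true ▸ c2) (fun j k => by
        rw [hγ.zero] at k
        cases j
        exacts [c3 ⟨_, k⟩, c4 ⟨_, k⟩]) (analyticAt_const (v := 0)) (.of_forall fun t => by simp)
    exact ⟨c, γ, .refl c, hγ, fun _ => r, rfl, fun j => hγ.eq_of_not_node c2 j ▸ h1⟩
  obtain ⟨W, hW, f3⟩ := h0.pol hab f1
  have f4 : ∀ {γ r}, IsBranch o (D 0) γ → Ex l Φ ξ F k γ r → ∀ᶠ t in 𝓝 0, W (γ t) = r t := by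
    intro γ r k1 k2
    refine eq_of_punct ((Pol.an hW _).comp k1.holo) k2.1 ?_
    filter_upwards [f2 γ k1, k2.2, mem_nhdsWithin_of_mem_nhds k1.mem] with t m1 m2 m3
    simpa [← f3 _ m3, m1] using m2 1 (by simp)
  refine ⟨W, hW, fun i => ?_, fun j => ?_⟩
  · obtain ⟨r, h1, h2⟩ := A i
    rw [← h2, ← (f4 ((hγ i).br true) h1).self_of_nhds, (hγ i).zero true]
  · obtain ⟨h1, r, h2, h3, h4⟩ := B j
    exact ⟨r, h2, f4 (h1.br true) h3, h4⟩

theorem Dvs.nzd {C : Set (V M)} (hC : Nod o C) {F : Tens M a} {z : κ → V M} {k : ℕ}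
    (h : Dvs o C (val F) z k) {γ : κ → ℂ → V M} (hγ : ∀ j, Loc o C (z j) fun _ => γ j) :
    Nzd C (val F) := by
  choose u hu using fun j => h.ord _ j ((hγ j).br true) ((hγ j).zero true ▸ Orb.refl _)
  exact nzd_of_ord hC (Pol.hm (val_mem F))
    (fun c hc h0 => by_contra fun hn => h.ne c hc (not_exists.1 hn) h0) hγ hu

theorem exists_jet_path {P : Type} [NormedAddCommGroup P] [NormedSpace ℂ P] [FiniteDimensional ℂ P]
    {C : P → Set (V M)} {p : P → ν → V M} {y₀ : P} (hU : Univ o b C p y₀)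
    (h0 : IsCurve o g m (C y₀)) {ξ : P → V M → V M} {z : P → κ → V M}
    (hV : VFam o C id y₀ w ξ fun y => Sum.elim (z y) (p y)) {σ : κ → P × ℂ → V M}
    (hσ : ∀ j, Chart o C id y₀ (σ j) fun _ => univ) (hz : ∀ j, ∀ᶠ y in 𝓝 y₀, σ j (y, 0) = z y j)
    {F : Tens M a} {k : ℕ} (hF : Dvs o (C y₀) (val F) (z y₀) k) (ha : a ≠ 0)
    (hn : k * ∑ i, w i ≠ ∑ i, a i) (ω : κ → Fin k → ℂ) :
    ∃ (η : ℂ → P) (F₁ : Tens M a), AnalyticAt ℂ η 0 ∧ η 0 = y₀ ∧
      (∀ c τ, NdAt o C id y₀ c τ → ∀ᶠ x in 𝓝 0, τ (η x) = 0) ∧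
      ∀ j, HasDerivAt (fun x => jet k fun s => val (F + x • F₁) (σ j (η x, s))) (ω j) 0 := by
  have hC := h0.nod
  have v0 := hV.vf.self_of_nhds
  obtain ⟨l, -, l1, l2⟩ := hC.exists_simp (⊤ : Submodule ℂ (Tens M 1))
    (fun c hc H => by
      obtain ⟨μ, hμ⟩ := exists_pol_one (hC.ne_zero c hc) 1
      simpa [hμ] using H μ trivial) (y := Sum.elim (z y₀) (p y₀)) fun j => by
      obtain ⟨μ, hμ⟩ := exists_pol_one (hC.ne_zero _ (v0.mem j).1) 1
      exact ⟨μ, trivial, by simpa using hμ ▸ one_ne_zero⟩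
  have l3 : IsSec o (C y₀) 1 (val l) := Pol.isSec (val_mem l)
  have l4 := nzd_of_simp hC l3 l1
  obtain ⟨n, y, hy⟩ := l4.exists_reps hC l3
  have hs := fun i => l1 _ (hy.mem i) (hy.prop i)
  choose γ u hγ hu using fun i => (hs i).exists_loc hC l3
  have hL : ∀ j, Loc o (C y₀) (z y₀ j) fun _ t => σ j (y₀, t) := fun j => by
    have e0 : σ j (y₀, 0) = z y₀ j := (hz j).self_of_nhds
    exact e0 ▸ (hσ j).loc continuousAt_id (e0 ▸ hC.ne_zero _ (v0.mem (.inl j)).1) subset_rfl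
      ((hσ j).mem0.mono fun t ht => ht trivial)
  choose q q1 q2 using fun j => exists_jet_eq (ω j)
  have aL := fun j => (analyticAt_val l _).comp ((hL j).an true)
  obtain ⟨S, hS, s1, -⟩ := h0.exists_jet (a := 1) (fun h => one_ne_zero (congrFun h o))
    (hF.nzd hC hL) (val_mem F) hL (fun j j' h => Sum.inl_injective (v0.inj (.inl j) (.inl j') h))
    (n := fun _ => k) (fun j => by
      obtain ⟨u, h1, -, h2⟩ := hF.ord _ j ((hL j).br true) ((hL j).zero true ▸ Orb.refl _)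
      exact ⟨u, h1, h2⟩) fun j => (aL j).mul (q1 j)
  rw [add_comm] at hS
  have N0 : (k * (∑ i, w i : ℕ) - (∑ i, a i : ℕ) : ℂ) ≠ 0 := sub_ne_zero.2 (by exact_mod_cast hn)
  have F0 : ∀ i, val F (y i) ≠ 0 := fun i => hF.ne _ (hy.mem i) fun j hj =>
    l2 (.inl j) (((Pol.hm (val_mem l)).orb (v0.mem (.inl j)).1 hj).1 (hy.prop i))
  obtain ⟨Φ, D, d0, d1, d2, d3, d4, d5, d6⟩ := h0.reemb hy hs hγ fun i =>
    S (y i) / ((k * (∑ i, w i : ℕ) - (∑ i, a i : ℕ)) * u i 0 * val F (y i))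
  choose δ d6 d7 d8 using d6
  have hR : RE o l Φ D := ⟨d1, d2, d3, d0 ▸ d4⟩
  have a1 : ∀ {c}, val l c ≠ 0 → AnalyticAt ℂ (fun x => Φ (x, c)) 0 := fun hc =>
    (d3 _ hc).1.comp_of_eq (analyticAt_id.prod analyticAt_const) rfl
  obtain ⟨η, e1, e2, e3⟩ := hU.univ ℂ ℂ D id 0 (fun x n => Φ (x, p y₀ n)) d1 d0
    (analyticAt_pi_iff.2 fun n => a1 (l2 (.inr n))) (funext fun n => (d3 _ (l2 (.inr n))).2)
    (eventually_all.2 fun n => ((tendsto_inl (0 : ℂ) _).eventually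
      (d4 _ (v0.mem (.inr n)).1 (l2 (.inr n)))).mono fun x hx => hx (v0.mem (.inr n)).1)
  simp only [id] at e1 e2 e3
  have et : Tendsto η (𝓝 0) (𝓝 y₀) := e2 ▸ e1.continuousAt.tendsto
  have hV' : VFam o D id 0 w (fun x => ξ (η x)) fun x => Sum.elim (z (η x)) (p (η x)) :=
    (VFam.comp (π' := id) (e2 ▸ hV) e1.continuousAt e1 (.of_forall fun _ => rfl)).congr
      (e3.mono fun x hx => hx.1)
  have hσ' : ∀ j, Chart o D id 0 (fun r : ℂ × ℂ => σ j (η r.1, r.2)) fun _ => univ := fun j =>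
    (Chart.comp (π' := id) (e2 ▸ hσ j) e1.continuousAt e1 (.of_forall fun _ => rfl)).congr
      continuousAt_id ((continuousAt_fst.tendsto.eventually e3).mono fun q hq => by rw [hq.1])
  obtain ⟨W, hW, w1, w2⟩ := hR.exists_var (d0 ▸ h0) hV' (e3.mono fun x hx n => by
      rw [e2, ← hx.2]) (fun n => e2 ▸ l2 (.inr n)) (fun j => e2 ▸ l2 (.inl j)) hσ'
    (fun j => et.eventually (hz j)) (d0 ▸ d5) (F := F) (k := k) (by rw [d0, e2]; exact hF)
    (d0 ▸ hy) (d0 ▸ hγ) hu (fun i => ⟨d6 i, d7 i, d8 i⟩) (add_ne ha 1)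
  obtain ⟨G, hG, g1⟩ := h0.div ha l4 l3 (Pol.isSec (sub_mem hS hW)) fun c hc hl => by
    obtain ⟨i, hi⟩ := hy.ex c hc hl
    refine (l1 c hc hl).ld hC l3 (Pol.isSec (sub_mem hS hW))
      (((Pol.hm (sub_mem hS hW)).orb (hy.mem i) hi).2 ?_)
    have := (hu i).2.1
    have := F0 i
    rw [Pi.sub_apply, w1]
    rw [sub_eq_zero]
    field_simp
  obtain ⟨F₁, rfl⟩ := mem_Pol.1 hG
  refine ⟨η, F₁, e1, e2, fun c τ hc => ?_, fun j => ?_⟩
  · have hn := hc.isNode hU.fam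
    have hl : val l c ≠ 0 := fun h => (l1 c hc.mem h).1 hn
    obtain ⟨γ, hγ⟩ := hC.exists_loc hc.mem
    have ht : Tendsto (fun x => (η x, Φ (x, c))) (𝓝 0) (𝓝 (y₀, c)) :=
      et.prodMk_nhds (by simpa [(d3 c hl).2] using (a1 hl).continuousAt.tendsto)
    filter_upwards [ht.eventually (hc.tau_zero hU.fam), e3,
      hR.cross hV' (d0 ▸ hγ) (hγ.isNode_iff.1 hn) hl] with x k1 k2 k3
    exact k1 ⟨_, _, k2.1 ▸ k3⟩
  obtain ⟨r, r1, r2, r3⟩ := w2 j
  have b1 := (analyticAt_val F₁ _).comp (hσ' j).an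
  have b2 := (analyticAt_val F _).comp (hσ' j).an
  have b3 := r3.fun_add ((hasDerivAt_id' (0 : ℂ)).fun_smul (an_jet b1 k).differentiableAt.hasDerivAt)
  simp only [zero_smul, one_smul, zero_add, comp_apply, id, e2] at b3 r2
  have b4 : AnalyticAt ℂ (fun t => val F₁ (σ j (y₀, t))) 0 :=
    (analyticAt_val F₁ _).comp ((hL j).an true)
  have b5 : jet k r + jet k (fun t => val F₁ (σ j (y₀, t))) = ω j := by
    rw [← q2, ← jet_add r1 b4]
    refine (jet_eq_iff (r1.add b4) (q1 j)).2 (Dv.cancel (k := 0) ?_ (aL j)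
      (by simpa [(hL j).zero true] using l2 (.inl j)) ((r1.add b4).sub (q1 j)))
    rw [zero_add]
    refine (s1 j).congr ?_
    filter_upwards [r2, ((hL j).br true).mem] with t k1 k2
    have := g1 _ k2
    simp only [Pi.sub_apply, Pi.mul_apply, Pi.add_apply, comp_apply] at this ⊢
    linear_combination this + k1
  rw [b5] at b3
  refine b3.congr_of_eventuallyEq ?_
  filter_upwards [(tendsto_inl (0 : ℂ) (0 : ℂ)).eventually b1.eventually_analyticAt,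
    (tendsto_inl (0 : ℂ) (0 : ℂ)).eventually b2.eventually_analyticAt] with x k1 k2
  rw [← jet_smul]
  exact jet_add (an_inr k2) (analyticAt_const.fun_mul (an_inr k1))

end Vale.Agent.P269.Base
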