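import Vale.Agent.P269.Base.VFam

/-!
# First order variation of a form against a vector field under a re-embedding
-/

namespace Vale.Agent.P269.Base

open Set Function Topology Filter Holo

set_option linter.unusedSectionVars false

section dx

variable {F : Type*} [NormedAddCommGroup F] [NormedSpace ℂ F] [CompleteSpace F] {E : ℂ × ℂ → F}

/-- The derivative in the first variable at `0`. -/
noncomputable def dx (E : ℂ × ℂ → F) (t : ℂ) : F := deriv (fun x => E (x, t)) 0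

theorem ev_an_inr (h : AnalyticAt ℂ E 0) : ∀ᶠ t in 𝓝 (0 : ℂ), AnalyticAt ℂ E (0, t) :=
  (tendsto_inr (0 : ℂ) (0 : ℂ)).eventually h.eventually_analyticAt

theorem an_inl {x t : ℂ} (h : AnalyticAt ℂ E (x, t)) : AnalyticAt ℂ (fun y => E (y, t)) x :=
  h.comp_of_eq (analyticAt_id.prod analyticAt_const) rfl

theorem an_inr {x t : ℂ} (h : AnalyticAt ℂ E (x, t)) : AnalyticAt ℂ (fun s => E (x, s)) t :=
  h.comp_of_eq (analyticAt_const.prod analyticAt_id) rfl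

theorem hasDerivAt_dx {t : ℂ} (h : AnalyticAt ℂ E (0, t)) :
    HasDerivAt (fun x => E (x, t)) (dx E t) 0 :=
  (an_inl h).differentiableAt.hasDerivAt

theorem exists_dx (h : AnalyticAt ℂ E 0) : ∃ G : ℂ × ℂ → F, AnalyticAt ℂ G 0 ∧
    (∀ q, E q = E (0, q.2) + q.1 • G q) ∧ ∀ᶠ t in 𝓝 0, dx E t = G (0, t) := by
  obtain ⟨G, h1, h2⟩ := exists_div (w := (0 : ℂ)) h
  refine ⟨G, h1, h2, ?_⟩
  filter_upwards [ev_an_inr h1] with t ht
  have := ((hasDerivAt_id' (0 : ℂ)).fun_smul (hasDerivAt_dx ht)).const_add (E (0, t))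
  rw [dx, show (fun x => E (x, t)) = fun x => E (0, t) + x • G (x, t) from funext fun x => h2 _,
    this.deriv]
  simp

theorem an_dx (h : AnalyticAt ℂ E 0) : AnalyticAt ℂ (dx E) 0 := by
  obtain ⟨G, h1, -, h2⟩ := exists_dx h
  exact (an_inr h1).congr (h2.mono fun _ => Eq.symm)

theorem hasDerivAt_chain {ψ : ℂ → ℂ} {t v : ℂ} (h : AnalyticAt ℂ E (0, t)) (hψ : HasDerivAt ψ v 0)
    (h0 : ψ 0 = t) :
    HasDerivAt (fun x => E (x, ψ x)) (dx E t + v • deriv (fun s => E (0, s)) t) 0 := by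
  have := h.differentiableAt.hasFDerivAt.comp_hasDerivAt_of_eq (0 : ℂ)
    ((hasDerivAt_id' (0 : ℂ)).prodMk hψ) (by rw [h0])
  rw [fderiv_prod_apply h, fderiv_eq_smul, fderiv_eq_smul, one_smul] at this
  exact this

theorem hasDerivAt_jet {E : ℂ × ℂ → ℂ} (h : AnalyticAt ℂ E 0) (k : ℕ) :
    HasDerivAt (fun x => jet k fun s => E (x, s)) (jet k (dx E)) 0 := by
  obtain ⟨G, h1, h2, h3⟩ := exists_dx h
  have := ((hasDerivAt_id' (0 : ℂ)).fun_smul
    (an_jet h1 k).differentiableAt.hasDerivAt).const_add (jet k fun s => E (0, s))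
  rw [jet_congr h3]
  simp only [zero_smul, one_smul, zero_add] at this
  refine this.congr_of_eventuallyEq ?_
  filter_upwards [(tendsto_inl (0 : ℂ) (0 : ℂ)).eventually h1.eventually_analyticAt] with x hx
  rw [← jet_smul, ← jet_add (an_inr h) (analyticAt_const.fun_mul (an_inr hx))]
  exact congrArg _ (funext fun s => h2 _)

theorem an_dt {P : Type*} [NormedAddCommGroup P] [NormedSpace ℂ P] {δ : P × ℂ → F} {p : P}
    (h : AnalyticAt ℂ δ (p, 0)) : AnalyticAt ℂ (fun q => deriv (fun s => δ (q, s)) 0) p := by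
  have h1 : AnalyticAt ℂ (fun q => fderiv ℂ δ (q, 0) (0, 1)) p :=
    an_apply (h.fderiv.comp_of_eq (analyticAt_id.prod analyticAt_const) rfl) analyticAt_const
  refine h1.congr ?_
  filter_upwards [(tendsto_inl p (0 : ℂ)).eventually h.eventually_analyticAt] with q hq
  rw [← fderiv_inr hq, fderiv_eq_smul, one_smul]

end dx

variable {ι : Type} [Fintype ι] [DecidableEq ι] {M : ι → ℕ} {o : ι} {a b w : ι → ℕ} {g : ℤ}
  {m : ι → ℤ} {β κ ν : Type} [Fintype β] [Fintype κ] [Fintype ν] {l : Tens M b}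
  {Φ : ℂ × V M → V M} {D : ℂ → Set (V M)} {γ : ℂ → V M} {δ : ℂ × ℂ → V M} {e : ℂ}
  {ξ : ℂ → V M → V M} {φ : ℂ × ℂ → ℂ}

theorem chr_const (a : ι → ℕ) (r : ℂ) : chr a (fun _ => r) = r ^ ∑ i, a i :=
  Finset.prod_pow_eq_pow_sum _ _ _

theorem const_smul_eq (r : ℂ) (c : V M) : (fun _ : ι => r) • c = r • c := rfl

/-- The family `D` is the image of `D 0` under the rational maps `Φ (x, ·)`. -/
structure RE (o : ι) (l : Tens M b) (Φ : ℂ × V M → V M) (D : ℂ → Set (V M)) : Prop where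
  fam : LocFam o D id 0
  hom : ∀ x c, ∀ s : ι → ℂ, (∀ i, s i ≠ 0) → Φ (x, s • c) = s • Φ (x, c)
  an : ∀ c, val l c ≠ 0 → AnalyticAt ℂ Φ (0, c) ∧ Φ (0, c) = c
  mem : ∀ c ∈ D 0, val l c ≠ 0 → ∀ᶠ q : ℂ × V M in 𝓝 (0, c), q.2 ∈ D 0 → Φ q ∈ D q.1

/-- A holomorphic lift of the family of images of the branch `γ`. -/
structure Lift (Φ : ℂ × V M → V M) (D : ℂ → Set (V M)) (γ : ℂ → V M) (e : ℂ) (δ : ℂ × ℂ → V M) :
    Prop where
  an : AnalyticAt ℂ δ 0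
  zero : ∀ᶠ t in 𝓝 0, δ (0, t) = γ t
  ev : ∀ᶠ q : ℂ × ℂ in 𝓝 0, δ q ∈ D q.1 ∧
    (q.2 ≠ 0 → q.2 • Φ (q.1, γ q.2) = (q.2 - q.1 * e) • δ q)

theorem RE.lift (h : RE o l Φ D) (hγ : IsBranch o (D 0) γ) (hl : val l (γ 0) ≠ 0) :
    Lift Φ D γ 0 fun q => Φ (q.1, γ q.2) := by
  have h1 : AnalyticAt ℂ (fun q : ℂ × ℂ => (q.1, γ q.2)) 0 :=
    analyticAt_fst.prod (hγ.holo.comp_of_eq analyticAt_snd rfl)
  refine ⟨(h.an _ hl).1.comp_of_eq h1 rfl, ?_, ?_⟩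
  · filter_upwards [((analyticAt_val l _).comp hγ.holo).continuousAt.eventually_ne hl] with t ht
    exact (h.an _ ht).2
  · filter_upwards [h1.continuousAt.tendsto.eventually (h.mem _ hγ.mem.self_of_nhds hl),
      continuousAt_snd.tendsto.eventually hγ.mem] with q k1 k2
    exact ⟨k1 k2, fun _ => by simp⟩

theorem _root_.Vale.Agent.P269.IsBranch.congr' {C : Set (V M)} {γ' : ℂ → V M} (h : IsBranch o C γ)
    (e : γ =ᶠ[𝓝 0] γ') : IsBranch o C γ' :=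
  ⟨h.holo.congr e, (h.mem.and e).mono fun _ ht => ht.2 ▸ ht.1, by
    rw [← e.self_of_nhds, ← e.deriv_eq]; exact h.imm⟩

theorem Lift.along {z : ℂ → κ → V M} (h : Lift Φ D γ e δ) (hγ : IsBranch o (D 0) γ)
    (hf : LocFam o D id 0) (hV : VFam o D id 0 w ξ z) : ∃ φ : ℂ × ℂ → ℂ, AnalyticAt ℂ φ 0 ∧
      ∀ᶠ q : ℂ × ℂ in 𝓝 0, (IsBranch o (D q.1) fun s => δ (q.1, q.2 + s)) ∧
        Along (ξ q.1) (fun s => δ (q.1, q.2 + s)) fun s => φ (q.1, q.2 + s) :=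
  hV.along hf h.an (hγ.congr' (h.zero.mono fun _ => Eq.symm)) (h.ev.mono fun _ hq => hq.1)

/-- The ratio of the vector field on `D x` and of the image of the vector field on `D 0`. -/
noncomputable def rat (Φ : ℂ × V M → V M) (ξ : ℂ → V M → V M) (x : ℂ) (c : V M) : ℂ :=
  Classical.epsilon fun r => ∃ α : ι → ℂ, ξ x (Φ (x, c)) =
    α • Φ (x, c) + r • fderiv ℂ (fun y => Φ (x, y)) c (ξ 0 c)

theorem RE.rat_eq (h : RE o l Φ D) {x : ℂ} (hγ : AnalyticAt ℂ γ 0)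
    (hΦ : AnalyticAt ℂ Φ (x, γ 0)) {C : Set (V M)} (hb : IsBranch o C fun t => Φ (x, γ t))
    {φ₀ φ₁ : ℂ → ℂ} (h0 : Along (ξ 0) γ φ₀) (h1 : Along (ξ x) (fun t => Φ (x, γ t)) φ₁)
    (hn : φ₀ 0 ≠ 0) : rat Φ ξ x (γ 0) = φ₁ 0 / φ₀ 0 := by
  obtain ⟨α, k0⟩ := h0.2.self_of_nhds
  obtain ⟨α', k1⟩ := h1.2.self_of_nhds
  have a1 : AnalyticAt ℂ (fun y => Φ (x, y)) (γ 0) :=
    hΦ.comp_of_eq (analyticAt_const.prod analyticAt_id) rfl
  have a2 : fderiv ℂ (fun y => Φ (x, y)) (γ 0) (α • γ 0) = α • Φ (x, γ 0) := by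
    have b1 : ∀ c : V M, HasDerivAt (fun t : ℂ => (1 + t • α) • c) (α • c) 0 := fun c => by
      simpa using hasDerivAt_smul' (((hasDerivAt_id' (0 : ℂ)).smul_const α).const_add 1)
        (hasDerivAt_const (0 : ℂ) c)
    refine (a1.differentiableAt.hasFDerivAt.comp_hasDerivAt_of_eq (0 : ℂ) (b1 _) (by simp)).unique
      ((b1 _).congr_of_eventuallyEq ?_)
    have : ∀ᶠ t : ℂ in 𝓝 0, ∀ i, (1 + t • α) i ≠ 0 := eventually_all.2 fun i =>
      ContinuousAt.eventually_ne (by fun_prop) (by simp)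
    filter_upwards [this] with t ht
    exact h.hom _ _ _ ht
  have a3 : fderiv ℂ (fun y => Φ (x, y)) (γ 0) (ξ 0 (γ 0)) =
      α • Φ (x, γ 0) + φ₀ 0 • deriv (fun t => Φ (x, γ t)) 0 := by
    rw [k0, map_add, a2, map_smul]
    exact congrArg _ (congrArg _ (a1.differentiableAt.hasFDerivAt.comp_hasDerivAt (0 : ℂ)
      hγ.differentiableAt.hasDerivAt).deriv.symm)
  obtain ⟨α'', k2⟩ : ∃ α : ι → ℂ, ξ x (Φ (x, γ 0)) = α • Φ (x, γ 0) +
      rat Φ ξ x (γ 0) • fderiv ℂ (fun y => Φ (x, y)) (γ 0) (ξ 0 (γ 0)) :=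
    Classical.epsilon_spec (p := fun r => ∃ α : ι → ℂ, ξ x (Φ (x, γ 0)) =
      α • Φ (x, γ 0) + r • fderiv ℂ (fun y => Φ (x, y)) (γ 0) (ξ 0 (γ 0)))
    ⟨φ₁ 0 / φ₀ 0, α' - (φ₁ 0 / φ₀ 0) • α, by
      rw [a3, k1, smul_add, smul_smul, div_mul_cancel₀ _ hn, sub_smul, smul_assoc]; abel⟩
  rw [eq_div_iff hn]
  refine coef_unique hb.imm (α := α'' + rat Φ ξ x (γ 0) • α) (α' := α') ?_
  rw [← k1, k2, a3, smul_add, smul_smul, add_smul, smul_assoc, add_assoc]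

variable {z : ℂ → κ → V M}

theorem RE.punct (h : RE o l Φ D) (hV : VFam o D id 0 w ξ z) (hγ : IsBranch o (D 0) γ)
    (hδ : Lift Φ D γ e δ) (hl : ∀ᶠ t in 𝓝[≠] 0, val l (γ t) ≠ 0)
    (hφ : ∀ᶠ q : ℂ × ℂ in 𝓝 0, (IsBranch o (D q.1) fun s => δ (q.1, q.2 + s)) ∧
      Along (ξ q.1) (fun s => δ (q.1, q.2 + s)) fun s => φ (q.1, q.2 + s)) :
    ∀ᶠ t in 𝓝[≠] 0, φ (0, t) ≠ 0 ∧ ∀ s : ι → ℂ, (∀ i, s i ≠ 0) → ∀ᶠ x in 𝓝 0,
      Φ (x, s • γ t) = s • (1 - x * e / t) • δ (x, t) ∧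
      rat Φ ξ x (s • γ t) = (1 - x * e / t) ^ (∑ i, w i) * φ (x, t) / φ (0, t) := by
  have v0 := hV.vf.self_of_nhds
  filter_upwards [self_mem_nhdsWithin, hl,
    v0.eventually_ne hφ.self_of_nhds.1 hφ.self_of_nhds.2, mem_nhdsWithin_of_mem_nhds
      (((tendsto_inr (0 : ℂ) (0 : ℂ)).eventually (hφ.and hδ.ev).eventually_nhds).and
        ((hγ.nearby h.fam.nod).and hδ.zero.eventually_nhds))] with t t0 k1 k2 ⟨k3, k4, k5⟩
  simp only [Prod.fst_zero, Prod.snd_zero, zero_add] at k2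
  refine ⟨k2, fun s hs => ?_⟩
  have hb := k4 s hs
  have k6 : val l (s • γ (t + 0)) ≠ 0 := by
    rw [val_smul, add_zero]; exact mul_ne_zero (chr_ne_zero hs) k1
  obtain ⟨φ', -, k7⟩ := (h.lift hb k6).along hb h.fam hV
  have tt : Tendsto (fun u => t + u) (𝓝 0) (𝓝 t) := Continuous.tendsto' (by fun_prop) _ _ (by simp)
  have a0 : Along (ξ 0) (fun u => s • γ (t + u)) fun u => chr w s * φ (0, t + u) :=
    (k3.self_of_nhds.1.2.smul v0.hom k3.self_of_nhds.1.1 hs).congr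
      ((tt.eventually k5).mono fun u hu => congrArg _ hu) .rfl
  have θ0 : ∀ᶠ x : ℂ in 𝓝 0, 1 - x * e / t ≠ 0 := ContinuousAt.eventually_ne (by fun_prop) (by simp)
  filter_upwards [(tendsto_inl (0 : ℂ) t).eventually k3.eventually_nhds, hV.vf, θ0,
    (tendsto_inl (0 : ℂ) (0 : ℂ)).eventually k7,
    (tendsto_inl (0 : ℂ) _).eventually (h.an _ k6).1.eventually_analyticAt] with x m1 m2 m3 m4 m5
  have m6 : ∀ᶠ u in 𝓝 0, Φ (x, s • γ (t + u)) =
      ((1 - x * e / (t + u)) • s) • δ (x, t + u) := by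
    filter_upwards [((tendsto_inr x t).comp tt).eventually m1, tt.eventually_ne t0] with u n1 n2
    have n3 := n1.2.2 n2
    simp only [comp_apply] at n3
    rw [h.hom _ _ _ hs, smul_assoc, smul_comm _ s, one_sub_div n2, div_eq_inv_mul, mul_smul, ← n3,
      inv_smul_smul₀ n2]
  have a1 := m1.self_of_nhds.1.2.reparam m2.hom m1.self_of_nhds.1.1
    (s := fun u => (1 - x * e / (t + u)) • s) (ψ := fun u => u)
    ((analyticAt_const.sub (analyticAt_const.div (analyticAt_const.add analyticAt_id)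
      (by simpa using t0))).smul analyticAt_const) analyticAt_id
    (fun i => by simpa using ⟨m3, hs i⟩) rfl (by simp) m6
  have a2 := h.rat_eq hb.holo m5 (by simpa using m4.1) a0 a1
    (mul_ne_zero (chr_ne_zero hs) (by simpa using k2))
  simp only [add_zero] at a2
  refine ⟨by simpa [smul_comm s] using m6.self_of_nhds, ?_⟩
  rw [a2, show (1 - x * e / t) • s = (fun _ => 1 - x * e / t) * s from rfl, chr_mul, chr_const]
  have := chr_ne_zero (a := w) hs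
  simp only [deriv_id'', div_one]
  field_simp

/-- The first order variation. -/
noncomputable def vari (l : Tens M b) (Φ : ℂ × V M → V M) (ξ : ℂ → V M → V M) (F : Tens M a)
    (k : ℕ) (c : V M) : ℂ :=
  val l c * deriv (fun x => val F (Φ (x, c)) - val F c * rat Φ ξ x c ^ k) 0

theorem RE.vari_eq (h : RE o l Φ D) (hV : VFam o D id 0 w ξ z) (hγ : IsBranch o (D 0) γ)
    (hδ : Lift Φ D γ e δ) (hl : ∀ᶠ t in 𝓝[≠] 0, val l (γ t) ≠ 0) (ha : AnalyticAt ℂ φ 0)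
    (hφ : ∀ᶠ q : ℂ × ℂ in 𝓝 0, (IsBranch o (D q.1) fun s => δ (q.1, q.2 + s)) ∧
      Along (ξ q.1) (fun s => δ (q.1, q.2 + s)) fun s => φ (q.1, q.2 + s)) (F : Tens M a) (k : ℕ) :
    ∀ᶠ t in 𝓝[≠] 0, ∀ s : ι → ℂ, (∀ i, s i ≠ 0) → vari l Φ ξ F k (s • γ t) =
      chr (a + b) s * (val l (γ t) * (((k * (∑ i, w i : ℕ) - (∑ i, a i : ℕ)) * e / t -
        k * dx φ t / φ (0, t)) * val F (γ t) + dx (fun q => val F (δ q)) t)) := by
  filter_upwards [self_mem_nhdsWithin, h.punct hV hγ hδ hl hφ, mem_nhdsWithin_of_mem_nhds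
    ((ev_an_inr ha).and ((ev_an_inr ((analyticAt_val F _).comp hδ.an)).and hδ.zero))]
    with t t0 ⟨k1, k2⟩ ⟨k3, k4, k5⟩ s hs
  have θ : HasDerivAt (fun x : ℂ => 1 - x * e / t) (-(e / t)) 0 := by
    simpa using (((hasDerivAt_id' (0 : ℂ)).mul_const e).div_const t).const_sub 1
  have d := (((θ.fun_pow (∑ i, a i)).fun_mul (hasDerivAt_dx k4)).const_mul (chr a s)).fun_sub
    (((((θ.fun_pow (∑ i, w i)).fun_mul (hasDerivAt_dx k3)).div_const (φ (0, t))).fun_pow k).const_mul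
      (chr a s * val F (γ t)))
  rw [vari, (d.congr_of_eventuallyEq ((k2 s hs).mono fun x hx => by
    simp only [hx.1, hx.2, val_smul, ← const_smul_eq, chr_const, comp_apply])).deriv, val_smul,
    chr_add]
  have t1 : t ≠ 0 := t0
  simp only [comp_apply, k5, zero_mul, zero_div, sub_zero, one_pow, one_mul, mul_one, div_self k1]
  change _ = _ * (_ * (_ + dx (val F ∘ δ) t))
  field_simp
  ring

/-- The first order variation along `γ` is the holomorphic function `r`. -/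
def Ex (l : Tens M b) (Φ : ℂ × V M → V M) (ξ : ℂ → V M → V M) (F : Tens M a) (k : ℕ) (γ : ℂ → V M)
    (r : ℂ → ℂ) : Prop :=
  AnalyticAt ℂ r 0 ∧ ∀ᶠ t in 𝓝[≠] 0, ∀ s : ι → ℂ, (∀ i, s i ≠ 0) →
    vari l Φ ξ F k (s • γ t) = chr (a + b) s * r t

variable (F : Tens M a) (k : ℕ)

theorem RE.ex_reg (h : RE o l Φ D) (hV : VFam o D id 0 w ξ z) (hγ : IsBranch o (D 0) γ)
    (hδ : Lift Φ D γ e δ) (hl : ∀ᶠ t in 𝓝[≠] 0, val l (γ t) ≠ 0) (hn : ¬IsNode o (D 0) (γ 0))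
    (hz : ∀ j, ¬Orb (z 0 j) (γ 0)) {u : ℂ → ℂ} (hu : AnalyticAt ℂ u 0)
    (he : ∀ᶠ t in 𝓝 0, val l (γ t) * e = t * u t) : ∃ r, Ex l Φ ξ F k γ r ∧ (val l (γ 0) = 0 →
      r 0 = (k * (∑ i, w i : ℕ) - (∑ i, a i : ℕ)) * u 0 * val F (γ 0)) := by
  obtain ⟨φ, h1, h2⟩ := hδ.along hγ h.fam hV
  have e0 : δ (0, 0 + 0) = γ 0 := by simpa using hδ.zero.self_of_nhds
  have h3 : φ (0, 0) ≠ 0 := by
    simpa using hV.vf.self_of_nhds.ne_zero h2.self_of_nhds.1 h2.self_of_nhds.2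
      (fun k => hn (e0 ▸ k)) fun j k => hz j (e0 ▸ k)
  have h4 := (analyticAt_val F _).comp hγ.holo
  refine ⟨fun t => (k * (∑ i, w i : ℕ) - (∑ i, a i : ℕ)) * u t * val F (γ t) + val l (γ t) *
    (dx (fun q => val F (δ q)) t - k * dx φ t / φ (0, t) * val F (γ t)),
    ⟨((analyticAt_const.mul hu).mul h4).add (((analyticAt_val l _).comp hγ.holo).mul
      ((an_dx ((analyticAt_val F _).comp hδ.an)).sub
        (((analyticAt_const.mul (an_dx h1)).div (an_inr h1) h3).mul h4))), ?_⟩,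
    fun h0 => by simp [h0]⟩
  filter_upwards [h.vari_eq hV hγ hδ hl h1 h2 F k, mem_nhdsWithin_of_mem_nhds he,
    self_mem_nhdsWithin] with t k1 k2 t0 s hs
  have t1 : t ≠ 0 := t0
  rw [k1 s hs, show u t = val l (γ t) * e / t by rw [k2]; field_simp]
  ring

theorem RE.ex_van (h : RE o l Φ D) (hV : VFam o D id 0 w ξ z) (hγ : IsBranch o (D 0) γ)
    (hl : val l (γ 0) ≠ 0)
    (hz : ∀ᶠ x in 𝓝 0, IsNode o (D x) (Φ (x, γ 0)) ∨ ∃ j, Orb (z x j) (Φ (x, γ 0))) :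
    ∃ U : ℂ × ℂ → ℂ, AnalyticAt ℂ U 0 ∧
      (∀ᶠ x in 𝓝 0, Along (ξ x) (fun t => Φ (x, γ t)) fun t => t * U (x, t)) ∧
      Ex l Φ ξ F k γ fun t => val l (γ t) *
        (dx (fun q => val F (Φ (q.1, γ q.2))) t - k * dx U t / U (0, t) * val F (γ t)) := by
  have hδ := h.lift hγ hl
  obtain ⟨φ, h1, h2⟩ := hδ.along hγ h.fam hV
  obtain ⟨G, h3, h4⟩ := exists_div (f := fun q : ℂ × ℂ => φ q.swap) (w := (0 : ℂ))
    (h1.comp_of_eq (analyticAt_snd.prod analyticAt_fst) rfl)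
  have h5 : AnalyticAt ℂ (fun q : ℂ × ℂ => G q.swap) 0 :=
    h3.comp_of_eq (analyticAt_snd.prod analyticAt_fst) rfl
  have h6 : ∀ᶠ x in 𝓝 0, (Along (ξ x) (fun t => Φ (x, γ t)) fun t => φ (x, t)) ∧
      (φ (x, 0) = 0 ∧ deriv (fun t => φ (x, t)) 0 ≠ 0) := by
    filter_upwards [(tendsto_inl (0 : ℂ) (0 : ℂ)).eventually h2, hV.vf, hz] with x k1 k2 k3
    simp only [zero_add] at k1
    exact ⟨k1.2, k2.eq_zero k1.1 k1.2 k3⟩
  have h7 : ∀ᶠ x in 𝓝 0, ∀ t, φ (x, t) = t * G (t, x) := by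
    filter_upwards [h6] with x hx t
    simpa [hx.2.1] using h4 (t, x)
  have h8 : G (0, 0) ≠ 0 := by
    have := h6.self_of_nhds.2.2
    rw [funext h7.self_of_nhds, ((hasDerivAt_id' (0 : ℂ)).fun_mul (hasDerivAt_dx h3)).deriv] at this
    simpa using this
  have h9 := (analyticAt_val l _).comp hγ.holo
  refine ⟨fun q => G q.swap, h5, (h6.and h7).mono fun x hx => ?_,
    h9.mul ((an_dx ((analyticAt_val F _).comp hδ.an)).sub (((analyticAt_const.mul (an_dx h5)).div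
      (an_inr h5) h8).mul ((analyticAt_val F _).comp hγ.holo))), ?_⟩
  · exact hx.1.1.congr .rfl (.of_forall hx.2)
  filter_upwards [h.vari_eq hV hγ hδ (mem_nhdsWithin_of_mem_nhds
    (h9.continuousAt.eventually_ne hl)) h1 h2 F k, self_mem_nhdsWithin] with t k1 t0 s hs
  have t1 : t ≠ 0 := t0
  have k2 : dx φ t = t * dx (fun q => G q.swap) t := by
    rw [dx, dx, ← deriv_const_mul_field]
    exact EventuallyEq.deriv_eq (h7.mono fun x hx => hx t)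
  rw [k1 s hs, k2, h7.self_of_nhds, mul_left_comm (k : ℂ) t, mul_div_mul_left _ _ t1]
  simp only [Prod.swap_prod_mk]
  ring

theorem RE.ex_sig (h : RE o l Φ D) (hV : VFam o D id 0 w ξ z) {σ : ℂ × ℂ → V M}
    (hσ : Chart o D id 0 σ fun _ => univ) {j : κ} (hz : ∀ᶠ x in 𝓝 0, σ (x, 0) = z x j)
    (hl : val l (σ 0) ≠ 0)
    (hc : Chart o D id 0 (fun r : ℂ × ℂ => Φ (r.1, σ (0, r.2))) fun _ => univ) {v : ℂ → ℂ}
    (hv : AnalyticAt ℂ v 0) (hF : ∀ᶠ t in 𝓝 0, val F (σ (0, t)) = t ^ k * v t) :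
    ∃ r, AnalyticAt ℂ r 0 ∧
      Ex l Φ ξ F k (fun t => σ (0, t)) (fun t => val l (σ (0, t)) * r t) ∧
      HasDerivAt (fun x => jet k fun s => val F (σ (x, s))) (jet k r) 0 := by
  have v0 := hV.vf.self_of_nhds
  have n0 : ∀ i, σ (0, 0) i ≠ 0 := h.fam.nod.ne_zero _ (hσ.mem0.self_of_nhds trivial)
  have hγ : IsBranch o (D 0) fun t => σ (0, t) := hσ.isBranch0 (n0 o)
  have hδ := h.lift hγ hl
  obtain ⟨φ, h1, h2⟩ := hδ.along hγ h.fam hV
  have e0 := hδ.zero.self_of_nhds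
  obtain ⟨u, u1, u2, u3⟩ := v0.van _ h2.self_of_nhds.1 (.inr ⟨j, by
    simpa [e0, ← hz.self_of_nhds] using Orb.refl _⟩)
  have u4 : ∀ᶠ t in 𝓝 0, φ (0, t) = t * u t :=
    (h2.self_of_nhds.2.unique u3 h2.self_of_nhds.1).mono fun t ht => by simpa using ht
  obtain ⟨ρ, r1, -, r2, r3⟩ := hc.exists_mem_iff continuousAt_id (by simpa [e0] using n0) h.fam.cone
  simp only [id, e0] at r1 r2 r3
  have a1 : AnalyticAt ℂ (fun q : ℂ × ℂ => (q.1, σ q)) 0 := analyticAt_fst.prod hσ.an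
  have a2 := r1.comp_of_eq a1 rfl
  obtain ⟨S, hS⟩ : ∃ S : ℂ × ℂ → ι → ℂ, S = fun q => (ρ (q.1, σ q)).1 := ⟨_, rfl⟩
  obtain ⟨ψ, hψ⟩ : ∃ ψ : ℂ × ℂ → ℂ, ψ = fun q => (ρ (q.1, σ q)).2 := ⟨_, rfl⟩
  have a3 : AnalyticAt ℂ S 0 := hS ▸ analyticAt_fst.comp a2
  have a4 : AnalyticAt ℂ ψ 0 := hψ ▸ analyticAt_snd.comp a2
  have a5 : ∀ᶠ q in 𝓝 (0 : ℂ × ℂ), σ q = S q • Φ (q.1, σ (0, ψ q)) := by
    filter_upwards [a1.continuousAt.tendsto.eventually r3, hσ.mem] with q k1 k2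
    rw [hS, hψ]
    exact (k1.1 (k2 trivial)).2
  have a6 : ∀ᶠ t in 𝓝 0, S (0, t) = 1 ∧ ψ (0, t) = t := by
    filter_upwards [((tendsto_inr (0 : ℂ) _).comp (tendsto_inr (1 : ι → ℂ) (0 : ℂ))).eventually r2,
      hδ.zero] with t k1 k2
    simp only [comp_apply, one_smul, k2] at k1
    simp [hS, hψ, k1]
  have p0 : ψ (0, 0) = 0 := a6.self_of_nhds.2
  have a7 : dx φ 0 + dx ψ 0 * u 0 = 0 := by
    have b1 := hasDerivAt_chain (t := 0) h1 (hasDerivAt_dx a4) p0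
    rw [EventuallyEq.deriv_eq u4,
      ((hasDerivAt_id' (0 : ℂ)).fun_mul u1.differentiableAt.hasDerivAt).deriv] at b1
    have b2 : Tendsto (fun x => (x, ψ (x, 0))) (𝓝 0) (𝓝 (0, 0)) := by
      simpa [p0] using (analyticAt_id.prod (an_inl (t := 0) a4)).continuousAt.tendsto
    simpa using b1.unique ((hasDerivAt_const (0 : ℂ) (0 : ℂ)).congr_of_eventuallyEq (by
      filter_upwards [b2.eventually h2, hV.vf, hz, h.fam.ne_zero,
        (tendsto_inl (0 : ℂ) (0 : ℂ)).eventually a5] with x k1 k2 k3 k4 k5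
      simpa using (k2.eq_zero k1.1 k1.2 (.inr ⟨j, Orb.symm (.of_smul (k4 _ (k2.mem j).1)
        (by simpa [← k3] using k5))⟩)).1))
  have c1 := (analyticAt_val F _).comp hδ.an
  have c2 := (analyticAt_val l _).comp hγ.holo
  have c3 : AnalyticAt ℂ (fun t => dx (fun q : ℂ × ℂ => val F (Φ (q.1, σ (0, q.2)))) t -
      k * t ^ (k - 1) * v t * (dx φ t / u t)) 0 := (an_dx c1).sub
    (((analyticAt_const.mul (analyticAt_id.pow _)).mul hv).mul ((an_dx h1).div u1 u2))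
  have pw : ∀ t : ℂ, k * t ^ (k - 1) * t = k * t ^ k := fun t => by
    cases k
    · simp
    · simp [pow_succ, mul_assoc]
  refine ⟨_, c3, ⟨c2.mul c3, ?_⟩, ?_⟩
  · filter_upwards [h.vari_eq hV hγ hδ (mem_nhdsWithin_of_mem_nhds
      (c2.continuousAt.eventually_ne hl)) h1 h2 F k, self_mem_nhdsWithin,
      mem_nhdsWithin_of_mem_nhds (u4.and hF)] with t k1 t0 ⟨k2, k3⟩ s hs
    have t1 : t ≠ 0 := t0
    rw [k1 s hs, k2, k3, show (k : ℂ) * t ^ (k - 1) = k * t ^ k / t by rw [← pw]; field_simp]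
    ring
  have c4 := (analyticAt_val F _).comp hσ.an
  have c5 : AnalyticAt ℂ (fun q => chr a (S q)) 0 := (analyticAt_chr _).comp a3
  obtain ⟨G, g1, g2⟩ := Dv.one ((an_dx a4).add ((an_dx h1).div u1 u2)) (by
    simp only [Pi.add_apply, Pi.div_apply]
    field_simp
    linear_combination a7)
  refine (jet_eq_iff (an_dx c4) c3).2 ⟨fun t => dx (fun q => chr a (S q)) t * v t +
    dx ψ t * deriv v t + k * v t * G t, (((an_dx c5).mul hv).add ((an_dx a4).mul hv.deriv)).add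
      ((analyticAt_const.mul hv).mul g1), ?_⟩ ▸ hasDerivAt_jet c4 k
  filter_upwards [ev_an_inr c1, ev_an_inr c5, ev_an_inr a4, a6, hδ.zero, hF.eventually_nhds, g2,
    (tendsto_inr (0 : ℂ) (0 : ℂ)).eventually a5.eventually_nhds, hδ.zero.eventually_nhds,
    hv.eventually_analyticAt] with t k1 k2 k3 ⟨k4, k5⟩ k6 k7 k8 k9 k10 k11
  have d1 := (hasDerivAt_dx k2).fun_mul (hasDerivAt_chain k1 (hasDerivAt_dx k3) k5)
  have d2 : deriv (fun s => val F (Φ (0, σ (0, s)))) t = k * t ^ (k - 1) * v t + t ^ k * deriv v t := by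
    rw [EventuallyEq.deriv_eq ((k10.and k7).mono fun s hs => (congrArg _ hs.1).trans hs.2)]
    exact ((hasDerivAt_pow k t).fun_mul k11.differentiableAt.hasDerivAt).deriv
  rw [dx, (d1.congr_of_eventuallyEq (((tendsto_inl (0 : ℂ) t).eventually k9).mono fun x hx => by
    simp only [comp_apply, hx, val_smul])).deriv]
  simp only [comp_apply, k4, k5, k6, d2, k7.self_of_nhds, chr_one, smul_eq_mul, Pi.add_apply,
    Pi.div_apply] at k8 ⊢
  change _ * _ + 1 * (dx (fun q : ℂ × ℂ => val F (Φ (q.1, σ (0, q.2)))) t + _) - _ = _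
  linear_combination (k * t ^ (k - 1) * v t) * k8 + v t * G t * pw t

end Vale.Agent.P269.Base
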