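import Vale.Agent.P269.Base.Sec

/-!
# The pencil trick and the Mittag-Leffler lemma
-/

namespace Vale.Agent.P269.Base

open Set Function Topology Filter Holo Module

set_option linter.unusedSectionVars false

variable {ι : Type} [Fintype ι] {M : ι → ℕ} {o : ι} {C : Set (V M)} {c : V M} {a b d e : ι → ℕ}
  {l s f : V M → ℂ} {g : ℤ} {m : ι → ℤ}

/-- Restriction of forms to `C`. -/
noncomputable def resL (C : Set (V M)) (a : ι → ℕ) : Tens M a →ₗ[ℂ] (C → ℂ) :=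
  LinearMap.funLeft ℂ ℂ Subtype.val ∘ₗ valL M a

@[simp] theorem resL_apply (μ : Tens M a) (c : C) : resL C a μ c = val μ c := rfl

/-- The polynomial sections. -/
noncomputable abbrev Hs (C : Set (V M)) (a : ι → ℕ) : Submodule ℂ (C → ℂ) :=
  LinearMap.range (resL C a)

theorem mem_Hs {φ : C → ℂ} : φ ∈ Hs C a ↔ ∃ F ∈ Pol M a, ∀ c : C, φ c = F c :=
  ⟨fun ⟨μ, h⟩ => ⟨_, val_mem μ, fun c => (congrFun h c).symm⟩,
    fun ⟨_, ⟨μ, h⟩, h'⟩ => ⟨μ, funext fun c => (congrFun h c).trans (h' c).symm⟩⟩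

/-- The degree of `O(a)`. -/
def dg (m : ι → ℤ) (a : ι → ℕ) : ℤ := ∑ i, a i * m i

theorem dg_add : dg m (a + b) = dg m a + dg m b := by simp [dg, add_mul, Finset.sum_add_distrib]

theorem dg_single [DecidableEq ι] (i : ι) : dg m (Pi.single i 1) = m i := by
  rw [dg, Finset.sum_eq_single i (fun j _ hj => by simp [hj]) (by simp)]
  simp

theorem dg_smul (n : ℕ) : dg m (n • a) = n * dg m a := by simp [dg, Finset.mul_sum, mul_assoc]

theorem span_eq_Hs : Submodule.span ℂ (range fun (μ : Tens M a) (c : C) => val μ c) = Hs C a :=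
  Submodule.span_eq (Hs C a)

theorem add_ne (ha : a ≠ 0) (b : ι → ℕ) : a + b ≠ 0 := fun h =>
  ha (funext fun i => (Nat.add_eq_zero_iff.1 (congrFun h i)).1)

/-- Multiplication by a form. -/
noncomputable def mulH (hl : l ∈ Pol M b) (h : a + b = d) : Hs C a →ₗ[ℂ] Hs C d :=
  (LinearMap.mulLeft ℂ fun c : C => l c).restrict fun φ hφ => by
    obtain ⟨F, h1, h2⟩ := mem_Hs.1 hφ
    exact mem_Hs.2 ⟨_, Pol.mul' h1 hl h, fun c => by simp [h2, mul_comm]⟩

@[simp] theorem mulH_apply (hl : l ∈ Pol M b) (h : a + b = d) (φ : Hs C a) (c : C) :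
    (mulH hl h φ).1 c = l c * φ.1 c := rfl

theorem Nzd.mulH_injective (hn : Nzd C l) (hl : l ∈ Pol M b) (h : a + b = d) :
    Injective (mulH (C := C) hl h) := (injective_iff_map_eq_zero _).2 fun φ hφ => by
  obtain ⟨F, h1, h2⟩ := mem_Hs.1 φ.2
  exact Subtype.ext (funext fun c => (h2 c).trans (hn.eq_zero (Pol.cont h1).continuousOn
    (fun y hy => h2 ⟨y, hy⟩ ▸ congrFun (congrArg Subtype.val hφ) ⟨y, hy⟩) c c.2))

theorem exists_sep {y : V M} (hc : ∀ i, c i ≠ 0) (hy : ∀ i, y i ≠ 0) (h : ¬Orb c y) :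
    ∃ i, ∃ ℓ : (Fin (M i) → ℂ) →L[ℂ] ℂ, ℓ (c i) = 0 ∧ ℓ (y i) ≠ 0 := by
  by_contra hn
  push Not at hn
  obtain ⟨ζ, hζ⟩ := exists_lin_one hc
  refine h (.of_smul (s := fun i => ζ i (y i)) hy (funext fun i => funext fun k => ?_))
  have := hn i (ContinuousLinearMap.proj k - c i k • ζ i) (by simp [hζ])
  simpa [sub_eq_zero, Pi.smul_apply', mul_comm] using this

theorem eq_sum_single [DecidableEq ι] (v : V M) :
    v = ∑ p : Σ i, Fin (M i), v p.1 p.2 • (Pi.single p.1 (Pi.single p.2 1) : V M) := by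
  funext i k
  rw [Finset.sum_apply, Finset.sum_apply, Finset.sum_eq_single ⟨i, k⟩ (fun p _ hp => ?_) (by simp)]
  · simp
  · obtain ⟨j, k'⟩ := p
    by_cases h : j = i
    · subst h
      have : k ≠ k' := fun e => hp (by rw [e])
      simp [this]
    · simp [Pi.single_eq_of_ne (Ne.symm h)]

/-- Taylor approximation by elements of an algebra containing the coordinates of `N`. -/
theorem exists_taylor (A : Subalgebra ℂ (V M → ℂ)) {N : V M → V M} (hN : AnalyticAt ℂ N c)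
    (h0 : N c = c) (hA : ∀ i k, (fun y => N y i k) ∈ A) : ∀ (r : ℕ) (F : V M → ℂ),
      AnalyticAt ℂ F c → ∃ x ∈ A, ∀ δ : ℂ → V M, AnalyticAt ℂ δ 0 → δ 0 = c →
        AnalyticAt ℂ (fun t => x (δ t)) 0 ∧ Dv r fun t => F (N (δ t)) - x (δ t)
  | 0, F, hF => ⟨0, A.zero_mem, fun δ h1 h2 => ⟨analyticAt_const, .zero
      ((hF.comp_of_eq (hN.comp_of_eq h1 h2) (by simp [h2, h0])).sub analyticAt_const)⟩⟩
  | r + 1, F, hF => by
    classical
    obtain ⟨G, h1, h2⟩ := hadamard (f := fun p : V M × ℂ => F (c + p.1)) (w := 0)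
      (hF.comp_of_eq (analyticAt_const.add analyticAt_fst) (by simp))
    have h3 : ∀ p : Σ i, Fin (M i), AnalyticAt ℂ
        (fun y => G (y - c, 0) (Pi.single p.1 (Pi.single p.2 1))) c := fun p =>
      an_apply (h1.comp_of_eq ((analyticAt_id.sub analyticAt_const).prod analyticAt_const)
        (by simp)) analyticAt_const
    choose x h4 h5 using fun p => exists_taylor A hN h0 hA r _ (h3 p)
    refine ⟨fun y => F c + ∑ p : Σ i, Fin (M i), (N y p.1 p.2 - c p.1 p.2) * x p y, ?_,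
      fun δ h6 h7 => ?_⟩
    · convert A.add_mem (A.algebraMap_mem (F c)) (A.sum_mem (t := Finset.univ) fun p _ =>
        A.mul_mem (A.sub_mem (hA p.1 p.2) (A.algebraMap_mem (c p.1 p.2))) (h4 p)) using 1
      funext y
      simp
    · have h8 : ∀ p : Σ i, Fin (M i), Dv 1 fun t => N (δ t) p.1 p.2 - c p.1 p.2 := fun p =>
        .one ((analyticAt_pi_iff.1 (analyticAt_pi_iff.1 (hN.comp_of_eq h6 h7) p.1) p.2).sub
          analyticAt_const) (by simp [h7, h0])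
      refine ⟨analyticAt_const.add (Finset.analyticAt_fun_sum _ fun p _ =>
        (h8 p).an.mul (h5 p δ h6 h7).1), (Dv.sum Finset.univ fun p _ =>
          (h5 p δ h6 h7).2.mul (h8 p)).congr (.of_forall fun t => ?_)⟩
      have := h2 (N (δ t) - c, 0)
      simp only [add_sub_cancel, add_zero] at this
      rw [this, eq_sum_single (N (δ t) - c), map_sum, ← eq_sum_single, add_sub_add_left_eq_sub,
        ← Finset.sum_sub_distrib]
      refine Finset.sum_congr rfl fun p _ => ?_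
      simp only [map_smul, smul_eq_mul, Pi.sub_apply]
      ring

end Vale.Agent.P269.Base

namespace Vale.Agent.P269.IsCurve

open Set Function Topology Filter Holo Module Base

variable {ι : Type} [Fintype ι] {M : ι → ℕ} {o : ι} {C : Set (V M)} {c : V M} {a b d e : ι → ℕ}
  {l s f : V M → ℂ} {g : ℤ} {m : ι → ℤ}

theorem finrank_Hs (h : IsCurve o g m C) (ha : a ≠ 0) :
    (finrank ℂ (Hs C a) : ℤ) = dg m a + 1 - g := by
  rw [← span_eq_Hs]
  exact h.hilbert a ha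

theorem pol (h : IsCurve o g m C) (ha : a ≠ 0) (hf : IsSec o C a f) :
    ∃ F ∈ Pol M a, ∀ c ∈ C, f c = F c := by
  obtain ⟨μ, hμ⟩ := h.normal a ha f hf
  exact ⟨_, val_mem μ, hμ⟩

theorem div (h : IsCurve o g m C) (ha : a ≠ 0) (hn : Nzd C l) (hl : IsSec o C b l)
    (hs : IsSec o C (a + b) s) (hd : ∀ c ∈ C, l c = 0 → LD C l s c) :
    ∃ q ∈ Pol M a, ∀ c ∈ C, s c = l c * q c := by
  obtain ⟨q, h1, h2⟩ := hn.div h.nod hl hs hd
  obtain ⟨F, h3, h4⟩ := h.pol ha h1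
  exact ⟨F, h3, fun c hc => by rw [h2 c hc, h4 c hc]⟩

/-- The base point free pencil trick. -/
theorem pencil (h : IsCurve o g m C) (ha : a ≠ 0) (hn : Nzd C l) (hl : l ∈ Pol M b)
    {z : V M → ℂ} (hz : z ∈ Pol M e) (h0 : ∀ c ∈ C, l c = 0 → z c ≠ 0)
    (hs : s ∈ Pol M (a + b + e)) :
    ∃ s₁ ∈ Pol M (a + b), ∃ s₂ ∈ Pol M (a + e), ∀ c ∈ C, s c = z c * s₁ c + l c * s₂ c := by
  let Φ := (mulH (C := C) hz (a := a + b) rfl).coprod (mulH hl (add_right_comm a e b))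
  have h1 : LinearMap.ker Φ ≤ LinearMap.range
      ((mulH (C := C) hl (a := a) rfl).prod (-mulH hz rfl)) := by
    rintro ⟨φ, ψ⟩ hp
    obtain ⟨F, h1, h2⟩ := mem_Hs.1 φ.2
    obtain ⟨G, h3, h4⟩ := mem_Hs.1 ψ.2
    have h5 : ∀ y ∈ C, z y * F y + l y * G y = 0 := fun y hy => by
      rw [← h2 ⟨y, hy⟩, ← h4 ⟨y, hy⟩]
      exact congrFun (congrArg Subtype.val hp) ⟨y, hy⟩
    obtain ⟨q, h6, h7⟩ := h.div ha hn (Pol.isSec hl) (Pol.isSec h1) fun c hc h6 =>
      ⟨_, (Pol.an h3 c).neg.div (Pol.an hz c) (h0 c hc h6), by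
        filter_upwards [self_mem_nhdsWithin, mem_nhdsWithin_of_mem_nhds
          ((Pol.cont hz).continuousAt.eventually_ne (h0 c hc h6))] with y hy h7
        rw [Pi.div_apply, Pi.neg_apply]
        field_simp
        linear_combination h5 y hy⟩
    refine ⟨⟨fun c => q c, mem_Hs.2 ⟨q, h6, fun _ => rfl⟩⟩, Prod.ext
      (Subtype.ext (funext fun y => ((h2 y).trans (h7 y y.2)).symm))
      (Subtype.ext (funext fun y => ?_))⟩
    have := hn.eq_zero (f := fun y => z y * q y + G y)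
      (((Pol.cont hz).mul (Pol.cont h6)).add (Pol.cont h3)).continuousOn
      (fun y hy => by linear_combination h5 y hy - z y * h7 y hy) y y.2
    change -(z y * q y) = ψ.1 y
    linear_combination -this - h4 y
  have h2 := (Submodule.finrank_mono h1).trans (LinearMap.finrank_range_le _)
  have h3 := Φ.finrank_range_add_finrank_ker
  rw [finrank_prod] at h3
  have h4 : LinearMap.range Φ = ⊤ := Submodule.eq_top_of_finrank_eq (le_antisymm
    (Submodule.finrank_le _) (by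
      have e1 := h.finrank_Hs ha
      have e2 := h.finrank_Hs (add_ne ha b)
      have e3 := h.finrank_Hs (add_ne ha e)
      have e4 := h.finrank_Hs (add_ne (add_ne ha b) e)
      simp only [dg_add] at e2 e3 e4
      omega))
  obtain ⟨⟨φ, ψ⟩, hp⟩ := LinearMap.range_eq_top.1 h4 ⟨fun c => s c, mem_Hs.2 ⟨s, hs, fun _ => rfl⟩⟩
  obtain ⟨F, h5, h6⟩ := mem_Hs.1 φ.2
  obtain ⟨G, h7, h8⟩ := mem_Hs.1 ψ.2
  refine ⟨F, h5, G, h7, fun y hy => ?_⟩
  rw [← h6 ⟨y, hy⟩, ← h8 ⟨y, hy⟩]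
  exact (congrFun (congrArg Subtype.val hp) ⟨y, hy⟩).symm

theorem ml_one (h : IsCurve o g m C) (ha : a ≠ 0) (hn : Nzd C l) (hl : l ∈ Pol M b)
    {γ : Bool → ℂ → V M} (hγ : Loc o C c γ) {F : V M → ℂ} (hF : AnalyticAt ℂ F c)
    (hb : BH γ (a + b) F) : ∃ S ∈ Pol M (a + b), LD C l (fun y => S y - F y) c ∧
      ∀ y ∈ C, ¬Orb c y → LD C l S y := by
  classical
  by_cases hc : l c = 0
  swap
  · exact ⟨0, zero_mem _, .of_ne (analyticAt_const.sub hF) (Pol.an hl c) hc, fun _ _ _ => .zero⟩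
  obtain ⟨n, z, hz⟩ := hn.exists_reps h.nod (Pol.isSec (o := o) hl)
  choose ζ _ hζ using fun i => exists_lin_ne_zero (fun k => z k i) ⊤ fun k =>
    (SeparatingDual.exists_ne_zero (R := ℂ) (h.ne_zero _ (hz.mem k) i)).imp fun _ h => ⟨trivial, h⟩
  have h1 : ∀ y ∈ C, l y = 0 → ∀ i, ζ i (y i) ≠ 0 := fun y hy h0 i => by
    obtain ⟨k, t, ht, rfl⟩ := hz.ex y hy h0
    rw [Pi.smul_apply', map_smul]
    exact smul_ne_zero (ht i) (hζ i k)
  let Z : V M → ℂ := fun y => ∏ i, ζ i (y i) ^ (a + b) i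
  have hZ : Z ∈ Pol M (a + b) := Pol.mono ζ _
  let B : (V M → ℂ) → Prop := fun f => ∃ S ∈ Pol M (a + b), ∀ y ∈ C, l y = 0 →
    LD C l (fun w => S w - Z w * f w) y
  have Badd : ∀ f f', B f → B f' → B (f + f') := fun f f' ⟨S, h1, h2⟩ ⟨S', h3, h4⟩ =>
    ⟨_, add_mem h1 h3, fun y hy h0 => ((h2 y hy h0).add (h4 y hy h0)).congr
      (.of_forall fun w => by simp only [Pi.add_apply]; ring)⟩
  let A : Subalgebra ℂ (V M → ℂ) :=
    { carrier := {x | (∀ y ∈ C, l y = 0 → AnalyticAt ℂ x y) ∧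
        (∀ t : ι → ℂ, (∀ i, t i ≠ 0) → ∀ y, x (t • y) = x y) ∧ ∀ f, B f → B (x * f)}
      mul_mem' := fun h1 h2 => ⟨fun y hy h0 => (h1.1 y hy h0).mul (h2.1 y hy h0),
        fun t ht y => by rw [Pi.mul_apply, Pi.mul_apply, h1.2.1 t ht, h2.2.1 t ht],
        fun f hf => mul_assoc _ _ f ▸ h1.2.2 _ (h2.2.2 f hf)⟩
      add_mem' := fun h1 h2 => ⟨fun y hy h0 => (h1.1 y hy h0).add (h2.1 y hy h0),
        fun t ht y => by rw [Pi.add_apply, Pi.add_apply, h1.2.1 t ht, h2.2.1 t ht],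
        fun f hf => add_mul _ _ f ▸ Badd _ _ (h1.2.2 f hf) (h2.2.2 f hf)⟩
      algebraMap_mem' := fun r => ⟨fun _ _ _ => analyticAt_const, fun _ _ _ => rfl,
        fun f ⟨S, h1, h2⟩ => ⟨_, Submodule.smul_mem _ r h1, fun y hy h0 =>
          ((h2 y hy h0).mul (analyticAt_const (v := r))).congr (.of_forall fun w => by
            simp; ring)⟩⟩ }
  have hA : ∀ i (ℓ : (Fin (M i) → ℂ) →L[ℂ] ℂ), (fun y => ℓ (y i) / ζ i (y i)) ∈ A := fun i ℓ => by
    have a1 := fun y hy h0 => (Pol.an (Pol.lin i ℓ) y).div (Pol.an (Pol.lin i (ζ i)) y)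
      (h1 y hy h0 i)
    refine ⟨a1, fun t ht y => ?_, fun f ⟨S, h2, h3⟩ => ?_⟩
    · simp only [Pi.smul_apply', map_smul, smul_eq_mul, mul_div_mul_left _ _ (ht i)]
    · obtain ⟨s₁, h4, s₂, h5, h6⟩ := h.pencil ha hn hl (Pol.lin i (ζ i))
        (fun y hy h0 => h1 y hy h0 i) (Pol.mul h2 (Pol.lin i ℓ))
      refine ⟨s₁, h4, fun y hy h0 => (((h3 y hy h0).mul (a1 y hy h0)).sub (LD.self
        ((Pol.an h5 y).div (Pol.an (Pol.lin i (ζ i)) y) (h1 y hy h0 i)))).congr ?_⟩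
      filter_upwards [self_mem_nhdsWithin, mem_nhdsWithin_of_mem_nhds
        ((Pol.cont (Pol.lin i (ζ i))).continuousAt.eventually_ne (h1 y hy h0 i))] with w hw h7
      have := h6 w hw
      simp only [Pi.mul_apply, Pi.div_apply] at this ⊢
      field_simp
      linear_combination this
  have hu : ∀ k, ∃ u ∈ A, u c ≠ 0 ∧ (¬Orb (z k) c → u (z k) = 0) := fun k => by
    by_cases h2 : Orb (z k) c
    · exact ⟨1, A.one_mem, one_ne_zero, fun h3 => absurd h2 h3⟩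
    · obtain ⟨i, ℓ, h3, h4⟩ := exists_sep (h.ne_zero _ (hz.mem k)) hγ.ne h2
      exact ⟨_, hA i ℓ, div_ne_zero h4 (h1 c hγ.mem hc i), fun _ => by simp [h3]⟩
  choose u h2 h3 h4 using hu
  choose δ hδ using fun k => h.nod.exists_loc (hz.mem k)
  choose r hr using fun k => hn.exists_dv h.nod (Pol.isSec hl) (hδ k)
  obtain ⟨r₀, hr₀⟩ := hn.exists_dv h.nod (Pol.isSec hl) hγ
  let U : V M → ℂ := ∏ k, u k ^ r k
  have hU : U ∈ A := A.prod_mem fun k _ => A.pow_mem (h2 k) _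
  have hZc : Z c * U c ≠ 0 := mul_ne_zero (chr_ne_zero (h1 c hγ.mem hc)) (by
    simp only [U, Finset.prod_apply, Pi.pow_apply]
    exact Finset.prod_ne_zero_iff.2 fun k _ => pow_ne_zero _ (h3 k))
  have a0 := (Pol.an hZ c).mul (hU.1 c hγ.mem hc)
  have a1 : AnalyticAt ℂ (fun y : V M => fun i => ζ i (c i) / ζ i (y i)) c :=
    AnalyticAt.pi fun i => analyticAt_const.div (Pol.an (Pol.lin i (ζ i)) c) (h1 c hγ.mem hc i)
  have e1 : (fun i => ζ i (c i) / ζ i (c i)) = 1 := funext fun i => div_self (h1 c hγ.mem hc i)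
  obtain ⟨x, h5, h6⟩ := exists_taylor A (an_smul a1 analyticAt_id) (by simp [e1]) (fun i k => by
    convert A.smul_mem (hA i (ContinuousLinearMap.proj k)) (ζ i (c i)) using 1
    funext y
    simp [Pi.smul_apply']
    ring) r₀ _ (hF.div a0 hZc)
  obtain ⟨S, h7, h8⟩ := (A.mul_mem hU h5).2.2 1 ⟨Z, hZ, fun y _ _ => by simpa using LD.zero⟩
  have h9 : ∀ {γ : Bool → ℂ → V M}, BH γ (a + b) fun y => Z y * (U y * x y) := fun j =>
    ev_ne_one.mono fun w hw => by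
      simp only [Pol.hom hZ, hU.2.1 _ hw, h5.2.1 _ hw, mul_assoc]
  refine ⟨S, h7, ((h8 c hγ.mem hc).add (hr₀ _ _ (h9.sub hb) fun j => ?_)).congr
    (.of_forall fun w => by simp), fun y hy h10 => ?_⟩
  · have t1 : Tendsto (fun t => (fun i => ζ i (c i) / ζ i (γ j t i), t)) (𝓝 0) (𝓝 (1, 0)) := by
      have := (a1.comp_of_eq (hγ.an j) (hγ.zero j)).continuousAt.tendsto
      rw [comp_apply, hγ.zero, e1] at this
      exact this.prodMk_nhds tendsto_id
    have a2 := a0.comp_of_eq (hγ.an j) (hγ.zero j)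
    refine ((h6 _ (hγ.an j) (hγ.zero j)).2.mul_an a2.neg).congr ?_
    filter_upwards [t1.eventually (hb j), t1.eventually ev_ne_one, a2.continuousAt.eventually_ne
      (by rwa [comp_apply, hγ.zero])] with t k1 k2 k3
    simp only [Pi.div_apply, Pi.mul_apply, id, Pi.neg_apply, comp_apply] at k1 k2 k3 ⊢
    rw [k1, Pol.hom hZ, hU.2.1 _ k2]
    field_simp [chr_ne_zero k2, left_ne_zero_of_mul k3, right_ne_zero_of_mul k3]
    ring
  · by_cases h0 : l y = 0
    swap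
    · exact .of_ne (Pol.an h7 y) (Pol.an hl y) h0
    obtain ⟨k, hk⟩ := hz.ex y hy h0
    refine LD.orb (((h8 _ (hz.mem k) (hz.prop k)).add (hr k _ _ h9 fun j => ?_)).congr
      (.of_forall fun w => by simp)) h.nod (Pol.hm hl) (Pol.hm h7) hk
    have a2 : ∀ v ∈ A, AnalyticAt ℂ (fun t => v (δ k j t)) 0 := fun v hv =>
      (hv.1 _ (hz.mem k) (hz.prop k)).comp_of_eq ((hδ k).an j) ((hδ k).zero j)
    have := ((Dv.one (a2 _ (h2 k)) (by
      rw [(hδ k).zero]; exact h4 k fun e => h10 (e.symm.trans hk))).pow (r k)).mul_an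
      (((Pol.an hZ _).comp ((hδ k).an j)).mul (a2 _ (A.mul_mem (A.prod_mem
        (t := Finset.univ.erase k) fun k _ => A.pow_mem (h2 k) (r k)) h5)))
    rw [mul_one] at this
    refine this.congr (.of_forall fun t => ?_)
    simp only [U, ← Finset.mul_prod_erase _ _ (Finset.mem_univ k), Pi.mul_apply, Pi.pow_apply,
      comp_apply]
    ring

variable {β : Type*} [Fintype β] {z : β → V M} {γ : β → Bool → ℂ → V M}

/-- The Mittag-Leffler lemma. -/
theorem ml (h : IsCurve o g m C) (ha : a ≠ 0) (hn : Nzd C l) (hl : l ∈ Pol M b)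
    (hγ : ∀ k, Loc o C (z k) (γ k)) (hz : ∀ k k', Orb (z k) (z k') → k = k') {F : β → V M → ℂ}
    (hF : ∀ k, AnalyticAt ℂ (F k) (z k)) (hb : ∀ k, BH (γ k) (a + b) (F k)) :
    ∃ S ∈ Pol M (a + b), (∀ k, LD C l (fun y => S y - F k y) (z k)) ∧
      ∀ y ∈ C, (∀ k, ¬Orb (z k) y) → LD C l S y := by
  classical
  choose S h1 h2 h3 using fun k => h.ml_one ha hn hl (hγ k) (hF k) (hb k)
  refine ⟨∑ k, S k, Submodule.sum_mem _ fun k _ => h1 k, fun k => ((h2 k).add (LD.sum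
    (Finset.univ.erase k) fun k' hk => h3 k' _ (hγ k).mem fun e =>
      (Finset.mem_erase.1 hk).1 (hz _ _ e))).congr (.of_forall fun y => ?_), fun y hy h4 =>
    (LD.sum Finset.univ fun k _ => h3 k y hy (h4 k)).congr (.of_forall fun y => by simp)⟩
  simp only [Finset.sum_apply, ← Finset.add_sum_erase _ _ (Finset.mem_univ k)]
  ring

/-- The Mittag-Leffler lemma with data on the branches. -/
theorem ml_br (h : IsCurve o g m C) (ha : a ≠ 0) (hn : Nzd C l) (hl : l ∈ Pol M b)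
    (hγ : ∀ k, Loc o C (z k) (γ k)) (hz : ∀ k k', Orb (z k) (z k') → k = k')
    {q : β → Bool → ℂ → ℂ} (hq : ∀ k j, AnalyticAt ℂ (q k j) 0)
    (h0 : ∀ k, q k true 0 = q k false 0)
    (he : ∀ k, γ k true = γ k false → q k true =ᶠ[𝓝 0] q k false) :
    ∃ S ∈ Pol M (a + b), (∀ k, ∃ ρ, AnalyticAt ℂ ρ (z k) ∧
      ∀ j, ∀ᶠ t in 𝓝 0, S (γ k j t) = q k j t + l (γ k j t) * ρ (γ k j t)) ∧
      ∀ y ∈ C, (∀ k, ¬Orb (z k) y) → LD C l S y := by
  choose F h1 h2 h3 using fun k => (hγ k).ext (a + b) (hq k) (h0 k) (he k)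
  obtain ⟨S, h4, h5, h6⟩ := h.ml ha hn hl hγ hz h1 h2
  refine ⟨S, h4, fun k => (h5 k).imp fun ρ hρ => ⟨hρ.1, fun j => ?_⟩, h6⟩
  filter_upwards [((hγ k).tendsto j).eventually hρ.2, h3 k j] with t e1 e2
  rw [← e1, e2, add_sub_cancel]

/-- Evaluation at zeros of `l` is onto. -/
theorem exists_val (h : IsCurve o g m C) (ha : a ≠ 0) (hn : Nzd C l) (hl : l ∈ Pol M b)
    (hm : ∀ k, z k ∈ C) (hz : ∀ k k', Orb (z k) (z k') → k = k') (h0 : ∀ k, l (z k) = 0)
    (v : β → ℂ) : ∃ S ∈ Pol M (a + b), (∀ k, S (z k) = v k) ∧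
      ∀ y ∈ C, (∀ k, ¬Orb (z k) y) → LD C l S y := by
  choose γ hγ using fun k => h.nod.exists_loc (hm k)
  obtain ⟨S, h1, h2, h3⟩ := h.ml_br ha hn hl hγ hz (q := fun k _ _ => v k)
    (fun _ _ => analyticAt_const) (fun _ => rfl) fun _ _ => .rfl
  refine ⟨S, h1, fun k => ?_, h3⟩
  obtain ⟨ρ, -, h4⟩ := h2 k
  simpa [(hγ k).zero, h0] using (h4 true).self_of_nhds

theorem finrank_of_ker (h : IsCurve o g m C) (ha : a ≠ 0) (hn : Nzd C l) (hl : l ∈ Pol M b)
    {F : Type*} [AddCommGroup F] [Module ℂ F] {J : Tens M (a + b) →ₗ[ℂ] F} (hJ : Surjective J)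
    (hk : ∀ μ, J μ = 0 ↔ ∃ q ∈ Pol M a, ∀ c ∈ C, val μ c = l c * q c) :
    (finrank ℂ F : ℤ) = dg m b := by
  let R := (resL C (a + b)).rangeRestrict
  have h1 : LinearMap.ker R ≤ LinearMap.ker J := fun μ hμ => (hk μ).2 ⟨0, zero_mem _, fun c hc =>
    (congrFun (congrArg Subtype.val hμ) ⟨c, hc⟩).trans (mul_zero _).symm⟩
  have h2 := J.finrank_range_add_finrank_ker
  have h3 := R.finrank_range_add_finrank_ker
  have h4 := LinearMap.finrank_range_add_finrank_ker (K := ℂ) (V := LinearMap.ker J)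
    (R.domRestrict (LinearMap.ker J))
  have h5 : LinearMap.range (R.domRestrict (LinearMap.ker J)) =
      LinearMap.range (mulH (C := C) hl (a := a) rfl) := by
    ext φ
    constructor
    · rintro ⟨μ, rfl⟩
      obtain ⟨q, h5, h6⟩ := (hk μ).1 μ.2
      exact ⟨⟨fun c => q c, mem_Hs.2 ⟨q, h5, fun _ => rfl⟩⟩,
        Subtype.ext (funext fun c => (h6 c c.2).symm)⟩
    · rintro ⟨ψ, rfl⟩
      obtain ⟨q, h5, h6⟩ := mem_Hs.1 ψ.2
      obtain ⟨μ, hμ⟩ := Pol.mul' hl h5 (add_comm b a)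
      exact ⟨⟨μ, (hk μ).2 ⟨q, h5, fun c _ => congrFun hμ c⟩⟩,
        Subtype.ext (funext fun c => (congrFun hμ c).trans (by simp [h6]))⟩
  rw [h5, LinearMap.finrank_range_of_inj (hn.mulH_injective hl rfl), LinearMap.ker_domRestrict,
    (Submodule.comapSubtypeEquivOfLe h1).finrank_eq] at h4
  rw [LinearMap.range_eq_top.2 hJ, finrank_top] at h2
  rw [LinearMap.range_rangeRestrict, finrank_top] at h3
  change finrank ℂ (Hs C (a + b)) + _ = _ at h3
  have e1 := h.finrank_Hs ha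
  have e2 := h.finrank_Hs (add_ne ha b)
  rw [dg_add] at e2
  omega

end Vale.Agent.P269.IsCurve
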