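import Vale.Agent.P269.Prop.Wedge

/-!
# Linear automorphisms of the factors act on curves
-/

namespace Vale.Agent.P269

open Set Function Topology Filter

set_option linter.unusedSectionVars false

namespace Base

variable {ι : Type} [Fintype ι] {M : ι → ℕ}

instance completeSpace_Tn {σ : Type} [Fintype σ] (τ : σ → ι) : CompleteSpace (Tn M τ) :=
  inferInstance

theorem finrank_clm (E F : Type*) [NormedAddCommGroup E] [NormedSpace ℂ E] [NormedAddCommGroup F]
    [NormedSpace ℂ F] [FiniteDimensional ℂ E] [FiniteDimensional ℂ F] :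
    Module.finrank ℂ (E →L[ℂ] F) = Module.finrank ℂ E * Module.finrank ℂ F := by
  rw [← (LinearMap.toContinuousLinearMap : (E →ₗ[ℂ] F) ≃ₗ[ℂ] E →L[ℂ] F).finrank_eq,
    Module.finrank_linearMap]

/-- A linear automorphism of each factor. -/
noncomputable def gV (g : ∀ i, (Fin (M i) → ℂ) ≃L[ℂ] (Fin (M i) → ℂ)) : V M ≃L[ℂ] V M :=
  ContinuousLinearEquiv.piCongrRight g

variable {g : ∀ i, (Fin (M i) → ℂ) ≃L[ℂ] (Fin (M i) → ℂ)} {o : ι} {C C' : Set (V M)}

@[simp] theorem gV_apply (c : V M) (i : ι) : gV g c i = g i (c i) := rfl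

theorem gV_symm : (gV g).symm = gV fun i => (g i).symm := rfl

theorem gV_smul (s : ι → ℂ) (c : V M) : gV g (s • c) = s • gV g c :=
  funext fun i => map_smul (g i) (s i) (c i)

theorem gV_ne {c : V M} (i : ι) : gV g c i ≠ 0 ↔ c i ≠ 0 := (g i).map_ne_zero_iff

theorem deriv_gV (γ : ℂ → V M) (t : ℂ) : deriv (fun z => gV g (γ z)) t = gV g (deriv γ t) :=
  congrArg (· 1) ((gV g).comp_fderiv (f := γ) (x := t))

theorem symm_image_image (C : Set (V M)) : gV (fun i => (g i).symm) '' (gV g '' C) = C :=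
  (gV g).symm_image_image C

theorem li_map {n : ℕ} {v : Fin n → Fin (M o) → ℂ} (h : LinearIndependent ℂ v) :
    LinearIndependent ℂ fun k => g o (v k) := by
  have := h.map' (g o).toLinearEquiv.toLinearMap (g o).toLinearEquiv.ker
  simpa [Function.comp_def] using this

theorem fd_prod4 (A B C D : Type) [NormedAddCommGroup A] [NormedSpace ℂ A] [FiniteDimensional ℂ A]
    [NormedAddCommGroup B] [NormedSpace ℂ B] [FiniteDimensional ℂ B]
    [NormedAddCommGroup C] [NormedSpace ℂ C] [FiniteDimensional ℂ C]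
    [NormedAddCommGroup D] [NormedSpace ℂ D] [FiniteDimensional ℂ D] :
    FiniteDimensional ℂ (A × B × C × D) ∧ Module.finrank ℂ (A × B × C × D) =
      Module.finrank ℂ A + (Module.finrank ℂ B + (Module.finrank ℂ C + Module.finrank ℂ D)) :=
  ⟨inferInstance, by simp only [Module.finrank_prod]⟩

end Base

open Base

section Map

variable {ι : Type} [Fintype ι] {M : ι → ℕ}
  {g : ∀ i, (Fin (M i) → ℂ) ≃L[ℂ] (Fin (M i) → ℂ)} {o : ι} {C C' : Set (V M)}

theorem IsBranch.map' {γ : ℂ → V M} (h : IsBranch o C γ) (hC : ∀ c ∈ C, gV g c ∈ C') :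
    IsBranch o C' fun z => gV g (γ z) := by
  refine ⟨((gV g).analyticAt _).comp h.holo, h.mem.mono fun z hz => hC _ hz, ?_⟩
  rw [deriv_gV]
  convert li_map (g := g) h.imm using 1
  funext k
  fin_cases k <;> rfl

theorem IsBranch.map {γ : ℂ → V M} (h : IsBranch o C γ) :
    IsBranch o (gV g '' C) fun z => gV g (γ z) := h.map' fun _ hc => mem_image_of_mem _ hc

theorem IsCross.map' {c : V M} {γ₁ γ₂ : ℂ → V M} (h : IsCross o C c γ₁ γ₂)
    (hC : ∀ c ∈ C, gV g c ∈ C') :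
    IsCross o C' (gV g c) (fun z => gV g (γ₁ z)) fun z => gV g (γ₂ z) := by
  obtain ⟨h1, h2, h3, h4, h5⟩ := h
  refine ⟨h1.map' hC, h2.map' hC, congrArg _ h3, congrArg _ h4, ?_⟩
  rw [deriv_gV, deriv_gV]
  convert li_map (g := g) h5 using 1
  funext k
  fin_cases k <;> rfl

theorem IsCross.map {c : V M} {γ₁ γ₂ : ℂ → V M} (h : IsCross o C c γ₁ γ₂) :
    IsCross o (gV g '' C) (gV g c) (fun z => gV g (γ₁ z)) fun z => gV g (γ₂ z) :=
  h.map' fun _ hc => mem_image_of_mem _ hc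

theorem IsNode.map' {c : V M} (h : IsNode o C c) (hC : ∀ c ∈ C, gV g c ∈ C') :
    IsNode o C' (gV g c) := by
  obtain ⟨_, _, h⟩ := h
  exact ⟨_, _, h.map' hC⟩

theorem isNode_map_iff {c : V M} : IsNode o (gV g '' C) (gV g c) ↔ IsNode o C c := by
  refine ⟨fun h => ?_, fun h => h.map' fun _ hc => mem_image_of_mem _ hc⟩
  have := h.map' (g := fun i => (g i).symm) (C' := C) (by
    rintro _ ⟨c, hc, rfl⟩
    exact ((gV g).symm_apply_apply c).symm ▸ hc)
  rwa [← gV_symm, ContinuousLinearEquiv.symm_apply_apply] at this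

/-- Scalars as automorphisms of the factors. -/
noncomputable def Base.gS (M : ι → ℕ) {s : ι → ℂ} (hs : ∀ i, s i ≠ 0) (i : ι) :
    (Fin (M i) → ℂ) ≃L[ℂ] (Fin (M i) → ℂ) :=
  ContinuousLinearEquiv.smulLeft (Units.mk0 (s i) (hs i))

theorem Base.gV_gS {s : ι → ℂ} (hs : ∀ i, s i ≠ 0) (c : V M) : gV (gS M hs) c = s • c := rfl

theorem IsBranch.smul' {γ : ℂ → V M} (h : IsBranch o C γ) {s : ι → ℂ} (hs : ∀ i, s i ≠ 0)
    (hC : ∀ c ∈ C, s • c ∈ C) : IsBranch o C fun z => s • γ z := h.map' (g := gS M hs) hC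

theorem IsNode.smul {c : V M} (h : IsNode o C c) {s : ι → ℂ} (hs : ∀ i, s i ≠ 0)
    (hC : ∀ c ∈ C, s • c ∈ C) : IsNode o C (s • c) := h.map' (g := gS M hs) hC

theorem isNode_smul_iff {c : V M} {s : ι → ℂ} (hs : ∀ i, s i ≠ 0)
    (hC : ∀ t : ι → ℂ, (∀ i, t i ≠ 0) → ∀ c ∈ C, t • c ∈ C) : IsNode o C (s • c) ↔ IsNode o C c :=
  ⟨fun h => by
    have h1 := fun i => inv_ne_zero (hs i)
    simpa only [inv_smul_smul' hs] using h.smul (s := s⁻¹) h1 (hC _ h1),
    fun h => h.smul hs (hC s hs)⟩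

/-- Pull-back of sections. -/
theorem IsSec.comap {a : ι → ℕ} {f : V M → ℂ} (h : IsSec o C' a f) (hC : ∀ c ∈ C, gV g c ∈ C') :
    IsSec o C a fun c => f (gV g c) :=
  ⟨h.cont.comp (gV g).continuous.continuousOn hC,
    fun t ht c hc => by rw [gV_smul]; exact h.hom t ht _ (hC c hc),
    fun _ hγ => h.holo _ (hγ.map' hC)⟩

theorem IsSec.map {a : ι → ℕ} {f : V M → ℂ} (h : IsSec o C a f) :
    IsSec o (gV g '' C) a fun c => f ((gV g).symm c) :=
  h.comap (g := fun i => (g i).symm) (by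
    rintro _ ⟨c, hc, rfl⟩
    exact ((gV g).symm_apply_apply c).symm ▸ hc)

theorem Base.Nod.map (h : Nod o C) : Nod o (gV g '' C) := by
  refine ⟨?_, fun c hc h1 => ?_, ?_, ?_⟩
  · rintro _ ⟨c, hc, rfl⟩ i
    exact (gV_ne i).2 (h.ne_zero c hc i)
  · obtain ⟨c, rfl⟩ := (gV g).surjective c
    have h2 : c ∈ closure C := by
      rwa [← (gV g).image_closure, (gV g).injective.mem_set_image] at hc
    exact mem_image_of_mem _ (h.closed c h2 fun i => (gV_ne i).1 (h1 i))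
  · rintro t ht _ ⟨c, hc, rfl⟩
    exact ⟨_, h.cone t ht c hc, gV_smul t c⟩
  · rintro _ ⟨c, hc, rfl⟩
    obtain ⟨γ₁, γ₂, h1, h2⟩ := h.nodal c hc
    refine ⟨fun z => gV g (γ₁ z), fun z => gV g (γ₂ z),
      h1.imp (fun h3 => ⟨h3.1.map, congrArg _ h3.2.1, by rw [h3.2.2]⟩) fun h3 => h3.map,
      fun ε hε => ?_⟩
    have e : Filter.map (gV g) (𝓝[C] c) = 𝓝[gV g '' C] gV g c :=
      (gV g).toHomeomorph.isEmbedding.map_nhdsWithin_eq C c
    rw [← e]
    refine (h2 ε hε).mono fun y ⟨t, z, h3, h4⟩ => ⟨t, z, h3, ?_⟩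
    exact h4.imp (fun e => (congrArg (gV g) e).trans (gV_smul _ _))
      fun e => (congrArg (gV g) e).trans (gV_smul _ _)

theorem IsCurve.map {gg : ℤ} {m : ι → ℤ} (h : IsCurve o gg m C) : IsCurve o gg m (gV g '' C) := by
  have h1 := h.nod.map (g := g)
  refine ⟨h1.ne_zero, h1.closed, h1.cone, h1.nodal, fun a ha f hf => ?_, fun a ha => ?_⟩
  · obtain ⟨μ, hμ⟩ := h.normal a ha _ (hf.comap fun _ hc => mem_image_of_mem _ hc)
    refine ⟨μ.compContinuousLinearMap fun s => (g s.1).symm, ?_⟩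
    rintro _ ⟨c, hc, rfl⟩
    rw [hμ c hc]
    exact congrArg μ (funext fun s => ((g s.1).symm_apply_apply _).symm)
  · rw [← h.hilbert a ha]
    let e : C ≃ gV g '' C := (gV g).toEquiv.image C
    let L := LinearEquiv.funCongrLeft ℂ ℂ e
    rw [← L.finrank_map_eq, Submodule.map_span, ← range_comp]
    refine congrArg (fun S : Set (C → ℂ) => (Module.finrank ℂ (Submodule.span ℂ S) : ℤ))
      (Set.ext fun f => ⟨?_, ?_⟩)
    · rintro ⟨μ, rfl⟩
      exact ⟨μ.compContinuousLinearMap fun s => g s.1, rfl⟩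
    · rintro ⟨μ, rfl⟩
      exact ⟨μ.compContinuousLinearMap fun s => (g s.1).symm,
        funext fun c => congrArg μ (funext fun s => (g s.1).symm_apply_apply _)⟩

end Map

end Vale.Agent.P269
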