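import Vale.Agent.P269.Base.Open
import Vale.Agent.P269.Base.Glue

/-!
# Meromorphic sections on multicones, in families; twisting families
-/

namespace Vale.Agent.P269.Base

open Set Function Topology Filter

variable {ι : Type} [Fintype ι] {M : ι → ℕ} {β : Type*}

/-- The character of multidegree `χ`. -/
noncomputable def chz (χ : ι → ℤ) (s : ι → ℂ) : ℂ := ∏ i, s i ^ χ i

/-- The degree of `O(χ)`; also the pairing of a character with a cocharacter. -/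
def dgz (m χ : ι → ℤ) : ℤ := ∑ i, χ i * m i

/-- `c` lies on none of the orbits of the points `z k`. -/
def Off (z : β → V M) (c : V M) : Prop := ∀ k, ¬Orb (z k) c

/-- `f t = t ^ w * g t` near `0`, with `g` holomorphic and `g 0 = a`. -/
def Vz (w : ℤ) (f : ℂ → ℂ) (a : ℂ) : Prop :=
  ∃ g, AnalyticAt ℂ g 0 ∧ g 0 = a ∧ ∀ᶠ t in 𝓝[≠] (0 : ℂ), f t = t ^ w * g t

/-- The points `z k` are smooth points of `C` in different orbits. -/
structure Spt (o : ι) (C : Set (V M)) (z : β → V M) : Prop where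
  mem : ∀ k, z k ∈ C
  sm : ∀ k, ¬IsNode o C (z k)
  inj : ∀ k k', Orb (z k) (z k') → k = k'

/-- `f` is a section of `O(χ)(-∑ u k • z k)`: a meromorphic section of `O(χ)` of order at least
`u k` at `z k`, holomorphic elsewhere. The values on the orbits of the `z k` carry no meaning. -/
structure Mer (o : ι) (C : Set (V M)) (χ : ι → ℤ) (z : β → V M) (u : β → ℤ) (f : V M → ℂ) :
    Prop where
  hom : ∀ s : ι → ℂ, (∀ i, s i ≠ 0) → ∀ c ∈ C, f (s • c) = chz χ s * f c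
  reg : ∀ γ, IsBranch o C γ → Off z (γ 0) → AnalyticAt ℂ (fun t => f (γ t)) 0
  ord : ∀ k γ, IsBranch o C γ → Orb (z k) (γ 0) → ∃ a, Vz (u k) (fun t => f (γ t)) a

/-- `f` is a trivialisation of `O(χ)(-∑ u k • z k)`: its divisor is `∑ u k • z k`. -/
structure Triv (o : ι) (C : Set (V M)) (χ : ι → ℤ) (z : β → V M) (u : β → ℤ) (f : V M → ℂ) :
    Prop extends Mer o C χ z u f where
  ne : ∀ c ∈ C, Off z c → f c ≠ 0
  exact : ∀ k γ a, IsBranch o C γ → Orb (z k) (γ 0) → Vz (u k) (fun t => f (γ t)) a → a ≠ 0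

/-- `f` is a basis of the sections of `O(χ)(-∑ u k • z k)`. -/
structure Bas (o : ι) (C : Set (V M)) (χ : ι → ℤ) (z : β → V M) (u : β → ℤ) {κ : Type*}
    [Fintype κ] (f : κ → V M → ℂ) : Prop where
  mer : ∀ i, Mer o C χ z u (f i)
  li : ∀ x : κ → ℂ, (∀ c ∈ C, Off z c → ∑ i, x i * f i c = 0) → x = 0
  span : ∀ s, Mer o C χ z u s → ∃ x : κ → ℂ, ∀ c ∈ C, Off z c → s c = ∑ i, x i * f i c

variable {T P : Type*} [TopologicalSpace T] [NormedAddCommGroup P] [NormedSpace ℂ P]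

/-- The centres of a family of disc charts. -/
def ctr (σ : β → P × ℂ → V M) (p : P) : β → V M := fun k => σ k (p, 0)

/-- Moving smooth points `ctr σ (π t)` with disc charts `σ k`. -/
structure Pts (o : ι) (C : T → Set (V M)) (π : T → P) (t₀ : T) (σ : β → P × ℂ → V M) : Prop where
  chart : ∀ k, Chart o C π t₀ (σ k) fun _ => univ
  inj : ∀ k k', Orb (σ k (π t₀, 0)) (σ k' (π t₀, 0)) → k = k'

/-- A holomorphic family of sections of `O(χ)(-∑ u k • ctr σ (π t) k)`. -/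
structure FMer (o : ι) (C : T → Set (V M)) (π : T → P) (t₀ : T) (χ : ι → ℤ)
    (σ : β → P × ℂ → V M) (u : β → ℤ) (f : T → V M → ℂ) : Prop where
  hom : ∀ᶠ t in 𝓝 t₀, ∀ s : ι → ℂ, (∀ i, s i ≠ 0) → ∀ c ∈ C t, f t (s • c) = chz χ s * f t c
  reg : ∀ c ∈ C t₀, Off (ctr σ (π t₀)) c → ∃ Φ : P × V M → ℂ, AnalyticAt ℂ Φ (π t₀, c) ∧
    ∀ᶠ q : T × V M in 𝓝 (t₀, c), q.2 ∈ C q.1 → f q.1 q.2 = Φ (π q.1, q.2)
  ord : ∀ k, ∃ g : P × ℂ → ℂ, AnalyticAt ℂ g (π t₀, 0) ∧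
    ∀ᶠ q : T × ℂ in 𝓝 (t₀, 0), q.2 ≠ 0 → f q.1 (σ k (π q.1, q.2)) = q.2 ^ u k * g (π q.1, q.2)

/-- The jets of forms of degree `a` along the discs `σ k (p, ·)`. -/
noncomputable def jetL (a : ι → ℕ) (σ : β → P × ℂ → V M) (N : β → ℕ) (p : P) :
    Tens M a →L[ℂ] ∀ k, Fin (N k) → ℂ :=
  ContinuousLinearMap.pi fun k => ContinuousLinearMap.pi fun i =>
    iteratedDeriv i (fun w => evL a (σ k (p, w))) 0

/-- A one parameter family `C' ε` of re-embeddings `I ε` of the curve `C₀` that twists `O(e_i)` by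
`v i • ∑ (γ k (ε * y k) - γ k 0)`. -/
structure Tw (C₀ : Set (V M)) (γ : β → ℂ → V M) (v : ι → ℤ) (y : β → ℂ) (C' : ℂ → Set (V M))
    (I : ℂ → V M → V M) : Prop where
  hom : ∀ᶠ ε in 𝓝 (0 : ℂ), ∀ s : ι → ℂ, (∀ i, s i ≠ 0) → ∀ c ∈ C₀, I ε (s • c) = s • I ε c
  zero : ∀ c ∈ C₀, Off (fun k => γ k 0) c → I 0 c = c
  reg : ∀ c ∈ C₀, Off (fun k => γ k 0) c → ∃ Φ : ℂ × V M → V M, AnalyticAt ℂ Φ (0, c) ∧
    ∀ᶠ q : ℂ × V M in 𝓝 (0, c), q.2 ∈ C₀ → I q.1 q.2 = Φ q ∧ Φ q ∈ C' q.1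
  pole : ∀ k, ∃ h : ℂ × ℂ → V M, AnalyticAt ℂ h (0, 0) ∧ (∀ᶠ w in 𝓝 (0 : ℂ), h (0, w) = γ k w) ∧
    ∀ᶠ q : ℂ × ℂ in 𝓝 (0, 0), h q ∈ C' q.1 ∧ (q.2 ≠ 0 → q.2 ≠ q.1 * y k →
      I q.1 (γ k q.2) = (fun i => (q.2 / (q.2 - q.1 * y k)) ^ v i) • h q)

/-- The family `C` over `T` contains all twisting families in the direction `v` that fix the moving
points `σ`. -/
def HasTw (o : ι) (C : T → Set (V M)) (π : T → P) (t₀ : T) (σ : β → P × ℂ → V M) (v : ι → ℤ) :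
    Prop :=
  ∀ (b : ι → ℕ) (l : V M → ℂ) (n : ℕ) (γ : Fin n → ℂ → V M) (y : Fin n → ℂ), l ∈ Pol M b →
    Reps (C t₀) (fun c => l c = 0) (fun k => γ k 0) → (∀ k, Simp o (C t₀) l (γ k 0)) →
    (∀ k, IsBranch o (C t₀) (γ k)) → (∀ k, l (σ k (π t₀, 0)) ≠ 0) →
    ∃ (x : ℂ → T) (I : ℂ → V M → V M), x 0 = t₀ ∧ ContinuousAt x 0 ∧
      AnalyticAt ℂ (fun ε => π (x ε)) 0 ∧ Tw (C t₀) γ v y (fun ε => C (x ε)) I ∧
      ∀ k, ∀ᶠ ε in 𝓝 (0 : ℂ), Orb (I ε (σ k (π t₀, 0))) (σ k (π (x ε), 0))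

end Vale.Agent.P269.Base
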