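import Vale.Agent.P269.Base.Main
import Vale.Agent.P269.Holo.Set2
import Vale.Agent.P269.Prop.Sep

/-!
# The dimension of the base of a chart; smoothing the nodes
-/

namespace Vale.Agent.P269

open Set Function Topology Filter Holo Module Base

set_option linter.unusedSectionVars false

variable {J ι ν : Type} [Fintype J] [Fintype ι] [DecidableEq ι] [Fintype ν]

theorem IsCurve.three_le {M : ι → ℕ} {o : ι} {g : ℤ} {m : ι → ℤ} {C : Set (V M)}
    (h : IsCurve o g m C) (hc : C.Nonempty) (hm : m o ≠ 1) : 3 ≤ M o := by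
  obtain ⟨c, hc⟩ := hc
  obtain ⟨y, ⟨-, h1⟩, h2⟩ := ((h.nod.frequently_not_node (Empty.elim : Empty → V M)
    hc).and_eventually self_mem_nhdsWithin).exists
  obtain ⟨γ₀, hγ₀⟩ := h.nod.exists_loc h2
  have hγ := h.nod.loc_of_branch (hγ₀.br true) (by rwa [hγ₀.zero])
  generalize γ₀ true = γ at hγ
  have h3 := (hγ.br true).imm
  by_contra h4
  have h5 := h3.span_eq_top_of_card_eq_finrank' (by
    have := h3.fintype_card_le_finrank
    simp only [Fintype.card_fin, finrank_fin_fun] at this ⊢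
    omega)
  obtain ⟨ℓ, hℓ⟩ := exists_dual_of_li h3 ![0, 1]
  have h6 := Pol.lin o ℓ.toContinuousLinearMap
  obtain ⟨v, h7⟩ := MarkP.exists_slope ((Pol.an h6 _).comp (hγ.an true)) (hℓ 0) (by
    exact ne_of_eq_of_ne ((ℓ.toContinuousLinearMap.hasFDerivAt.comp_hasDerivAt (0 : ℂ)
      (hasDerivAt_pi.1 (hγ.an true).differentiableAt.hasDerivAt o)).deriv.trans (hℓ 1)) one_ne_zero)
  refine hm ((dg_single o).symm.trans (Eq.trans (h.count (β := Unit) (n := fun _ => 1) h6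
    (fun c k1 k2 => ⟨(), ?_⟩) (fun _ _ _ => rfl) (fun _ => hγ) fun _ => ⟨h7.1, h7.2.1,
      .of_forall fun t => by simpa using h7.2.2 t⟩).symm (by simp)))
  obtain ⟨a, ha⟩ := (Submodule.mem_span_range_iff_exists_fun ℂ).1 (h5.ge (Submodule.mem_top (x := c o)))
  have k3 : ℓ (c o) = a 1 := by simp [← ha, Fin.sum_univ_two, show ℓ (γ 0 o) = 0 from hℓ 0,
    show ℓ (deriv γ 0 o) = 1 from hℓ 1]
  refine h.sep_o hγ.mem k1 (r := a 0) (ha.symm.trans ?_)
  simp [Fin.sum_univ_two, k3.symm.trans k2]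

theorem Base.NdAt.congr {M : ι → ℕ} {o : ι} {T P : Type*} [TopologicalSpace T]
    [NormedAddCommGroup P] [NormedSpace ℂ P] {C C' : T → Set (V M)} {π : T → P} {t₀ : T} {c : V M}
    {τ : P → ℂ} (h : NdAt o C π t₀ c τ) (hπ : ContinuousAt π t₀) (he : ∀ᶠ t in 𝓝 t₀, C' t = C t) :
    NdAt o C' π t₀ c τ :=
  let ⟨σ, h1, h2, h3, h4⟩ := h
  ⟨σ, h1, h2, h3, h4.congr hπ ((continuousAt_fst.tendsto.eventually he).mono fun _ e => by rw [e])⟩

namespace Ch

variable {ch : Ch ι J} {x : ch.W ν}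

theorem finrank_Fld :
    finrank ℂ ch.Fld = ∑ j, finrank ℂ (Tens ch.M (ch.b j)) * ch.h (some j) := by
  simpa only [finrank_fin_fun] using
    finrank_pi_clm (fun j => Tens ch.M (ch.b j)) fun j => ch.E (some j)

variable (ch ν) in
/-- The dimension of `base`. -/
noncomputable def dimB : ℤ := 3 * ch.g - 3 + Fintype.card ν + (Fintype.card ι - 1) * (ch.g - 1) +
  finrank ℂ (ch.A ν) + (∑ j, finrank ℂ (Tens ch.M (ch.b j)) * ch.h (some j) : ℕ)

theorem Num.mfdAt (h : Num ch) (hx : x ∈ ch.base ν) :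
    ∃ N : ℕ, (N : ℤ) = ch.dimB ν ∧ MfdAt (ch.base ν) N x := by
  obtain ⟨d, -, -, -, -, -, -, -, -, -, A, Ψ, h1, h2, h3, -⟩ := h.exists_param ⟨x, hx⟩
  refine ⟨_, ?_, hx, h3 ▸ h2.isMfd rfl⟩
  have := finrank_pi_clm ch.E ch.E
  simp only [finrank_fin_fun] at this
  rw [finrank_prod, finrank_prod, finrank_fin_fun, finrank_Fld, this, dimB, finrank_A]
  push_cast at h1 ⊢
  linear_combination h1

/-- The nodes are smoothed independently along arcs in `base` with constant fields. -/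
theorem Num.exists_tau (h : Num ch) (hx : x ∈ ch.base ν) {β : Type} [Fintype β] {c : β → V ch.M}
    (hc : ∀ e, IsNode ch.o (crv x) (c e)) (hi : ∀ e e', Orb (c e) (c e') → e = e') :
    ∃ τ : β → ch.W ν → ℂ,
      (∀ e, NdAt ch.o (fun y : ch.base ν => crv y.1) Subtype.val ⟨x, hx⟩ (c e) (τ e)) ∧
      ∀ t : β → ℂ, ∃ γ, Arc (ch.base ν) x γ ∧ (∀ᶠ ε in 𝓝 0, (γ ε).X = x.X) ∧
        ∀ e, deriv (fun ε => τ e (γ ε)) 0 = t e := by
  obtain ⟨d, C, p, _, b, ξ, κ, _, z, F, A, Ψ, -, h2, h3, -, -, -, h4, h5⟩ := h.exists_param ⟨x, hx⟩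
  have h6 := h4.self_of_nhds.1
  rw [h3] at h6
  obtain ⟨τ, t1, t2⟩ := h5 _ (c ∘ (Fintype.equivFin β).symm) (fun i => h6 ▸ hc _)
    fun i i' k => (Fintype.equivFin β).symm.injective (hi _ _ k)
  obtain ⟨w, w1, w2, w3, w4, -⟩ := h2.exists_inv
  rw [h3] at w1 w2 w4
  have w5 : ContinuousAt (fun y : ch.base ν => w y.1) ⟨x, hx⟩ :=
    w1.continuousAt.comp continuous_subtype_val.continuousAt
  refine ⟨fun e y => τ (Fintype.equivFin β e) (w y).1, fun e => ?_, fun t => ?_⟩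
  · refine (NdAt.comp (u := fun y : ch.base ν => (w y.1).1) (t' := ⟨x, hx⟩) (π' := Subtype.val)
      (π := id) (k := fun y => (w y).1) (by simpa [w2] using t1 (Fintype.equivFin β e)) w5.fst
      (analyticAt_fst.comp w1) (.of_forall fun _ => rfl)).congr continuous_subtype_val.continuousAt ?_
    filter_upwards [w4, (w2 ▸ w5.tendsto).eventually h4] with y k1 k2
    rw [← k2.1, k1]
  · obtain ⟨v, hv⟩ := t2 (t ∘ (Fintype.equivFin β).symm)
    have a1 : AnalyticAt ℂ (fun ε : ℂ => (ε • v, A, x.X)) 0 := by fun_prop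
    have a2 : Tendsto (fun ε : ℂ => (ε • v, A, x.X)) (𝓝 0) (𝓝 (0, A, x.X)) := by
      simpa using a1.continuousAt.tendsto
    refine ⟨fun ε => Ψ (ε • v, A, x.X), ⟨h2.an.comp_of_eq a1 (by simp), by simp [h3],
      .of_forall fun ε => Subtype.prop _⟩, (a2.eventually h4).mono fun ε k => k.2.2.1, fun e => ?_⟩
    have a3 : HasFDerivAt (fun s i => τ i s) (fderiv ℂ (fun s i => τ i s) 0) ((0 : ℂ) • v) := by
      simpa using (AnalyticAt.pi fun i => (t1 i).choose_spec.2.1).differentiableAt.hasFDerivAt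
    have a4 := hasDerivAt_pi.1 (a3.comp_hasDerivAt 0 ((hasDerivAt_id (0 : ℂ)).smul_const v))
      (Fintype.equivFin β e)
    refine (HasDerivAt.congr_of_eventuallyEq ?_ ((a2.eventually w3).mono fun ε k => by
      simp only [k]; rfl)).deriv
    simpa [hv] using a4

/-- The same in terms of tangent vectors. -/
theorem Num.exists_tau' (h : Num ch) (hx : x ∈ ch.base ν) {β : Type} [Fintype β] {c : β → V ch.M}
    (hc : ∀ e, IsNode ch.o (crv x) (c e)) (hi : ∀ e e', Orb (c e) (c e') → e = e') :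
    ∃ τ : β → ch.W ν → ℂ,
      (∀ e, NdAt ch.o (fun y : ch.base ν => crv y.1) Subtype.val ⟨x, hx⟩ (c e) (τ e)) ∧
      ∀ t : β → ℂ, ∃ v ∈ tan (Subtype.val : ch.base ν → _) ⟨x, hx⟩, v.X = 0 ∧
        ∀ e, fderiv ℂ (τ e) x v = t e := by
  obtain ⟨τ, h1, h2⟩ := h.exists_tau hx hc hi
  refine ⟨τ, h1, fun t => ?_⟩
  obtain ⟨γ, k1, k2, k3⟩ := h2 t
  have k4 := k1.an.differentiableAt.hasDerivAt
  refine ⟨_, k1.mem_tan hx, funext fun j => HasDerivAt.unique (f := fun ε => (γ ε).X j)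
    (HasFDerivAt.comp_hasDerivAt (E := Tens ch.M (ch.b j) →L[ℂ] ch.E (some j)) 0
      (W.XL j).hasFDerivAt k4 :)
    ((hasDerivAt_const 0 (x.X j)).congr_of_eventuallyEq (k2.mono fun ε k => congrFun k j)),
    fun e => (k3 e).symm ▸ (HasFDerivAt.comp_hasDerivAt_of_eq 0
      (h1 e).choose_spec.2.1.differentiableAt.hasFDerivAt k4 k1.zero.symm).deriv.symm⟩

variable (ch) in
/-- Numerical hypotheses that also allow the empty curve. -/
structure Num₀ : Prop where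
  a_ne : ∀ l, ch.a l ≠ 0
  cut : ∃ l, ∀ i, 4 ≤ ch.a l i
  k_ne : ch.k ≠ 0
  m_ne : ch.m ch.o ≠ 1
  M_eq : ∀ i, ch.M i = (ch.m i + 1 - ch.g).toNat
  chi : ∑ i, ch.χ i ≠ 0

theorem Num₀.M_eq' (h : Num₀ ch) (hx : x ∈ ch.base ν) (i : ι) :
    (ch.M i : ℤ) = ch.m i + 1 - ch.g := by
  have := hx.2.2.1.finrank_Hs (a := Pi.single i 1) (by simp)
  rw [dg_single] at this
  rw [h.M_eq]
  omega

theorem Num₀.num (h : Num₀ ch) (hx : x ∈ ch.base ν) (hn : (crv x).Nonempty) : Num ch :=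
  ⟨h.a_ne, h.cut, h.k_ne, hx.2.2.1.three_le hn h.m_ne, h.M_eq' hx, h.chi⟩

/-- The chart of the empty curve is a point. -/
theorem Num₀.empty (h : Num₀ ch) (hx : x ∈ ch.base ν) (hn : crv x = ∅) :
    ch.g = 1 ∧ (∀ i, ch.m i = 0) ∧ (∀ i, ch.M i = 0) ∧ (∀ l, ch.h l = 0) ∧ IsEmpty ν ∧
      Subsingleton (ch.W ν) := by
  have h0 : IsEmpty (crv x) := by rw [hn]; infer_instance
  have h1 : ∀ a : ι → ℕ, a ≠ 0 → dg ch.m a + 1 - ch.g = 0 := fun a ha => by
    rw [← hx.2.2.1.finrank_Hs ha, finrank_zero_of_subsingleton, Nat.cast_zero]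
  have h2 : ∀ i, ch.m i = 0 ∧ ch.g = 1 := fun i => by
    have k1 := h1 (Pi.single i 1) (by simp)
    have k2 := h1 (2 • Pi.single i 1) fun e => by simpa using congrFun e i
    rw [dg_smul] at k2
    rw [dg_single] at k1 k2
    omega
  have h3 : ∀ l, ch.h l = 0 := fun l => by exact_mod_cast (h_eq₁ hx (h.a_ne l)).trans (h1 _ (h.a_ne l))
  have h4 : IsEmpty ν := ⟨fun n => h0.false ⟨_, (hx.2.2.2.1 n).1⟩⟩
  have h5 : ∀ l, Subsingleton (ch.E l) := fun l => by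
    have : IsEmpty (Fin (ch.h l)) := by rw [h3]; infer_instance
    infer_instance
  refine ⟨(h2 ch.o).2, fun i => (h2 i).1, fun i => by rw [h.M_eq, (h2 i).1, (h2 i).2]; rfl, h3, h4,
    ⟨fun y z => W.ext (fun l => ?_) (fun n => h4.elim n) ?_ fun j => ?_⟩⟩ <;>
  exact ContinuousLinearMap.ext fun _ => Subsingleton.elim _ _

/-- `base` is a complex manifold of dimension `dimB`. -/
theorem Num₀.mfdAt (h : Num₀ ch) (hx : x ∈ ch.base ν) :
    ∃ N : ℕ, (N : ℤ) = ch.dimB ν ∧ MfdAt (ch.base ν) N x := by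
  rcases (crv x).eq_empty_or_nonempty with e | e
  · obtain ⟨h1, -, h2, h3, h4, h5⟩ := h.empty hx e
    refine ⟨0, by rw [dimB, finrank_A]; simp [h1, h2, h3], (finrank_zero_of_subsingleton (R := ℂ)
      (M := ch.W ν) ▸ MfdAt.univ x).congr (.of_forall fun s => iff_of_true trivial ?_)⟩
    rwa [Subsingleton.elim s x]
  · exact (h.num hx e).mfdAt hx

theorem Num₀.exists_tau (h : Num₀ ch) (hx : x ∈ ch.base ν) {β : Type} [Fintype β]
    {c : β → V ch.M} (hc : ∀ e, IsNode ch.o (crv x) (c e))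
    (hi : ∀ e e', Orb (c e) (c e') → e = e') : ∃ τ : β → ch.W ν → ℂ,
      (∀ e, NdAt ch.o (fun y : ch.base ν => crv y.1) Subtype.val ⟨x, hx⟩ (c e) (τ e)) ∧
      ∀ t : β → ℂ, ∃ γ, Arc (ch.base ν) x γ ∧ (∀ᶠ ε in 𝓝 0, (γ ε).X = x.X) ∧
        ∀ e, deriv (fun ε => τ e (γ ε)) 0 = t e := by
  cases isEmpty_or_nonempty β with
  | inl e => exact ⟨e.elim, e.elim, fun _ => ⟨fun _ => x, ⟨analyticAt_const, rfl,
      .of_forall fun _ => hx⟩, .of_forall fun _ => rfl, e.elim⟩⟩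
  | inr e => exact (h.num hx ⟨_, MarkP.mem_of_isNode (hc e.some)⟩).exists_tau hx hc hi

end Ch

end Vale.Agent.P269
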