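import Vale.Agent.P269.Base.ML
import Vale.Agent.P269.Base.Usc

/-!
# Moving zeros in local families, a finite criterion for `IsCurve`
-/

namespace Vale.Agent.P269.Base

open Set Function Topology Filter Holo Module

variable {ι : Type} [Fintype ι] {M : ι → ℕ} {a b : ι → ℕ} {g : ℤ} {m : ι → ℤ} {o : ι}

/-- Evaluation of forms at finitely many points. -/
noncomputable def evP (a : ι → ℕ) {β : Type*} (y : β → V M) : Tens M a →L[ℂ] (β → ℂ) :=
  ContinuousLinearMap.pi fun k => evL a (y k)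

@[simp] theorem evP_apply {β : Type*} (y : β → V M) (μ : Tens M a) (k : β) :
    evP a y μ k = val μ (y k) := rfl

theorem analyticAt_evP {β : Type*} [Fintype β] (y : β → V M) :
    AnalyticAt ℂ (evP a : (β → V M) → _) y :=
  analyticAt_of_apply fun _ => AnalyticAt.pi fun k =>
    an_val analyticAt_const ((ContinuousLinearMap.proj k : (β → V M) →L[ℂ] _).analyticAt _)

theorem eventually_surj {T β : Type*} [TopologicalSpace T] [Fintype β] {y : β → T → V M} {t₀ : T}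
    (hy : ∀ k, ContinuousAt (y k) t₀) (h : Surjective fun (μ : Tens M a) k => val μ (y k t₀)) :
    ∀ᶠ t in 𝓝 t₀, Surjective fun (μ : Tens M a) k => val μ (y k t) :=
  eventually_surjective (m := fun t => evP a fun k => y k t)
    ((analyticAt_evP (a := a) fun k => y k t₀).continuousAt.comp (f := fun t k => y k t)
      (continuousAt_pi.2 hy)) h

theorem eventually_not_orb {c y : V M} (hc : ∀ i, c i ≠ 0) (hy : ∀ i, y i ≠ 0) (h : ¬Orb c y) :
    ∀ᶠ q : V M × V M in 𝓝 (c, y), ¬Orb q.1 q.2 := by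
  obtain ⟨i, ℓ, h1, h2⟩ := exists_sep hc hy h
  obtain ⟨ζ, hζ⟩ := exists_lin_one hc
  have h3 : ContinuousAt (fun q : V M × V M =>
      ζ i (q.1 i) * ℓ (q.2 i) - ℓ (q.1 i) * ζ i (q.2 i)) (c, y) := by fun_prop
  filter_upwards [h3.eventually_ne (y := 0) (by simpa [hζ, h1] using h2)] with q hq ⟨s, _, e⟩
  refine hq ?_
  simp only [e, Pi.smul_apply', map_smul, smul_eq_mul]
  ring

/-! ### The finite criterion -/

section Static

variable {C : Set (V M)}

/-- The two conditions of `IsCurve` in degree `a`. -/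
def Deg (o : ι) (g : ℤ) (m : ι → ℤ) (C : Set (V M)) (a : ι → ℕ) : Prop :=
  (∀ f, IsSec o C a f → ∃ F ∈ Pol M a, ∀ c ∈ C, f c = F c) ∧
    (finrank ℂ (Hs C a) : ℤ) = dg m a + 1 - g

/-- Evaluation of polynomial sections. -/
noncomputable def evH (a : ι → ℕ) {β : Type*} {y : β → V M} (hy : ∀ k, y k ∈ C) :
    Hs C a →ₗ[ℂ] (β → ℂ) :=
  LinearMap.funLeft ℂ ℂ (fun k => (⟨y k, hy k⟩ : C)) ∘ₗ (Hs C a).subtype

theorem evH_surjective {β : Type*} {y : β → V M} (hy : ∀ k, y k ∈ C)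
    (h : ∀ v : β → ℂ, ∃ S ∈ Pol M a, ∀ k, S (y k) = v k) : Surjective (evH a hy) := fun v => by
  obtain ⟨S, h1, h2⟩ := h v
  exact ⟨⟨fun c => S c, mem_Hs.2 ⟨S, h1, fun _ => rfl⟩⟩, funext h2⟩

theorem deg_of_ev {n : ℕ} (hn : (n : ℤ) = dg m a + 1 - g) {y : Fin n → V M} (hy : ∀ k, y k ∈ C)
    (h1 : Surjective fun (μ : Tens M a) k => val μ (y k))
    (h2 : ∀ s, IsSec o C a s → (∀ k, s (y k) = 0) → ∀ c ∈ C, s c = 0) : Deg o g m C a := by
  refine ⟨fun f hf => ?_, ?_⟩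
  · obtain ⟨μ, hμ⟩ := h1 fun k => f (y k)
    exact ⟨_, val_mem μ, fun c hc => sub_eq_zero.1 (h2 _ (hf.sub (Pol.isSec (val_mem μ)))
      (fun k => sub_eq_zero.2 (congrFun hμ k).symm) c hc)⟩
  · rw [← hn, (LinearEquiv.ofBijective (evH a hy) ⟨(injective_iff_map_eq_zero _).2 fun φ hφ => ?_,
      evH_surjective hy fun v => ?_⟩).finrank_eq, finrank_fin_fun]
    · obtain ⟨F, h3, h4⟩ := mem_Hs.1 φ.2
      exact Subtype.ext (funext fun c => (h4 c).trans (h2 F (Pol.isSec h3)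
        (fun k => (h4 ⟨y k, hy k⟩).symm.trans (congrFun hφ k)) c c.2))
    · obtain ⟨μ, hμ⟩ := h1 v
      exact ⟨_, val_mem μ, congrFun hμ⟩

theorem Deg.add (h : Deg o g m C a) (hC : Nod o C) {l : V M → ℂ} (hl : l ∈ Pol M b) {β : Type*}
    [Fintype β] {z : β → V M} (hz : Reps C (fun c => l c = 0) z) (hs : ∀ k, Simp o C l (z k))
    (hn : (Fintype.card β : ℤ) = dg m b)
    (hv : ∀ v : β → ℂ, ∃ S ∈ Pol M (a + b), ∀ k, S (z k) = v k) : Deg o g m C (a + b) := by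
  have h1 : ∀ c ∈ C, l c = 0 → Simp o C l c := fun c hc h0 => by
    obtain ⟨k, hk⟩ := hz.ex c hc h0
    exact (hs k).orb hC (Pol.hm hl) hk
  have h2 := nzd_of_simp hC (Pol.isSec hl) h1
  have h3 : ∀ s, IsSec o C (a + b) s → (∀ k, s (z k) = 0) →
      ∃ q ∈ Pol M a, ∀ c ∈ C, s c = l c * q c := fun s h3 h4 => by
    obtain ⟨q, h5, h6⟩ := h2.div hC (Pol.isSec hl) h3 fun c hc h0 => by
      obtain ⟨k, hk⟩ := hz.ex c hc h0
      exact (h1 c hc h0).ld hC (Pol.isSec hl) h3 ((h3.hm.orb (hz.mem k) hk).2 (h4 k))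
    obtain ⟨F, h7, h8⟩ := h.1 q h5
    exact ⟨F, h7, fun c hc => by rw [h6 c hc, h8 c hc]⟩
  refine ⟨fun f hf => ?_, ?_⟩
  · obtain ⟨S, h4, h5⟩ := hv fun k => f (z k)
    obtain ⟨q, h6, h7⟩ := h3 _ (hf.sub (Pol.isSec h4)) fun k => sub_eq_zero.2 (h5 k).symm
    exact ⟨_, add_mem h4 (Pol.mul' hl h6 (add_comm b a)), fun c hc =>
      sub_eq_iff_eq_add'.1 (h7 c hc)⟩
  · have h4 := (evH (a + b) hz.mem).finrank_range_add_finrank_ker
    have h5 : LinearMap.ker (evH (a + b) hz.mem) =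
        LinearMap.range (mulH (C := C) hl (a := a) rfl) := by
      ext φ
      constructor
      · intro hφ
        obtain ⟨F, h5, h6⟩ := mem_Hs.1 φ.2
        obtain ⟨q, h7, h8⟩ := h3 F (Pol.isSec h5) fun k =>
          (h6 ⟨z k, hz.mem k⟩).symm.trans (congrFun hφ k)
        exact ⟨⟨fun c => q c, mem_Hs.2 ⟨q, h7, fun _ => rfl⟩⟩,
          Subtype.ext (funext fun c => ((h6 c).trans (h8 c c.2)).symm)⟩
      · rintro ⟨ψ, rfl⟩
        exact funext fun k => mul_eq_zero_of_left (hz.prop k) _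
    rw [h5, LinearMap.finrank_range_of_inj (h2.mulH_injective hl rfl),
      LinearMap.range_eq_top.2 (evH_surjective hz.mem hv), finrank_top,
      finrank_fintype_fun_eq_card] at h4
    have := h.2
    rw [dg_add]
    omega

theorem exists_val_add {β : Type*} [Finite β] {z : β → V M} (hz : ∀ k i, z k i ≠ 0)
    (h : Surjective fun (μ : Tens M a) k => val μ (z k)) (b : ι → ℕ) (v : β → ℂ) :
    ∃ S ∈ Pol M (b + a), ∀ k, S (z k) = v k := by
  choose ζ _ hζ using fun i => exists_lin_ne_zero (fun k => z k i) ⊤ fun k =>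
    (SeparatingDual.exists_ne_zero (R := ℂ) (hz k i)).imp fun _ h => ⟨trivial, h⟩
  obtain ⟨μ, hμ⟩ := h fun k => v k / chr b fun i => ζ i (z k i)
  refine ⟨_, Pol.mul (Pol.mono ζ b) (val_mem μ), fun k => ?_⟩
  rw [Pi.mul_apply, show val μ (z k) = _ from congrFun hμ k]
  exact mul_div_cancel₀ _ (chr_ne_zero fun i => hζ i k)

/-- Finitely many conditions imply `IsCurve`. -/
theorem Nod.isCurve [DecidableEq ι] (hC : Nod o C) (h0 : ∀ j, Deg o g m C (Pi.single j 1))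
    {l : ι → V M → ℂ} (hl : ∀ i, l i ∈ Pol M (Pi.single i 1)) {n : ι → ℕ}
    (hn : ∀ i, (n i : ℤ) = m i) {z : ∀ i, Fin (n i) → V M}
    (hz : ∀ i, Reps C (fun c => l i c = 0) (z i)) (hs : ∀ i k, Simp o C (l i) (z i k))
    (hv : ∀ i j, Surjective fun (μ : Tens M (Pi.single j 1 + Pi.single i 1)) k => val μ (z i k)) :
    IsCurve o g m C := by
  have split : ∀ a : ι → ℕ, a ≠ 0 → ∃ j a', a = a' + Pi.single j 1 := fun a ha => by
    obtain ⟨j, hj⟩ := ne_iff.1 ha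
    refine ⟨j, a - Pi.single j 1, (tsub_add_cancel_of_le fun i => ?_).symm⟩
    by_cases h : i = j
    · rw [h, Pi.single_eq_same]
      exact Nat.one_le_iff_ne_zero.2 hj
    · rw [Pi.single_eq_of_ne h]
      exact Nat.zero_le _
  have key : ∀ (N : ℕ) (a : ι → ℕ), ∑ i, a i = N → a ≠ 0 → Deg o g m C a := fun N => by
    induction N with
    | zero => exact fun a h ha => absurd (funext fun i =>
        Finset.sum_eq_zero_iff.1 h i (Finset.mem_univ i)) ha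
    | succ N ih =>
      intro a h ha
      obtain ⟨i, a', rfl⟩ := split a ha
      by_cases h1 : a' = 0
      · rw [h1, zero_add]
        exact h0 i
      refine (ih a' (by simpa [Finset.sum_add_distrib] using h) h1).add hC (hl i) (hz i) (hs i)
        (by rw [Fintype.card_fin, hn, dg_single]) ?_
      obtain ⟨j, a'', rfl⟩ := split a' h1
      rw [add_assoc]
      exact exists_val_add (fun k => hC.ne_zero _ ((hz i).mem k)) (hv i j) a''
  refine ⟨hC.ne_zero, hC.closed, hC.cone, hC.nodal, fun a ha f hf => ?_, fun a ha => ?_⟩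
  · obtain ⟨_, ⟨μ, rfl⟩, h⟩ := (key _ a rfl ha).1 f hf
    exact ⟨μ, h⟩
  · rw [span_eq_Hs]
    exact (key _ a rfl ha).2

end Static

/-! ### Moving zeros -/

variable {T P : Type*} [TopologicalSpace T] [NormedAddCommGroup P] [NormedSpace ℂ P]
  {C : T → Set (V M)} {π : T → P} {t₀ : T}

theorem LocFam.smAt {c : V M} (h : LocFam o C π t₀) (hc : c ∈ C t₀) (hn : ¬IsNode o (C t₀) c) :
    SmAt o C π t₀ c :=
  (h.chart c hc).resolve_right fun ⟨_, hτ⟩ => hn (hτ.isNode h)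

theorem eventually_deriv_ne {Ψ : P × ℂ → ℂ} {p₀ : P} (hΨ : AnalyticAt ℂ Ψ (p₀, 0))
    (hd : deriv (fun w => Ψ (p₀, w)) 0 ≠ 0) :
    ∀ᶠ q : P × ℂ in 𝓝 (p₀, 0), deriv (fun w => Ψ (q.1, q.2 + w)) 0 ≠ 0 := by
  have h1 : ∀ q : P × ℂ, DifferentiableAt ℂ Ψ q →
      deriv (fun w => Ψ (q.1, q.2 + w)) 0 = fderiv ℂ Ψ q (0, 1) := fun q hq =>
    (HasFDerivAt.comp_hasDerivAt_of_eq (f := fun w : ℂ => (q.1, q.2 + w)) 0 hq.hasFDerivAt
      ((hasDerivAt_const _ _).prodMk ((hasDerivAt_id (0 : ℂ)).const_add q.2)) (by simp)).deriv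
  have h2 : ContinuousAt (fun q => fderiv ℂ Ψ q (0, 1)) (p₀, 0) :=
    hΨ.fderiv.continuousAt.clm_apply continuousAt_const
  filter_upwards [hΨ.eventually_analyticAt, h2.eventually_ne (y := 0) (by
    rw [← h1 _ hΨ.differentiableAt]; simpa using hd)] with q h3 h4
  rwa [h1 q h3.differentiableAt]

variable [FiniteDimensional ℂ P]

/-- Recentring of a disc chart at a moving simple zero. -/
theorem Chart.recentre {σ : P × ℂ → V M} (h : Chart o C π t₀ σ fun _ => univ)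
    (hπ : ContinuousAt π t₀) {Φ : P × ℂ → ℂ} (hΦ : AnalyticAt ℂ Φ (π t₀, 0))
    (h0 : Φ (π t₀, 0) = 0) (hd : deriv (fun w => Φ (π t₀, w)) 0 ≠ 0) :
    ∃ κ : P → ℂ, AnalyticAt ℂ κ (π t₀) ∧ κ (π t₀) = 0 ∧
      (∀ᶠ q : P × ℂ in 𝓝 (π t₀, 0), Φ q = 0 ↔ q.2 = κ q.1) ∧
      (∀ᶠ q : P × ℂ in 𝓝 (π t₀, 0), Φ (q.1, κ q.1 + q.2) = 0 ↔ q.2 = 0) ∧
      Chart o C π t₀ (fun q => σ (q.1, κ q.1 + q.2)) fun _ => univ := by
  obtain ⟨κ, h1, h2, h3⟩ := implicit (f := fun q : ℂ × P => Φ q.swap) (x := 0) (w := π t₀)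
    (hΦ.comp_of_eq (analyticAt_snd.prod analyticAt_fst) rfl)
    (bijective_of_injective _ ((injective_iff_map_eq_zero _).2 fun e he => by
      rw [fderiv_eq_smul] at he
      exact (smul_eq_zero.1 he).resolve_right hd) rfl)
  have h4 : ∀ᶠ q : P × ℂ in 𝓝 (π t₀, 0), Φ q = 0 ↔ q.2 = κ q.1 := by
    simpa [h0] using (continuous_swap.tendsto (π t₀, (0 : ℂ))).eventually h3
  have h5 : AnalyticAt ℂ (fun q : P × ℂ => κ q.1) (π t₀, 0) := h1.comp_of_eq analyticAt_fst rfl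
  have h6 : Tendsto (fun q : P × ℂ => (q.1, κ q.1 + q.2)) (𝓝 (π t₀, 0)) (𝓝 (π t₀, 0)) := by
    simpa [h2] using (analyticAt_fst.prod (h5.add analyticAt_snd)).continuousAt.tendsto
  refine ⟨κ, h1, h2, h4, (h6.eventually h4).mono fun q hq => by simpa using hq,
    h.reparam (ψ := fun q => κ q.1 + q.2) hπ (h5.add analyticAt_snd) (by simp [h2])
      (fun e he => by simpa using he) (.of_forall fun _ _ => trivial) fun U hU => ?_⟩
  have h7 : Tendsto (fun q : P × ℂ => q.2 - κ q.1) (𝓝 (π t₀, 0)) (𝓝 0) := by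
    simpa [h2] using (analyticAt_snd.fun_sub h5).continuousAt.tendsto
  filter_upwards [h7 hU] with q hq _ using ⟨_, hq, trivial, by simp⟩

theorem LocFam.zeros (h : LocFam o C π t₀) {lam : P → Tens M b} (hl : AnalyticAt ℂ lam (π t₀))
    {β : Type*} [Fintype β] {z : β → V M}
    (hz : Reps (C t₀) (fun c => val (lam (π t₀)) c = 0) z)
    (hs : ∀ k, Simp o (C t₀) (val (lam (π t₀))) (z k)) :
    ∃ σ : β → P × ℂ → V M, (∀ k, σ k (π t₀, 0) = z k ∧ Chart o C π t₀ (σ k) fun _ => univ) ∧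
      ∀ᶠ t in 𝓝 t₀, Reps (C t) (fun c => val (lam (π t)) c = 0) (fun k => σ k (π t, 0)) ∧
        ∀ k, Simp o (C t) (val (lam (π t))) (σ k (π t, 0)) := by
  have hπ := h.cont.self_of_nhds
  have hne : ∀ k i, z k i ≠ 0 := fun k => h.ne_zero.self_of_nhds _ (hz.mem k)
  have ha : ∀ {σ : P × ℂ → V M}, (Chart o C π t₀ σ fun _ => univ) →
      AnalyticAt ℂ (fun q : P × ℂ => val (lam q.1) (σ q)) (π t₀, 0) := fun hσ =>
    an_val (hl.comp_of_eq analyticAt_fst rfl) hσ.an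
  have hd : ∀ k {σ : P × ℂ → V M}, (Chart o C π t₀ σ fun _ => univ) → σ (π t₀, 0) = z k →
      deriv (fun w => val (lam (π t₀)) (σ (π t₀, w))) 0 ≠ 0 := fun k σ hσ e =>
    (hs k).deriv_ne h.nod (Pol.isSec (val_mem _)) (hσ.isBranch0 (e ▸ hne k o)) e
  have key : ∀ k, ∃ σ : P × ℂ → V M, σ (π t₀, 0) = z k ∧ (Chart o C π t₀ σ fun _ => univ) ∧
      ∀ᶠ q : P × ℂ in 𝓝 (π t₀, 0), val (lam q.1) (σ q) = 0 ↔ q.2 = 0 := fun k => by
    obtain ⟨σ, h1, h2⟩ := h.smAt (hz.mem k) (hs k).1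
    obtain ⟨κ, -, h3, -, h4, h5⟩ := h2.recentre hπ (ha h2) (h1 ▸ hz.prop k) (hd k h2 h1)
    exact ⟨_, by simp [h3, h1], h5, h4⟩
  choose σ h1 h2 h3 using key
  refine ⟨σ, fun k => ⟨h1 k, h2 k⟩, ?_⟩
  have t0 : Tendsto (fun t : T => (t, (0 : ℂ))) (𝓝 t₀) (𝓝 (t₀, 0)) :=
    (Continuous.prodMk_left (0 : ℂ)).tendsto t₀
  have t1 : Tendsto (fun t => (π t, (0 : ℂ))) (𝓝 t₀) (𝓝 (π t₀, 0)) :=
    hπ.prodMk continuousAt_const
  have t2 : ∀ k, Tendsto (fun t => σ k (π t, 0)) (𝓝 t₀) (𝓝 (z k)) := fun k =>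
    h1 k ▸ (h2 k).an.continuousAt.tendsto.comp t1
  have e1 : ∀ᶠ t in 𝓝 t₀, ∀ k, σ k (π t, 0) ∈ C t :=
    eventually_all.2 fun k => (t0.eventually (h2 k).mem).mono fun t ht => ht trivial
  have e2 : ∀ᶠ t in 𝓝 t₀, ∀ k, val (lam (π t)) (σ k (π t, 0)) = 0 :=
    eventually_all.2 fun k => (t1.eventually (h3 k)).mono fun t ht => ht.2 rfl
  have e3 := h.compact (p := fun q => val (lam (π q.1)) q.2 = 0 → ∃ k, Orb (σ k (π q.1, 0)) q.2)
    (fun c hc => ?_) (.of_forall fun t s hs c _ h4 h5 => ?_)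
  rotate_left
  · by_cases h0 : val (lam (π t₀)) c = 0
    · obtain ⟨k, s, h4, rfl⟩ := hz.ex c hc h0
      obtain ⟨u, hu, v, hv, h5⟩ := mem_nhds_prod_iff.1 ((tendsto_pm hπ 0).eventually (h3 k))
      have h6 := ((h2 k).smul h.cone h4).sub v hv
      simp only [h1] at h6
      filter_upwards [h6, continuousAt_fst.eventually hu, continuousAt_snd.eventually
        (eventually_ne (smul_ne h4 (hne k)))] with q h7 h8 h9 h10 h11
      obtain ⟨s', w, h12, -, h13⟩ := h7 h10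
      rw [smul_smul] at h13
      have h14 : w = 0 := (h5 (mk_mem_prod h8 h12)).1 (by
        rw [h13, val_smul] at h11
        exact (mul_eq_zero.1 h11).resolve_left (chr_ne_zero (ne_of_smul_ne (h13 ▸ h9))))
      exact ⟨k, .of_smul h9 (h14 ▸ h13)⟩
    · have h4 : ContinuousAt (fun q : T × V M => val (lam (π q.1)) q.2) (t₀, c) :=
        continuous_val₂.continuousAt.comp (f := fun q : T × V M => (lam (π q.1), q.2))
          (((hl.continuousAt.comp hπ).comp_of_eq continuousAt_fst rfl).prodMk continuousAt_snd)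
      filter_upwards [h4.eventually_ne h0] with q hq _ h5 using absurd h5 hq
  · obtain ⟨k, hk⟩ := h4 (by rw [val_smul, h5, mul_zero])
    exact ⟨k, hk.trans (Orb.symm ⟨s, hs, rfl⟩)⟩
  have e4 : ∀ᶠ t in 𝓝 t₀, ∀ k k', Orb (σ k (π t, 0)) (σ k' (π t, 0)) → k = k' :=
    eventually_all.2 fun k => eventually_all.2 fun k' => by
      by_cases e : k = k'
      · exact .of_forall fun _ _ => e
      · exact (((t2 k).prodMk_nhds (t2 k')).eventually (eventually_not_orb (hne k) (hne k')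
          fun h4 => e (hz.inj k k' h4))).mono fun t ht h5 => absurd h5 ht
  have e5 : ∀ᶠ t in 𝓝 t₀, ∀ k, σ k (π t, 0) ∈ C t → SmAt o C π t (σ k (π t, 0)) :=
    eventually_all.2 fun k => (tendsto_id.prodMk_nhds (t2 k)).eventually
      (SmAt.eventually ⟨σ k, h1 k, h2 k⟩ h)
  have e6 := eventually_all.2 fun k => t0.eventually ((h2 k).isBranch h)
  have e7 := eventually_all.2 fun k =>
    t1.eventually (eventually_deriv_ne (ha (h2 k)) (hd k (h2 k) (h1 k)))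
  filter_upwards [e1, e2, e3, e4, e5, e6, e7, h.eventually] with t b1 b2 b3 b4 b5 b6 b7 b8
  exact ⟨⟨b1, b2, b3, b4⟩, fun k => ⟨(b5 k (b1 k)).not_isNode b8, b2 k, _, b6 k, by simp, b7 k⟩⟩

/-- Evaluation points move in the family. -/
theorem LocFam.move_ev (h : LocFam o C π t₀) {β : Type*} [Fintype β] {z : β → V M}
    (hz : ∀ k, z k ∈ C t₀ ∧ ¬IsNode o (C t₀) (z k))
    (h1 : Surjective fun (μ : Tens M a) k => val μ (z k))
    (h2 : ∀ s, IsSec o (C t₀) a s → (∀ k, s (z k) = 0) → ∀ c ∈ C t₀, s c = 0) :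
    ∃ y : β → P → V M, (∀ k, AnalyticAt ℂ (y k) (π t₀) ∧ y k (π t₀) = z k) ∧
      ∀ᶠ t in 𝓝 t₀, (∀ k, y k (π t) ∈ C t) ∧
        Surjective (fun (μ : Tens M a) k => val μ (y k (π t))) ∧
        ∀ s, IsSec o (C t) a s → (∀ k, s (y k (π t)) = 0) → ∀ c ∈ C t, s c = 0 := by
  choose σ h3 h4 using fun k => h.smAt (hz k).1 (hz k).2
  have h5 : ∀ k, AnalyticAt ℂ (fun p => σ k (p, 0)) (π t₀) := fun k =>
    (h4 k).an.comp_of_eq (analyticAt_id.prod analyticAt_const) rfl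
  have h6 : ∀ k, ContinuousAt (fun t => σ k (π t, 0)) t₀ := fun k =>
    (h5 k).continuousAt.comp h.cont.self_of_nhds
  have h7 : ∀ k, ∀ᶠ t in 𝓝 t₀, σ k (π t, 0) ∈ C t := fun k =>
    (((Continuous.prodMk_left (0 : ℂ)).tendsto t₀).eventually (h4 k).mem).mono fun t ht =>
      ht trivial
  exact ⟨fun k p => σ k (p, 0), fun k => ⟨h5 k, h3 k⟩, (eventually_all.2 h7).and
    ((eventually_surj h6 (by simpa only [h3] using h1)).and
      (h.usc_sec a (fun k => ⟨h6 k, h7 k⟩) (by simpa only [h3] using h2)))⟩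

end Vale.Agent.P269.Base
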