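import Vale.Agent.P269.Base.MerF

/-!
# Small deformations of the embedding of a fixed curve
-/

namespace Vale.Agent.P269.Base

open Set Function Topology Filter Holo

set_option linter.unusedSectionVars false

variable {ι ι' : Type} [Fintype ι] [Fintype ι'] {M : ι → ℕ} {M' : ι' → ℕ} {o : ι} {o' : ι'}

/-- The ratio of two analytic maps with values in the same orbits. -/
theorem exists_unit {Y : Type*} [NormedAddCommGroup Y] [NormedSpace ℂ Y] {u v : Y → V M} {x : Y}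
    (hu : AnalyticAt ℂ u x) (hv : AnalyticAt ℂ v x) (h0 : ∀ i, u x i ≠ 0) :
    ∃ s : Y → ι → ℂ, AnalyticAt ℂ s x ∧ ∀ᶠ y in 𝓝 x, ∀ t : ι → ℂ, v y = t • u y → s y = t := by
  choose l hl using fun i => Function.ne_iff.1 (h0 i)
  have a : ∀ {w : Y → V M}, AnalyticAt ℂ w x → ∀ i, AnalyticAt ℂ (fun y => w y i (l i)) x :=
    fun hw i => analyticAt_pi_iff.1 (analyticAt_pi_iff.1 hw i) (l i)
  refine ⟨fun y i => v y i (l i) / u y i (l i),
    analyticAt_pi_iff.2 fun i => (a hv i).div (a hu i) (hl i), ?_⟩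
  filter_upwards [eventually_all.2 fun i => (a hu i).continuousAt.eventually_ne (hl i)]
    with y hy t ht
  funext i
  rw [div_eq_iff (hy i), ht]
  rfl

theorem orb_deriv {γ γ' : ℂ → V M} (hγ : AnalyticAt ℂ γ 0) (hγ' : AnalyticAt ℂ γ' 0)
    (h0 : ∀ i, γ 0 i ≠ 0) (h : ∀ᶠ t in 𝓝 0, Orb (γ t) (γ' t)) :
    ∃ s a : ι → ℂ, (∀ i, s i ≠ 0) ∧ γ' 0 = s • γ 0 ∧ deriv γ' 0 = s • deriv γ 0 + a • γ 0 := by
  obtain ⟨s, h1, h2⟩ := exists_unit hγ hγ' h0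
  have h3 : ∀ᶠ t in 𝓝 0, γ' t = s t • γ t ∧ ∀ i, s t i ≠ 0 := by
    filter_upwards [h, h2] with t ⟨r, hr, k1⟩ k2
    rw [k2 r k1]
    exact ⟨k1, hr⟩
  exact ⟨s 0, deriv s 0, h3.self_of_nhds.2, h3.self_of_nhds.1,
    ((hasDerivAt_smul' h1.differentiableAt.hasDerivAt
      hγ.differentiableAt.hasDerivAt).congr_of_eventuallyEq (h3.mono fun _ k => k.1)).deriv⟩

/-- A branch whose orbits fill a neighbourhood describes the curve. -/
theorem loc_of_orb {C : Set (V M)} {γ : ℂ → V M} (hγ : IsBranch o C γ) (h0 : ∀ i, γ 0 i ≠ 0)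
    (h : ∀ U ∈ 𝓝 (0 : ℂ), ∀ᶠ y in 𝓝[C] γ 0, ∃ z ∈ U, Orb (γ z) y) :
    Loc o C (γ 0) fun _ => γ := by
  refine ⟨fun _ => hγ, fun _ => rfl, h0, .inl rfl, fun p hp => ?_⟩
  obtain ⟨s, h1, h2⟩ := exists_unit (u := fun w : V M × ℂ => γ w.2) (v := Prod.fst) (x := (γ 0, 0))
    (hγ.holo.comp_of_eq analyticAt_snd rfl) analyticAt_fst h0
  have h3 : s (γ 0, 0) = 1 := h2.self_of_nhds 1 (one_smul _ _).symm
  have h4 := ((Tendsto.prodMk_nhds (h3 ▸ h1.continuousAt.tendsto :)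
    (continuousAt_snd (p := (γ 0, (0 : ℂ))))).eventually (hp true)).and h2
  rw [nhds_prod_eq] at h4
  obtain ⟨A, hA, B, hB, h5⟩ := eventually_prod_iff.1 h4
  filter_upwards [h _ hB, mem_nhdsWithin_of_mem_nhds hA] with y ⟨z, k1, t, _, k2⟩ k3
  have k4 := h5 k3 k1
  rw [k4.2 t k2] at k4
  exact k2 ▸ k4.1

section Iso

variable {C : Set (V M)} {C' : Set (V M')} {R : V M → V M' → Prop}

/-- The graph of an isomorphism is closed along branches. -/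
theorem CIso.closed {C : Set (V M)} {C' : Set (V M')} {R : V M → V M' → Prop}
    (h : CIso o o' C C' R) (hC' : ∀ y ∈ C', ∀ i, y i ≠ 0) {γ : ℂ → V M} {γ' : ℂ → V M'}
    (hγ : IsBranch o C γ) (h1 : ContinuousAt γ' 0) (h2 : ∀ i, γ' 0 i ≠ 0)
    (h3 : ∀ᶠ t in 𝓝[≠] 0, R (γ t) (γ' t)) : R (γ 0) (γ' 0) := by
  obtain ⟨δ, h4, h5⟩ := h.lift γ hγ
  refine h.orb _ _ _ _ h5.self_of_nhds (Orb.refl _) (by_contra fun h6 => ?_)
  have h7 := ev_not_orb h4.continuousAt h1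
    (hC' _ ((h.img _).2 ⟨_, hγ.mem.self_of_nhds, h5.self_of_nhds⟩)) h2 h6
  obtain ⟨t, k1, ⟨k2, k3⟩, k4⟩ :=
    (h3.and (((h5.and h7).and hγ.mem).filter_mono nhdsWithin_le_nhds)).exists
  exact k3 (h.uniq _ k4 _ _ k2 k1)

theorem CIso.near (h : CIso o o' C C' R) (hC : Nod o C) (hC' : ∀ y ∈ C', ∀ i, y i ≠ 0) {c : V M}
    {y₀ : V M'} (hc : c ∈ C) (hy : R c y₀) {N : Set (V M)} (hN : N ∈ 𝓝 c) :
    ∀ᶠ y in 𝓝 y₀, ∀ c' ∈ C, R c' y → ∃ c'' ∈ C, c'' ∈ N ∧ R c'' y := by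
  have h1 := hC.isCompact.eventually_forall_of_forall_eventually (x₀ := y₀)
    (P := fun y c' => c' ∈ C → R c' y → ∃ c'' ∈ C, c'' ∈ N ∧ R c'' y) fun c₁ h1 => by
      by_cases ho : Orb c₁ c
      · obtain ⟨s, hs, rfl⟩ := ho
        filter_upwards [(tendsto_smul tendsto_const_nhds
          (continuousAt_snd (p := (y₀, c₁)))).eventually hN] with q k1 k2 k3
        exact ⟨_, hC.cone s hs _ k2, k1, h.orb _ _ _ _ k3 (Orb.smul _ hs) (Orb.refl _)⟩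
      · obtain ⟨g, hg⟩ := hC.exists_loc h1.1
        choose κ k1 k2 using fun j => h.lift _ (hg.br j)
        have k3 : ∀ j, R c₁ (κ j 0) := fun j => hg.zero j ▸ (k2 j).self_of_nhds
        have k4 := eventually_all.2 fun j => ev_not_orb
          ((k1 j).continuousAt.tendsto.comp (continuousAt_snd (p := (y₀, (0 : ℂ)))))
          continuousAt_fst (hC' _ ((h.img _).2 ⟨_, h1.1, k3 j⟩)) (hC' _ ((h.img _).2 ⟨_, hc, hy⟩))
          fun k => ho (h.inj _ h1.1 _ hc _ (h.orb _ _ _ _ (k3 j) (Orb.refl _) k) hy)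
        rw [nhds_prod_eq] at k4
        obtain ⟨A, hA, B, hB, k5⟩ := eventually_prod_iff.1 k4
        have k6 := hg.ev (fun c' => ∀ y, A y → ¬R c' y) fun j => by
          filter_upwards [ev_ne_one, continuousAt_snd.tendsto.eventually
            ((hB.and (k2 j)).and (hg.br j).mem)] with w k7 k8 y k9 k10
          exact k5 k9 k8.1.1 j (h.uniq _ k8.2 _ _ k8.1.2
            (h.orb _ _ _ _ k10 (Orb.smul _ k7).symm (Orb.refl _)))
        filter_upwards [continuousAt_fst.eventually hA, (continuousAt_snd (p := (y₀, c₁))).eventually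
          (eventually_nhdsWithin_iff.1 k6)] with q k7 k8 k9 k10
        exact absurd k10 (k8 k9 _ k7)
  filter_upwards [h1] with y k1 c' k2 k3
  obtain ⟨c₁, k4, k5⟩ := exists_orb_sphere (hC.ne_zero c' k2)
  exact k1 c₁ ⟨hC.orb k2 k4, k5⟩ (hC.orb k2 k4) (h.orb _ _ _ _ k3 k4 (Orb.refl _))

theorem CIso.isNode_iff {C : Set (V M)} {C' : Set (V M')} {R : V M → V M' → Prop}
    (h : CIso o o' C C' R) (hC : Nod o C) (hC' : Nod o' C') {c : V M} {y : V M'} (hc : c ∈ C)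
    (hy : R c y) : IsNode o' C' y ↔ IsNode o C c := by
  constructor
  · intro hn
    by_contra h1
    obtain ⟨g, hg⟩ := hC.exists_loc hc
    obtain ⟨κ, k1, k2⟩ := h.lift _ (hg.br true)
    have k3 : R c (κ 0) := hg.zero true ▸ k2.self_of_nhds
    refine (loc_of_orb (h.br _ _ (hg.br true) k1 k2) (hC'.ne_zero _ ((h.img _).2 ⟨_, hc, k3⟩))
      fun U hU => ?_).isNode_iff.1 (hC'.isNode_orb hn (h.uniq _ hc _ _ hy k3)) rfl
    have k4 := hg.ev (fun c' => ∀ y, R c' y → ∃ z ∈ U, Orb (κ z) y) fun j => by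
      filter_upwards [ev_ne_one, continuousAt_snd.tendsto.eventually
        ((k2.and (hg.br true).mem).and hU)] with w k5 k6 y k7
      rw [hg.eq_of_not_node h1] at k7
      exact ⟨_, k6.2, h.uniq _ k6.1.2 _ _ k6.1.1
        (h.orb _ _ _ _ k7 (Orb.smul _ k5).symm (Orb.refl _))⟩
    filter_upwards [mem_nhdsWithin_of_mem_nhds (h.near hC hC'.ne_zero hc k3
      (eventually_nhdsWithin_iff.1 k4)), self_mem_nhdsWithin] with y' k5 k6
    obtain ⟨c', k7, k8⟩ := (h.img _).1 k6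
    obtain ⟨c'', k9, k10, k11⟩ := k5 c' k7 k8
    exact k10 k9 _ k11
  · rintro ⟨γ₁, γ₂, hx⟩
    obtain ⟨δ₁, k1, k2⟩ := h.lift _ hx.1
    obtain ⟨δ₂, k3, k4⟩ := h.lift _ hx.2.1
    have k5 : R c (δ₁ 0) := hx.2.2.1 ▸ k2.self_of_nhds
    have k6 : R c (δ₂ 0) := hx.2.2.2.1 ▸ k4.self_of_nhds
    obtain ⟨s, hs, k7⟩ := h.uniq _ hc _ _ k6 k5
    exact hC'.isNode_orb ⟨_, _, h.cross c γ₁ γ₂ δ₁ (fun t => s • δ₂ t) hx k1
      (an_smul analyticAt_const k3) k7 k2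
      (k4.mono fun t k => h.orb _ _ _ _ k (Orb.refl _) (Orb.smul _ hs))⟩ (h.uniq _ hc _ _ k5 hy)

/-- `κ` are the images of the branches `g`. -/
structure Key (o' : ι') (R : V M → V M' → Prop) (g : Bool → ℂ → V M) (κ : Bool → ℂ → V M') :
    Prop where
  an : ∀ j, AnalyticAt ℂ (κ j) 0
  rel : ∀ j, ∀ᶠ t in 𝓝 0, ∀ y, R (g j t) y ↔ Orb (κ j t) y
  ne : ∀ j i, κ j 0 i ≠ 0
  imm : ∀ j, LinearIndependent ℂ ![κ j 0 o', deriv (κ j) 0 o']
  alt : g true = g false ∨ κ false 0 = κ true 0 ∧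
    LinearIndependent ℂ ![κ true 0 o', deriv (κ true) 0 o', deriv (κ false) 0 o']

variable {c : V M} {g : Bool → ℂ → V M} {κ : Bool → ℂ → V M'}

theorem Key.smul (k : Key o' R g κ) (hR : ∀ c c' y y', R c y → Orb c c' → Orb y y' → R c' y')
    {s : ι → ℂ} (hs : ∀ i, s i ≠ 0) : Key o' R (fun j t => s • g j t) κ :=
  ⟨k.an, fun j => (k.rel j).mono fun _ h y => Iff.trans
    ⟨fun h1 => hR _ _ _ _ h1 (Orb.smul _ hs).symm (Orb.refl _),
      fun h1 => hR _ _ _ _ h1 (Orb.smul _ hs) (Orb.refl _)⟩ (h y), k.ne, k.imm,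
    k.alt.imp_left fun e => by rw [e]⟩

theorem Key.lift (k : Key o' R g κ) (hg : Loc o C c g)
    (hR : ∀ c c' y y', R c y → Orb c c' → Orb y y' → R c' y') {δ : ℂ → V M} (hδ : IsBranch o C δ)
    (h0 : δ 0 = c) : ∃ (j : Bool) (ψ : ℂ → ℂ) (a : ι → ℂ), AnalyticAt ℂ ψ 0 ∧ ψ 0 = 0 ∧
      deriv ψ 0 ≠ 0 ∧ deriv δ 0 = a • c + deriv ψ 0 • deriv (g j) 0 ∧
      ∀ᶠ t in 𝓝 0, ∀ y, R (δ t) y ↔ Orb (κ j (ψ t)) y := by
  obtain ⟨j, s, ψ, h1, h2, h3, h4, h5, h6, h7⟩ := hg.reparam hδ h0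
  refine ⟨j, ψ, _, h2, h4, h5, h7.trans (add_comm _ _), ?_⟩
  filter_upwards [h6, (h4 ▸ h2.continuousAt.tendsto :).eventually (k.rel j),
    eventually_all.2 fun i => (continuousAt_pi.1 h1.continuousAt i).eventually_ne
      (y := 0) (by simp [h3])] with t k1 k2 k3 y
  rw [k1, ← k2 y]
  exact ⟨fun k4 => hR _ _ _ _ k4 (Orb.smul _ k3).symm (Orb.refl _),
    fun k4 => hR _ _ _ _ k4 (Orb.smul _ k3) (Orb.refl _)⟩

theorem Key.tan (k : Key o' R g κ) (hg : Loc o C c g)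
    (hR : ∀ c c' y y', R c y → Orb c c' → Orb y y' → R c' y') {δ : ℂ → V M} (hδ : IsBranch o C δ)
    (h0 : δ 0 = c) {δ' : ℂ → V M'} (h1 : AnalyticAt ℂ δ' 0) (h2 : ∀ᶠ t in 𝓝 0, R (δ t) (δ' t)) :
    ∃ (j : Bool) (e a s b : ℂ), e ≠ 0 ∧ s ≠ 0 ∧ deriv δ 0 o = a • c o + e • deriv (g j) 0 o ∧
      δ' 0 o' = s • κ j 0 o' ∧ deriv δ' 0 o' = (s * e) • deriv (κ j) 0 o' + b • κ j 0 o' := by
  obtain ⟨j, ψ, a, k1, k2, k3, k4, k5⟩ := k.lift hg hR hδ h0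
  obtain ⟨s, b, k6, k7, k8⟩ := orb_deriv (γ := fun t => κ j (ψ t))
    ((k.an j).comp_of_eq k1 k2) h1 (by rw [k2]; exact k.ne j)
    ((k5.and h2).mono fun t k => (k.1 _).1 k.2)
  have k9 := (HasDerivAt.scomp_of_eq (0 : ℂ) (k.an j).differentiableAt.hasDerivAt
    k1.differentiableAt.hasDerivAt k2.symm).deriv
  erw [k9] at k8
  rw [k2] at k7 k8
  refine ⟨j, _, a o, s o', b o', k3, k6 _, congrFun k4 o, congrFun k7 o', ?_⟩
  rw [k8, mul_smul]
  rfl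

theorem CIso.of_key (hR : ∀ c c' y y', R c y → Orb c c' → Orb y y' → R c' y')
    (hi : ∀ c ∈ C, ∀ c' ∈ C, ∀ y, R c y → R c' y → Orb c c')
    (hk : ∀ c ∈ C, ∃ g κ, Loc o C c g ∧ Key o' R g κ) :
    CIso o o' C {y | ∃ c ∈ C, R c y} R := by
  have br : ∀ γ γ', IsBranch o C γ → AnalyticAt ℂ γ' 0 → (∀ᶠ t in 𝓝 0, R (γ t) (γ' t)) →
      IsBranch o' {y | ∃ c ∈ C, R c y} γ' := fun γ γ' h1 h2 h3 => by
    obtain ⟨g, κ, hg, k⟩ := hk _ h1.mem.self_of_nhds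
    obtain ⟨j, e, a, s, b, k1, k2, -, k3, k4⟩ := k.tan hg hR h1 rfl h2 h3
    refine ⟨h2, (h1.mem.and h3).mono fun t k => ⟨_, k⟩, ?_⟩
    rw [k3, k4]
    refine li_pair (smul_ne_zero k2 (k.ne j _)) fun x r hx => ?_
    have := of_li_pair (k.imm j) (e := x * (s * e)) (s := r * s - x * b) (by
      linear_combination (norm := module) hx)
    simpa [k1, k2] using this
  refine ⟨hR, fun _ => Iff.rfl, fun c hc y y' h1 h2 => ?_, hi, fun γ hγ => ?_, br,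
    fun c γ₁ γ₂ δ₁ δ₂ hx h1 h2 h3 h4 h5 => ⟨br _ _ hx.1 h1 h4, br _ _ hx.2.1 h2 h5, rfl, h3.symm, ?_⟩⟩
  · obtain ⟨g, κ, hg, k⟩ := hk c hc
    have k1 := (k.rel true).self_of_nhds
    rw [hg.zero] at k1
    exact ((k1 _).1 h1).symm.trans ((k1 _).1 h2)
  · obtain ⟨g, κ, hg, k⟩ := hk _ hγ.mem.self_of_nhds
    obtain ⟨j, ψ, a, k1, k2, -, -, k5⟩ := k.lift hg hR hγ rfl
    exact ⟨_, (k.an j).comp_of_eq k1 k2, k5.mono fun t k => (k _).2 (Orb.refl _)⟩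
  · obtain ⟨g, κ, hg, k⟩ := hk c (hx.2.2.1 ▸ hx.1.mem.self_of_nhds)
    obtain ⟨j, e, a, s, b, k1, k2, k3, k4, k5⟩ := k.tan hg hR hx.1 hx.2.2.1 h1 h4
    obtain ⟨j', e', a', s', b', k1', k2', k3', -, k5'⟩ := k.tan hg hR hx.2.1 hx.2.2.2.1 h2 h5
    have k6 : g j ≠ g j' := fun k6 => by
      have := hx.2.2.2.2
      rw [k3, k3', k6] at this
      exact not_li_triple _ _ _ _ _ _ this
    have k7 := k.alt.resolve_left fun k7 => k6 (by cases j <;> cases j' <;> simp [k7])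
    rw [k4, k5, k5']
    refine li_triple (smul_ne_zero k2 (k.ne j _)) fun x x' r hx => ?_
    cases j <;> cases j'
    · exact absurd rfl k6
    · rw [k7.1] at hx
      have := of_li_triple k7.2 (e := x' * (s' * e')) (e' := x * (s * e))
        (s := r * s - x * b - x' * b') (by linear_combination (norm := module) hx)
      simpa [k1, k2, k1', k2', and_comm] using this
    · rw [k7.1] at hx
      have := of_li_triple k7.2 (e := x * (s * e)) (e' := x' * (s' * e'))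
        (s := r * s - x * b - x' * b') (by linear_combination (norm := module) hx)
      simpa [k1, k2, k1', k2'] using this
    · exact absurd rfl k6

end Iso

variable {P : Type*} [NormedAddCommGroup P] [NormedSpace ℂ P] [FiniteDimensional ℂ P]
  {C₀ : Set (V M)} {R : P → V M → V M → Prop} {p₀ : P}

theorem Nod.push_key (h : Nod o C₀)
    (hR : ∀ p c c' y y', R p c y → Orb c c' → Orb y y' → R p c' y') {c₀ : V M} (h0 : c₀ ∈ C₀)
    {Φ : P × V M → V M} (h1 : AnalyticAt ℂ Φ (p₀, c₀)) (h2 : ∀ᶠ c in 𝓝[C₀] c₀, Φ (p₀, c) = c)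
    (h3 : ∀ᶠ q : P × V M in 𝓝 (p₀, c₀), q.2 ∈ C₀ → ∀ y, R q.1 q.2 y ↔ Orb (Φ q) y) :
    ∀ᶠ q : P × V M in 𝓝 (p₀, c₀), q.2 ∈ C₀ → ∃ g κ, Loc o C₀ q.2 g ∧ Key o (R q.1) g κ := by
  obtain ⟨γ, hγ⟩ := h.exists_loc h0
  let κ : Bool → P × ℂ → V M := fun j q => Φ (q.1, γ j q.2)
  have t1 : ∀ j, Tendsto (fun q : P × ℂ => (q.1, γ j q.2)) (𝓝 (p₀, 0)) (𝓝 (p₀, c₀)) := fun j =>
    Tendsto.prodMk_nhds continuousAt_fst ((tendsto_nhds_of_tendsto_nhdsWithin (hγ.tendsto j)).comp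
      continuousAt_snd)
  have a1 : ∀ j, AnalyticAt ℂ (κ j) (p₀, 0) := fun j => h1.comp_of_eq
    (analyticAt_fst.prod ((hγ.an j).comp_of_eq analyticAt_snd rfl)) (by simp only [hγ.zero])
  have e1 : ∀ j, κ j (p₀, 0) = c₀ := fun j => by
    simpa only [κ, hγ.zero] using h2.self_of_nhdsWithin h0
  have e2 : ∀ j, fderiv ℂ (κ j) (p₀, 0) (0, 1) = deriv (γ j) 0 := fun j => by
    rw [← fderiv_inr (a1 j), fderiv_apply_one_eq_deriv]
    exact EventuallyEq.deriv_eq ((hγ.tendsto j).eventually h2)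
  have c1 : ∀ j, ContinuousAt (fun q => κ j q o) (p₀, 0) := fun j =>
    (continuous_apply o).continuousAt.comp (a1 j).continuousAt
  have c2 : ∀ j, ContinuousAt (fun q => fderiv ℂ (κ j) q (0, 1) o) (p₀, 0) := fun j =>
    (continuous_apply o).continuousAt.comp (an_apply (a1 j).fderiv analyticAt_const).continuousAt
  have l1 : ∀ j, ∀ᶠ q in 𝓝 (p₀, (0 : ℂ)),
      LinearIndependent ℂ ![κ j q o, fderiv ℂ (κ j) q (0, 1) o] := fun j => by
    have : ContinuousAt (fun q => ![κ j q o, fderiv ℂ (κ j) q (0, 1) o]) (p₀, 0) :=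
      continuousAt_pi.2 fun k => by
        fin_cases k
        exacts [c1 j, c2 j]
    refine this.eventually (isOpen_setOfPred_linearIndependent.mem_nhds ?_)
    simpa only [mem_ofPred_eq, e1, e2, hγ.zero] using (hγ.br j).imm
  have l2 : ∀ᶠ q in 𝓝 (p₀, (0 : ℂ)), γ true = γ false ∨ LinearIndependent ℂ
      ![κ true q o, fderiv ℂ (κ true) q (0, 1) o, fderiv ℂ (κ false) q (0, 1) o] := by
    refine hγ.alt.elim (fun k => .of_forall fun _ => .inl k) fun k => ?_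
    have : ContinuousAt (fun q => ![κ true q o, fderiv ℂ (κ true) q (0, 1) o,
        fderiv ℂ (κ false) q (0, 1) o]) (p₀, 0) := continuousAt_pi.2 fun k => by
      fin_cases k
      exacts [c1 _, c2 _, c2 _]
    refine (this.eventually (isOpen_setOfPred_linearIndependent.mem_nhds ?_)).mono fun _ => .inr
    simpa only [mem_ofPred_eq, e1, e2] using k
  have l3 : ∀ᶠ q in 𝓝 (p₀, (0 : ℂ)), ∀ j, AnalyticAt ℂ (fun t => κ j (q.1, q.2 + t)) 0 ∧
      (∀ᶠ t in 𝓝 0, ∀ y, R q.1 (γ j (q.2 + t)) y ↔ Orb (κ j (q.1, q.2 + t)) y) ∧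
      (∀ i, κ j q i ≠ 0) ∧
      deriv (fun t => κ j (q.1, q.2 + t)) 0 = fderiv ℂ (κ j) q (0, 1) := eventually_all.2 fun j => by
    filter_upwards [(a1 j).eventually_analyticAt, (((t1 j).eventually h3).and
      (continuousAt_snd.tendsto.eventually (hγ.br j).mem)).eventually_nhds,
      (a1 j).continuousAt.eventually (eventually_ne ((e1 j).symm ▸ hγ.ne))] with q k1 k2 k3
    refine ⟨k1.comp_of_eq (analyticAt_const.prod (analyticAt_const.add analyticAt_id)) (by simp),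
      (((by fun_prop : Continuous fun t : ℂ => (q.1, q.2 + t)).tendsto' 0 q
        (by simp)).eventually k2).mono fun t k => k.1 k.2, k3, ?_⟩
    rw [deriv_comp_const_add (f := fun t => κ j (q.1, t)), add_zero, ← fderiv_apply_one_eq_deriv,
      fderiv_inr k1]
  have l4 := ((eventually_all.2 l1).and l2).and l3
  rw [nhds_prod_eq] at l4
  obtain ⟨A, hA, B, hB, l5⟩ := eventually_prod_iff.1 l4
  have l6 := hγ.ev (fun c => ∀ p, A p → ∃ g κ, Loc o C₀ c g ∧ Key o (R p) g κ) fun j => by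
    filter_upwards [hγ.nearby h j, ev_ne_one, continuousAt_snd.tendsto.eventually hB]
      with w k1 k2 k3 p k4
    obtain ⟨⟨k5, k6⟩, k7⟩ := l5 k4 k3
    by_cases hw : w.2 ≠ 0 ∨ γ true = γ false
    · exact ⟨_, fun _ t => κ j (p, w.2 + t), k1 hw, Key.smul (g := fun _ t => γ j (w.2 + t))
        ⟨fun _ => (k7 j).1, fun _ => (k7 j).2.1, fun _ => by simpa using (k7 j).2.2.1,
          fun _ => by simpa only [(k7 j).2.2.2, add_zero] using k5 j, .inl rfl⟩ (hR p) k2⟩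
    · obtain ⟨k8, k9⟩ := not_or.1 hw
      rw [not_not.1 k8] at k5 k6 k7 ⊢
      simp only [zero_add] at k7
      refine ⟨_, fun j t => κ j (p, t), by simpa only [hγ.zero] using hγ.smul h k2,
        Key.smul ⟨fun j => (k7 j).1, fun j => (k7 j).2.1, fun j => (k7 j).2.2.1,
          fun j => by simpa only [(k7 j).2.2.2] using k5 j, .inr ⟨by simp only [κ, hγ.zero], ?_⟩⟩
          (hR p) k2⟩
      simpa only [(k7 _).2.2.2] using k6.resolve_left k9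
  filter_upwards [continuousAt_fst.eventually hA, (continuousAt_snd (p := (p₀, c₀))).eventually
    (eventually_nhdsWithin_iff.1 l6)] with q k1 k2 k3 using k2 k3 _ k1

theorem Nod.push_inj_chart (h : Nod o C₀)
    (hR : ∀ p c c' y y', R p c y → Orb c c' → Orb y y' → R p c' y') {c₀ : V M} (h0 : c₀ ∈ C₀)
    {Φ : P × V M → V M} (h2 : ∀ᶠ c in 𝓝[C₀] c₀, Φ (p₀, c) = c)
    (h3 : ∀ᶠ q : P × V M in 𝓝 (p₀, c₀), q.2 ∈ C₀ → ∀ y, R q.1 q.2 y ↔ Orb (Φ q) y)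
    {E : Type*} [NormedAddCommGroup E] [NormedSpace ℂ E] [FiniteDimensional ℂ E] {C : P → Set (V M)}
    (e0 : C p₀ = C₀) {g : E → V M} {X : Set E} (hg : Tendsto g (𝓝 0) (𝓝 c₀)) (g0 : g 0 = c₀)
    (hm : ∀ᶠ z in 𝓝 0, z ∈ X → g z ∈ C₀)
    (hσ : Chart o C id p₀ (fun r : P × E => Φ (r.1, g r.2)) fun _ => X) :
    ∀ᶠ q : P × V M × V M in 𝓝 (p₀, c₀, c₀), q.2.1 ∈ C₀ → q.2.2 ∈ C₀ →
      ∀ y, R q.1 q.2.1 y → R q.1 q.2.2 y → Orb q.2.1 q.2.2 := by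
  have e1 : Φ (p₀, g 0) = c₀ := g0.symm ▸ h2.self_of_nhdsWithin h0
  have k1 := hσ.inj (by simpa only [id, e1] using h.ne_zero _ h0)
  rw [nhds_prod_eq] at h3 k1
  obtain ⟨A, hA, B, hB, k2⟩ := eventually_prod_iff.1 h3
  obtain ⟨A', hA', B', hB', k3⟩ := eventually_prod_iff.1 k1
  rw [nhds_prod_eq] at hB'
  obtain ⟨U, hU, U', hU', k4⟩ := eventually_prod_iff.1 hB'
  have k5 := (tendsto_inr p₀ _).eventually (hσ.sub _ (((hU.and hU').and hm).and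
    (hg.eventually (hB.and (eventually_nhdsWithin_iff.1 h2)))))
  simp only [id, e1, e0] at k5
  have k6 : ∀ᶠ c in 𝓝 c₀, c ∈ C₀ → ∃ z, U z ∧ U' z ∧ Orb (g z) c ∧
      ∀ p, A p → ∀ y, R p c y → Orb (Φ (p, g z)) y := k5.mono fun c k hc => by
    obtain ⟨s, z, ⟨⟨⟨k6, k7⟩, k8⟩, k9, k10⟩, k11, k12⟩ := k hc
    rw [k10 (k8 k11)] at k12
    have k13 := Orb.of_smul (h.ne_zero _ hc) k12
    exact ⟨z, k6, k7, k13, fun p hp y hy =>
      (k2 hp k9 (k8 k11) y).1 (hR _ _ _ _ _ hy k13.symm (Orb.refl _))⟩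
  filter_upwards [continuousAt_fst.eventually (hA.and hA'),
    ((continuous_fst.comp continuous_snd).tendsto' (p₀, c₀, c₀) c₀ rfl).eventually k6,
    ((continuous_snd.comp continuous_snd).tendsto' (p₀, c₀, c₀) c₀ rfl).eventually k6]
    with q k7 k8 k9 k10 k11 y k12 k13
  obtain ⟨z, l1, -, l2, l3⟩ := k8 k10
  obtain ⟨z', -, l4, l5, l6⟩ := k9 k11
  obtain ⟨s, -, l7⟩ := (l3 _ k7.1 y k12).trans (l6 _ k7.1 y k13).symm
  obtain rfl : z = z' := (k3 k7.2 (k4 l1 l4) s l7).2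
  exact l2.symm.trans l5

theorem Nod.push_inj (h : Nod o C₀)
    (hR : ∀ p c c' y y', R p c y → Orb c c' → Orb y y' → R p c' y')
    (hΦ : ∀ c₀ ∈ C₀, ∃ Φ : P × V M → V M, AnalyticAt ℂ Φ (p₀, c₀) ∧
      (∀ᶠ c in 𝓝[C₀] c₀, Φ (p₀, c) = c) ∧
      ∀ᶠ q : P × V M in 𝓝 (p₀, c₀), q.2 ∈ C₀ → ∀ y, R q.1 q.2 y ↔ Orb (Φ q) y) :
    ∀ᶠ p in 𝓝 p₀, ∀ c ∈ C₀, ∀ c' ∈ C₀, ∀ y, R p c y → R p c' y → Orb c c' := by
  obtain ⟨e0, -, hch⟩ := h.push hR hΦ
  have diag : ∀ c₀ ∈ C₀, ∀ᶠ q : P × V M × V M in 𝓝 (p₀, c₀, c₀), q.2.1 ∈ C₀ → q.2.2 ∈ C₀ →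
      ∀ y, R q.1 q.2.1 y → R q.1 q.2.2 y → Orb q.2.1 q.2.2 := fun c₀ h0 => by
    obtain ⟨γ, hγ⟩ := h.exists_loc h0
    obtain ⟨Φ, k1, k2, k3⟩ := hΦ c₀ h0
    by_cases he : γ true = γ false
    · exact h.push_inj_chart hR h0 k2 k3 e0 (tendsto_nhds_of_tendsto_nhdsWithin (hγ.tendsto true))
        (hγ.zero _) ((hγ.br true).mem.mono fun _ k _ => k) ((hch c₀ γ Φ hγ k1 k2 k3).1 he)
    · have e1 : γ true 0 + γ false 0 - c₀ = c₀ := by simp [hγ.zero]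
      refine h.push_inj_chart hR h0 k2 k3 e0 (g := fun q : ℂ × ℂ => γ true q.1 + γ false q.2 - c₀)
        ?_ e1 ?_ ((hch c₀ γ Φ hγ k1 k2 k3).2 he)
      · have := ((((hγ.an true).comp_of_eq (analyticAt_fst (p := ((0 : ℂ), (0 : ℂ)))) rfl).add
          ((hγ.an false).comp_of_eq analyticAt_snd rfl)).sub
            (analyticAt_const (v := c₀))).continuousAt.tendsto
        exact this.trans (le_of_eq (congrArg 𝓝 e1))
      · filter_upwards [(continuousAt_fst (p := ((0 : ℂ), (0 : ℂ)))).eventually (hγ.br true).mem,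
          (continuousAt_snd (p := ((0 : ℂ), (0 : ℂ)))).eventually (hγ.br false).mem] with z k6 k7 k8
        rcases mul_eq_zero.1 k8 with e | e
        · simpa only [e, hγ.zero, add_sub_cancel_left] using k7
        · simpa only [e, hγ.zero, add_sub_cancel_right] using k6
  have h1 := (h.isCompact.prod h.isCompact).eventually_forall_of_forall_eventually (x₀ := p₀)
    (P := fun p c => c.1 ∈ C₀ → c.2 ∈ C₀ → ∀ y, R p c.1 y → R p c.2 y → Orb c.1 c.2)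
    fun ⟨c, c'⟩ ⟨⟨hc, _⟩, hc', _⟩ => by
      by_cases ho : Orb c' c
      · obtain ⟨s, hs, rfl⟩ := ho
        filter_upwards [(Tendsto.prodMk_nhds continuousAt_fst (Tendsto.prodMk_nhds
          ((continuous_fst.comp continuous_snd).tendsto' (p₀, s • c', c') _ rfl)
          (tendsto_smul tendsto_const_nhds ((continuous_snd.comp continuous_snd).tendsto'
            (p₀, s • c', c') _ rfl)))).eventually (diag _ hc)] with q k1 k2 k3 y k4 k5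
        exact (k1 k2 (h.cone s hs _ k3) y k4 (hR _ _ _ _ _ k5 (Orb.smul _ hs) (Orb.refl _))).trans
          (Orb.smul _ hs).symm
      · obtain ⟨Φ, k1, k2, k3⟩ := hΦ c hc
        obtain ⟨Φ', k1', k2', k3'⟩ := hΦ c' hc'
        have t1 : Tendsto (fun q : P × V M × V M => (q.1, q.2.1)) (𝓝 (p₀, c, c')) (𝓝 (p₀, c)) :=
          Continuous.tendsto' (by fun_prop) _ _ rfl
        have t2 : Tendsto (fun q : P × V M × V M => (q.1, q.2.2)) (𝓝 (p₀, c, c')) (𝓝 (p₀, c')) :=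
          Continuous.tendsto' (by fun_prop) _ _ rfl
        have t3 := k1.continuousAt.tendsto.comp t1
        have t4 := k1'.continuousAt.tendsto.comp t2
        rw [k2.self_of_nhdsWithin hc] at t3
        rw [k2'.self_of_nhdsWithin hc'] at t4
        filter_upwards [t1.eventually k3, t2.eventually k3',
          ev_not_orb t4 t3 (h.ne_zero _ hc') (h.ne_zero _ hc) ho] with q k4 k5 k6 k7 k8 y k9 k10
        exact absurd (((k5 k8 y).1 k10).trans ((k4 k7 y).1 k9).symm) k6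
  filter_upwards [h1] with p k1 c hc c' hc' y k2 k3
  obtain ⟨b, k4, k5⟩ := exists_orb_sphere (h.ne_zero c hc)
  obtain ⟨b', k6, k7⟩ := exists_orb_sphere (h.ne_zero c' hc')
  exact (k4.trans (k1 (b, b') ⟨⟨h.orb hc k4, k5⟩, h.orb hc' k6, k7⟩ (h.orb hc k4) (h.orb hc' k6) y
    (hR _ _ _ _ _ k2 k4 (Orb.refl _)) (hR _ _ _ _ _ k3 k6 (Orb.refl _)))).trans k6.symm

theorem Nod.push_iso {C₀ : Set (V M)} (h : Nod o C₀) {R : P → V M → V M → Prop} {p₀ : P}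
    (hR : ∀ p c c' y y', R p c y → Orb c c' → Orb y y' → R p c' y')
    (hΦ : ∀ c₀ ∈ C₀, ∃ Φ : P × V M → V M, AnalyticAt ℂ Φ (p₀, c₀) ∧
      (∀ᶠ c in 𝓝[C₀] c₀, Φ (p₀, c) = c) ∧
      ∀ᶠ q : P × V M in 𝓝 (p₀, c₀), q.2 ∈ C₀ → ∀ y, R q.1 q.2 y ↔ Orb (Φ q) y) :
    ∀ᶠ p in 𝓝 p₀, CIso o o C₀ {y | ∃ c ∈ C₀, R p c y} (R p) := by
  have h1 := h.isCompact.eventually_forall_of_forall_eventually (x₀ := p₀)
    (P := fun p c => c ∈ C₀ → ∃ g κ, Loc o C₀ c g ∧ Key o (R p) g κ) fun c hc => by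
      obtain ⟨Φ, k1, k2, k3⟩ := hΦ c hc.1
      exact h.push_key hR hc.1 k1 k2 k3
  filter_upwards [h1, h.push_inj hR hΦ] with p k1 k2
  refine CIso.of_key (hR p) k2 fun c hc => ?_
  obtain ⟨b, k3, k4⟩ := exists_orb_sphere (h.ne_zero c hc)
  obtain ⟨g, κ, k5, k6⟩ := k1 b ⟨h.orb hc k3, k4⟩ (h.orb hc k3)
  obtain ⟨s, hs, rfl⟩ := k3.symm
  exact ⟨_, κ, k5.smul h hs, k6.smul (hR p) hs⟩

end Vale.Agent.P269.Base
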