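import Vale.Agent.P269.Base.Crv
import Vale.Agent.P269.Base.Gen

/-!
# Sections, divisibility, simple zeros, generic members of linear systems
-/

namespace Vale.Agent.P269.Base

open Set Function Topology Filter Holo

set_option linter.unusedSectionVars false

variable {ι : Type} [Fintype ι] {M : ι → ℕ} {o : ι} {C : Set (V M)} {c : V M} {a b d : ι → ℕ}
  {l s f : V M → ℂ} {γ : Bool → ℂ → V M}

/-- `f` is homogeneous on `C`. -/
def Hom (C : Set (V M)) (a : ι → ℕ) (f : V M → ℂ) : Prop :=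
  ∀ t : ι → ℂ, (∀ i, t i ≠ 0) → ∀ c ∈ C, f (t • c) = chr a t * f c

/-- `f` is homogeneous near the branches `γ`. -/
def BH (γ : Bool → ℂ → V M) (a : ι → ℕ) (f : V M → ℂ) : Prop :=
  ∀ j, ∀ᶠ w : (ι → ℂ) × ℂ in 𝓝 (1, 0), f (w.1 • γ j w.2) = chr a w.1 * f (γ j w.2)

/-- `l` does not vanish identically on any branch. -/
def Nzd (C : Set (V M)) (l : V M → ℂ) : Prop := ∀ c ∈ C, ∃ᶠ y in 𝓝[C] c, l y ≠ 0

/-- `s` is divisible by `l` in the local ring of `C` at `c`. -/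
def LD (C : Set (V M)) (l s : V M → ℂ) (c : V M) : Prop :=
  ∃ q, AnalyticAt ℂ q c ∧ ∀ᶠ y in 𝓝[C] c, s y = l y * q y

/-- `f` is holomorphic and vanishes to order `r` at `0`. -/
def Dv (r : ℕ) (f : ℂ → ℂ) : Prop := ∃ u, AnalyticAt ℂ u 0 ∧ ∀ᶠ t in 𝓝 0, f t = t ^ r * u t

/-- `l` has a simple zero at the smooth point `c`. -/
def Simp (o : ι) (C : Set (V M)) (l : V M → ℂ) (c : V M) : Prop :=
  ¬IsNode o C c ∧ l c = 0 ∧ ∃ γ, IsBranch o C γ ∧ γ 0 = c ∧ deriv (fun t => l (γ t)) 0 ≠ 0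

theorem Pol.hm (h : f ∈ Pol M a) : Hom C a f := fun t _ c _ => Pol.hom h t c

theorem Pol.bh (h : f ∈ Pol M a) : BH γ a f := fun _ => .of_forall fun _ => Pol.hom h _ _

theorem Hom.bh (h : Hom C a f) (hγ : Loc o C c γ) : BH γ a f := fun j => by
  filter_upwards [ev_ne_one, continuousAt_snd.tendsto.eventually (hγ.br j).mem] with w h1 h2
  exact h _ h1 _ h2

theorem Hom.orb (h : Hom C a f) (hc : c ∈ C) {y : V M} (hy : Orb c y) : f y = 0 ↔ f c = 0 := by
  obtain ⟨t, ht, rfl⟩ := hy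
  rw [h t ht c hc, mul_eq_zero, or_iff_right (chr_ne_zero ht)]

theorem BH.sub (h : BH γ a f) (h' : BH γ a s) : BH γ a fun y => f y - s y := fun j => by
  filter_upwards [h j, h' j] with w h1 h2
  rw [h1, h2, mul_sub]

theorem BH.mul (h : BH γ a f) (h' : BH γ b s) : BH γ (a + b) fun y => f y * s y := fun j => by
  filter_upwards [h j, h' j] with w h1 h2
  rw [h1, h2, chr_add]
  ring

theorem Pol.isSec (h : f ∈ Pol M a) : IsSec o C a f :=
  ⟨(Pol.cont h).continuousOn, Pol.hm h, fun _ hγ => (Pol.an h _).comp hγ.holo⟩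

theorem _root_.Vale.Agent.P269.IsSec.hm (h : IsSec o C a f) : Hom C a f := h.hom

theorem _root_.Vale.Agent.P269.IsSec.sub (h : IsSec o C a f) (h' : IsSec o C a s) :
    IsSec o C a fun y => f y - s y :=
  ⟨h.cont.sub h'.cont, fun t ht c hc => by rw [h.hom t ht c hc, h'.hom t ht c hc, mul_sub],
    fun γ hγ => (h.holo γ hγ).sub (h'.holo γ hγ)⟩

theorem _root_.Vale.Agent.P269.IsSec.mul (h : IsSec o C a f) (h' : IsSec o C b s) :
    IsSec o C (a + b) fun y => f y * s y :=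
  ⟨h.cont.mul h'.cont, fun t ht c hc => by
    rw [h.hm t ht c hc, h'.hm t ht c hc, ← chr, chr_add]; ring,
    fun γ hγ => (h.holo γ hγ).mul (h'.holo γ hγ)⟩

namespace Dv

variable {r : ℕ} {u v : ℂ → ℂ}

theorem an (h : Dv r u) : AnalyticAt ℂ u 0 := by
  obtain ⟨w, h1, h2⟩ := h
  exact ((analyticAt_id.pow r).mul h1).congr (EventuallyEq.symm h2)

theorem zero (h : AnalyticAt ℂ u 0) : Dv 0 u := ⟨u, h, .of_forall fun t => by simp⟩

theorem one (h : AnalyticAt ℂ u 0) (h0 : u 0 = 0) : Dv 1 u := by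
  obtain ⟨p, hp⟩ := h
  exact ⟨dslope u 0, ⟨_, hp.has_fpower_series_dslope_fslope⟩, .of_forall fun t => by
    simpa [h0] using (sub_smul_dslope u 0 t).symm⟩

theorem congr (h : Dv r u) (e : ∀ᶠ t in 𝓝 0, u t = v t) : Dv r v := by
  obtain ⟨w, h1, h2⟩ := h
  exact ⟨w, h1, (h2.and e).mono fun t ht => ht.2 ▸ ht.1⟩

theorem add (h : Dv r u) (h' : Dv r v) : Dv r fun t => u t + v t := by
  obtain ⟨w, h1, h2⟩ := h
  obtain ⟨w', h1', h2'⟩ := h'
  exact ⟨_, h1.add h1', (h2.and h2').mono fun t ht => by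
    simp only [ht.1, ht.2, Pi.add_apply, mul_add]⟩

theorem mul {r' : ℕ} (h : Dv r u) (h' : Dv r' v) : Dv (r + r') fun t => u t * v t := by
  obtain ⟨w, h1, h2⟩ := h
  obtain ⟨w', h1', h2'⟩ := h'
  exact ⟨_, h1.mul h1', (h2.and h2').mono fun t ht => by
    simp only [ht.1, ht.2, Pi.mul_apply]; ring⟩

theorem mul_an (h : Dv r u) (h' : AnalyticAt ℂ v 0) : Dv r fun t => u t * v t := h.mul (zero h')

theorem an_mul (h : Dv r u) (h' : AnalyticAt ℂ v 0) : Dv r fun t => v t * u t :=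
  (h.mul_an h').congr (.of_forall fun _ => mul_comm _ _)

theorem sub (h : Dv r u) (h' : Dv r v) : Dv r fun t => u t - v t :=
  (h.add (h'.mul_an (analyticAt_const (v := -1)))).congr (.of_forall fun t => by ring)

theorem const_zero : Dv r fun _ => 0 := ⟨_, analyticAt_const (v := 0), .of_forall fun t => by simp⟩

theorem sum {β : Type*} (S : Finset β) {u : β → ℂ → ℂ} (h : ∀ k ∈ S, Dv r (u k)) :
    Dv r fun t => ∑ k ∈ S, u k t := by
  classical
  induction S using Finset.induction_on with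
  | empty => simpa using const_zero
  | insert i S hi ih =>
    simp only [Finset.sum_insert hi]
    exact (h i (by simp)).add (ih fun j hj => h j (by simp [hj]))

theorem pow (h : Dv r u) : ∀ n : ℕ, Dv (n * r) fun t => u t ^ n
  | 0 => by simpa using zero (analyticAt_const (v := 1))
  | n + 1 => by simpa only [pow_succ, add_mul, one_mul] using (pow h n).mul h

theorem mono {r' : ℕ} (h : Dv r u) (hr : r' ≤ r) : Dv r' u := by
  obtain ⟨w, h1, h2⟩ := h
  obtain ⟨k, rfl⟩ := Nat.exists_eq_add_of_le hr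
  exact ⟨_, (analyticAt_id.pow k).mul h1, h2.mono fun t ht => by simp [ht, pow_add, mul_assoc]⟩

theorem eq_zero (h : Dv (r + 1) u) : u 0 = 0 := by
  obtain ⟨w, -, h2⟩ := h
  simpa using h2.self_of_nhds

end Dv

namespace LD

theorem of_ne (hs : AnalyticAt ℂ s c) (hl : AnalyticAt ℂ l c) (h : l c ≠ 0) : LD C l s c :=
  ⟨_, hs.div hl h, mem_nhdsWithin_of_mem_nhds ((hl.continuousAt.eventually_ne h).mono
    fun _ hy => (mul_div_cancel₀ _ hy).symm)⟩

theorem congr (h : LD C l s c) (e : ∀ᶠ y in 𝓝[C] c, s y = f y) : LD C l f c := by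
  obtain ⟨q, h1, h2⟩ := h
  exact ⟨q, h1, (h2.and e).mono fun t ht => ht.2 ▸ ht.1⟩

theorem add (h : LD C l s c) (h' : LD C l f c) : LD C l (fun y => s y + f y) c := by
  obtain ⟨q, h1, h2⟩ := h
  obtain ⟨q', h1', h2'⟩ := h'
  exact ⟨_, h1.add h1', (h2.and h2').mono fun t ht => by
    simp only [ht.1, ht.2, Pi.add_apply, mul_add]⟩

theorem mul (h : LD C l s c) (h' : AnalyticAt ℂ f c) : LD C l (fun y => s y * f y) c := by
  obtain ⟨q, h1, h2⟩ := h
  exact ⟨_, h1.mul h', h2.mono fun t ht => by simp only [ht, Pi.mul_apply, mul_assoc]⟩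

theorem sub (h : LD C l s c) (h' : LD C l f c) : LD C l (fun y => s y - f y) c :=
  (h.add (h'.mul (analyticAt_const (v := -1)))).congr (.of_forall fun t => by ring)

theorem self (h : AnalyticAt ℂ f c) : LD C l (fun y => l y * f y) c := ⟨f, h, .of_forall fun _ => rfl⟩

theorem zero : LD C l (fun _ => 0) c := ⟨_, analyticAt_const (v := 0), .of_forall fun t => by simp⟩

theorem sum {β : Type*} (S : Finset β) {u : β → V M → ℂ} (h : ∀ k ∈ S, LD C l (u k) c) :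
    LD C l (fun t => ∑ k ∈ S, u k t) c := by
  classical
  induction S using Finset.induction_on with
  | empty => simpa using zero
  | insert i S hi ih =>
    simp only [Finset.sum_insert hi]
    exact (h i (by simp)).add (ih fun j hj => h j (by simp [hj]))

theorem eq_zero (h : LD C l s c) (hc : c ∈ C) (h0 : l c = 0) : s c = 0 := by
  obtain ⟨q, -, h2⟩ := h
  rw [h2.self_of_nhdsWithin hc, h0, zero_mul]

theorem orb (h : LD C l s c) (hC : Nod o C) (hl : Hom C b l) (hs : Hom C d s) {y : V M}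
    (hy : Orb c y) : LD C l s y := by
  obtain ⟨t, ht, rfl⟩ := hy
  obtain ⟨q, h1, h2⟩ := h
  have e : ∀ y : V M, t • t⁻¹ • y = y := fun y => by
    rw [smul_smul, show t * t⁻¹ = 1 from funext fun i => mul_inv_cancel₀ (ht i), one_smul]
  have h3 : AnalyticAt ℂ (fun y : V M => t⁻¹ • y) (t • c) := an_smul analyticAt_const analyticAt_id
  have h4 : t⁻¹ • t • c = c := by rw [smul_comm, e]
  have h5 : ∀ y ∈ C, t⁻¹ • y ∈ C := hC.cone _ fun i => inv_ne_zero (ht i)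
  have h6 : Tendsto (fun y : V M => t⁻¹ • y) (𝓝[C] (t • c)) (𝓝[C] c) :=
    tendsto_nhdsWithin_iff.2 ⟨tendsto_nhdsWithin_of_tendsto_nhds (h4 ▸ h3.continuousAt.tendsto :),
      eventually_mem_nhdsWithin.mono h5⟩
  refine ⟨fun y => chr d t / chr b t * q (t⁻¹ • y), analyticAt_const.mul (h1.comp_of_eq h3 h4), ?_⟩
  filter_upwards [h6.eventually h2, self_mem_nhdsWithin] with y h7 hy
  have e1 := hs t ht _ (h5 y hy)
  have e2 := hl t ht _ (h5 y hy)
  rw [e] at e1 e2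
  rw [e1, e2, h7]
  field_simp [chr_ne_zero ht]

end LD

/-- Divisibility can be tested on the branches. -/
theorem Loc.ld (h : Loc o C c γ) (hl : BH γ b l) (hs : BH γ d s) {r : Bool → ℂ → ℂ}
    (hr : ∀ j, AnalyticAt ℂ (r j) 0) (h0 : r true 0 = r false 0)
    (he : γ true = γ false → r true =ᶠ[𝓝 0] r false)
    (h1 : ∀ j, ∀ᶠ t in 𝓝 0, s (γ j t) = l (γ j t) * r j t) : LD C l s c := by
  obtain ⟨q, h2, h3⟩ := h.ext₂ hr h0 he ((analyticAt_chr (a := d) 1).div (analyticAt_chr (a := b) 1)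
    (by simp))
  refine ⟨q, h2, h.ev _ fun j => ?_⟩
  filter_upwards [h3 j, hl j, hs j, continuousAt_snd.tendsto.eventually (h1 j), ev_ne_one]
    with w e1 e2 e3 e4 e5
  rw [e1, e2, e3, e4, Pi.div_apply, smul_eq_mul]
  field_simp [chr_ne_zero e5]

theorem Loc.ext (h : Loc o C c γ) (d : ι → ℕ) {q : Bool → ℂ → ℂ} (hq : ∀ j, AnalyticAt ℂ (q j) 0)
    (h0 : q true 0 = q false 0) (he : γ true = γ false → q true =ᶠ[𝓝 0] q false) :
    ∃ F, AnalyticAt ℂ F c ∧ BH γ d F ∧ ∀ j, ∀ᶠ t in 𝓝 0, F (γ j t) = q j t := by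
  obtain ⟨F, h2, h3⟩ := h.ext₂ hq h0 he (analyticAt_chr (a := d) 1)
  have h4 : ∀ j, ∀ᶠ t in 𝓝 0, F (γ j t) = q j t := fun j => by
    simpa using (tendsto_inr (1 : ι → ℂ) (0 : ℂ)).eventually (h3 j)
  refine ⟨F, h2, fun j => ?_, h4⟩
  filter_upwards [h3 j, continuousAt_snd.tendsto.eventually (h4 j)] with w e1 e2
  rw [e1, e2, smul_eq_mul]

/-- A section is locally the restriction of an analytic function. -/
theorem _root_.Vale.Agent.P269.IsSec.hol (h : IsSec o C a f) (hC : Nod o C) (hc : c ∈ C) :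
    ∃ q, AnalyticAt ℂ q c ∧ ∀ᶠ y in 𝓝[C] c, f y = q y := by
  obtain ⟨γ, hγ⟩ := hC.exists_loc hc
  simpa [LD] using hγ.ld (Pol.bh Pol.one) (h.hm.bh hγ) (fun j => h.holo _ (hγ.br j))
    (by simp [hγ.zero]) (fun e => by rw [e]) fun j => .of_forall fun t => by simp

theorem isSec_of_hol (h : Hom C a f)
    (hf : ∀ c ∈ C, ∃ q, AnalyticAt ℂ q c ∧ ∀ᶠ y in 𝓝[C] c, f y = q y) : IsSec o C a f := by
  refine ⟨fun c hc => ?_, h, fun γ hγ => ?_⟩
  · obtain ⟨q, h1, h2⟩ := hf c hc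
    exact h1.continuousAt.continuousWithinAt.congr_of_eventuallyEq h2 (h2.self_of_nhdsWithin hc)
  · obtain ⟨q, h1, h2⟩ := hf _ hγ.mem.self_of_nhds
    exact (h1.comp hγ.holo).congr (EventuallyEq.symm (hγ.tendsto.eventually h2))

theorem Nzd.eq_zero (h : Nzd C l) (hf : ContinuousOn f C) (h0 : ∀ c ∈ C, l c * f c = 0) :
    ∀ c ∈ C, f c = 0 := fun c hc => by
  by_contra hn
  obtain ⟨y, h1, h2, h3⟩ := ((h c hc).and_eventually
    (((hf c hc).eventually_ne hn).and self_mem_nhdsWithin)).exists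
  exact mul_ne_zero h1 h2 (h0 y h3)

theorem Nzd.exists_ord (h : Nzd C l) (hC : Nod o C) (hl : IsSec o C b l) (hγ : Loc o C c γ)
    (j : Bool) : ∃ (n : ℕ) (u : ℂ → ℂ), AnalyticAt ℂ u 0 ∧ u 0 ≠ 0 ∧
      ∀ᶠ t in 𝓝 0, l (γ j t) = t ^ n * u t := by
  have h1 := hl.holo _ (hγ.br j)
  refine (h1.exists_eventuallyEq_pow_smul_nonzero_iff.2 fun h2 => ?_).imp fun n => Exists.imp
    fun u hu => ⟨hu.1, hu.2.1, by simpa using hu.2.2⟩
  obtain ⟨t, ⟨h3, h4⟩, ht⟩ := (((h2.eventually_nhds.and ((tendsto_inr (1 : ι → ℂ) (0 : ℂ)).eventually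
    (hγ.nearby hC j))).filter_mono (nhdsWithin_le_nhds (s := {0}ᶜ))).and
      self_mem_nhdsWithin).exists
  have h5 := h4 (.inl ht)
  refine h _ h5.mem (h5.ev _ fun j' => ?_)
  have h6 : Tendsto (fun w : (ι → ℂ) × ℂ => t + w.2) (𝓝 (1, 0)) (𝓝 t) :=
    Continuous.tendsto' (by fun_prop) _ _ (by simp)
  filter_upwards [hl.hm.bh h5 j', h6.eventually h3] with w e1 e2
  rw [not_not, e1, one_smul, show l (γ j (t + w.2)) = 0 from e2, mul_zero]

theorem Nzd.exists_dv (h : Nzd C l) (hC : Nod o C) (hl : IsSec o C b l) (hγ : Loc o C c γ) :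
    ∃ r, ∀ d s, BH γ d s → (∀ j, Dv r fun t => s (γ j t)) → LD C l s c := by
  choose n u h1 h2 h3 using h.exists_ord hC hl hγ
  refine ⟨n true + n false + 1, fun d s hs h4 => ?_⟩
  have key : ∀ δ ∈ range γ, ∃ r, AnalyticAt ℂ r 0 ∧ r 0 = 0 ∧
      ∀ᶠ t in 𝓝 0, s (δ t) = l (δ t) * r t := by
    rintro _ ⟨j, rfl⟩
    obtain ⟨v, h5, h6⟩ := (h4 j).mono (r' := n j + 1) (by cases j <;> omega)
    refine ⟨fun t => t * v t / u j t, (analyticAt_id.mul h5).div (h1 j) (h2 j), by simp, ?_⟩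
    filter_upwards [h3 j, h6, (h1 j).continuousAt.eventually_ne (h2 j)] with t e1 e2 e3
    rw [e1, e2]
    field_simp
    ring
  choose! R h5 h6 h7 using key
  exact hγ.ld (hl.hm.bh hγ) hs (r := fun j => R (γ j)) (fun j => h5 _ ⟨j, rfl⟩)
    ((h6 _ ⟨_, rfl⟩).trans (h6 _ ⟨_, rfl⟩).symm) (fun e => by rw [e]) fun j => h7 _ ⟨j, rfl⟩

theorem Nzd.eventually_orb (h : Nzd C l) (hC : Nod o C) (hl : IsSec o C b l) (hc : c ∈ C) :
    ∀ᶠ y in 𝓝[C] c, l y = 0 → Orb c y := by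
  obtain ⟨γ, hγ⟩ := hC.exists_loc hc
  refine hγ.ev _ fun j => ?_
  obtain ⟨n, u, h1, h2, h3⟩ := h.exists_ord hC hl hγ j
  filter_upwards [hl.hm.bh hγ j, ev_ne_one, continuousAt_snd.tendsto.eventually
    (h3.and (h1.continuousAt.eventually_ne h2))] with w e1 e2 e3 e4
  by_cases hw : w.2 = 0
  · exact ⟨w.1, e2, by rw [hw, hγ.zero]⟩
  · rw [e1, e3.1] at e4
    exact absurd e4 (mul_ne_zero (chr_ne_zero e2) (mul_ne_zero (pow_ne_zero _ hw) e3.2))

theorem Nzd.exists_reps (h : Nzd C l) (hC : Nod o C) (hl : IsSec o C b l) :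
    ∃ (n : ℕ) (z : Fin n → V M), Reps C (fun c => l c = 0) z :=
  hC.exists_reps (fun _ hc _ h1 h2 => (hl.hm.orb hc h2).2 h1) fun _ => h.eventually_orb hC hl

theorem Nzd.mul (h : Nzd C l) (h' : Nzd C s) (hC : Nod o C) (hl : IsSec o C b l)
    (hs : IsSec o C d s) : Nzd C fun y => l y * s y := fun c hc hn => by
  obtain ⟨γ, hγ⟩ := hC.exists_loc hc
  obtain ⟨n, u, h1, h2, h3⟩ := h.exists_ord hC hl hγ true
  obtain ⟨n', u', h1', h2', h3'⟩ := h'.exists_ord hC hs hγ true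
  obtain ⟨t, ⟨e1, e2, e3, e4, e5⟩, ht⟩ := (((((hγ.tendsto true).eventually hn).and (h3.and (h3'.and
    ((h1.continuousAt.eventually_ne h2).and (h1'.continuousAt.eventually_ne h2'))))).filter_mono
      (nhdsWithin_le_nhds (s := {0}ᶜ))).and self_mem_nhdsWithin).exists
  simp only [e2, e3] at e1
  exact e1 (mul_ne_zero (mul_ne_zero (pow_ne_zero _ ht) e4) (mul_ne_zero (pow_ne_zero _ ht) e5))

/-- The division lemma. -/
theorem Nzd.div (h : Nzd C l) (hC : Nod o C) (hl : IsSec o C b l) (hs : IsSec o C (a + b) s)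
    (hd : ∀ c ∈ C, l c = 0 → LD C l s c) : ∃ q, IsSec o C a q ∧ ∀ c ∈ C, s c = l c * q c := by
  have h1 : ∀ c ∈ C, LD C l s c := fun c hc => by
    by_cases h0 : l c = 0
    · exact hd c hc h0
    · obtain ⟨l', h1, h2⟩ := hl.hol hC hc
      obtain ⟨s', h3, h4⟩ := hs.hol hC hc
      obtain ⟨q, h5, h6⟩ := LD.of_ne (C := C) h3 h1 (h2.self_of_nhdsWithin hc ▸ h0)
      exact ⟨q, h5, by filter_upwards [h2, h4, h6] with y e1 e2 e3; rw [e1, e2, e3]⟩
  choose! q h2 h3 using h1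
  have h4 : ∀ c ∈ C, s c = l c * q c c := fun c hc => (h3 c hc).self_of_nhdsWithin hc
  have h5 : ∀ c ∈ C, ∀ᶠ y in 𝓝[C] c, q y y = q c y := fun c hc => by
    filter_upwards [eventually_eventually_nhdsWithin.2 (h3 c hc), self_mem_nhdsWithin,
      mem_nhdsWithin_of_mem_nhds (h2 c hc).eventually_continuousAt] with y e1 hy e2
    refine tendsto_nhds_unique_of_frequently_eq (l := 𝓝[C] y)
      (h2 y hy).continuousAt.continuousWithinAt e2.continuousWithinAt
      (((h y hy).and_eventually (e1.and (h3 y hy))).mono fun x hx => ?_)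
    exact mul_left_cancel₀ hx.1 (hx.2.2.symm.trans hx.2.1)
  have h6 : ContinuousOn (fun y => q y y) C := fun c hc =>
    (h2 c hc).continuousAt.continuousWithinAt.congr_of_eventuallyEq (h5 c hc) rfl
  refine ⟨fun y => q y y, isSec_of_hol (fun t ht c hc => sub_eq_zero.1 (h.eq_zero
    (f := fun c => q (t • c) (t • c) - chr a t * q c c) ((h6.comp (by fun_prop)
      (hC.cone t ht)).sub (continuousOn_const.mul h6)) (fun c hc => ?_) c hc))
    fun c hc => ⟨_, h2 c hc, h5 c hc⟩, h4⟩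
  have e1 := h4 _ (hC.cone t ht c hc)
  rw [hs.hm t ht c hc, hl.hm t ht c hc, h4 c hc, chr_add] at e1
  exact mul_left_cancel₀ (chr_ne_zero (a := b) ht) (by linear_combination -e1)

theorem Simp.mem (h : Simp o C l c) : c ∈ C := by
  obtain ⟨-, -, γ, h1, h2, -⟩ := h
  exact h2 ▸ h1.mem.self_of_nhds

theorem Simp.exists_loc (h : Simp o C l c) (hC : Nod o C) (hl : IsSec o C b l) :
    ∃ (γ : ℂ → V M) (u : ℂ → ℂ), Loc o C c (fun _ => γ) ∧ AnalyticAt ℂ u 0 ∧ u 0 ≠ 0 ∧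
      ∀ᶠ t in 𝓝 0, l (γ t) = t * u t := by
  obtain ⟨h1, h2, γ, h3, rfl, h4⟩ := h
  obtain ⟨p, hp⟩ := hl.holo _ h3
  exact ⟨γ, dslope (l ∘ γ) 0, hC.loc_of_branch h3 h1, ⟨_, hp.has_fpower_series_dslope_fslope⟩,
    by rwa [dslope_same], .of_forall fun t => by simpa [h2] using (sub_smul_dslope (l ∘ γ) 0 t).symm⟩

theorem Simp.ld (h : Simp o C l c) (hC : Nod o C) (hl : IsSec o C b l) (hs : IsSec o C d s)
    (h0 : s c = 0) : LD C l s c := by
  obtain ⟨γ, u, h1, h2, h3, h4⟩ := h.exists_loc hC hl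
  obtain ⟨v, h5, h6⟩ := Dv.one (hs.holo _ (h1.br true)) (by simp [h1.zero true, h0])
  refine h1.ld (hl.hm.bh h1) (hs.hm.bh h1) (r := fun _ => v / u) (fun _ => h5.div h2 h3) rfl
    (fun _ => .rfl) fun _ => ?_
  filter_upwards [h4, h6, h2.continuousAt.eventually_ne h3] with t e1 e2 e3
  rw [e1, show s (γ t) = _ from e2, Pi.div_apply]
  field_simp

theorem Simp.deriv_ne (h : Simp o C l c) (hC : Nod o C) (hl : IsSec o C b l) {δ : ℂ → V M}
    (hδ : IsBranch o C δ) (h0 : δ 0 = c) : deriv (fun t => l (δ t)) 0 ≠ 0 := by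
  obtain ⟨γ, u, h1, h2, h3, h4⟩ := h.exists_loc hC hl
  obtain ⟨j, s, ψ, e1, e2, e3, e4, e5, e6, -⟩ := h1.reparam hδ h0
  have t1 : Tendsto ψ (𝓝 0) (𝓝 0) := by simpa [e4] using e2.continuousAt.tendsto
  have t2 : Tendsto (fun t => (s t, ψ t)) (𝓝 0) (𝓝 (1, 0)) :=
    (e3 ▸ e1.continuousAt.tendsto :).prodMk_nhds t1
  have a1 : AnalyticAt ℂ (fun t => chr b (s t) * u (ψ t)) 0 :=
    ((analyticAt_chr _).comp e1).mul (h2.comp_of_eq e2 e4)
  have : (fun t => l (δ t)) =ᶠ[𝓝 0] fun t => ψ t * (chr b (s t) * u (ψ t)) := by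
    filter_upwards [e6, t2.eventually (hl.hm.bh h1 true), t1.eventually h4] with t k1 k2 k3
    rw [k1, k2, k3]
    ring
  rw [this.deriv_eq, (e2.differentiableAt.hasDerivAt.fun_mul a1.differentiableAt.hasDerivAt).deriv]
  simp [e3, e4, e5, h3]

theorem Simp.orb (h : Simp o C l c) (hC : Nod o C) (hl : Hom C b l) {y : V M} (hy : Orb c y) :
    Simp o C l y := by
  refine ⟨fun hn => h.1 (hC.isNode_orb hn hy.symm), (hl.orb h.mem hy).2 h.2.1, ?_⟩
  obtain ⟨t, ht, rfl⟩ := hy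
  obtain ⟨-, -, γ, h1, h2, h3⟩ := h
  refine ⟨_, h1.smul hC ht, by rw [h2], ?_⟩
  rw [EventuallyEq.deriv_eq (h1.mem.mono fun z hz => hl t ht _ hz), deriv_const_mul_field]
  exact mul_ne_zero (chr_ne_zero ht) h3

theorem nzd_of_simp (hC : Nod o C) (hl : IsSec o C b l) (h : ∀ c ∈ C, l c = 0 → Simp o C l c) :
    Nzd C l := fun c hc hn => by
  obtain ⟨γ, u, h1, h2, h3, h4⟩ := (h c hc (not_not.1 (hn.self_of_nhdsWithin hc))).exists_loc hC hl
  obtain ⟨t, ⟨e1, e2, e3⟩, ht⟩ := (((((h1.tendsto true).eventually hn).and (h4.and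
    (h2.continuousAt.eventually_ne h3))).filter_mono (nhdsWithin_le_nhds (s := {0}ᶜ))).and
      self_mem_nhdsWithin).exists
  exact e1 (ne_of_eq_of_ne e2 (mul_ne_zero ht e3))

variable {E : Type*} [NormedAddCommGroup E] [NormedSpace ℂ E] [FiniteDimensional ℂ E]

theorem residual_val_ne (K : E →L[ℂ] Tens M b) (h : ∃ μ, val (K μ) c ≠ 0) :
    ∀ᶠ μ in residual E, val (K μ) c ≠ 0 := by
  obtain ⟨μ, h2⟩ := h
  exact residual_ne (l := ((evL b c).comp K).toLinearMap) (fun e => h2 (LinearMap.congr_fun e μ)) 0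

/-- Bertini: a generic member of a linear system with simple base points has simple zeros. -/
theorem Nod.residual_simp (hC : Nod o C) (K : E →L[ℂ] Tens M b)
    (h : ∀ c ∈ C, (∀ μ, val (K μ) c = 0) → ∃ μ, Simp o C (val (K μ)) c) :
    ∀ᶠ μ in residual E, ∀ c ∈ C, val (K μ) c = 0 → Simp o C (val (K μ)) c := by
  have := FiniteDimensional.complete ℂ E
  refine residual_forall fun c hc => ?_
  obtain ⟨γ, hγ⟩ := hC.exists_loc hc
  let Λ : Bool → ℂ → E →L[ℂ] ℂ := fun j t => (evL b (γ j t)).comp K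
  have hΛ : ∀ j, AnalyticAt ℂ (Λ j) 0 := fun j =>
    analyticAt_of_apply fun μ => (analyticAt_val _ _).comp (hγ.an j)
  have key : ∀ j, ∃ r > 0, ∀ᶠ μ in residual E, ∀ z : ℂ, ‖z‖ < r → val (K μ) (γ j z) = 0 →
      deriv (fun t => val (K μ) (γ j t)) z ≠ 0 ∧ (z ≠ 0 ∨ γ true = γ false) := fun j => by
    by_cases h0 : ∀ μ, val (K μ) c = 0
    · obtain ⟨μ, h2⟩ := h c hc h0
      obtain ⟨p, hp⟩ := hΛ j
      have h3 : AnalyticAt ℂ (dslope (Λ j) 0) 0 := ⟨_, hp.has_fpower_series_dslope_fslope⟩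
      have h4 : ∀ μ t, val (K μ) (γ j t) = t * dslope (Λ j) 0 t μ := fun μ t => by
        have := congrArg (fun L : E →L[ℂ] ℂ => L μ) (sub_smul_dslope (Λ j) 0 t)
        simpa [Λ, hγ.zero, h0 μ] using this.symm
      have h5 : ∀ μ z, AnalyticAt ℂ (dslope (Λ j) 0) z →
          deriv (fun t => val (K μ) (γ j t)) z =
            dslope (Λ j) 0 z μ + z * deriv (fun t => dslope (Λ j) 0 t μ) z := fun μ z hz => by
        simp only [h4]
        simpa using ((hasDerivAt_id z).fun_mul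
          (an_apply hz (analyticAt_const (v := μ))).differentiableAt.hasDerivAt).deriv
      have h6 : dslope (Λ j) 0 0 ≠ 0 := fun e => h2.deriv_ne hC (Pol.isSec (val_mem _)) (hγ.br j)
        (hγ.zero j) (by rw [h5 μ 0 h3, e]; simp)
      obtain ⟨r, hr, h7⟩ := residual_simple h3 h6
      obtain ⟨r', hr', h8⟩ := Metric.eventually_nhds_iff.1 h3.eventually_analyticAt
      refine ⟨min r r', lt_min hr hr', ?_⟩
      filter_upwards [h7, residual_ne (l := (dslope (Λ j) 0 0).toLinearMap)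
        (fun e => h6 (ContinuousLinearMap.coe_injective e)) 0] with μ e1 e2 z hz e3
      refine ⟨?_, .inr (not_not.1 (mt hγ.isNode_iff.2 h2.1))⟩
      rw [h5 μ z (h8 (by simpa using hz.trans_le (min_le_right _ _)))]
      by_cases hz0 : z = 0
      · simpa [hz0] using e2
      · have e4 := (mul_eq_zero.1 (h4 μ z ▸ e3)).resolve_left hz0
        rw [e4, zero_add]
        exact mul_ne_zero hz0 (e1 z (hz.trans_le (min_le_left _ _)) e4)
    · push Not at h0
      obtain ⟨r, hr, h7⟩ := residual_simple (hΛ j) fun e => by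
        obtain ⟨μ, h2⟩ := h0
        simpa [Λ, hγ.zero, h2] using congrArg (fun L : E →L[ℂ] ℂ => L μ) e
      refine ⟨r, hr, ?_⟩
      filter_upwards [h7, residual_val_ne K h0] with μ e1 e2 z hz e3
      exact ⟨e1 z hz e3, .inl fun e => e2 (by rwa [e, hγ.zero] at e3)⟩
  choose r hr h1 using key
  refine ⟨_, hγ.ev (fun y => ∃ (j : Bool) (s : ι → ℂ) (z : ℂ), ‖z‖ < r j ∧ y = s • γ j z ∧ (∀ i, s i ≠ 0) ∧
    (z ≠ 0 ∨ γ true = γ false → Loc o C (s • γ j z) fun _ t => s • γ j (z + t))) fun j => ?_, ?_⟩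
  · filter_upwards [hγ.nearby hC j, ev_ne_one, (continuous_snd.norm.continuousAt
      (x := ((1 : ι → ℂ), (0 : ℂ)))).eventually_lt continuousAt_const (by simpa using hr j)]
      with w e1 e2 e3
    exact ⟨j, w.1, w.2, e3, rfl, e2, e1⟩
  · filter_upwards [eventually_all.2 h1] with μ e1 y ⟨j, s, z, e2, e3, e4, e5⟩ e6
    obtain ⟨e7, e8⟩ := e1 j z e2 (by
      rwa [e3, val_smul, mul_eq_zero, or_iff_right (chr_ne_zero e4)] at e6)
    refine ⟨fun hn => (e5 e8).isNode_iff.1 (e3 ▸ hn) rfl, e6, _, (e5 e8).br true, by simp [e3], ?_⟩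
    simp only [val_smul]
    rw [deriv_const_mul_field, deriv_comp_const_add (fun t => val (K μ) (γ j t)), add_zero]
    exact mul_ne_zero (chr_ne_zero e4) e7

/-- existence form: simple zeros only, avoiding finitely many points that are not base points -/
theorem Nod.exists_simp (hC : Nod o C) (K : Submodule ℂ (Tens M b))
    (h : ∀ c ∈ C, (∀ μ ∈ K, val μ c = 0) → ∃ μ ∈ K, Simp o C (val μ) c) {β : Type*} [Finite β]
    {y : β → V M} (hy : ∀ k, ∃ μ ∈ K, val μ (y k) ≠ 0) :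
    ∃ μ ∈ K, (∀ c ∈ C, val μ c = 0 → Simp o C (val μ) c) ∧ ∀ k, val μ (y k) ≠ 0 := by
  obtain ⟨μ, -, h1⟩ := exists_of_residual (E := K) ((hC.residual_simp (E := K) K.subtypeL
    fun c hc h0 => (h c hc fun μ hμ => h0 ⟨μ, hμ⟩).elim fun μ hμ => ⟨⟨μ, hμ.1⟩, hμ.2⟩).and
    (eventually_all.2 fun k => residual_val_ne (E := K) K.subtypeL
      ((hy k).elim fun μ hμ => ⟨⟨μ, hμ.1⟩, hμ.2⟩))) (e₀ := 0) univ_mem
  exact ⟨μ, μ.2, h1⟩

end Vale.Agent.P269.Base
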