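import Vale.Agent.P269.Base.Punct

/-!
# Prescribed values modulo the image of the differential; curves with the same Hilbert function
-/

namespace Vale.Agent.P269.Base

open Set Function Topology Filter Holo Module

variable {ι : Type} [Fintype ι] [DecidableEq ι] {M : ι → ℕ} {o : ι} {a b : ι → ℕ} {g : ℤ}
  {m : ι → ℤ} {β κ : Type} [Fintype β] [Fintype κ] {C : Set (V M)}

omit [DecidableEq ι] in
theorem fderiv_val_smul (μ : Tens M a) (s : ι → ℂ) (c v : V M) :
    fderiv ℂ (val μ) (s • c) (s • v) = chr a s * fderiv ℂ (val μ) c v := by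
  have h1 : HasDerivAt (fun t : ℂ => c + t • v) v 0 := by
    simpa using ((hasDerivAt_id (0 : ℂ)).smul_const v).const_add c
  have h2 : HasDerivAt (fun t : ℂ => s • (c + t • v)) (s • v) 0 := by
    simpa using hasDerivAt_smul' (hasDerivAt_const (0 : ℂ) s) h1
  have h3 := (analyticAt_val μ _).differentiableAt.hasFDerivAt.comp_hasDerivAt 0 h2
  have h4 := ((analyticAt_val μ _).differentiableAt.hasFDerivAt.comp_hasDerivAt 0 h1).const_mul
    (chr a s)
  simp only [zero_smul, add_zero] at h3 h4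
  exact h3.unique (h4.congr_of_eventuallyEq (.of_forall fun t => val_smul μ s _))

/-- A form that vanishes at given points and on no branch identically. -/
theorem Nod.exists_nzd (hC : Nod o C) {z : κ → V M} (hz : ∀ j, z j ∈ C) :
    ∃ (b : ι → ℕ) (l : V M → ℂ), l ∈ Pol M b ∧ Nzd C l ∧ ∀ j, l (z j) = 0 := by
  classical
  suffices h : ∀ S : Finset κ, ∃ (b : ι → ℕ) (l : V M → ℂ), l ∈ Pol M b ∧ Nzd C l ∧
      ∀ j ∈ S, l (z j) = 0 by simpa using h Finset.univ
  intro S
  induction S using Finset.induction_on with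
  | empty =>
    exact ⟨0, 1, Pol.one, fun c hc => (hC.frequently_not_orb (β := Empty) nofun hc).mono
      fun _ _ => one_ne_zero, by simp⟩
  | insert i S _ ih =>
    obtain ⟨b, l, h1, h2, h3⟩ := ih
    obtain ⟨γ, hγ⟩ := hC.exists_loc (hz i)
    obtain ⟨l', h4, h5, h6⟩ := hγ.exists_lin hC
    obtain ⟨u, -, -, h7⟩ := h6 true
    refine ⟨_, _, Pol.mul' h4 h1 rfl, h5.mul h2 hC (Pol.isSec h4) (Pol.isSec h1), fun j hj => ?_⟩
    rcases Finset.mem_insert.1 hj with rfl | hj
    · exact mul_eq_zero_of_left (by simpa [hγ.zero] using h7.self_of_nhds) _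
    · exact mul_eq_zero_of_right _ (h3 j hj)

/-- Values at given points can be prescribed modulo the image of the differential. -/
theorem _root_.Vale.Agent.P269.IsCurve.tau (h : IsCurve o g m C) (ha : a ≠ 0) (f : β → Tens M a)
    {z : κ → V M} {γ : κ → Bool → ℂ → V M} (hγ : ∀ j, Loc o C (z j) (γ j))
    (hz : ∀ j j', Orb (z j) (z j') → j = j') {v : κ → Bool → ℂ → V M}
    (hv : ∀ j b, AnalyticAt ℂ (v j b) 0) (he : ∀ j, γ j true = γ j false → v j true = v j false)
    {e : κ → β → ℂ}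
    (h1 : ∀ j b, ∀ᶠ t in 𝓝 0, fderiv ℂ (vals f) (γ j b t) (v j b t) = t • e j) :
    ∃ f' : β → Tens M a, ∀ j, ∃ ρ : V M, vals f' (z j) = e j + fderiv ℂ (vals f) (z j) ρ := by
  obtain ⟨b₀, l₀, k1, k2, k3⟩ := h.nod.exists_nzd fun j => (hγ j).mem
  have hl : (fun c => l₀ c * l₀ c) ∈ Pol M (b₀ + b₀) := Pol.mul' k1 k1 rfl
  have hn := k2.mul k2 h.nod (Pol.isSec k1) (Pol.isSec k1)
  have k4 : ∀ j x, AnalyticAt ℂ (fun t => l₀ (γ j x t)) 0 := fun j x =>
    (Pol.an k1 _).comp ((hγ j).an x)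
  have k5 : ∀ j x, AnalyticAt ℂ (dslope (fun t => l₀ (γ j x t)) 0) 0 := fun j x => by
    obtain ⟨_, hp⟩ := k4 j x
    exact ⟨_, hp.has_fpower_series_dslope_fslope⟩
  have k6 : ∀ j x t, l₀ (γ j x t) = t * dslope (fun t => l₀ (γ j x t)) 0 t := fun j x t => by
    simpa [(hγ j).zero, k3] using (sub_smul_dslope (fun t => l₀ (γ j x t)) 0 t).symm
  choose S k7 k8 k9 using fun p : Σ i, Fin (M i) => h.ml_br (a := Pi.single p.1 1)
    (fun e => by simpa using congrFun e p.1) hn hl hγ hz
    (q := fun j x t => l₀ (γ j x t) * dslope (fun t => l₀ (γ j x t)) 0 t * v j x t p.1 p.2)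
    (fun j x => ((k4 j x).mul (k5 j x)).mul
      (analyticAt_pi_iff.1 (analyticAt_pi_iff.1 (hv j x) p.1) p.2))
    (fun j => by simp [(hγ j).zero, k3]) fun j e => by rw [e, he j e]
  choose ρ k8 k10 using k8
  let W : V M → V M := fun c i k => S ⟨i, k⟩ c
  let R : κ → V M → V M := fun j c i k => ρ ⟨i, k⟩ j c
  have a1 : ∀ c, AnalyticAt ℂ W c := fun c =>
    AnalyticAt.pi fun i => AnalyticAt.pi fun k => Pol.an (k7 ⟨i, k⟩) c
  have a2 : ∀ j, AnalyticAt ℂ (R j) (z j) := fun j =>
    AnalyticAt.pi fun i => AnalyticAt.pi fun k => k8 ⟨i, k⟩ j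
  have a3 : ∀ s c, W (s • c) = chr (b₀ + b₀) s • s • W c := fun s c => funext fun i =>
    funext fun k => by
      have : chr (Pi.single i 1) s = s i := by
        rw [chr, Finset.prod_eq_single i (fun j _ hj => by simp [hj]) (by simp)]
        simp
      simp only [W, Pol.hom (k7 ⟨i, k⟩), chr_add, this, Pi.smul_apply', Pi.smul_apply, smul_eq_mul]
      ring
  have a4 : ∀ k c, AnalyticAt ℂ (fun c => fderiv ℂ (val (f k)) c (W c)) c := fun k c =>
    an_apply (analyticAt_val _ c).fderiv (a1 c)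
  have a5 : ∀ k, Hom C (a + (b₀ + b₀)) fun c => fderiv ℂ (val (f k)) c (W c) := fun k s _ c _ => by
    simp only [a3, map_smul, fderiv_val_smul, smul_eq_mul, chr_add (a := a)]
    ring
  have a6 : ∀ k j x, AnalyticAt ℂ
      (fun t => e j k + fderiv ℂ (val (f k)) (γ j x t) (R j (γ j x t))) 0 := fun k j x =>
    analyticAt_const.add (an_apply ((analyticAt_val _ _).fderiv.comp ((hγ j).an x))
      ((a2 j).comp_of_eq ((hγ j).an x) ((hγ j).zero x)))
  have a7 : ∀ k j x, ∀ᶠ t in 𝓝 0, fderiv ℂ (val (f k)) (γ j x t) (W (γ j x t)) =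
      l₀ (γ j x t) * l₀ (γ j x t) * (e j k + fderiv ℂ (val (f k)) (γ j x t) (R j (γ j x t))) :=
    fun k j x => by
      filter_upwards [eventually_all.2 fun p => k10 p j x, h1 j x] with t m1 m2
      have m3 : W (γ j x t) = (l₀ (γ j x t) * dslope (fun t => l₀ (γ j x t)) 0 t) • v j x t +
          (l₀ (γ j x t) * l₀ (γ j x t)) • R j (γ j x t) :=
        funext fun i => funext fun k => m1 ⟨i, k⟩
      have m4 := congrFun m2 k
      rw [fderiv_vals] at m4
      rw [m3, map_add, map_smul, map_smul, m4]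
      simp only [smul_eq_mul, Pi.smul_apply]
      linear_combination (-(l₀ (γ j x t) * e j k)) * k6 j x t
  have a8 : ∀ k, ∃ μ : Tens M a, ∀ c ∈ C,
      fderiv ℂ (val (f k)) c (W c) = l₀ c * l₀ c * val μ c := fun k => by
    obtain ⟨q, ⟨μ, rfl⟩, hq⟩ := h.div ha hn (Pol.isSec hl)
      (isSec_of_hol (a5 k) fun c _ => ⟨_, a4 k c, .of_forall fun _ => rfl⟩) fun c hc _ => by
        by_cases m1 : ∃ j, Orb (z j) c
        · obtain ⟨j, hj⟩ := m1
          exact ((hγ j).ld (Pol.bh hl) ((a5 k).bh (hγ j)) (a6 k j) (by simp only [(hγ j).zero])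
            (fun e => by rw [e]) (a7 k j)).orb h.nod (Pol.hm hl) (a5 k) hj
        · refine (LD.sum Finset.univ fun (p : Σ i, Fin (M i)) _ =>
            (k9 p c hc (not_exists.1 m1)).mul (an_apply (analyticAt_val (f k) c).fderiv
              (analyticAt_const (v := (Pi.single p.1 (Pi.single p.2 1) : V M))))).congr
                (.of_forall fun y => ?_)
          rw [eq_sum_single (W y), map_sum]
          simp only [map_smul, smul_eq_mul, W]
    exact ⟨μ, hq⟩
  choose f' hf' using a8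
  refine ⟨f', fun j => ⟨R j (z j), funext fun k => ?_⟩⟩
  obtain ⟨n, u, m1, m2, m3⟩ := hn.exists_ord h.nod (Pol.isSec hl) (hγ j) true
  have m4 := tendsto_nhds_unique_of_eventuallyEq (l := 𝓝[≠] 0)
    (((analyticAt_val (f' k) _).comp ((hγ j).an true)).continuousAt.tendsto.mono_left
      nhdsWithin_le_nhds) ((a6 k j true).continuousAt.tendsto.mono_left nhdsWithin_le_nhds) (by
      filter_upwards [mem_nhdsWithin_of_mem_nhds ((a7 k j true).and (m3.and
        ((m1.continuousAt.eventually_ne m2).and ((hγ j).br true).mem))), self_mem_nhdsWithin]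
        with t m4 m5
      exact mul_left_cancel₀ (ne_of_eq_of_ne m4.2.1 (mul_ne_zero (pow_ne_zero _ m5) m4.2.2.1))
        ((hf' k _ m4.2.2.2).symm.trans m4.1))
  rw [Pi.add_apply, fderiv_vals]
  simp only [comp_apply, (hγ j).zero] at m4
  exact m4

omit [DecidableEq ι] in
/-- A curve is not properly contained in a curve with the same Hilbert function. -/
theorem _root_.Vale.Agent.P269.IsCurve.eq_of_subset {C' : Set (V M)} (h : IsCurve o g m C)
    (h' : IsCurve o g m C') (hs : C ⊆ C') : C = C' := by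
  classical
  refine hs.antisymm fun c hc => by_contra fun hn => ?_
  have ha : (fun _ => 3 : ι → ℕ) ≠ 0 := fun e => by simpa using congrFun e o
  obtain ⟨μ, h1, h2⟩ := h.cut (a := fun _ => 3) (fun _ => le_rfl) (h'.ne_zero c hc) hn
  have h3 : LinearMap.ker (resL C' fun _ => 3) = LinearMap.ker (resL C fun _ => 3) := by
    refine Submodule.eq_of_le_of_finrank_eq
      (fun ν hν => funext fun y => congrFun hν ⟨y, hs y.2⟩) ?_
    have e1 := h.finrank_Hs ha
    have e2 := h'.finrank_Hs ha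
    have e3 := (resL C fun _ => 3).finrank_range_add_finrank_ker
    have e4 := (resL C' fun _ => 3).finrank_range_add_finrank_ker
    unfold Hs at e1 e2
    omega
  exact h2 (congrFun (h3.ge (show μ ∈ LinearMap.ker _ from funext fun y => h1 y y.2)) ⟨c, hc⟩)

end Vale.Agent.P269.Base
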