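import Vale.Agent.P269.Base.Cbc
import Vale.Agent.P269.Base.Push

/-!
# Twisting families
-/

namespace Vale.Agent.P269.Base

open Set Function Topology Filter Holo

variable {ι : Type} [Fintype ι] [DecidableEq ι] {M : ι → ℕ} {β : Type*} [Fintype β] {o : ι}
  {b : ι → ℕ} {g : ℤ} {m : ι → ℤ} {C₀ : Set (V M)} {l : V M → ℂ} {γ : β → ℂ → V M}

namespace TwP

omit [DecidableEq ι] in
theorem orb_iff {c c' : V M} (h : Orb c c') (y : V M) : Orb c y ↔ Orb c' y :=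
  ⟨h.symm.trans, h.trans⟩

omit [DecidableEq ι] in
/-- Local lifts of a relation are transported along the orbits. -/
theorem phi_orb (hC : Nod o C₀) {R : ℂ → V M → V M → Prop}
    (hR : ∀ p c c' y y', R p c y → Orb c c' → Orb y y' → R p c' y') {c₁ c₀ : V M} (h : Orb c₁ c₀)
    {Φ : ℂ × V M → V M} (h1 : AnalyticAt ℂ Φ (0, c₁)) (h2 : ∀ᶠ c in 𝓝[C₀] c₁, Φ (0, c) = c)
    (h3 : ∀ᶠ q : ℂ × V M in 𝓝 (0, c₁), q.2 ∈ C₀ → ∀ y, R q.1 q.2 y ↔ Orb (Φ q) y) :
    ∃ Φ : ℂ × V M → V M, AnalyticAt ℂ Φ (0, c₀) ∧ (∀ᶠ c in 𝓝[C₀] c₀, Φ (0, c) = c) ∧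
      ∀ᶠ q : ℂ × V M in 𝓝 (0, c₀), q.2 ∈ C₀ → ∀ y, R q.1 q.2 y ↔ Orb (Φ q) y := by
  obtain ⟨s, hs, rfl⟩ := h
  have hs' : ∀ i, s⁻¹ i ≠ 0 := fun i => inv_ne_zero (hs i)
  have e1 : ∀ c : V M, s⁻¹ • s • c = c := fun c => by
    rw [smul_smul, show s⁻¹ * s = 1 from funext fun i => inv_mul_cancel₀ (hs i), one_smul]
  have e2 : ∀ c : V M, s • s⁻¹ • c = c := fun c => by
    rw [smul_smul, show s * s⁻¹ = 1 from funext fun i => mul_inv_cancel₀ (hs i), one_smul]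
  have a1 : AnalyticAt ℂ (fun q : ℂ × V M => (q.1, s⁻¹ • q.2)) (0, s • c₁) :=
    analyticAt_fst.prod (an_smul analyticAt_const analyticAt_snd)
  have t1 : Tendsto (fun q : ℂ × V M => (q.1, s⁻¹ • q.2)) (𝓝 (0, s • c₁)) (𝓝 (0, c₁)) := by
    simpa only [e1] using a1.continuousAt.tendsto
  have t2 : Tendsto (fun c : V M => s⁻¹ • c) (𝓝 (s • c₁)) (𝓝 c₁) := by
    simpa only [e1] using
      (an_smul (s := fun _ => s⁻¹) analyticAt_const analyticAt_id : AnalyticAt ℂ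
        (fun c : V M => s⁻¹ • c) (s • c₁)).continuousAt.tendsto
  refine ⟨fun q => s • Φ (q.1, s⁻¹ • q.2), an_smul analyticAt_const
    (h1.comp_of_eq a1 (by simp only [e1])), ?_, ?_⟩
  · rw [eventually_nhdsWithin_iff] at h2 ⊢
    filter_upwards [t2.eventually h2] with c k1 hc
    rw [k1 (hC.cone _ hs' _ hc), e2]
  · filter_upwards [t1.eventually h3] with q k1 hq y
    rw [← orb_iff (Orb.smul _ hs), ← k1 (hC.cone _ hs' _ hq)]
    exact ⟨fun k => hR _ _ _ _ _ k (Orb.smul _ hs') (.refl _),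
      fun k => hR _ _ _ _ _ k (Orb.smul _ hs').symm (.refl _)⟩

/-- The moving discs. -/
noncomputable def mv (γ : β → ℂ → V M) (y : β → ℂ) : β → ℂ × ℂ → V M :=
  fun k q => γ k (q.1 * y k + q.2)

omit [DecidableEq ι] [Fintype ι] [Fintype β] in
theorem ctr_mv (y : β → ℂ) (ε : ℂ) : ctr (mv γ y) ε = fun k => γ k (ε * y k) :=
  funext fun k => by simp only [ctr, mv, add_zero]

omit [DecidableEq ι] [Fintype ι] [Fintype β] in
theorem ctr_mv0 (y : β → ℂ) : ctr (mv γ y) 0 = fun k => γ k 0 :=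
  funext fun k => by simp only [ctr, mv, add_zero, zero_mul]

omit [DecidableEq ι] [Fintype β] in
theorem pts_mv (hC : Nod o C₀) (hγ : ∀ k, IsBranch o C₀ (γ k)) (hz : Spt o C₀ fun k => γ k 0)
    (y : β → ℂ) : Pts o (fun _ : ℂ => C₀) id 0 (mv γ y) := by
  have h := (FMer.const (T := ℂ) (π := id) (t₀ := 0) (χ := 0) (u := 0) hC
    (.of_forall fun _ => continuousAt_id) hγ hz Mer.zero).1
  refine ⟨fun k => (h.chart k).transl (κ := fun p : ℂ => p * y k) continuousAt_id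
    (analyticAt_id.mul analyticAt_const) (zero_mul _), fun k k' e => hz.inj k k' ?_⟩
  simpa only [mv, id, zero_mul, add_zero] using e

/-- The coordinates divided by powers of `l` extend to the moving points. -/
theorem exists_F (h : IsCurve o g m C₀) (hγ : ∀ k, IsBranch o C₀ (γ k))
    (hz : Spt o C₀ fun k => γ k 0) (hl : Triv o C₀ (fun i => b i) (fun k => γ k 0) 1 l)
    (v : ι → ℤ) (y : β → ℂ) (i : ι) (j : Fin (M i)) :
    ∃ f : ℂ → V M → ℂ, FMer o (fun _ : ℂ => C₀) id 0 (Pi.single i 1 - v i • fun i => (b i : ℤ))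
      (mv γ y) (fun _ => -v i) f ∧ f 0 = fun c => l c ^ (-v i) * c i j := by
  have ha : (Pi.single i 1 : ι → ℕ) ≠ 0 := fun e => by simpa using congrFun e i
  obtain ⟨μ, hμ⟩ := h.exists_bas ha hz (h.finrank_Hs ha)
  have e1 : (-v i • fun i => (b i : ℤ)) + (fun i' => ((Pi.single i 1 : ι → ℕ) i' : ℤ)) =
      Pi.single i 1 - v i • fun i => (b i : ℤ) := by
    funext i'
    by_cases hi : i' = i
    · subst hi; simp; ring
    · simp [hi]
  have e2 : (-v i • (1 : β → ℤ)) + 0 = fun _ => -v i := by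
    funext k; simp
  have h1 := (hμ.mul (hl.zpow (-v i))).cast e1 e2
  have h2 := ((hl.zpow (-v i)).toMer.mul (Mer.of_isSec
    (Pol.isSec (Pol.lin i (ContinuousLinearMap.proj j))))).cast e1 e2
  refine LocFam.exists_ext (h.nod.locFam id (.of_forall fun _ => continuousAt_id)) h
    (pts_mv h.nod hγ hz y) (by rw [id, ctr_mv0]; exact h1) ?_ (by rw [id, ctr_mv0]; exact h2)
  have h3 := hl.degree h hz
  rw [Fintype.card_fin, h.finrank_Hs ha, ← e1, dgz_add, dgz_smul, dgz_nat (a := Pi.single i 1),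
    ← h3]
  simp only [Pi.one_apply, Finset.sum_const, Finset.card_univ, nsmul_eq_mul]
  ring

/-- The graph of the deformed embedding. -/
def Gr (F : ℂ → V M → V M) (z : ℂ → β → V M) (H : ℂ → β → V M) (ε : ℂ) (c y : V M) : Prop :=
  ∃ c₀, Orb c₀ c ∧ (Off (z ε) c₀ ∧ Orb (F ε c₀) y ∨ ∃ k, c₀ = z ε k ∧ Orb (H ε k) y)

omit [DecidableEq ι] [Fintype β] in
theorem Gr.orb {F : ℂ → V M → V M} {z H : ℂ → β → V M} (p : ℂ) (c c' y y' : V M)
    (h : Gr F z H p c y) (h1 : Orb c c') (h2 : Orb y y') : Gr F z H p c' y' := by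
  obtain ⟨c₀, k1, ⟨k2, k3⟩ | ⟨k, k2, k3⟩⟩ := h
  · exact ⟨c₀, k1.trans h1, .inl ⟨k2, k3.trans h2⟩⟩
  · exact ⟨c₀, k1.trans h1, .inr ⟨k, k2, k3.trans h2⟩⟩

omit [DecidableEq ι] [Fintype β] in
theorem gr_off {F : ℂ → V M → V M} {z H : ℂ → β → V M} {ε : ℂ}
    (hF : ∀ c ∈ C₀, ∀ c', Orb c c' → Orb (F ε c) (F ε c')) {c : V M} (hc : c ∈ C₀)
    (ho : Off (z ε) c) (y : V M) : Gr F z H ε c y ↔ Orb (F ε c) y := by
  refine ⟨?_, fun h => ⟨c, .refl _, .inl ⟨ho, h⟩⟩⟩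
  rintro ⟨c₀, k1, ⟨-, k3⟩ | ⟨k, rfl, -⟩⟩
  · exact (hF c hc c₀ k1.symm).trans k3
  · exact (ho k k1).elim

omit [DecidableEq ι] [Fintype β] in
theorem gr_on {F : ℂ → V M → V M} {z H : ℂ → β → V M} {ε : ℂ}
    (hz : ∀ k k', Orb (z ε k) (z ε k') → k = k') (k : β) (y : V M) :
    Gr F z H ε (z ε k) y ↔ Orb (H ε k) y := by
  refine ⟨?_, fun h => ⟨_, .refl _, .inr ⟨k, rfl, h⟩⟩⟩
  rintro ⟨c₀, k1, ⟨k2, -⟩ | ⟨k', rfl, k3⟩⟩
  · exact (k2 k k1.symm).elim
  · exact hz _ _ k1 ▸ k3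

end TwP

open TwP

theorem _root_.Vale.Agent.P269.IsCurve.exists_tw (h : IsCurve o g m C₀) (hl : l ∈ Pol M b)
    (hz : Reps C₀ (fun c => l c = 0) fun k => γ k 0) (hs : ∀ k, Simp o C₀ l (γ k 0))
    (hγ : ∀ k, IsBranch o C₀ (γ k)) (v : ι → ℤ) (y : β → ℂ) :
    ∃ (F : ℂ → V M → V M) (C' : ℂ → Set (V M)) (S : ℂ → V M → V M → Prop),
      Tw C₀ γ v y C' (fun ε c => (fun i => l c ^ v i) • F ε c) ∧ C' 0 = C₀ ∧ LocFam o C' id 0 ∧
      ∀ᶠ ε in 𝓝 (0 : ℂ), CIso o o C₀ (C' ε) (S ε) ∧ Spt o C₀ (fun k => γ k (ε * y k)) ∧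
        (∀ i j, Mer o C₀ (Pi.single i 1 - v i • fun i => (b i : ℤ)) (fun k => γ k (ε * y k))
          (fun _ => -v i) fun c => F ε c i j) ∧
        (∀ c ∈ C₀, Off (fun k => γ k (ε * y k)) c → S ε c (F ε c)) ∧
        ∀ i k, ∃ j δ, IsBranch o C₀ δ ∧ Orb (γ k (ε * y k)) (δ 0) ∧
          ∃ a ≠ 0, Vz (-v i) (fun t => F ε (δ t) i j) a := by
  have hN := h.nod
  obtain ⟨hsp, htr⟩ := Triv.of_simp hN (Pol.isSec hl) hz hs
  have hfam : ∀ t : ℂ, LocFam o (fun _ : ℂ => C₀) id t := fun t =>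
    hN.locFam id (.of_forall fun _ => continuousAt_id)
  have hσ := pts_mv hN hγ hsp y
  choose f hf f0 using exists_F h hγ hsp htr v y
  choose G hG hG' using fun i j k => (hf i j).ord k
  have hlam : ∀ k, ∃ lam : ℂ → ℂ, AnalyticAt ℂ lam 0 ∧ lam 0 ≠ 0 ∧
      ∀ᶠ w in 𝓝[≠] (0 : ℂ), l (γ k w) = w * lam w := fun k => by
    obtain ⟨x, hx, lam, k1, k2, k3⟩ := htr.ord' k (hγ k) (.refl _)
    exact ⟨lam, k1, k2 ▸ hx, by simpa using k3⟩
  choose lam la1 la2 la3 using hlam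
  set F : ℂ → V M → V M := fun ε c i j => f i j ε c with hF
  set H : β → ℂ × ℂ → V M := fun k q =>
    (fun i => lam k q.2 ^ v i) • fun i j => G i j k (q.1, q.2 - q.1 * y k) with hH
  set z : ℂ → β → V M := fun ε k => γ k (ε * y k) with hzz
  set S := Gr F z fun ε k => H k (ε, ε * y k) with hS
  -- analyticity of `H`
  have aH : ∀ k, AnalyticAt ℂ (H k) (0, 0) := fun k =>
    an_smul (analyticAt_pi_iff.2 fun i => ((la1 k).comp_of_eq analyticAt_snd rfl).fun_zpow (la2 k))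
      (analyticAt_pi_iff.2 fun i => analyticAt_pi_iff.2 fun j => (hG i j k).comp_of_eq
        (analyticAt_fst.prod (analyticAt_snd.sub (analyticAt_fst.mul analyticAt_const))) (by simp))
  have la4 : ∀ k, ∀ᶠ w in 𝓝 (0 : ℂ), lam k w ≠ 0 := fun k =>
    (la1 k).continuousAt.eventually_ne (la2 k)
  have H0 : ∀ k, ∀ᶠ w in 𝓝 (0 : ℂ), H k (0, w) = γ k w := fun k => by
    have k1 : AnalyticAt ℂ (fun w : ℂ => H k (0, w)) 0 :=
      (aH k).comp_of_eq (analyticAt_const.prod analyticAt_id) rfl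
    have k2 : ∀ᶠ w in 𝓝[≠] (0 : ℂ), H k (0, w) = γ k w := by
      have t1 : Tendsto (fun w : ℂ => ((0 : ℂ), w)) (𝓝[≠] 0) (𝓝 (0, 0)) :=
        ((continuous_const.prodMk continuous_id).tendsto' _ _ rfl).mono_left nhdsWithin_le_nhds
      filter_upwards [eventually_all.2 fun i => eventually_all.2 fun j => t1.eventually (hG' i j k),
        la3 k, self_mem_nhdsWithin, (la4 k).filter_mono nhdsWithin_le_nhds] with w k3 k4 k5 k6
      funext i j
      have k7 := k3 i j k5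
      have k8 : w ≠ 0 := k5
      simp only [f0, mv, id, zero_mul, zero_add, k4, mul_zpow] at k7
      simp only [hH, Pi.smul_apply', Pi.smul_apply, smul_eq_mul, zero_mul, sub_zero]
      have k9 : w ^ (-v i) ≠ 0 := zpow_ne_zero _ k8
      rw [mul_assoc] at k7
      rw [← mul_left_cancel₀ k9 k7, ← mul_assoc, ← zpow_add₀ k6]
      simp
    have k3 : H k (0, 0) = γ k 0 :=
      tendsto_nhds_unique_of_eventuallyEq (k1.continuousAt.tendsto.mono_left nhdsWithin_le_nhds)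
        ((hγ k).holo.continuousAt.tendsto.mono_left nhdsWithin_le_nhds) k2
    rw [eventually_nhdsWithin_iff] at k2
    filter_upwards [k2] with w k4
    by_cases hw : w = 0
    · rw [hw, k3]
    · exact k4 hw
  -- homogeneity
  have hom : ∀ᶠ ε in 𝓝 (0 : ℂ), ∀ s : ι → ℂ, (∀ i, s i ≠ 0) → ∀ c ∈ C₀,
      F ε (s • c) = (fun i => s i * chr b s ^ (-v i)) • F ε c := by
    filter_upwards [eventually_all.2 fun i => eventually_all.2 fun j => (hf i j).hom]
      with ε k1 s hs c hc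
    funext i j
    simp only [hF, Pi.smul_apply', Pi.smul_apply, smul_eq_mul]
    rw [k1 i j s hs c hc, sub_eq_add_neg, ← neg_smul, chz_add hs, chz_smul, chz_nat]
    congr 2
    rw [chz, Finset.prod_eq_single i (fun j _ hj => by simp [hj]) (by simp)]
    simp
  have horb : ∀ᶠ ε in 𝓝 (0 : ℂ), ∀ c ∈ C₀, ∀ c', Orb c c' → Orb (F ε c) (F ε c') := by
    filter_upwards [hom] with ε k1 c hc _ ⟨s, hs, e⟩
    rw [e, k1 s hs c hc]
    exact Orb.smul _ fun i => mul_ne_zero (hs i) (zpow_ne_zero _ (chr_ne_zero hs))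
  have hspt : ∀ᶠ ε in 𝓝 (0 : ℂ), Pts o (fun _ : ℂ => C₀) id ε (mv γ y) := hσ.eventually (hfam 0)
  have hspt' : ∀ᶠ ε in 𝓝 (0 : ℂ), Spt o C₀ (z ε) := hspt.mono fun ε k1 => by
    simpa only [id, ctr_mv] using k1.spt (hfam ε)
  have tz : ∀ k, Tendsto (fun ε => z ε k) (𝓝 0) (𝓝 (γ k 0)) := fun k =>
    (hγ k).holo.continuousAt.tendsto.comp
      ((continuous_id.mul continuous_const).tendsto' _ _ (zero_mul _))
  -- the graph along the moving discs
  have disc : ∀ k, ∀ᶠ q : ℂ × ℂ in 𝓝 (0, 0), γ k (q.1 * y k + q.2) ∈ C₀ ∧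
      (q.2 ≠ 0 → H k (q.1, q.1 * y k + q.2) =
        (fun i => lam k (q.1 * y k + q.2) ^ v i * q.2 ^ v i) • F q.1 (γ k (q.1 * y k + q.2))) ∧
      ∀ y', S q.1 (γ k (q.1 * y k + q.2)) y' ↔ Orb (H k (q.1, q.1 * y k + q.2)) y' := fun k => by
    have t1 : Tendsto (fun q : ℂ × ℂ => q.1 * y k + q.2) (𝓝 (0, 0)) (𝓝 0) :=
      (by fun_prop : Continuous fun q : ℂ × ℂ => q.1 * y k + q.2).tendsto' _ _ (by simp)
    have t2 : Tendsto (fun q : ℂ × ℂ => (q.1, (0 : ℂ), q.2)) (𝓝 (0, 0)) (𝓝 (0, 0, 0)) :=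
      (by fun_prop : Continuous fun q : ℂ × ℂ => (q.1, (0 : ℂ), q.2)).tendsto' _ _ rfl
    have t3 : Tendsto (fun q : ℂ × ℂ => q.1) (𝓝 (0, 0)) (𝓝 0) := continuousAt_fst
    have k1 : ∀ k', ∀ᶠ q : ℂ × ℂ in 𝓝 (0, 0), k' ≠ k →
        ¬Orb (z q.1 k') (γ k (q.1 * y k + q.2)) := fun k' => by
      by_cases hk : k' = k
      · exact .of_forall fun _ e => (e hk).elim
      · exact (ev_not_orb ((tz k').comp t3) ((hγ k).holo.continuousAt.tendsto.comp t1)
          (hN.ne_zero _ (hsp.mem k')) (hN.ne_zero _ (hsp.mem k))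
          fun e => hk (hsp.inj _ _ e)).mono fun _ e _ => e
    filter_upwards [t1.eventually (hγ k).mem, t1.eventually (la4 k), eventually_all.2 k1,
      eventually_all.2 fun i => eventually_all.2 fun j => hG' i j k,
      t2.eventually ((hσ.chart k).inj (hσ.ne (hfam 0) k)), t3.eventually horb,
      t3.eventually hspt'] with q k2 k3 k4 k5 k6 k7 k8
    have k9 : q.2 ≠ 0 → H k (q.1, q.1 * y k + q.2) =
        (fun i => lam k (q.1 * y k + q.2) ^ v i * q.2 ^ v i) • F q.1 (γ k (q.1 * y k + q.2)) := by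
      intro hq
      funext i j
      have k10 := k5 i j hq
      simp only [mv, id] at k10
      simp only [hH, hF, Pi.smul_apply', Pi.smul_apply, smul_eq_mul, add_sub_cancel_left, k10]
      rw [mul_assoc, ← mul_assoc (q.2 ^ v i), ← zpow_add₀ hq]
      simp
    refine ⟨k2, k9, fun y' => ?_⟩
    by_cases hq : q.2 = 0
    · rw [hq, add_zero]
      exact gr_on k8.inj k y'
    · rw [hS, gr_off k7 k2 (fun k' e => ?_), k9 hq]
      · exact orb_iff (Orb.smul _ fun i =>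
          mul_ne_zero (zpow_ne_zero _ k3) (zpow_ne_zero _ hq)) _
      · by_cases hk : k' = k
        · subst hk
          obtain ⟨s, -, e⟩ := e
          exact hq (k6 s (by simpa only [mv, add_zero] using e)).2.symm
        · exact k4 k' hk e
  -- local lifts off the zeros
  have reg : ∀ c ∈ C₀, Off (fun k => γ k 0) c → ∃ Φ : ℂ × V M → V M, AnalyticAt ℂ Φ (0, c) ∧
      ∀ᶠ q : ℂ × V M in 𝓝 (0, c), q.2 ∈ C₀ → l q.2 ≠ 0 ∧ (fun i => l q.2 ^ v i) • F q.1 q.2 = Φ q ∧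
        ∀ y', S q.1 q.2 y' ↔ Orb (Φ q) y' := fun c hc ho => by
    choose Φ k1 k2 using fun i j => (hf i j).reg c hc (by rw [id, ctr_mv0]; exact ho)
    have k3 : l c ≠ 0 := htr.ne c hc ho
    have a1 : AnalyticAt ℂ (fun q : ℂ × V M => l q.2) (0, c) :=
      (Pol.an hl c).comp_of_eq analyticAt_snd rfl
    have t3 : Tendsto (fun q : ℂ × V M => q.1) (𝓝 (0, c)) (𝓝 0) := continuousAt_fst
    refine ⟨fun q => (fun i => l q.2 ^ v i) • fun i j => Φ i j q,
      an_smul (analyticAt_pi_iff.2 fun i => a1.fun_zpow k3)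
        (analyticAt_pi_iff.2 fun i => analyticAt_pi_iff.2 fun j => k1 i j), ?_⟩
    filter_upwards [eventually_all.2 fun i => eventually_all.2 fun j => k2 i j,
      a1.continuousAt.eventually_ne k3, t3.eventually horb,
      eventually_all.2 fun k => ev_not_orb ((tz k).comp t3) (continuousAt_snd (p := (0, c)))
        (hN.ne_zero _ (hsp.mem k)) (hN.ne_zero _ hc) (ho k)] with q k4 k5 k6 k7 hq
    have k8 : F q.1 q.2 = fun i j => Φ i j q := funext fun i => funext fun j => k4 i j hq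
    refine ⟨k5, by rw [k8], fun y' => ?_⟩
    rw [hS, gr_off k6 hq k7, k8]
    exact orb_iff (Orb.smul _ fun i => zpow_ne_zero _ k5) _
  have zero : ∀ c, l c ≠ 0 → (fun i => l c ^ v i) • F 0 c = c := fun c hc => by
    funext i j
    simp only [hF, f0, Pi.smul_apply', Pi.smul_apply, smul_eq_mul]
    rw [← mul_assoc, ← zpow_add₀ hc]
    simp
  have hΦ : ∀ c₀ ∈ C₀, ∃ Φ : ℂ × V M → V M, AnalyticAt ℂ Φ (0, c₀) ∧
      (∀ᶠ c in 𝓝[C₀] c₀, Φ (0, c) = c) ∧
      ∀ᶠ q : ℂ × V M in 𝓝 (0, c₀), q.2 ∈ C₀ → ∀ y, S q.1 q.2 y ↔ Orb (Φ q) y := fun c₀ hc => by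
    have t0 : ∀ c₁ : V M, Tendsto (fun c : V M => ((0 : ℂ), c)) (𝓝 c₁) (𝓝 (0, c₁)) := fun c₁ =>
      (continuous_const.prodMk continuous_id).tendsto' _ _ rfl
    by_cases ho : Off (fun k => γ k 0) c₀
    · obtain ⟨Φ, k1, k2⟩ := reg c₀ hc ho
      refine ⟨Φ, k1, ?_, k2.mono fun q k3 hq => (k3 hq).2.2⟩
      rw [eventually_nhdsWithin_iff]
      filter_upwards [(t0 c₀).eventually k2] with c k3 hc
      rw [← (k3 hc).2.1, zero c (k3 hc).1]
    · obtain ⟨k, hk⟩ : ∃ k, Orb (γ k 0) c₀ := by simpa only [Off, not_forall, not_not] using ho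
      have t1 : Tendsto (fun q : ℂ × ℂ => q.1 * y k + q.2) (𝓝 (0, 0)) (𝓝 0) :=
        (by fun_prop : Continuous fun q : ℂ × ℂ => q.1 * y k + q.2).tendsto' _ _ (by simp)
      obtain ⟨A, W, k1, k2, -, k3, k4⟩ := (hσ.chart k).normal (χ := 0) (f := fun _ _ => 0) (hfam 0)
        (.of_forall fun _ _ _ _ _ => by simp) ((disc k).and (t1.eventually (H0 k)))
      simp only [mv, id, zero_mul, add_zero, Prod.mk.eta] at k1 k2 k3 k4
      refine phi_orb hN Gr.orb hk (Φ := fun q => A q • H k (q.1, q.1 * y k + W q))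
        (an_smul k1 ((aH k).comp_of_eq (analyticAt_fst.prod
          ((analyticAt_fst.mul analyticAt_const).add k2)) (by simp [k3]))) ?_ ?_
      · rw [eventually_nhdsWithin_iff]
        filter_upwards [(t0 _).eventually k4] with c k5 hc
        rw [k5.2.1.2, ← (k5.2.2 hc).1]
      · filter_upwards [k4] with q k5 hq y'
        rw [← orb_iff (Orb.smul _ k5.1), ← k5.2.1.1.2.2]
        have k6 : Orb (γ k (q.1 * y k + W q)) q.2 := ⟨_, k5.1, (k5.2.2 hq).1⟩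
        exact ⟨fun e => Gr.orb _ _ _ _ _ e k6.symm (.refl _), fun e => Gr.orb _ _ _ _ _ e k6 (.refl _)⟩
  obtain ⟨p1, p2, -⟩ := hN.push Gr.orb hΦ
  refine ⟨F, fun p => {y | ∃ c ∈ C₀, S p c y}, S, ⟨?_, fun c hc ho => zero c (htr.ne c hc ho),
    fun c hc ho => ?_, fun k => ⟨H k, aH k, H0 k, ?_⟩⟩, p1, p2, ?_⟩
  · filter_upwards [hom] with ε k1 s hs c hc
    rw [k1 s hs c hc, smul_smul, smul_smul, Pol.hom hl]
    congr 1
    funext i
    have := zpow_ne_zero (v i) (chr_ne_zero (a := b) hs)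
    simp only [Pi.mul_apply, mul_zpow, zpow_neg]
    field_simp
  · obtain ⟨Φ, k1, k2⟩ := reg c hc ho
    exact ⟨Φ, k1, k2.mono fun q k3 hq => ⟨(k3 hq).2.1, q.2, hq, ((k3 hq).2.2 _).2 (.refl _)⟩⟩
  · have t1 : Tendsto (fun q : ℂ × ℂ => (q.1, q.2 - q.1 * y k)) (𝓝 (0, 0)) (𝓝 (0, 0)) :=
      (by fun_prop : Continuous fun q : ℂ × ℂ => (q.1, q.2 - q.1 * y k)).tendsto' _ _ (by simp)
    filter_upwards [t1.eventually (disc k), (continuousAt_snd (p := ((0 : ℂ), (0 : ℂ)))).eventually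
      (eventually_nhdsWithin_iff.1 (la3 k))] with q k1 k2
    simp only [add_sub_cancel, Prod.mk.eta] at k1
    refine ⟨⟨_, k1.1, (k1.2.2 _).2 (.refl _)⟩, fun h1 h2 => ?_⟩
    rw [k1.2.1 (sub_ne_zero.2 h2), smul_smul, k2 h1]
    congr 1
    funext i
    have := zpow_ne_zero (v i) (sub_ne_zero.2 h2)
    simp only [Pi.mul_apply, mul_zpow, div_zpow]
    field_simp
  · have k1 : ∀ i k, ∃ j, G i j k (0, 0) ≠ 0 := fun i k => by
      obtain ⟨j, hj⟩ := Function.ne_iff.1 (hN.ne_zero _ (hsp.mem k) i)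
      refine ⟨j, fun e => hj ?_⟩
      rw [← (H0 k).self_of_nhds]
      simp [hH, e]
    choose J hJ using k1
    have t0 : Tendsto (fun ε : ℂ => (ε, (0 : ℂ))) (𝓝 0) (𝓝 (0, 0)) :=
      (continuous_id.prodMk continuous_const).tendsto' _ _ rfl
    filter_upwards [hN.push_iso Gr.orb hΦ, hspt, hspt', horb,
      eventually_all.2 fun i => eventually_all.2 fun j => (hf i j).eventually_mer (hfam 0) hσ,
      eventually_all.2 fun i => eventually_all.2 fun k => t0.eventually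
        ((hG i (J i k) k).eventually_analyticAt.and
          (((hG i (J i k) k).continuousAt.eventually_ne (hJ i k)).and
            (eventually_eventually_nhds.2 (hG' i (J i k) k))))] with ε k1 k2 k3 k4 k5 k6
    refine ⟨k1, k3, fun i j => by simpa only [id, ctr_mv] using k5 i j,
      fun c hc ho => (gr_off k4 hc ho _).2 (.refl _), fun i k =>
        ⟨J i k, fun w => mv γ y k (ε, w), k2.isBranch (hfam ε) k, ?_, _, (k6 i k).2.1,
          FMer.vz (T := ℂ) (π := id) (t₀ := ε) (f := f i (J i k)) (τ := mv γ y k) (k6 i k).1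
            (k6 i k).2.2⟩⟩
    simp only [mv, add_zero]
    exact .refl _

end Vale.Agent.P269.Base
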