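import Vale.Agent.P269.Base.Fld
import Vale.Agent.P269.Base.Tw
import Vale.Agent.P269.Base.MerPar

/-!
# Twisting families in the base of a chart
-/

set_option linter.unusedSectionVars false

namespace Vale.Agent.P269.Ch

open Set Function Topology Filter Holo Base

variable {J ι ν : Type} [Fintype J] [Fintype ι] [DecidableEq ι] [Fintype ν] {ch : Ch ι J}

/-- Hilbert points of a holomorphic family of curves. -/
theorem exists_hol_Q {T P : Type*} [TopologicalSpace T] [NormedAddCommGroup P] [NormedSpace ℂ P]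
    [FiniteDimensional ℂ P] {C : T → Set (V ch.M)} {π : T → P} {t₀ : T}
    (hf : LocFam ch.o C π t₀) {x : ch.W ν} (hx : x ∈ ch.base ν) (h0 : C t₀ = crv x) {l : Option J}
    (ha : ch.a l ≠ 0) : ∃ Q : P → Tens ch.M (ch.a l) →L[ℂ] ch.E l, AnalyticAt ℂ Q (π t₀) ∧
      Q (π t₀) = x.Q l ∧ ∀ᶠ t in 𝓝 t₀, Surjective (Q (π t)) ∧
        ∀ μ, Q (π t) μ = 0 ↔ ∀ c ∈ C t, val μ c = 0 := by
  obtain ⟨y, h1, h2⟩ := hf.exists_ev (h0 ▸ hx.2.2.1) ha (h_eq hx ha)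
  obtain ⟨i, hi⟩ := exists_rightInv (l := evP (ch.a l) fun k => y k (π t₀)) h2.self_of_nhds.2.1
  have h3 : ∀ μ, x.Q l (i (evP (ch.a l) (fun k => y k (π t₀)) μ)) = x.Q l μ := fun μ => by
    rw [← sub_eq_zero, ← map_sub]
    refine hx.2.1 l _ (h0 ▸ h2.self_of_nhds.2.2 _ (Pol.isSec (val_mem _)) fun k => ?_)
    rw [← evP_apply (y := fun k => y k (π t₀)), map_sub, hi, sub_self, Pi.zero_apply]
  have h4 : Surjective ((x.Q l).comp i) := fun e =>
    let ⟨μ, hμ⟩ := hx.1 l e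
    ⟨_, (h3 μ).trans hμ⟩
  have h5 : Injective ((x.Q l).comp i) :=
    (LinearMap.injective_iff_surjective (f := ((x.Q l).comp i).toLinearMap)).2 h4
  refine ⟨fun p => ((x.Q l).comp i).comp (evP (ch.a l) fun k => y k p), an_comp analyticAt_const
    ((analyticAt_evP _).comp (f := fun q k => y k q) (AnalyticAt.pi fun k => (h1 k).1)),
    ContinuousLinearMap.ext h3, h2.mono fun t ht => ⟨h4.comp ht.2.1, fun μ => ?_⟩⟩
  rw [ContinuousLinearMap.comp_apply, map_eq_zero_iff _ h5]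
  exact ⟨fun e => ht.2.2 _ (Pol.isSec (val_mem _)) (congrFun e),
    fun e => funext fun k => e _ (ht.1 k)⟩

namespace TwBP

open Cv

theorem tw_congr {M : ι → ℕ} {β : Type*} {C₀ : Set (V M)} {γ : β → ℂ → V M} {v : ι → ℤ}
    {y : β → ℂ} {C C' : ℂ → Set (V M)} {I : ℂ → V M → V M} (h : Tw C₀ γ v y C I)
    (e : ∀ᶠ ε in 𝓝 (0 : ℂ), C' ε = C ε) : Tw C₀ γ v y C' I := by
  refine ⟨h.hom, h.zero, fun c hc ho => ?_, fun k => ?_⟩
  · obtain ⟨Φ, h1, h2⟩ := h.reg c hc ho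
    refine ⟨Φ, h1, ?_⟩
    filter_upwards [h2, (continuousAt_fst (p := ((0 : ℂ), c))).eventually e] with q k1 k2 hq
    exact k2 ▸ k1 hq
  · obtain ⟨H, h1, h2, h3⟩ := h.pole k
    refine ⟨H, h1, h2, ?_⟩
    filter_upwards [h3, (continuousAt_fst (p := ((0 : ℂ), (0 : ℂ)))).eventually e] with q k1 k2
    exact k2 ▸ k1

variable {X : Type} [TopologicalSpace X] [T2Space X] [CompactSpace X] {R : RS X}
  {N : Finset (X × X)} {A : ι → LB R} {π : X → V ch.M} {p : ν → X} {ξ : X → ℂ}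

theorem bz_tw {v χ : ι → ℤ} (hv : dgz v χ = 0) (b : ι → ℤ) {β : Type} [Fintype β] (L : β → LB R) :
    bz (fun i => bz A (Pi.single i 1 - v i • b) / ∏ k, L k ^ (-v i)) χ = bz A χ := by
  have e : ∀ i, bz A (Pi.single i 1 - v i • b) / ∏ k, L k ^ (-v i) =
      A i * ((∏ k, L k) / bz A b) ^ v i := fun i => by
    rw [bz_sub, bz_single, zpow_one, bz_smul, Finset.prod_zpow, zpow_neg, div_inv_eq_mul, div_zpow,
      div_mul_eq_mul_div, mul_div_assoc]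
  simp only [e]
  generalize (∏ k, L k) / bz A b = D
  simp only [bz, mul_zpow, Finset.prod_mul_distrib, ← zpow_mul]
  have e' : ∏ i, D ^ (v i * χ i) = D ^ ∑ i, v i * χ i := by
    induction (Finset.univ : Finset ι) using Finset.induction_on with
    | empty => simp
    | insert i S hi ih => rw [Finset.prod_insert hi, Finset.sum_insert hi, zpow_add, ih]
  rw [e', show ∑ i, v i * χ i = 0 from
    (Finset.sum_congr rfl fun i _ => mul_comm _ _).trans hv, zpow_zero, mul_one]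

open Classical in
/-- A point of `base` with given Hilbert points. -/
theorem exists_base {C : Set (V ch.M)} (h : Par ch.o C N A π) (hC : IsCurve ch.o ch.g ch.m C)
    (ha : ch.a none ≠ 0) {Q : ∀ l, Tens ch.M (ch.a l) →L[ℂ] ch.E l}
    (hQ : ∀ l, Surjective (Q l) ∧ ∀ μ, Q l μ = 0 ↔ ∀ c ∈ C, val μ c = 0)
    {l : Option J} (hl : ∀ i, 4 ≤ ch.a l i) (hs : ∀ n, Sm N (p n))
    (hp : Injective p) (hξ : ξ ∈ H0 N ((omega R N (Finset.univ.image p) ^ ch.k)⁻¹ * bz A ch.χ))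
    (h0 : ∀ y, ξ y ≠ 0) : ∃ Ξ u, ∀ (q : ν → V ch.M) F, (∀ n, Orb (π (p n)) (q n)) →
      crv (ch := ch) (ν := ν) (Q, q, Ξ, F) = C ∧ Cr N A (ch := ch) (Q, q, Ξ, F) π u p ξ := by
  have e : ∀ q Ξ F, crv (ch := ch) (ν := ν) (Q, q, Ξ, F) = C := fun _ _ _ =>
    crv_eq h hC (fun l => (hQ l).2) (l := l) (fun i => (by norm_num : 2 ≤ 4).trans (hl i))
      ((by norm_num : 3 ≤ 4).trans (hl _))
  have h' : ∀ q Ξ F, Par ch.o (crv (ch := ch) (ν := ν) (Q, q, Ξ, F)) N A π :=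
    fun q Ξ F => (e q Ξ F).symm ▸ h
  have sm : ∀ y ∈ Finset.univ.image p, Sm N y := Finset.forall_mem_image.2 fun n _ => hs n
  obtain ⟨Ξ, d⟩ := (h' 0 0 0).exists_Xi sm (fun s hs => mem_PP.1 (h.le_PP hC ha hs)) hξ
  choose u hu using fun y => mem_crv.1 ((h' 0 0 0).mem y)
  exact ⟨Ξ, u, fun q F hq => ⟨e _ _ _, .of (h' _ _ _) (fun l => (hQ l).1)
    (fun l μ f => ((hQ l).2 μ).2 (h.val_eq_zero.2 f)) ((e q Ξ F).symm ▸ hC) hu hs hp hq hξ h0
    fun y => d y _ (hu y)⟩⟩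

open Classical in
/-- The value of `Ξ` along a rescaled branch. -/
theorem xi_eq {x : ch.W ν} {u : X → ∀ l, ch.E l →L[ℂ] ℂ} (h : Cr N A x π u p ξ) {z : X}
    (hz : Sm N z ∧ z ∉ Finset.univ.image p) {v : ι → ℤ} (hv : dgz v ch.χ = 0) {r : ℂ → ℂ}
    (hr : AnalyticAt ℂ r 0) (h0 : r 0 ≠ 0) {δ : ℂ → V ch.M}
    (e : ∀ᶠ t in 𝓝 0, δ t = (fun i => r t ^ v i) • br A π z t) {w : ∀ l, ch.E l →L[ℂ] ℂ}
    (hw : (δ 0, w) ∈ gr x) (μ : Tn ch.M ch.slot) :
    w none (x.Ξ μ) = ξ z * wedge μ (δ 0) (deriv δ 0) := by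
  have n1 : ∀ i, r 0 ^ v i ≠ 0 := fun i => zpow_ne_zero _ h0
  have e1 := Xi.wedge_fac μ (φ := id) (s := fun t i => r t ^ v i) e
    (analyticAt_pi_iff.2 fun i => hr.fun_zpow h0) analyticAt_id (an_br h.par.sec z)
  rw [e.self_of_nhds, br_zero] at hw
  rw [e1, gr_unique hw (gr_smul (h.gr z) n1) (h.mem.1 none), _root_.smul_apply, h.Xi, wsec,
    if_pos hz, chr_χ _ n1, show ∏ i, (r 0 ^ v i) ^ ch.χ i = 1 from
      (chz_zpow h0 v).trans (by rw [hv, zpow_zero])]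
  simp only [id, br_zero, deriv_id, smul_eq_mul]
  ring

end TwBP

open TwBP Cv

theorem exists_tw_arc {l : Option J} (hl : ∀ i, 4 ≤ ch.a l i) (ha : ∀ l, ch.a l ≠ 0) {x : ch.W ν}
    (hx : x ∈ ch.base ν) {v : ι → ℤ} (hv : dgz v ch.χ = 0) {b : ι → ℕ} {f : V ch.M → ℂ}
    (hf : f ∈ Pol ch.M b) {β : Type} [Fintype β] {γ : β → ℂ → V ch.M}
    (hz : Reps (crv x) (fun c => f c = 0) fun k => γ k 0)
    (hs : ∀ k, Simp ch.o (crv x) f (γ k 0)) (hγ : ∀ k, IsBranch ch.o (crv x) (γ k))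
    (hp : ∀ n, f (x.p n) ≠ 0) (y : β → ℂ) :
    ∃ (c : ℂ → ch.W ν) (I : ℂ → V ch.M → V ch.M), Arc (ch.base ν) x c ∧
      Tw (crv x) γ v y (fun ε => crv (c ε)) I ∧
      ∀ᶠ ε in 𝓝 (0 : ℂ), (c ε).X = x.X ∧ ∀ n, (c ε).p n = I ε (x.p n) := by
  classical
  obtain ⟨X, _, _, _, R, N, A, π, u, p, ξ, cr⟩ := exists_cr hx
  have hC := cr.cur
  obtain ⟨F, C', S, tw, h0, hfam, hev⟩ := hC.exists_tw hf hz hs hγ v y
  set I : ℂ → V ch.M → V ch.M := fun ε c => (fun i => f c ^ v i) • F ε c with hI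
  choose Q aQ Q0 hQ using fun l => exists_hol_Q hfam hx h0 (ha l)
  have horb : ∀ {c c'}, Orb c c' → f c' ≠ 0 → f c ≠ 0 := by
    rintro c _ ⟨s, -, rfl⟩ h1 h2
    exact h1 (by rw [Pol.hom hf, h2, mul_zero])
  have off0 : ∀ c, f c ≠ 0 → Off (fun k => γ k 0) c := fun c hc k e => horb e hc (hz.prop k)
  have off : ∀ c ∈ crv x, f c ≠ 0 → ∀ᶠ ε in 𝓝 (0 : ℂ), Off (fun k => γ k (ε * y k)) c :=
    fun c hc h1 => eventually_all.2 fun k => ev_not_orb ((hγ k).holo.continuousAt.tendsto.comp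
      ((continuous_id.mul continuous_const).tendsto' _ _ (zero_mul _))) tendsto_const_nhds
        (crv_ne (hz.mem k)) (crv_ne hc) (off0 c h1 k)
  have aI : ∀ c ∈ crv x, f c ≠ 0 → AnalyticAt ℂ (fun ε => I ε c) 0 ∧
      ∀ᶠ ε in 𝓝 (0 : ℂ), I ε c ∈ C' ε := fun c hc h1 => by
    obtain ⟨Φ, k1, k2⟩ := tw.reg c hc (off0 c h1)
    have k3 := ((tendsto_inl (0 : ℂ) c).eventually k2).mono fun ε h => h hc
    exact ⟨(k1.comp_of_eq (analyticAt_id.prod analyticAt_const) rfl).congr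
      (k3.mono fun ε h => h.1.symm), k3.mono fun ε h => h.1 ▸ h.2⟩
  -- generic points
  obtain ⟨w₀, g1, -, g2⟩ := hC.exists_ev' (ha none) (h_eq hx (ha none))
    (p := fun c => Off (Sum.elim (fun k => γ k 0) x.p) c ∧ ¬IsNode ch.o (crv x) c)
    fun c hc => hC.nod.frequently_not_node _ hc
  choose z s g3 g4 using fun k => (cr.par.img _).1 (g1 k).1
  have z1 : ∀ k, f (π (z k)) ≠ 0 := fun k e => by
    obtain ⟨k', e'⟩ := hz.ex _ (cr.par.mem (z k)) e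
    exact (g1 k).2.1 (.inl k') (e'.trans ⟨_, g3 k, g4 k⟩)
  have z2 : ∀ k, Sm N (z k) ∧ z k ∉ Finset.univ.image p := fun k => by
    refine ⟨by_contra fun e => (g1 k).2.2 (g4 k ▸ (cr.par.isNode_iff (g3 k)).2 e), fun e => ?_⟩
    obtain ⟨n, -, e⟩ := Finset.mem_image.1 e
    exact (g1 k).2.1 (.inr n) ((cr.mark n).symm.trans (e ▸ ⟨_, g3 k, g4 k⟩))
  have fp : ∀ n, f (π (p n)) ≠ 0 := fun n => horb (cr.mark n) (hp n)
  -- the tensor
  have key : ∀ᶠ ε in 𝓝 (0 : ℂ), ∃ Ξ,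
      crv (ch := ch) (ν := ν) (fun l => Q l ε, fun n => I ε (x.p n), Ξ, x.X) = C' ε ∧
      ((fun l => Q l ε, fun n => I ε (x.p n), Ξ, x.X) : ch.W ν) ∈ ch.base ν ∧
      ∀ k w, (I ε (π (z k)), w) ∈
        gr (ch := ch) (ν := ν) (fun l => Q l ε, fun n => I ε (x.p n), Ξ, x.X) → ∀ μ,
          w none (Ξ μ) = ξ (z k) * wedge μ (I ε (π (z k)))
            (deriv (fun t => I ε (br A π (z k) t)) 0) := by
    filter_upwards [hev, hfam.isCurve (h0 ▸ hC), eventually_all.2 hQ, tw.hom,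
      eventually_all.2 fun k => off _ (cr.par.mem (z k)) (z1 k),
      eventually_all.2 fun n => off _ (cr.par.mem (p n)) (fp n)]
      with ε ⟨k1, k2, k3, k4, k5⟩ k6 k7 k8 k9 k10
    obtain ⟨Y, y1, y2⟩ := cr.par.exists_pt k2
    obtain ⟨π', p1, -, p2⟩ := cr.par.exists_par k1 k6.ne_zero y1 y2 k3 k4 k5
    obtain ⟨Ξ, u', p3⟩ := exists_base p1 k6 (ha none) k7 hl cr.sm cr.inj
      (by rw [bz_tw hv]; exact cr.xi) cr.ne
    obtain ⟨p4, p5⟩ := p3 (fun n => I ε (x.p n)) x.X fun n => by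
      obtain ⟨t, ht, e⟩ := cr.mark n
      rw [p2 _ ((cr.par.off_iff y2).1 (k10 n)), e, k8 t ht _ (cr.par.mem _)]
      exact (Orb.smul _ fun i => zpow_ne_zero _ (fp n)).trans (Orb.smul _ ht)
    refine ⟨Ξ, p4, p5.mem, fun k w hw μ => ?_⟩
    have k11 := (cr.par.off_iff y2).1 (k9 k)
    have k12 := xi_eq p5 (z2 k) hv (r := fun t => f (br A π (z k) t))
      ((Pol.an hf _).comp (an_br cr.par.sec _)) (by simpa only [br_zero] using z1 k)
      (δ := fun t => I ε (br A π (z k) t)) (w := w) ?_ (by rw [br_zero]; exact hw) μ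
    · rw [br_zero] at k12
      exact k12
    · filter_upwards [R.ev_iff.1 (eventually_all.2 fun k' => eventually_ne_nhds (k11 k'))] with t e
      refine congrArg (fun c : V ch.M => (fun i => f (br A π (z k) t) ^ v i) • c)
        (funext₂ fun i j => ?_)
      rw [cr.par.loc_hom (f := fun c => F ε c i j) (k3 i j).hom (s := fun x => π' x i j)
        (by rw [p2 _ e]), br,
        MerP.loc_off k11]
  obtain ⟨Ξ, hΞ⟩ := key.choice
  let c : ℂ → ch.W ν := fun ε => (fun l => Q l ε, fun n => I ε (x.p n), Ξ ε, x.X)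
  have hgr : gr (c 0) = gr x := congrArg (fun Q : ∀ l, Tens ch.M (ch.a l) →L[ℂ] ch.E l =>
    {z : ch.Pt | (∀ i, z.1 i ≠ 0) ∧ ∀ l μ, z.2 l (Q l μ) = val μ z.1}) (funext Q0)
  have I0 : ∀ c ∈ crv x, f c ≠ 0 → I 0 c = c := fun c hc h1 => tw.zero c hc (off0 c h1)
  have hi : ∀ e : ch.E none, (∀ k w, (I 0 (π (z k)), w) ∈ gr (c 0) → w none e = 0) → e = 0 :=
    fun e he => by
      obtain ⟨μ, rfl⟩ := hx.1 none e
      refine hx.2.1 none μ (g2 μ fun k => ?_)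
      rw [g4, val_smul, ← cr.u_Q, he k (u (z k))
        (by rw [hgr, I0 _ (cr.par.mem _) (z1 k)]; exact cr.gr _), mul_zero]
  have aΞ : AnalyticAt ℂ Ξ 0 := analyticAt_of_apply fun μ => holAt_id_iff.1 <| by
    refine holAt_E' (x := c) (y := fun k ε => I ε (π (z k))) continuousAt_id
      (fun l => holAt_id_iff.2 (aQ l)) (fun l => (hQ l).self_of_nhds.1)
      (fun k => ⟨holAt_id_iff.2 (aI _ (cr.par.mem _) (z1 k)).1, ?_⟩) hi fun k =>
        ⟨_, holAt_id_iff.2 ?_, hΞ.mono fun ε h w hw => h.2.2 k w hw μ⟩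
    · filter_upwards [hΞ, (aI _ (cr.par.mem _) (z1 k)).2] with ε k1 k2
      exact k1.1.symm ▸ k2
    · obtain ⟨Φ, k1, k2⟩ := tw.reg _ (cr.par.mem (z k)) (off0 _ (z1 k))
      have a1 : AnalyticAt ℂ (fun q : ℂ × ℂ => (q.1, br A π (z k) q.2)) (0, 0) :=
        analyticAt_fst.prod ((an_br cr.par.sec _).comp_of_eq analyticAt_snd rfl)
      have t1 := a1.continuousAt.tendsto
      simp only [br_zero] at t1
      refine analyticAt_const.mul (an_wedge analyticAt_const (aI _ (cr.par.mem _) (z1 k)).1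
        (((an_deriv_snd (k1.comp_of_eq a1 (by simp only [br_zero]))).comp_of_eq
          (analyticAt_id.prod analyticAt_const) rfl).congr ?_))
      filter_upwards [(t1.eventually k2).curry_nhds] with ε k3
      exact EventuallyEq.deriv_eq (k3.mono fun t k4 => (k4 (cr.par.br_mem _ _)).1.symm)
  have Ξ0 : Ξ 0 = x.Ξ := ContinuousLinearMap.ext fun μ => sub_eq_zero.1 <| hi _ fun k w hw => by
    have k1 := xi_eq cr (z2 k) hv (r := fun _ => 1) analyticAt_const one_ne_zero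
      (δ := fun t => I 0 (br A π (z k) t)) (w := w) ?_ (by rw [br_zero, ← hgr]; exact hw) μ
    · rw [map_sub, hΞ.self_of_nhds.2.2 k w hw μ, k1, br_zero, sub_self]
    · filter_upwards [((Pol.an hf _).comp (an_br cr.par.sec (z k))).continuousAt.eventually_ne
        (by simpa only [comp_apply, br_zero] using z1 k)] with t e
      rw [I0 _ (cr.par.br_mem _ _) e]
      simp only [one_zpow]
      exact (one_smul (ι → ℂ) _).symm
  refine ⟨c, I, ⟨(AnalyticAt.pi aQ).prod ((AnalyticAt.pi fun n =>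
    (aI _ (hx.2.2.2.1 n).1 (hp n)).1).prod (aΞ.prod analyticAt_const)), Prod.ext (funext Q0)
      (Prod.ext (funext fun n => I0 _ (hx.2.2.2.1 n).1 (hp n)) (Prod.ext Ξ0 rfl)),
    hΞ.mono fun ε h => h.2.1⟩, tw_congr tw (hΞ.mono fun ε h => h.1),
    .of_forall fun ε => ⟨rfl, fun n => rfl⟩⟩

theorem hasTw {l : Option J} (hl : ∀ i, 4 ≤ ch.a l i) (ha : ∀ l, ch.a l ≠ 0) (x : ch.base ν)
    {σ : ν → ch.W ν × ℂ → V ch.M} (hσ : ∀ᶠ y : ch.base ν in 𝓝 x, ctr σ y.1 = y.1.p) {v : ι → ℤ}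
    (hv : dgz v ch.χ = 0) : HasTw ch.o (fun y : ch.base ν => crv y.1) Subtype.val x σ v := by
  classical
  intro b f n γ y hf hz hs hγ hp
  have e0 : ∀ k, σ k (x.1, 0) = x.1.p k := congrFun hσ.self_of_nhds
  obtain ⟨c, I, h1, h2, h3⟩ := exists_tw_arc hl ha x.2 hv hf hz hs hγ (fun k => e0 k ▸ hp k) y
  let c' : ℂ → ch.base ν := fun ε => if h : c ε ∈ ch.base ν then ⟨c ε, h⟩ else x
  have h4 : ∀ᶠ ε in 𝓝 (0 : ℂ), c ε = (c' ε).1 := h1.mem.mono fun ε h => by simp only [c', dif_pos h]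
  have h5 : c' 0 = x := Subtype.ext (h4.self_of_nhds.symm.trans h1.zero)
  have h6 : ContinuousAt c' 0 :=
    IsInducing.subtypeVal.continuousAt_iff.2 (h1.an.continuousAt.congr h4)
  refine ⟨c', I, h5, h6, h1.an.congr h4, tw_congr h2 (h4.mono fun ε h => by rw [h]), fun k => ?_⟩
  filter_upwards [h3, h4, h6.eventually (h5 ▸ hσ)] with ε k1 k2 k3
  rw [e0, ← k1.2 k, k2, show σ k ((c' ε).1, 0) = (c' ε).1.p k from congrFun k3 k]
  exact .refl _

end Vale.Agent.P269.Ch
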