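import Vale.Agent.P269.Base.Along

/-!
# The Poincaré residue vector field of a complete intersection
-/

namespace Vale.Agent.P269.Base

open Set Function Topology Filter Holo Module

set_option linter.unusedSectionVars false

variable {ι : Type} [Fintype ι] [DecidableEq ι] {M : ι → ℕ} {o : ι} {a w : ι → ℕ} {β : Type}
  [Fintype β]

namespace XiP

section lin

variable {F : Type*} [NormedAddCommGroup F] [NormedSpace ℂ F] [FiniteDimensional ℂ F]

theorem det_one_add {N : F →L[ℂ] F} (h : ∀ v, N (N v) = 0) :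
    LinearMap.det ((1 + N : F →L[ℂ] F) : F →ₗ[ℂ] F) = 1 := by
  have h1 : IsNilpotent (-(N : F →ₗ[ℂ] F)) :=
    IsNilpotent.neg ⟨2, LinearMap.ext fun v => by simpa [pow_two] using h v⟩
  have h2 := LinearMap.eval_charpoly (-(N : F →ₗ[ℂ] F)) 1
  rw [h1.charpoly_eq_X_pow_finrank] at h2
  simpa using h2.symm

theorem mem_span_one {κ : Type} [Fintype κ] (h : Fintype.card κ + 1 = finrank ℂ F)
    {g : κ → F →L[ℂ] ℂ} (hi : LinearIndependent ℂ g) {b v : F} (hb : b ≠ 0) (h0 : ∀ k, g k b = 0)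
    (hv : ∀ k, g k v = 0) : ∃ α : ℂ, α • b = v := by
  let W : Subspace ℂ (Dual ℂ F) := Submodule.span ℂ (range fun k => (g k : F →ₗ[ℂ] ℂ))
  have hW : ∀ v, (∀ k, g k v = 0) → v ∈ W.dualCoannihilator := fun v hv =>
    (Submodule.mem_dualCoannihilator v).2 fun φ hφ =>
      (Submodule.span_le (p := LinearMap.ker (Dual.eval ℂ F v))).2
        (by rintro _ ⟨k, rfl⟩; exact hv k) hφ
  have h1 := Subspace.finrank_add_finrank_dualCoannihilator_eq W
  rw [finrank_span_eq_card ((li_coe_iff _).2 hi)] at h1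
  obtain ⟨α, hα⟩ := (finrank_eq_one_iff_of_nonzero' (⟨b, hW b h0⟩ : W.dualCoannihilator)
    fun e => hb (congrArg Subtype.val e)).1 (add_left_cancel (h1.trans h.symm)) ⟨v, hW v hv⟩
  exact ⟨α, congrArg Subtype.val hα⟩

end lin

/-- Linear forms on the factors. -/
abbrev Lf (M : ι → ℕ) : Type := ∀ i, (Fin (M i) → ℂ) →L[ℂ] ℂ

/-- The covectors. -/
noncomputable def cov (ζ : Lf M) (η : Option β → V M →L[ℂ] ℂ) : ι ⊕ Option β → V M →L[ℂ] ℂ :=
  Sum.elim (fun i => (ζ i).comp (ContinuousLinearMap.proj i)) η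

/-- The differentials of the equations. -/
noncomputable def dF (y : (β → Tens M a) × Tens M a) (c : V M) : Option β → V M →L[ℂ] ℂ :=
  fun l => fderiv ℂ (val (l.elim y.2 y.1)) c

/-- The projection along the torus directions. -/
noncomputable def pr (ζ : Lf M) (c v : V M) : V M := v - (fun i => ζ i (v i) / ζ i (c i)) • c

variable {ζ ζ' : Lf M} {η : Option β → V M →L[ℂ] ℂ} {c : V M} {f : β → Tens M a} {μ : Tens M a}

@[simp] theorem cov_inl (i : ι) (v : V M) : cov ζ η (.inl i) v = ζ i (v i) := rfl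

@[simp] theorem cov_inr (l : Option β) : cov ζ η (.inr l) = η l := rfl

theorem tor (h : val μ c = 0) (s : ι → ℂ) : fderiv ℂ (val μ) c (s • c) = 0 := by
  rw [Pol.euler (val_mem μ), h, mul_zero]

theorem dF_tor (h1 : vals f c = 0) (h2 : val μ c = 0) (l : Option β) (s : ι → ℂ) :
    dF (f, μ) c l (s • c) = 0 := by
  cases l with
  | none => exact tor h2 s
  | some l => exact tor (congrFun h1 l) s

theorem lf_pr (h : ∀ i, ζ i (c i) ≠ 0) (v : V M) (i : ι) : ζ i (pr ζ c v i) = 0 := by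
  simp [pr, h i]

theorem map_pr {x : V M →L[ℂ] ℂ} (h : ∀ s : ι → ℂ, x (s • c) = 0) (v : V M) :
    x (pr ζ c v) = x v := by
  rw [pr, map_sub, h, sub_zero]

section an

variable {P : Type*} [NormedAddCommGroup P] [NormedSpace ℂ P] {p : P}

theorem an_lf {c : P → V M} (hc : AnalyticAt ℂ c p) (i : ι) :
    AnalyticAt ℂ (fun q => ζ i (c q i)) p :=
  ((ζ i).analyticAt _).comp (analyticAt_pi_iff.1 hc i)

theorem an_cov {y : P → (β → Tens M a) × Tens M a} {c : P → V M} (hy : AnalyticAt ℂ y p)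
    (hc : AnalyticAt ℂ c p) : AnalyticAt ℂ (fun q => cov ζ (dF (y q) (c q))) p := by
  refine AnalyticAt.pi fun k => ?_
  rcases k with i | l
  · exact analyticAt_const
  · refine analyticAt_of_apply fun v => ?_
    simp only [cov_inr, dF, ← dvL_apply, dvL]
    refine an_apply (an_apply ((analyticAt_evL (a := a) (c p)).fderiv.comp hc) analyticAt_const) ?_
    cases l with
    | none => exact analyticAt_snd.comp hy
    | some l => exact analyticAt_pi_iff.1 (analyticAt_fst.comp hy) l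

theorem an_pr {c v : P → V M} (hc : AnalyticAt ℂ c p) (hv : AnalyticAt ℂ v p)
    (h : ∀ i, ζ i (c p i) ≠ 0) : AnalyticAt ℂ (fun q => pr ζ (c q) (v q)) p :=
  hv.sub (an_smul (AnalyticAt.pi fun i => (an_lf hv i).div (an_lf hc i) (h i)) hc)

theorem an_inv {c : P → V M} (hc : AnalyticAt ℂ c p) (h : ∀ i, ζ i (c p i) ≠ 0) :
    AnalyticAt ℂ (fun q => (∏ i, ζ i (c q i))⁻¹) p :=
  (Finset.analyticAt_fun_prod _ fun i _ => an_lf hc i).inv
    (Finset.prod_ne_zero_iff.2 fun i _ => h i)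

theorem ev_lf {c : P → V M} (hc : AnalyticAt ℂ c p) (h : ∀ i, ζ i (c p i) ≠ 0) :
    ∀ᶠ q in 𝓝 p, ∀ i, ζ i (c q i) ≠ 0 :=
  eventually_all.2 fun i => (an_lf hc i).continuousAt.eventually_ne (h i)

end an

theorem li_cov {κ : Type} {e : κ → ι ⊕ Option β} (he : Injective e) (hζ : ∀ i, ζ i (c i) = 1)
    (hη : ∀ l, .inr l ∈ range e → ∀ s : ι → ℂ, η l (s • c) = 0) (v : Option β → V M)
    (h1 : ∀ l, .inr l ∈ range e → η l (v l) = 1)
    (h0 : ∀ l l', .inr l ∈ range e → .inr l' ∈ range e → l ≠ l' → η l (v l') = 0) :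
    LinearIndependent ℂ fun k => cov ζ η (e k) := by
  refine LinearIndependent.of_pairwise_dual_eq_zero_one _ (fun k =>
    (ContinuousLinearMap.apply ℂ ℂ (Sum.elim (fun i => (Pi.single i 1 : ι → ℂ) • c)
      (fun l => pr ζ c (v l)) (e k))).toLinearMap) (fun k k' hk => ?_) fun k => ?_
  · have hne := he.ne hk
    show cov ζ η (e k') (Sum.elim _ _ (e k)) = 0
    rcases h : e k with i | l <;> rcases h' : e k' with i' | l' <;> rw [h, h'] at hne
    · have : i' ≠ i := fun e => hne (by rw [e])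
      simp [this]
    · exact hη l' ⟨k', h'⟩ _
    · exact lf_pr (fun i => by rw [hζ]; exact one_ne_zero) _ _
    · exact (map_pr (hη l' ⟨k', h'⟩) _).trans
        (h0 l' l ⟨k', h'⟩ ⟨k, h⟩ fun e => hne (by rw [e]))
  · show cov ζ η (e k) (Sum.elim _ _ (e k)) = 1
    rcases h : e k with i | l
    · simp [hζ]
    · exact (map_pr (hη l ⟨k, h⟩) _).trans (h1 l ⟨k, h⟩)

variable [DecidableEq β] {ν : (ι ⊕ Option β → V M →L[ℂ] ℂ) → V M}

theorem cov_smul (hν : IsCrs ν) (s : ι → ℂ) (r : ℂ) : ν (cov (fun i => s i • ζ i) fun l => r • η l) =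
    ((∏ i, s i) * r ^ (Fintype.card β + 1)) • ν (cov ζ η) := by
  have h := hν.smul (cov ζ η) (Sum.elim s fun _ => r)
  simp only [Fintype.prod_sum_type, Sum.elim_inl, Sum.elim_inr, Finset.prod_const,
    Finset.card_univ, Fintype.card_option] at h
  rw [← h]
  congr 1
  funext k
  rcases k with i | l <;> rfl

/-- Independence of the choice of the linear forms on the factors. -/
theorem key (hν : IsCrs ν) (hη : ∀ l (s : ι → ℂ), η l (s • c) = 0) (h' : ∀ i, ζ' i (c i) = 1)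
    (h : ∀ i, ζ i (c i) ≠ 0) :
    ∃ α : ι → ℂ, ν (cov ζ' η) = α • c + (∏ i, ζ i (c i))⁻¹ • ν (cov ζ η) := by
  have h1 := cov_smul (ζ := ζ) (η := η) hν (fun i => (ζ i (c i))⁻¹) 1
  simp only [one_smul, one_pow, mul_one, Finset.prod_inv_distrib] at h1
  let N : V M →L[ℂ] V M := ContinuousLinearMap.pi fun i =>
    ((ζ' i - (ζ i (c i))⁻¹ • ζ i).comp (ContinuousLinearMap.proj i)).smulRight (c i)
  have hN : ∀ v, N v = (fun i => ζ' i (v i) - (ζ i (c i))⁻¹ * ζ i (v i)) • c := fun v => rfl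
  have h2 := hν.comp (cov (fun i => (ζ i (c i))⁻¹ • ζ i) η) (1 + N)
  have h3 : (fun k => (cov (fun i => (ζ i (c i))⁻¹ • ζ i) η k).comp (1 + N)) = cov ζ' η := by
    funext k
    ext1 v
    rcases k with i | l
    · have := h i
      simp only [ContinuousLinearMap.comp_apply, cov_inl, add_apply, one_apply_eq_self, hN,
        Pi.smul_apply', map_add, map_smul, smul_apply, smul_eq_mul]
      field_simp
      ring
    · simp only [ContinuousLinearMap.comp_apply, cov_inr, add_apply, one_apply_eq_self, hN,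
        map_add, hη, add_zero]
  rw [h3, det_one_add fun v => ?_, one_smul, h1, add_apply, one_apply_eq_self, hN] at h2
  · exact ⟨-_, by rw [← h2, neg_smul, add_comm (ν _), neg_add_cancel_left]⟩
  · funext i
    have := h i
    simp only [hN, Pi.smul_apply', map_smul, h', smul_eq_mul, Pi.zero_apply]
    refine smul_eq_zero_of_left ?_ _
    field_simp
    ring

theorem dF_smul (y : (β → Tens M a) × Tens M a) (s : ι → ℂ) (l : Option β) :
    (dF y (s • c) l).comp (torL s) = chr a s • dF y c l := by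
  have h1 := ((analyticAt_val (l.elim y.2 y.1) (torL s c)).differentiableAt.hasFDerivAt.comp c
    (torL (M := M) s).hasFDerivAt).fderiv
  have h2 : val (l.elim y.2 y.1) ∘ torL s = chr a s • val (l.elim y.2 y.1) :=
    funext fun v => val_smul _ s v
  rw [h2, fderiv_const_smul (analyticAt_val _ c).differentiableAt] at h1
  exact h1.symm

theorem hom (hν : IsCrs ν) (hw : ∀ i, w i + M i = (Fintype.card β + 1) * a i) (h1 : vals f c = 0)
    (h2 : val μ c = 0) {s : ι → ℂ} (hs : ∀ i, s i ≠ 0) (h : ∀ i, ζ i (c i) = 1)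
    (h' : ∀ i, ζ' i ((s • c) i) = 1) : ∃ α : ι → ℂ, ν (cov ζ' (dF (f, μ) (s • c))) =
      α • c + chr w s • s • ν (cov ζ (dF (f, μ) c)) := by
  have e1 := hν.comp (cov ζ' (dF (f, μ) (s • c))) (torL s)
  have e2 : (fun k => (cov ζ' (dF (f, μ) (s • c)) k).comp (torL s)) =
      cov (fun i => (1 : ℂ) • s i • ζ' i) fun l => chr a s • dF (f, μ) c l := by
    funext k
    rcases k with i | l
    · ext1 v
      simp
    · exact dF_smul _ s l
  obtain ⟨α, e3⟩ := key (ζ := ζ) (ζ' := fun i => s i • ζ' i) hν (dF_tor h1 h2)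
    (fun i => by simpa using h' i) fun i => by rw [h]; exact one_ne_zero
  have e4 : chr a s ^ (Fintype.card β + 1) = chr M s * chr w s := by
    rw [← chr_add, chr, chr, ← Finset.prod_pow]
    exact Finset.prod_congr rfl fun i _ => by rw [← pow_mul, mul_comm, ← hw, add_comm]; rfl
  simp only [h, Finset.prod_const_one, inv_one, one_smul] at e3
  rw [e2, cov_smul hν, e3, det_torus, Finset.prod_const_one, one_mul, e4, map_smul, mul_smul,
    torL_apply] at e1
  refine ⟨chr w s • (s * α), ?_⟩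
  rw [← smul_right_injective _ (chr_ne_zero (a := M) hs) e1, smul_add, smul_add, smul_assoc,
    mul_smul]

/-- `ξ` is the cross product of the differentials modulo the torus directions. -/
def Rep (ν : (ι ⊕ Option β → V M →L[ℂ] ℂ) → V M) (f : β → Tens M a) (μ : Tens M a)
    (ξ : V M → V M) : Prop :=
  ∀ (ζ : Lf M) c, (∀ i, ζ i (c i) ≠ 0) → vals f c = 0 → val μ c = 0 →
    ∃ α : ι → ℂ, ξ c = α • c + (∏ i, ζ i (c i))⁻¹ • ν (cov ζ (dF (f, μ) c))

variable {ξ : V M → V M}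

theorem exists_dual (h : Surjective (fderiv ℂ (vals f) c)) :
    ∃ v : β → V M, ∀ l l', fderiv ℂ (val (f l)) c (v l') = if l = l' then 1 else 0 := by
  choose v hv using fun l => h (Pi.single l 1)
  exact ⟨v, fun l l' => by rw [← fderiv_vals, hv, Pi.single_apply]⟩

/-- The vector field in a chart of the surface. -/
theorem nf (hν : IsCrs ν) (hd : Fintype.card (ι ⊕ Option β) + 1 = finrank ℂ (V M))
    (hξ : Rep ν f μ ξ) {σ : ℂ × ℂ → V M} (h : NF o f μ σ) (hne : ∀ i, σ 0 i ≠ 0)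
    (hs : Surjective (fderiv ℂ (vals f) (σ 0))) : ∃ ϱ : ℂ × ℂ → ℂ, AnalyticAt ℂ ϱ 0 ∧ ϱ 0 ≠ 0 ∧
      ∀ᶠ z in 𝓝 0, z.1 * z.2 = 0 → ∃ α : ι → ℂ, ξ (σ z) = α • σ z +
        ϱ z • (z.1 • fderiv ℂ σ z (1, 0) - z.2 • fderiv ℂ σ z (0, 1)) := by
  obtain ⟨ζ, hζ⟩ := exists_lin_one hne
  have hζ' : ∀ i, ζ i (σ 0 i) ≠ 0 := fun i => by rw [hζ]; exact one_ne_zero
  obtain ⟨v, hv⟩ := exists_dual hs
  have hb : ∀ e : ℂ × ℂ, AnalyticAt ℂ (fun z => pr ζ (σ z) (fderiv ℂ σ z e)) 0 := fun e =>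
    an_pr h.an (an_apply h.an.fderiv analyticAt_const) hζ'
  have hk : ∀ᶠ z in 𝓝 0, ∀ e : ℂ × ℂ, ∀ k ≠ .inr none,
      cov ζ (dF (f, μ) (σ z)) k (pr ζ (σ z) (fderiv ℂ σ z e)) = 0 := by
    filter_upwards [ev_lf h.an hζ', h.zero.eventually_nhds, h.an.eventually_analyticAt]
      with z h1 h2 h3 e k hk
    rcases k with i | _ | l
    · exact lf_pr h1 _ i
    · exact absurd rfl hk
    · have h4 : (fun z => val (f l) (σ z)) =ᶠ[𝓝 z] fun _ => 0 := h2.mono fun z hz => congrFun hz l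
      refine (map_pr (tor h4.self_of_nhds) _).trans ?_
      have := fderiv_comp_an (analyticAt_val (f l) (σ z)) h3
      rw [h4.fderiv_eq] at this
      simpa using (congrArg (fun L : ℂ × ℂ →L[ℂ] ℂ => L e) this).symm
  obtain ⟨ϱ, r1, r2, r3⟩ := hν.two hd (g := fun z => cov ζ (dF (f, μ) (σ z))) (.inr none)
    (an_cov analyticAt_const h.an) (hb (1, 0)) (hb (0, 1))
    (LinearIndependent.pair_iff.2 fun s t hst => by
      have := h.imm (s, t) (s * (ζ o (fderiv ℂ σ 0 (1, 0) o) / ζ o (σ 0 o)) +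
        t * (ζ o (fderiv ℂ σ 0 (0, 1) o) / ζ o (σ 0 o))) (by
          have h1 := congrFun hst o
          have h2 : ((s, t) : ℂ × ℂ) = s • (1, 0) + t • (0, 1) := by simp
          simp only [pr, Pi.add_apply, Pi.smul_apply, Pi.sub_apply, Pi.smul_apply',
            Pi.zero_apply] at h1
          rw [h2, map_add, map_smul, map_smul, Pi.add_apply, Pi.smul_apply, Pi.smul_apply]
          linear_combination (norm := module) h1)
      exact Prod.ext_iff.1 this)
    (li_cov Subtype.val_injective hζ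
      (fun l hl s => by
        obtain ⟨⟨k, hk⟩, rfl⟩ := hl
        cases l with
        | none => exact absurd rfl hk
        | some l => exact tor (congrFun h.zero.self_of_nhds l) s)
      (fun l => l.elim 0 v)
      (fun l hl => by
        obtain ⟨⟨k, hk⟩, rfl⟩ := hl
        cases l with
        | none => exact absurd rfl hk
        | some l => exact (hv l l).trans (if_pos rfl))
      fun l l' hl hl' hne => by
        obtain ⟨⟨k, hk⟩, rfl⟩ := hl
        obtain ⟨⟨k', hk'⟩, rfl⟩ := hl'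
        rcases l with _ | l
        · exact absurd rfl hk
        rcases l' with _ | l'
        · exact absurd rfl hk'
        exact (hv l l').trans (if_neg fun e => hne (by rw [e])))
    fun k hk' => ⟨hk.self_of_nhds _ k hk', hk.self_of_nhds _ k hk'⟩
  refine ⟨fun z => (∏ i, ζ i (σ z i))⁻¹ * ϱ z, (an_inv h.an hζ').mul r1,
    mul_ne_zero (inv_ne_zero (Finset.prod_ne_zero_iff.2 fun i _ => hζ' i)) r2, ?_⟩
  filter_upwards [r3, hk, ev_lf h.an hζ', h.zero, h.eq.eventually_nhds,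
    h.an.eventually_analyticAt] with z h1 h2 h3 h4 h5 h6 hz
  have h7 : val μ (σ z) = 0 := h5.self_of_nhds.trans hz
  have h8 : ∀ e : ℂ × ℂ, cov ζ (dF (f, μ) (σ z)) (.inr none) (pr ζ (σ z) (fderiv ℂ σ z e)) =
      z.1 * e.2 + z.2 * e.1 := fun e => by
    refine (map_pr (tor h7) _).trans ?_
    have := fderiv_comp_an (analyticAt_val μ (σ z)) h6
    rw [EventuallyEq.fderiv_eq (f := fun z : ℂ × ℂ => z.1 * z.2) h5,
      (hasFDerivAt_fst.fun_mul hasFDerivAt_snd).fderiv] at this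
    simpa using (congrArg (fun L : ℂ × ℂ →L[ℂ] ℂ => L e) this).symm
  obtain ⟨α, e1⟩ := hξ ζ _ h3 h4 h7
  rw [h1 fun k hk => ⟨h2 _ k hk, h2 _ k hk⟩, h8, h8] at e1
  refine ⟨α + ((∏ i, ζ i (σ z i))⁻¹ * ϱ z) •
    (z.2 • (fun i => ζ i (fderiv ℂ σ z (0, 1) i) / ζ i (σ z i)) -
      z.1 • fun i => ζ i (fderiv ℂ σ z (1, 0) i) / ζ i (σ z i)), ?_⟩
  rw [e1]
  simp only [pr, add_smul, sub_smul, smul_assoc]
  module

theorem nf_along (hν : IsCrs ν) (hd : Fintype.card (ι ⊕ Option β) + 1 = finrank ℂ (V M))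
    (hξ : Rep ν f μ ξ) {σ : ℂ × ℂ → V M} (h : NF o f μ σ) (hne : ∀ i, σ 0 i ≠ 0)
    (hs : Surjective (fderiv ℂ (vals f) (σ 0))) : ∃ u : Bool → ℂ → ℂ,
      (∀ b, AnalyticAt ℂ (u b) 0 ∧ u b 0 ≠ 0) ∧ u true 0 = -u false 0 ∧
      ∀ b : Bool, Along ξ (fun t => σ (if b then (t, 0) else (0, t))) fun t => t * u b t := by
  obtain ⟨ϱ, r1, r2, r3⟩ := nf hν hd hξ h hne hs
  have a1 : AnalyticAt ℂ (fun t : ℂ => ϱ (t, 0)) 0 :=
    r1.comp_of_eq (analyticAt_id.prod analyticAt_const) rfl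
  have a2 : AnalyticAt ℂ (fun t : ℂ => -ϱ (0, t)) 0 :=
    (r1.comp_of_eq (analyticAt_const.prod analyticAt_id) rfl).neg
  have t1 : Tendsto (fun t : ℂ => (t, (0 : ℂ))) (𝓝 0) (𝓝 0) :=
    Continuous.tendsto' (by fun_prop) _ _ rfl
  have t2 : Tendsto (fun t : ℂ => ((0 : ℂ), t)) (𝓝 0) (𝓝 0) :=
    Continuous.tendsto' (by fun_prop) _ _ rfl
  refine ⟨fun b => bif b then fun t => ϱ (t, 0) else fun t => -ϱ (0, t), fun b => ?_,
    (neg_neg _).symm, fun b => ?_⟩ <;> cases b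
  · exact ⟨a2, neg_ne_zero.2 r2⟩
  · exact ⟨a1, r2⟩
  · refine ⟨analyticAt_id.mul a2, ?_⟩
    filter_upwards [t2.eventually r3, t2.eventually h.an.eventually_analyticAt] with t h1 h2
    obtain ⟨α, h3⟩ := h1 (zero_mul _)
    have h4 := (h2.differentiableAt.hasFDerivAt.comp_hasDerivAt t
      ((hasDerivAt_const t (0 : ℂ)).prodMk (hasDerivAt_id t))).deriv
    refine ⟨α, h3.trans ?_⟩
    rw [show deriv (fun t => σ (if false then (t, 0) else (0, t))) t = _ from h4]
    simp only [Bool.false_eq_true, if_false, cond_false]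
    module
  · refine ⟨analyticAt_id.mul a1, ?_⟩
    filter_upwards [t1.eventually r3, t1.eventually h.an.eventually_analyticAt] with t h1 h2
    obtain ⟨α, h3⟩ := h1 (mul_zero _)
    have h4 := (h2.differentiableAt.hasFDerivAt.comp_hasDerivAt t
      ((hasDerivAt_id t).prodMk (hasDerivAt_const t (0 : ℂ)))).deriv
    refine ⟨α, h3.trans ?_⟩
    rw [show deriv (fun t => σ (if true then (t, 0) else (0, t))) t = _ from h4]
    simp only [if_true, cond_true]
    module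

/-- The vector field at a regular point of the complete intersection. -/
theorem reg (hν : IsCrs ν) (hd : Fintype.card (ι ⊕ Option β) + 1 = finrank ℂ (V M))
    (hξ : Rep ν f μ ξ) {C : Set (V M)} (hC : ∀ c ∈ C, vals f c = 0 ∧ val μ c = 0) {γ : ℂ → V M}
    (h : IsBranch o C γ) (hne : ∀ i, γ 0 i ≠ 0) (hs : Surjective (fderiv ℂ (vals f) (γ 0)))
    {x : V M} (x1 : fderiv ℂ (vals f) (γ 0) x = 0) (x2 : fderiv ℂ (val μ) (γ 0) x ≠ 0) :
    ∃ u, u 0 ≠ 0 ∧ Along ξ γ u := by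
  obtain ⟨ζ, hζ⟩ := exists_lin_one hne
  have hζ' : ∀ i, ζ i (γ 0 i) ≠ 0 := fun i => by rw [hζ]; exact one_ne_zero
  obtain ⟨v, hv⟩ := exists_dual hs
  have x3 : ∀ l, fderiv ℂ (val (f l)) (γ 0) x = 0 := fun l => by rw [← fderiv_vals, x1]; rfl
  have z0 := hC _ h.mem.self_of_nhds
  have hi : LinearIndependent ℂ (cov ζ (dF (f, μ) (γ 0))) :=
    li_cov (e := id) injective_id hζ (fun l _ => dF_tor z0.1 z0.2 l)
      (fun l => l.elim ((fderiv ℂ (val μ) (γ 0) x)⁻¹ • x) fun l =>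
        v l - (fderiv ℂ (val μ) (γ 0) (v l) / fderiv ℂ (val μ) (γ 0) x) • x)
      (fun l _ => by cases l <;> simp [dF, x2, x3, hv])
      fun l l' _ _ hne => by
        rcases l with _ | l <;> rcases l' with _ | l'
        · exact absurd rfl hne
        · simp [dF, x2]
        · simp [dF, x3]
        · simpa [dF, x3, hv] using hne
  have ag : AnalyticAt ℂ (fun t => cov ζ (dF (f, μ) (γ t))) 0 := an_cov analyticAt_const h.holo
  have ab : AnalyticAt ℂ (fun t => pr ζ (γ t) (deriv γ t)) 0 := an_pr h.holo h.holo.deriv hζ'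
  have b0 : pr ζ (γ 0) (deriv γ 0) ≠ 0 := fun e => one_ne_zero
    (of_li_pair h.imm (e := 1) (by rw [one_smul]; exact sub_eq_zero.1 (congrFun e o)))
  obtain ⟨l, hl⟩ := SeparatingDual.exists_eq_one (R := ℂ) b0
  have al : AnalyticAt ℂ (fun t => l (pr ζ (γ t) (deriv γ t))) 0 := (l.analyticAt _).comp ab
  have hm : ∀ᶠ t in 𝓝 0, ν (cov ζ (dF (f, μ) (γ t))) =
      (l (ν (cov ζ (dF (f, μ) (γ t)))) / l (pr ζ (γ t) (deriv γ t))) •
        pr ζ (γ t) (deriv γ t) := by
    filter_upwards [ag.continuousAt.eventually hi.eventually, ev_lf h.holo hζ',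
      al.continuousAt.eventually_ne (hl.trans_ne one_ne_zero), h.mem.eventually_nhds,
      h.holo.eventually_analyticAt] with t h1 h2 h3 h4 h5
    have h6 : ∀ k, cov ζ (dF (f, μ) (γ t)) k (pr ζ (γ t) (deriv γ t)) = 0 := fun k => by
      have z := hC _ h4.self_of_nhds
      rcases k with i | k
      · exact lf_pr h2 _ i
      · refine (map_pr (dF_tor z.1 z.2 k) _).trans ?_
        rw [dF, ← deriv_comp_an (analyticAt_val _ _) h5, EventuallyEq.deriv_eq (f := fun _ => 0)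
          (h4.mono fun s hs => ?_), deriv_const]
        cases k with
        | none => exact (hC _ hs).2
        | some k => exact congrFun (hC _ hs).1 k
    obtain ⟨α, e⟩ := mem_span_one hd h1 (fun e => h3 ((congrArg l e).trans (map_zero l))) h6
      (hν.ker _)
    rw [← e, map_smul, smul_eq_mul, mul_div_cancel_right₀ _ h3]
  refine ⟨fun t => (∏ i, ζ i (γ t i))⁻¹ *
    (l (ν (cov ζ (dF (f, μ) (γ t)))) / l (pr ζ (γ t) (deriv γ t))), mul_ne_zero
      (inv_ne_zero (Finset.prod_ne_zero_iff.2 fun i _ => hζ' i)) fun e => (hν.ne _).2 hi ?_,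
    (an_inv h.holo hζ').mul (((l.analyticAt _).comp ((hν.an _).comp ag)).div al
      (hl.trans_ne one_ne_zero)), ?_⟩
  · rw [hm.self_of_nhds, e, zero_smul]
  · filter_upwards [hm, ev_lf h.holo hζ', h.mem] with t h1 h2 h3
    obtain ⟨α, e⟩ := hξ ζ _ h2 (hC _ h3).1 (hC _ h3).2
    generalize l (ν (cov ζ (dF (f, μ) (γ t)))) / l (pr ζ (γ t) (deriv γ t)) = r at h1 ⊢
    refine ⟨α - ((∏ i, ζ i (γ t i))⁻¹ * r) • fun i => ζ i (deriv γ t i) / ζ i (γ t i), ?_⟩
    rw [e, h1]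
    simp only [pr, sub_smul, smul_assoc]
    module

theorem vf (hν : IsCrs ν) (hd : Fintype.card (ι ⊕ Option β) + 1 = finrank ℂ (V M))
    (hξ : Rep ν f μ ξ) {κ : Type} {C : Set (V M)} {q : κ → V M} (hC : Nod o C) (h : CI o C f μ q)
    (hom : ∀ c ∈ C, ∀ s : ι → ℂ, (∀ i, s i ≠ 0) →
      ∃ α : ι → ℂ, ξ (s • c) = α • c + chr w s • s • ξ c) : VF o C w ξ q := by
  refine VF.of_loc hC hom (fun j => ?_) h.inj fun c hc => ?_
  · obtain ⟨σ, -, h1⟩ := h.res j
    exact ⟨h1.mem, fun e => h1.isNode_iff.1 e rfl⟩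
  by_cases hn : IsNode o C c
  · obtain ⟨σ, h1, h2, h3⟩ := h.nd c hn
    obtain ⟨u, u1, u2, u3⟩ := nf_along hν hd hξ h1 h3.ne (h.surj _ h3.mem)
    exact ⟨_, _, h2, h3, u, u1, fun e => absurd (hC.isNode_orb hn h2.symm) e, fun _ => u3,
      fun _ => u2⟩
  by_cases hq : ∃ j, Orb (q j) c
  · obtain ⟨j, hj⟩ := hq
    obtain ⟨σ, h1, h3⟩ := h.res j
    have e : σ 0 = q j := h3.zero true
    obtain ⟨u, u1, -, u3⟩ := nf_along hν hd hξ h1 (e ▸ h3.ne) (e ▸ h.surj _ h3.mem)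
    exact ⟨_, _, hj, h3, fun _ => u true, fun _ => u1 true, fun _ e => absurd (Orb.refl _) (e j),
      fun _ _ => u3 true, fun e => absurd rfl e⟩
  · obtain ⟨γ, hγ⟩ := hC.exists_loc hc
    obtain ⟨x, x1, x2⟩ := h.reg c hc hn fun j e => hq ⟨j, e⟩
    choose u u1 u2 using fun b => reg hν hd hξ h.van (hγ.br b) ((hγ.zero b).symm ▸ hγ.ne)
      ((hγ.zero b).symm ▸ h.surj c hc) (x := x) ((hγ.zero b).symm ▸ x1) ((hγ.zero b).symm ▸ x2)
    exact ⟨_, _, Orb.refl c, hγ, u, fun b => ⟨(u2 b).an, u1 b⟩, fun _ _ => u2,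
      fun e => absurd e (not_or.2 ⟨hn, hq⟩), fun e => absurd (hγ.isNode_iff.2 e) hn⟩

end XiP

open XiP in
theorem exists_xi (β : Type) [Fintype β] (hw : ∀ i, w i + M i = (Fintype.card β + 1) * a i) :
    ∃ ξ : (β → Tens M a) × Tens M a → V M → V M,
      (∀ (κ : Type) (C : Set (V M)) f μ (q : κ → V M), Nod o C → CI o C f μ q →
        VF o C w (ξ (f, μ)) q) ∧
      ∀ y c, (∀ i, c i ≠ 0) → ∃ ξ' : ((β → Tens M a) × Tens M a) × V M → V M,
        AnalyticAt ℂ ξ' (y, c) ∧ ∀ᶠ r in 𝓝 (y, c), vals r.1.1 r.2 = 0 → val r.1.2 r.2 = 0 →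
          ∃ α : ι → ℂ, ξ r.1 r.2 = α • r.2 + ξ' r := by
  classical
  by_cases hc : Fintype.card β + Fintype.card ι + 2 = ∑ i, M i
  swap
  · exact ⟨0, fun _ _ _ _ _ _ h => absurd h.card hc, fun y c _ =>
      ⟨0, analyticAt_const, .of_forall fun r _ _ => ⟨0, by simp⟩⟩⟩
  have hd : Fintype.card (ι ⊕ Option β) + 1 = finrank ℂ (V M) := by
    rw [finrank_pi_fintype]
    simp only [Fintype.card_sum, Fintype.card_option, finrank_fin_fun]
    omega
  obtain ⟨ν, hν⟩ := exists_isCrs hd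
  choose ζ hζ using fun c : V M => show ∃ ζ : Lf M, (∀ i, c i ≠ 0) → ∀ i, ζ i (c i) = 1 by
    by_cases h : ∀ i, c i ≠ 0
    · exact (exists_lin_one h).imp fun _ h _ => h
    · exact ⟨0, fun h' => absurd h' h⟩
  have rep : ∀ y : (β → Tens M a) × Tens M a, Rep ν y.1 y.2 fun c => ν (cov (ζ c) (dF y c)) :=
    fun y ζ' c h1 h2 h3 => key hν (dF_tor h2 h3)
      (hζ c fun i e => h1 i (by rw [e, map_zero])) h1
  refine ⟨fun y c => ν (cov (ζ c) (dF y c)), fun κ C f μ q hC h => vf hν hd (rep (f, μ)) hC h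
    fun c hc s hs => hom hν hw (h.van c hc).1 (h.van c hc).2 hs (hζ c (hC.ne_zero c hc))
      (hζ _ (smul_ne hs (hC.ne_zero c hc))), fun y c hc => ?_⟩
  have h1 : ∀ i, ζ c i (c i) ≠ 0 := fun i => by rw [hζ c hc]; exact one_ne_zero
  refine ⟨fun r => (∏ i, ζ c i (r.2 i))⁻¹ • ν (cov (ζ c) (dF r.1 r.2)),
    (an_inv analyticAt_snd h1).smul ((hν.an _).comp (an_cov analyticAt_fst analyticAt_snd)), ?_⟩
  filter_upwards [ev_lf (p := (y, c)) analyticAt_snd h1] with r h2 using rep r.1 (ζ c) r.2 h2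

end Vale.Agent.P269.Base
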