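import Vale.Agent.P269.Base.Jet
import Vale.Agent.P269.Base.Hilb
import Vale.Agent.P269.Base.CI
import Vale.Agent.P269.Base.Xi

/-!
# The universal pointed curve with a vector field, and the forms with prescribed divisor
-/

namespace Vale.Agent.P269.Base

open Set Function Topology Filter Holo Module

set_option linter.unusedSectionVars false

variable {ι : Type} [Fintype ι] [DecidableEq ι] {M : ι → ℕ} {o : ι} {a b w : ι → ℕ} {g : ℤ}
  {m : ι → ℤ} {κ ν : Type} [Fintype κ] [Fintype ν]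

theorem _root_.Vale.Agent.P269.IsCurve.exists_uni {C₀ : Set (V M)} (h : IsCurve o g m C₀)
    (ha : ∀ i, 4 ≤ a i) (ho : 3 ≤ M o) (hM : ∀ i, M i ≠ 0) {p₀ : ν → V M}
    (hp : ∀ n, p₀ n ∈ C₀ ∧ ¬IsNode o C₀ (p₀ n)) (hi : ∀ n n', Orb (p₀ n) (p₀ n') → n = n') (B : ℕ) :
    ∃ (P : Type) (_ : NormedAddCommGroup P) (_ : NormedSpace ℂ P) (_ : FiniteDimensional ℂ P)
      (y₀ : P) (C : P → Set (V M)) (p : P → ν → V M) (w : ι → ℕ) (ξ : P → V M → V M) (κ : Type)
      (_ : Fintype κ) (z : P → κ → V M), C y₀ = C₀ ∧ p y₀ = p₀ ∧ Univ o a C p y₀ ∧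
      VFam o C id y₀ w ξ (fun y => Sum.elim (z y) (p y)) ∧ (∀ i, B ≤ w i) ∧
      (finrank ℂ P + Fintype.card κ : ℤ) = dg m w + dg m M +
        ((∑ i, M i : ℕ) - Fintype.card ι - 1) * (1 - g) + Fintype.card ν * Fintype.card ι := by
  have s1 : ∀ i, M i + Fintype.card ι ≤ ∑ j, M j + 1 := fun i => by
    have : (Finset.univ.erase i).card • 1 ≤ ∑ j ∈ Finset.univ.erase i, M j :=
      Finset.card_nsmul_le_sum _ M 1 fun j _ => Nat.pos_of_ne_zero (hM j)
    rw [Finset.card_erase_of_mem (Finset.mem_univ i), Finset.card_univ, smul_eq_mul] at this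
    have := Finset.add_sum_erase _ M (Finset.mem_univ i)
    have := Fintype.card_pos_iff.2 ⟨i⟩
    omega
  obtain ⟨r, hr⟩ : ∃ r, r + Fintype.card ι + 2 = ∑ i, M i :=
    ⟨∑ i, M i - (Fintype.card ι + 2), by have := s1 o; omega⟩
  obtain ⟨f₀, μ₀, n, q₀, hc, hq⟩ := h.exists_ci ha ho hr hp
  obtain ⟨d, D, f, μ, q, d0, hU, a1, a2, a3, q0, d1, d2⟩ := hc.exists_univ h ha
  have hw : ∀ i, (r + 1) * a i - M i + M i = (Fintype.card (Fin r) + 1) * a i := fun i => by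
    have := s1 i
    have := Nat.mul_le_mul_left (r + 1) (ha i)
    rw [Fintype.card_fin]
    omega
  obtain ⟨ξ, x1, x2⟩ := exists_xi (o := o) (Fin r) hw
  have hV : VFam o D id 0 (fun i => (r + 1) * a i - M i) (fun y => ξ (f y, μ y)) q := by
    refine ⟨fun j => (analyticAt_pi_iff.1 a3) j, ?_, fun c hc => ?_⟩
    · filter_upwards [d1, hU.fam.eventually] with y k1 k2
      exact x1 _ _ _ _ _ k2.nod k1
    · obtain ⟨ξ', k1, k2⟩ := x2 (f 0, μ 0) c (hU.fam.nod.ne_zero c hc)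
      have k3 : AnalyticAt ℂ (fun r : (Fin d → ℂ) × V M => ((f r.1, μ r.1), r.2)) (0, c) :=
        ((a1.comp_of_eq analyticAt_fst rfl).prod (a2.comp_of_eq analyticAt_fst rfl)).prod
          analyticAt_snd
      refine ⟨_, k1.comp_of_eq k3 rfl, ?_⟩
      filter_upwards [k3.continuousAt.tendsto.eventually k2,
        continuousAt_fst.tendsto.eventually d1] with r m1 m2 m3
      exact m1 (m2.van _ m3).1 (m2.van _ m3).2
  obtain ⟨p, p0, hU'⟩ := hU.mark (p₀ := p₀) (d0 ▸ hp)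
  obtain ⟨b, n', G, R, b1, b2, hV'⟩ := (VFam.comp (π' := id) (u := Prod.fst) (k := Prod.fst)
    (t' := ((0 : Fin d → ℂ), (0 : ν → ℂ), (1 : ν → ι → ℂ))) hV continuousAt_fst analyticAt_fst
    (.of_forall fun _ => rfl)).mul hU'.fam (d0 ▸ h) hU'.an hU'.mem
    (fun n => by simpa [p0, d0] using (hp n).2) (by simpa [p0] using hi)
    (fun n j => by simpa [p0, q0] using hq j n) B
  refine ⟨_, _, _, inferInstance, _, _, p, _, _, _, inferInstance, _, d0, p0, hU', hV',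
    fun i => (b1 i).trans (Nat.le_add_left _ _), ?_⟩
  have e1 : dg m (fun i => (r + 1) * a i - M i) + dg m M = (r + 1) * dg m a := by
    rw [← dg_add, show (fun i => (r + 1) * a i - M i) + M = (r + 1) • a from
      funext fun i => by simpa using hw i, dg_smul]
    simp
  simp only [finrank_prod, finrank_pi_fintype, finrank_self, Fintype.card_sum,
    Fintype.card_fin, dg_add, ← hr, Finset.sum_const, Finset.card_univ, smul_eq_mul] at d2 ⊢
  push_cast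
  linear_combination d2 + b2 - e1

variable {P : Type} [NormedAddCommGroup P] [NormedSpace ℂ P] [FiniteDimensional ℂ P]
  {C : P → Set (V M)} {p : P → ν → V M} {y₀ : P} {ξ : P → V M → V M} {z : P → κ → V M}

/-- Moving points `e` at which the forms of degree `a` on the curves `C y` can be evaluated freely,
away from the nodes and the points `z`. -/
structure EvPt (o : ι) (a : ι → ℕ) (C : P → Set (V M)) (z : κ → V M) (y₀ : P) {n : ℕ}
    (e : P → Fin n → V M) : Prop where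
  an : AnalyticAt ℂ e y₀
  off : ∀ i, ¬IsNode o (C y₀) (e y₀ i) ∧ ∀ j, ¬Orb (z j) (e y₀ i)
  ev : ∀ᶠ y in 𝓝 y₀, (∀ i, e y i ∈ C y) ∧ Surjective (evP a (e y)) ∧
    ∀ μ, evP a (e y) μ = 0 ↔ ∀ c ∈ C y, val μ c = 0

theorem LocFam.exists_evPt (h : LocFam o C id y₀) (h0 : IsCurve o g m (C y₀)) (ha : a ≠ 0) {n : ℕ}
    (hn : (n : ℤ) = dg m a + 1 - g) (z : κ → V M) :
    ∃ e : P → Fin n → V M, EvPt o a C z y₀ e := by
  obtain ⟨y, h1, h2⟩ := h.exists_ev' h0 ha hn (p := fun c => ∀ j, ¬Orb (z j) c)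
    fun c hc => h0.nod.frequently_not_node z hc
  refine ⟨fun q i => y i q, analyticAt_pi_iff.2 fun i => (h1 i).1, fun i => (h1 i).2, ?_⟩
  filter_upwards [h2] with q ⟨k1, k2, k3⟩
  exact ⟨k1, k2, fun μ => ⟨fun k => k3 _ (Pol.isSec (val_mem μ)) (congrFun k),
    fun k => funext fun i => k _ (k1 i)⟩⟩

theorem EvPt.an_ev {z : κ → V M} {n : ℕ} {e : P → Fin n → V M} (h : EvPt o a C z y₀ e) :
    AnalyticAt ℂ (fun y => evP a (e y)) y₀ :=
  (analyticAt_evP _).comp h.an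

/-- A holomorphic right inverse of the evaluation. -/
theorem EvPt.exists_inv {z : κ → V M} {n : ℕ} {e : P → Fin n → V M} (h : EvPt o a C z y₀ e) :
    ∃ S : P → (Fin n → ℂ) →L[ℂ] Tens M a, AnalyticAt ℂ S y₀ ∧ ∀ᶠ y in 𝓝 y₀,
      (∀ v, evP a (e y) (S y v) = v) ∧ ∀ μ, ∀ c ∈ C y, val (S y (evP a (e y) μ)) c = val μ c := by
  obtain ⟨S, hS⟩ := exists_rightInv h.ev.self_of_nhds.2.1
  have h1 : AnalyticAt ℂ (fun y => (evP a (e y)).comp S) y₀ := an_comp h.an_ev analyticAt_const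
  have h2 : Bijective ((evP a (e y₀)).comp S) := by
    rw [show (evP a (e y₀)).comp S = .id ℂ _ from ContinuousLinearMap.ext hS]
    exact bijective_id
  refine ⟨fun y => S.comp ((evP a (e y)).comp S).inverse,
    an_comp analyticAt_const ((analyticAt_clm_inverse h2).comp_of_eq h1 rfl), ?_⟩
  filter_upwards [eventually_bijective h1.continuousAt h2, h.ev] with y k1 k2
  have k3 := fun v => (isInvertible_of_bijective k1).self_apply_inverse v
  refine ⟨k3, fun μ c hc => sub_eq_zero.1 ((k2.2.2 (_ - μ)).1 ?_ c hc)⟩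
  rw [map_sub]
  exact sub_eq_zero.2 (k3 _)

theorem Dvs.congr {C : Set (V M)} {F F' : V M → ℂ} {z : κ → V M} {k : ℕ} (h : Dvs o C F z k)
    (he : ∀ c ∈ C, F' c = F c) : Dvs o C F' z k :=
  ⟨fun c hc hz => he c hc ▸ h.ne c hc hz, fun γ j hγ hj =>
    let ⟨u, h1, h2, h3⟩ := h.ord γ j hγ hj
    ⟨u, h1, h2, (h3.and hγ.mem).mono fun _ ht => (he _ ht.2).trans ht.1⟩⟩

/-- The space of the pairs of a curve of the family and a form with divisor `k z`. -/
theorem Univ.exists_dvs (hU : Univ o a C p y₀) (h0 : IsCurve o g m (C y₀))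
    (hV : VFam o C id y₀ w ξ fun y => Sum.elim (z y) (p y)) {F₀ : Tens M b} {k : ℕ}
    (hF : Dvs o (C y₀) (val F₀) (z y₀) k) (hb : b ≠ 0) (hn : k * ∑ i, w i ≠ ∑ i, b i) {n : ℕ}
    (hd : (n : ℤ) = dg m b + 1 - g) {z' : κ ⊕ ν → V M} {e : P → Fin n → V M}
    (he : EvPt o b C z' y₀ e) :
    ∃ (d : ℕ) (ψ : (Fin d → ℂ) → P) (F : (Fin d → ℂ) → Tens M b) (Λ : P × (Fin n → ℂ) → Fin d → ℂ),
      (d : ℤ) = finrank ℂ P + 1 - g ∧ (Fintype.card κ * k : ℤ) = dg m b ∧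
      AnalyticAt ℂ ψ 0 ∧ ψ 0 = y₀ ∧ AnalyticAt ℂ F 0 ∧ (∀ c ∈ C y₀, val (F 0) c = val F₀ c) ∧
      (∀ᶠ s in 𝓝 0, Dvs o (C (ψ s)) (val (F s)) (z (ψ s)) k) ∧
      Injective (fderiv ℂ (fun s => (ψ s, evP b (e (ψ s)) (F s))) 0) ∧
      AnalyticAt ℂ Λ (y₀, evP b (e y₀) F₀) ∧ Λ (y₀, evP b (e y₀) F₀) = 0 ∧
      (∀ᶠ r in 𝓝 (y₀, evP b (e y₀) F₀), ∀ F', Dvs o (C r.1) (val F') (z r.1) k →
        evP b (e r.1) F' = r.2 → ψ (Λ r) = r.1 ∧ ∀ c ∈ C r.1, val (F (Λ r)) c = val F' c) ∧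
      ∀ (N : ℕ) (c : Fin N → V M), (∀ i, IsNode o (C y₀) (c i)) →
        (∀ i i', Orb (c i) (c i') → i = i') → ∃ τ : Fin N → P → ℂ,
          (∀ i, NdAt o C id y₀ (c i) (τ i)) ∧ Surjective (fderiv ℂ (fun s i => τ i (ψ s)) 0) := by
  have v0 := hV.vf.self_of_nhds
  choose σ hσ hz using fun j => hU.fam.chart_at (z := fun y => z y j) (hV.an (.inl j))
    (hV.vf.mono fun y hy => (hy.mem (.inl j)).1) (v0.mem (.inl j)).2
  simp only [id] at hz
  obtain ⟨S, s1, s2⟩ := he.exists_inv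
  obtain ⟨v₀, hv⟩ : ∃ v₀, v₀ = evP b (e y₀) F₀ := ⟨_, rfl⟩
  rw [← hv]
  have tf : Tendsto (Prod.fst : P × (Fin n → ℂ) → P) (𝓝 (y₀, v₀)) (𝓝 y₀) := continuousAt_fst
  have a1 : AnalyticAt ℂ (fun r : P × (Fin n → ℂ) => S r.1 r.2) (y₀, v₀) :=
    an_apply (s1.comp_of_eq analyticAt_fst rfl) analyticAt_snd
  let J : P × (Fin n → ℂ) → κ → Fin k → ℂ := fun r j => jet k fun s => val (S r.1 r.2) (σ j (r.1, s))
  have a2 : AnalyticAt ℂ J (y₀, v₀) := analyticAt_pi_iff.2 fun j =>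
    an_jet (F := fun q : (P × (Fin n → ℂ)) × ℂ => val (S q.1.1 q.1.2) (σ j (q.1.1, q.2)))
      (an_val (a1.comp_of_eq analyticAt_fst rfl) ((hσ j).an.comp_of_eq
        ((analyticAt_fst.comp analyticAt_fst).prod analyticAt_snd) rfl)) k
  have m1 : ∀ᶠ y in 𝓝 y₀, ∀ j, IsBranch o (C y) fun s => σ j (y, s) := eventually_all.2 fun j =>
    ((tendsto_inl y₀ (0 : ℂ)).eventually ((hσ j).isBranch hU.fam)).mono fun y hy => by simpa using hy
  have m2 : ∀ᶠ y in 𝓝 y₀, ∀ F' j, J (y, evP b (e y) F') j = jet k fun s => val F' (σ j (y, s)) := by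
    filter_upwards [m1, s2] with y k1 k2 F' j
    exact jet_congr ((k1 j).mem.mono fun s hs => k2.2 _ _ hs)
  have m3 : ∀ᶠ y in 𝓝 y₀, ∀ F', Dvs o (C y) (val F') (z y) k → J (y, evP b (e y) F') = 0 := by
    filter_upwards [m1, m2, eventually_all.2 hz] with y k1 k2 k3 F' k4
    funext j
    obtain ⟨u, u1, -, u2⟩ := k4.ord _ j (k1 j) (k3 j ▸ Orb.refl _)
    rw [k2]
    exact (dv_iff_jet ((analyticAt_val _ _).comp (k1 j).holo)).1 ⟨u, u1, u2⟩
  have j0 : J (y₀, v₀) = 0 := hv ▸ m3.self_of_nhds _ hF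
  have key : ∀ ω, ∃ u, fderiv ℂ J (y₀, v₀) u = ω ∧
      ∀ c τ, NdAt o C id y₀ c τ → fderiv ℂ τ y₀ u.1 = 0 := fun ω => by
    obtain ⟨η, F₁, e1, e2, e3, e4⟩ := exists_jet_path hU h0 hV hσ hz hF hb hn ω
    have e5 : AnalyticAt ℂ (fun x => (η x, evP b (e (η x)) (F₀ + x • F₁))) 0 :=
      e1.prod (an_apply (he.an_ev.comp_of_eq e1 e2)
        (analyticAt_const.add (analyticAt_id.smul analyticAt_const)))
    have e6 := e5.differentiableAt.hasDerivAt
    refine ⟨_, (a2.differentiableAt.hasFDerivAt.comp_hasDerivAt_of_eq (0 : ℂ) e6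
      (by simp [e2, hv])).unique ((hasDerivAt_pi.2 e4).congr_of_eventuallyEq ?_), fun c τ hc => ?_⟩
    · filter_upwards [(e2 ▸ e1.continuousAt.tendsto).eventually m2] with x hx
      exact funext (hx _)
    · obtain ⟨-, -, k1, -⟩ := id hc
      exact (k1.differentiableAt.hasFDerivAt.comp_hasDerivAt_of_eq (0 : ℂ) e6.fst e2.symm).unique
        ((hasDerivAt_const (0 : ℂ) (0 : ℂ)).congr_of_eventuallyEq (e3 c τ hc))
  obtain ⟨d, ψ, Λ, d1, p1, p2, l1, l2, p3, l3, p4, p5⟩ :=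
    exists_slice a2 j0 fun ω => (key ω).imp fun _ h => h.1
  have pt : Tendsto ψ (𝓝 0) (𝓝 (y₀, v₀)) := p2 ▸ p1.continuousAt.tendsto
  have hL : ∀ j, Loc o (C y₀) (z y₀ j) fun _ t => σ j (y₀, t) := fun j => by
    have e0 : σ j (y₀, 0) = z y₀ j := (hz j).self_of_nhds
    exact e0 ▸ (hσ j).loc continuousAt_id (e0 ▸ h0.ne_zero _ (v0.mem (.inl j)).1) subset_rfl
      ((hσ j).mem0.mono fun t ht => ht trivial)
  choose u hu using fun j => hF.ord _ j ((hL j).br true) ((hL j).zero true ▸ Orb.refl _)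
  have cnt : (Fintype.card κ * k : ℤ) = dg m b := by
    simpa using h0.count (val_mem F₀) (fun c hc h0 => by_contra fun hn =>
      hF.ne c hc (not_exists.1 hn) h0) (fun j j' h => Sum.inl_injective
        (v0.inj (.inl j) (.inl j') h)) hL (n := fun _ => k) hu
  have f0 : ∀ c ∈ C y₀, val (S y₀ v₀) c = val F₀ c := hv ▸ s2.self_of_nhds.2 F₀
  refine ⟨d, fun s => (ψ s).1, fun s => S (ψ s).1 (ψ s).2, Λ, ?_, cnt, analyticAt_fst.comp p1,
    congrArg Prod.fst p2, a1.comp_of_eq p1 p2, by simpa [p2] using f0, ?_, ?_, l1, l2, ?_, ?_⟩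
  · simp only [finrank_prod, finrank_pi_fintype, finrank_self, Fintype.card_fin, Finset.sum_const,
      Finset.card_univ, smul_eq_mul, mul_one] at d1
    zify at d1
    linear_combination d1 + hd - cnt
  · have hf := LocFam.comp (π' := id) (u := Prod.fst) (k := Prod.fst) (t' := (y₀, v₀)) hU.fam
      continuousAt_fst (.of_forall fun _ => continuousAt_id) analyticAt_fst
      (.of_forall fun _ => rfl)
    have := Dvs.eventually hf (F := fun r => S r.1 r.2) a1 (k := k)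
      (fun j => Chart.comp (π' := id) (u := Prod.fst) (k := Prod.fst) (t' := (y₀, v₀)) (hσ j)
        continuousAt_fst analyticAt_fst (.of_forall fun _ => rfl)) (by
      simpa [fun j => (hz j).self_of_nhds] using hF.congr f0)
    filter_upwards [pt.eventually this, p3, (tf.comp pt).eventually m1,
      (tf.comp pt).eventually (eventually_all.2 hz)] with s k1 k2 k3 k4
    rw [← show _ = z (ψ s).1 from funext k4]
    exact k1 fun j => (dv_iff_jet ((analyticAt_val _ _).comp (k3 j).holo)).2 (congrFun k2 j)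
  · have : (fun s => ((ψ s).1, evP b (e (ψ s).1) (S (ψ s).1 (ψ s).2))) =ᶠ[𝓝 0] ψ :=
      ((tf.comp pt).eventually s2).mono fun s hs => Prod.ext rfl (hs.1 _)
    rwa [this.fderiv_eq]
  · filter_upwards [l3, tf.eventually m3, tf.eventually s2] with r k1 k2 k3 F' k4 k5
    rw [k1 (by simpa [k5] using k2 F' k4)]
    exact ⟨rfl, k5 ▸ k3.2 F'⟩
  · intro N c h1 h2
    obtain ⟨τ, t1, t2⟩ := hU.vers N c h1 h2
    refine ⟨τ, t1, fun t => ?_⟩
    have t3 : ∀ i, AnalyticAt ℂ (τ i) y₀ := fun i => let ⟨_, _, k, _⟩ := t1 i; k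
    obtain ⟨v, rfl⟩ := t2 t
    obtain ⟨u, u1, u2⟩ := key (fderiv ℂ J (y₀, v₀) (v, 0))
    obtain ⟨s, hs⟩ := p5 ((v, 0) - u) (by rw [map_sub, u1, sub_self])
    have t4 : HasFDerivAt (fun y i => τ i y) (fderiv ℂ (fun y i => τ i y) y₀) (ψ 0).1 :=
      p2 ▸ (analyticAt_pi_iff.2 t3).differentiableAt.hasFDerivAt
    have t5 := t4.comp (0 : Fin d → ℂ) p1.differentiableAt.hasFDerivAt.fst
    refine ⟨s, (congrArg (· s) t5.fderiv).trans (funext fun i => ?_)⟩
    rw [fderiv_pi fun i => (t3 i).differentiableAt]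
    simp [hs, u2 _ _ (t1 i)]

end Vale.Agent.P269.Base
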