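import Vale.Agent.P269.Base.LF
import Vale.Agent.P269.Base.Open
import Vale.Agent.P269.Base.Glue
import Vale.Agent.P269.Base.Cross

/-!
# Complete intersections through a curve, vector fields along a curve, universal families
-/

namespace Vale.Agent.P269.Base

open Set Function Topology Filter

variable {ι : Type} [Fintype ι] {M : ι → ℕ} {a : ι → ℕ} {β κ ν : Type} [Fintype β] [Fintype ν]

/-- `σ` is a chart of the surface `f = 0` in which `μ = u v`. -/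
structure NF (o : ι) (f : β → Tens M a) (μ : Tens M a) (σ : ℂ × ℂ → V M) : Prop where
  an : AnalyticAt ℂ σ 0
  imm : ∀ (e : ℂ × ℂ) (s : ℂ), fderiv ℂ σ 0 e o = s • σ 0 o → e = 0
  zero : ∀ᶠ z in 𝓝 0, vals f (σ z) = 0
  eq : ∀ᶠ z in 𝓝 0, val μ (σ z) = z.1 * z.2

/-- The curve `C` lies on the smooth surface `f = 0`, and the complete intersection `f = μ = 0` is
the union of `C` and of a residual curve that meets `C` transversally in the smooth points `q`. -/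
structure CI (o : ι) (C : Set (V M)) (f : β → Tens M a) (μ : Tens M a) (q : κ → V M) : Prop where
  card : Fintype.card β + Fintype.card ι + 2 = ∑ i, M i
  van : ∀ c ∈ C, vals f c = 0 ∧ val μ c = 0
  surj : ∀ c ∈ C, Surjective (fderiv ℂ (vals f) c)
  inj : ∀ j j', Orb (q j) (q j') → j = j'
  res : ∀ j, ∃ σ, NF o f μ σ ∧ Loc o C (q j) fun _ t => σ (t, 0)
  nd : ∀ c, IsNode o C c → ∃ σ, NF o f μ σ ∧ Orb (σ 0) c ∧
    Loc o C (σ 0) fun b t => σ (if b then (t, 0) else (0, t))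
  reg : ∀ c ∈ C, ¬IsNode o C c → (∀ j, ¬Orb (q j) c) →
    ∃ v, fderiv ℂ (vals f) c v = 0 ∧ fderiv ℂ (val μ) c v ≠ 0

/-- Along `γ` the vector field `ξ` is `φ ∂_t` modulo the torus directions. -/
def Along (ξ : V M → V M) (γ : ℂ → V M) (φ : ℂ → ℂ) : Prop :=
  AnalyticAt ℂ φ 0 ∧ ∀ᶠ t in 𝓝 0, ∃ α : ι → ℂ, ξ (γ t) = α • γ t + φ t • deriv γ t

/-- `ξ` is a section of `ω⁻¹ ⊗ O(w)` on `C` (logarithmic vector fields with opposite residues at the
nodes) whose divisor is the sum of the distinct smooth points `z`. -/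
structure VF (o : ι) (C : Set (V M)) (w : ι → ℕ) (ξ : V M → V M) (z : κ → V M) : Prop where
  hom : ∀ c ∈ C, ∀ s : ι → ℂ, (∀ i, s i ≠ 0) →
    ∃ α : ι → ℂ, ξ (s • c) = α • c + chr w s • s • ξ c
  mem : ∀ j, z j ∈ C ∧ ¬IsNode o C (z j)
  inj : ∀ j j', Orb (z j) (z j') → j = j'
  reg : ∀ γ, IsBranch o C γ → ¬IsNode o C (γ 0) → (∀ j, ¬Orb (z j) (γ 0)) →
    ∃ u, u 0 ≠ 0 ∧ Along ξ γ u
  van : ∀ γ, IsBranch o C γ → (IsNode o C (γ 0) ∨ ∃ j, Orb (z j) (γ 0)) →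
    ∃ u, AnalyticAt ℂ u 0 ∧ u 0 ≠ 0 ∧ Along ξ γ fun t => t * u t
  res : ∀ c γ₁ γ₂ φ₁ φ₂, IsCross o C c γ₁ γ₂ → Along ξ γ₁ φ₁ → Along ξ γ₂ φ₂ →
    deriv φ₁ 0 = -deriv φ₂ 0

/-- The divisor of `F` on `C` is `k` times the sum of the points `z`. -/
structure Dvs (o : ι) (C : Set (V M)) (F : V M → ℂ) (z : κ → V M) (k : ℕ) : Prop where
  ne : ∀ c ∈ C, (∀ j, ¬Orb (z j) c) → F c ≠ 0
  ord : ∀ γ j, IsBranch o C γ → Orb (z j) (γ 0) →
    ∃ u, AnalyticAt ℂ u 0 ∧ u 0 ≠ 0 ∧ ∀ᶠ t in 𝓝 0, F (γ t) = t ^ k * u t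

variable {T P : Type*} [TopologicalSpace T] [NormedAddCommGroup P] [NormedSpace ℂ P]

/-- A holomorphic family of vector fields with moving zeros `z`. -/
structure VFam (o : ι) (C : T → Set (V M)) (π : T → P) (t₀ : T) (w : ι → ℕ) (ξ : P → V M → V M)
    (z : P → κ → V M) : Prop where
  an : ∀ j, AnalyticAt ℂ (fun y => z y j) (π t₀)
  vf : ∀ᶠ t in 𝓝 t₀, VF o (C t) w (ξ (π t)) (z (π t))
  loc : ∀ c ∈ C t₀, ∃ ξ' : P × V M → V M, AnalyticAt ℂ ξ' (π t₀, c) ∧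
    ∀ᶠ q : T × V M in 𝓝 (t₀, c), q.2 ∈ C q.1 →
      ∃ α : ι → ℂ, ξ (π q.1) q.2 = α • q.2 + ξ' (π q.1, q.2)

/-- `(C, p)` is the universal family of embedded curves with marked points of the multicone near
`y₀`: every family is pulled back from it, the first order variation of the equations of degree `a`
and of the marked points is injective, and the nodes are smoothed independently. -/
structure Univ (o : ι) (a : ι → ℕ) (C : P → Set (V M)) (p : P → ν → V M) (y₀ : P) : Prop where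
  fam : LocFam o C id y₀
  an : AnalyticAt ℂ p y₀
  mem : ∀ᶠ y in 𝓝 y₀, ∀ n, p y n ∈ C y
  univ : ∀ (T' P' : Type) [TopologicalSpace T'] [NormedAddCommGroup P'] [NormedSpace ℂ P']
    [FiniteDimensional ℂ P'] (C' : T' → Set (V M)) (π' : T' → P') (t' : T') (p' : P' → ν → V M),
    LocFam o C' π' t' → C' t' = C y₀ → AnalyticAt ℂ p' (π' t') → p' (π' t') = p y₀ →
    (∀ᶠ t in 𝓝 t', ∀ n, p' (π' t) n ∈ C' t) → ∃ k : P' → P, AnalyticAt ℂ k (π' t') ∧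
      k (π' t') = y₀ ∧ ∀ᶠ t in 𝓝 t', C' t = C (k (π' t)) ∧ p' (π' t) = p (k (π' t))
  eff : ∀ v, fderiv ℂ p y₀ v = 0 → (∀ μ : P → Tens M a, AnalyticAt ℂ μ y₀ →
    (∀ᶠ y in 𝓝 y₀, ∀ c ∈ C y, val (μ y) c = 0) → ∀ c ∈ C y₀, val (fderiv ℂ μ y₀ v) c = 0) → v = 0
  vers : ∀ (n : ℕ) (z : Fin n → V M), (∀ e, IsNode o (C y₀) (z e)) →
    (∀ e e', Orb (z e) (z e') → e = e') → ∃ τ : Fin n → P → ℂ,
      (∀ e, NdAt o C id y₀ (z e) (τ e)) ∧ Surjective (fderiv ℂ (fun y e => τ e y) y₀)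

end Vale.Agent.P269.Base
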