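import Vale.Agent.P269.Base.Along

/-!
# Families of vector fields along families of curves
-/

namespace Vale.Agent.P269.Base

open Set Function Topology Filter Holo

set_option linter.unusedSectionVars false

variable {ι : Type} [Fintype ι] [DecidableEq ι] {M : ι → ℕ} {o : ι} {a b w : ι → ℕ} {g : ℤ}
  {m : ι → ℤ} {β κ ν : Type} [Fintype β] [Fintype κ] [Fintype ν]

section Static

variable {C : Set (V M)} {ξ : V M → V M} {z : κ → V M} {G l f : V M → ℂ} {c : V M}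

theorem VF.reindex {κ' : Type} (h : VF o C w ξ z) (e : κ' ≃ κ) : VF o C w ξ fun j => z (e j) :=
  ⟨h.hom, fun _ => h.mem _, fun _ _ k => e.injective (h.inj _ _ k),
    fun γ hγ hn hz => h.reg γ hγ hn fun j => by simpa using hz (e.symm j),
    fun γ hγ hc => h.van γ hγ (hc.imp_right fun ⟨_, k⟩ => ⟨_, k⟩), h.res⟩

theorem Reps.congr {p : V M → Prop} {y y' : β → V M} (h : Reps C p y) (hC : Nod o C)
    (hp : ∀ k, p (y' k)) (he : ∀ k, Orb (y k) (y' k)) : Reps C p y' :=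
  ⟨fun k => hC.orb (h.mem k) (he k), hp,
    fun c hc h1 => (h.ex c hc h1).imp fun k hk => (he k).symm.trans hk,
    fun k k' h1 => h.inj k k' (((he k).trans h1).trans (he k').symm)⟩

theorem Simp.mul (h : Simp o C l c) (hl : AnalyticAt ℂ l c) (hf : AnalyticAt ℂ f c)
    (h0 : f c ≠ 0) : Simp o C (fun y => l y * f y) c := by
  obtain ⟨h1, h2, γ, h3, rfl, h4⟩ := h
  refine ⟨h1, mul_eq_zero_of_left h2 _, γ, h3, rfl, ?_⟩
  refine ((hl.comp h3.holo).differentiableAt.hasDerivAt.fun_mul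
    (hf.comp h3.holo).differentiableAt.hasDerivAt).deriv.trans_ne ?_
  simpa [h2] using ⟨h4, h0⟩

/-- The product of a vector field and a form with simple zeros. -/
theorem VF.mul (h : VF o C w ξ z) (hC : Nod o C) (hG : G ∈ Pol M b) {y : β → V M}
    (hy : Reps C (fun c => G c = 0) y) (hs : ∀ k, Simp o C G (y k)) (hz : ∀ j, G (z j) ≠ 0) :
    VF o C (w + b) (fun c => G c • ξ c) (Sum.elim z y) := by
  have ho : ∀ {c c' : V M}, Orb c c' → (G c' = 0 ↔ G c = 0) := fun k =>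
    (Pol.hm hG).orb (mem_univ _) k
  have h1 : ∀ c ∈ C, G c = 0 → Simp o C G c := fun c hc k => by
    obtain ⟨j, hj⟩ := hy.ex c hc k
    exact (hs j).orb hC (Pol.hm hG) hj
  have ha : ∀ {γ}, IsBranch o C γ → AnalyticAt ℂ (fun t => G (γ t)) 0 := fun hγ =>
    (Pol.an hG _).comp hγ.holo
  refine ⟨fun c hc s k => ?_, ?_, ?_, fun γ hγ hn k => ?_, fun γ hγ k => ?_, ?_⟩
  · obtain ⟨α, e⟩ := h.hom c hc s k
    refine ⟨(chr b s * G c) • α, ?_⟩
    rw [e, Pol.hom hG, chr_add, smul_add, smul_assoc, smul_comm s (G c), smul_smul, smul_smul]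
    congr 2
    ring
  · rintro (j | j)
    exacts [h.mem j, ⟨hy.mem j, (hs j).1⟩]
  · rintro (j | j) (j' | j') k
    exacts [congrArg _ (h.inj _ _ k), absurd ((ho k).1 (hy.prop j')) (hz j),
      absurd ((ho k).2 (hy.prop j)) (hz j'), congrArg _ (hy.inj _ _ k)]
  · obtain ⟨u, h2, h3⟩ := h.reg γ hγ hn fun j => k (.inl j)
    refine ⟨fun t => G (γ t) * u t, mul_ne_zero (fun e => ?_) h2, h3.mul (ha hγ)⟩
    obtain ⟨j, hj⟩ := hy.ex _ hγ.mem.self_of_nhds e
    exact k (.inr j) hj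
  · by_cases hc : IsNode o C (γ 0) ∨ ∃ j, Orb (z j) (γ 0)
    · obtain ⟨u, h2, h3, h4⟩ := h.van γ hγ hc
      refine ⟨fun t => G (γ t) * u t, (ha hγ).mul h2, mul_ne_zero (fun e => ?_) h3,
        (h4.mul (ha hγ)).congr .rfl (.of_forall fun t => mul_left_comm _ _ _)⟩
      rcases hc with hc | ⟨j, hj⟩
      exacts [(h1 _ hγ.mem.self_of_nhds e).1 hc, hz j ((ho hj).1 e)]
    · push Not at hc
      obtain ⟨u, h2, h3⟩ := h.reg γ hγ hc.1 hc.2
      have h0 : G (γ 0) = 0 := by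
        rcases k with k | ⟨j | j, k⟩
        exacts [absurd k hc.1, absurd k (hc.2 j), (ho k).2 (hy.prop j)]
      have a1 : AnalyticAt ℂ (dslope (fun t => G (γ t)) 0) 0 := by
        obtain ⟨p, hp⟩ := ha hγ
        exact ⟨_, hp.has_fpower_series_dslope_fslope⟩
      refine ⟨fun t => dslope (fun t => G (γ t)) 0 t * u t, a1.mul h3.an, mul_ne_zero ?_ h2,
        (h3.mul (ha hγ)).congr .rfl (.of_forall fun t => ?_)⟩
      · rw [dslope_same]
        exact (h1 _ hγ.mem.self_of_nhds h0).deriv_ne hC (Pol.isSec hG) hγ rfl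
      · have := sub_smul_dslope (fun t => G (γ t)) 0 t
        simp only [sub_zero, h0, smul_eq_mul] at this
        simp only [← mul_assoc, this]
  · intro c γ₁ γ₂ φ₁ φ₂ hx p1 p2
    have e : ∀ {γ φ ψ}, IsBranch o C γ → γ 0 = c → Along (fun c => G c • ξ c) γ φ → Along ξ γ ψ →
        deriv φ 0 = G c * deriv ψ 0 := by
      intro γ φ ψ hγ h0 k1 k2
      rw [(k1.unique (k2.mul (ha hγ)) hγ).deriv_eq, ((ha hγ).differentiableAt.hasDerivAt.fun_mul
        k2.an.differentiableAt.hasDerivAt).deriv,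
        (h.eq_zero hγ k2 (.inl (h0 ▸ ⟨_, _, hx⟩))).1, h0, mul_zero, zero_add]
    obtain ⟨ψ₁, q1⟩ := h.along hx.1
    obtain ⟨ψ₂, q2⟩ := h.along hx.2.1
    rw [e hx.1 hx.2.2.1 p1 q1, e hx.2.1 hx.2.2.2.1 p2 q2, h.res c _ _ _ _ hx q1 q2, mul_neg]

theorem exists_pol_van {p : ν → V M} (hp : ∀ n i, p n i ≠ 0) (hc : ∀ i, c i ≠ 0) (S : Finset ν)
    (h : ∀ n ∈ S, ¬Orb (p n) c) {N : ℕ} (hN : S.card ≤ N) :
    ∃ F ∈ Pol M fun _ => N, F c ≠ 0 ∧ ∀ n ∈ S, F (p n) = 0 := by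
  choose μ h1 h2 using fun n : S => exists_pol_sep (hp n) hc (h n n.2)
  obtain ⟨F, h3, h4⟩ := exists_pol_ne (y := fun _ : Unit => c) (fun _ => hc) fun _ => N - S.card
  refine ⟨_, Pol.mul' (Pol.prod Finset.univ fun n _ => val_mem (μ n)) h3 (funext fun i => ?_),
    mul_ne_zero ?_ (h4 ()), fun n hn => mul_eq_zero_of_left ?_ _⟩
  · simp [hN]
  · rw [Finset.prod_apply]
    exact Finset.prod_ne_zero_iff.2 fun n _ => h2 n
  · rw [Finset.prod_apply]
    exact Finset.prod_eq_zero (Finset.mem_univ ⟨n, hn⟩) (h1 _)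

theorem surjective_evP {p : ν → V M} (hp : ∀ n i, p n i ≠ 0)
    (hi : ∀ n n', Orb (p n) (p n') → n = n') {N : ℕ} (hN : Fintype.card ν ≤ N) :
    Surjective (evP (fun _ => N) p) := by
  classical
  intro v
  choose F h1 h2 h3 using fun n => exists_pol_van hp (hp n) (Finset.univ.erase n)
    (fun n' k e => (Finset.mem_erase.1 k).1 (hi _ _ e))
    ((Finset.card_le_univ _).trans hN)
  choose μ hμ using h1
  refine ⟨∑ n, (v n / F n (p n)) • μ n, funext fun k => ?_⟩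
  have e : ∀ n, val (μ n) = F n := hμ
  rw [evP_apply, val_sum, Finset.sum_eq_single k]
  · rw [val_smul', e, div_mul_cancel₀ _ (h2 k)]
  · intro n _ hn
    rw [val_smul', e, h3 n k (Finset.mem_erase.2 ⟨hn.symm, Finset.mem_univ _⟩), mul_zero]
  · simp

/-- A form through given smooth points with simple zeros only. -/
theorem Nod.exists_simp_through (hC : Nod o C) {p : ν → V M} (hp : ∀ n, p n ∈ C)
    (hn : ∀ n, ¬IsNode o C (p n)) (hi : ∀ n n', Orb (p n) (p n') → n = n')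
    (hz : ∀ j i, z j i ≠ 0) (hzp : ∀ n j, ¬Orb (z j) (p n)) {N : ℕ}
    (hN : Fintype.card ν + 1 ≤ N) : ∃ μ : Tens M fun _ => N, (∀ n, val μ (p n) = 0) ∧
      (∀ c ∈ C, val μ c = 0 → Simp o C (val μ) c) ∧ ∀ j, val μ (z j) ≠ 0 := by
  classical
  have h0 := fun n => hC.ne_zero _ (hp n)
  have h1 : ∀ c : V M, (∀ i, c i ≠ 0) → (∀ n, ¬Orb (p n) c) →
      ∃ μ ∈ LinearMap.ker (evP (fun _ => N) p).toLinearMap, val μ c ≠ 0 := fun c hc k => by
    obtain ⟨_, ⟨μ, rfl⟩, k1, k2⟩ := exists_pol_van h0 hc Finset.univ (fun n _ => k n)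
      (show _ ≤ N from le_trans (Nat.le_succ _) hN)
    exact ⟨μ, funext fun n => k2 n (Finset.mem_univ _), k1⟩
  obtain ⟨μ, k1, k2⟩ := hC.exists_simp (LinearMap.ker (evP (fun _ => N) p).toLinearMap)
    (fun c hc k => by
      obtain ⟨n, k1⟩ : ∃ n, Orb (p n) c := by
        by_contra k1
        push Not at k1
        obtain ⟨μ, k2, k3⟩ := h1 c (hC.ne_zero c hc) k1
        exact k3 (k μ k2)
      obtain ⟨l, l1, l2, -⟩ := hC.exists_simp_at (hp n) (hn n) (y := (Empty.elim · : Empty → V M))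
        (fun k => k.elim) fun k => k.elim
      obtain ⟨F, f1, f2, f3⟩ := exists_pol_van h0 (h0 n) (Finset.univ.erase n)
        (fun n' k e => (Finset.mem_erase.1 k).1 (hi _ _ e))
        (show _ ≤ N - 1 from (Finset.card_le_univ _).trans (by omega))
      obtain ⟨μ, e⟩ := Pol.mul' (val_mem l) f1
        (show _ = fun _ => N from funext fun i => by simp only [Pi.add_apply, Pi.one_apply]; omega)
      replace e : val μ = fun c => val l c * F c := e
      refine ⟨μ, funext fun n' => ?_, Simp.orb ?_ hC (Pol.hm (val_mem μ)) k1⟩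
      · change val μ (p n') = 0
        rw [e]
        by_cases k2 : n' = n
        · simp [k2, l1]
        · simp [f3 n' (Finset.mem_erase.2 ⟨k2, Finset.mem_univ _⟩)]
      · rw [e]
        exact (l2 _ (hp n) l1).mul (analyticAt_val _ _) (Pol.an f1 _) f2)
    fun j => h1 (z j) (hz j) fun n k => hzp n j k.symm
  exact ⟨μ, congrFun k1, k2⟩

end Static

variable {T P : Type*} [TopologicalSpace T] [NormedAddCommGroup P] [NormedSpace ℂ P]
  [FiniteDimensional ℂ P] {C : T → Set (V M)} {π : T → P} {t₀ : T}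

theorem VFam.along {ξ : P → V M → V M} {z : P → κ → V M} (h : VFam o C π t₀ w ξ z)
    (hf : LocFam o C π t₀) {δ : P × ℂ → V M} (hδ : AnalyticAt ℂ δ (π t₀, 0))
    (hb : IsBranch o (C t₀) fun s => δ (π t₀, s))
    (hm : ∀ᶠ q : T × ℂ in 𝓝 (t₀, 0), δ (π q.1, q.2) ∈ C q.1) :
    ∃ φ : P × ℂ → ℂ, AnalyticAt ℂ φ (π t₀, 0) ∧ ∀ᶠ q : T × ℂ in 𝓝 (t₀, 0),
      (IsBranch o (C q.1) fun s => δ (π q.1, q.2 + s)) ∧
        Along (ξ (π q.1)) (fun s => δ (π q.1, q.2 + s)) fun s => φ (π q.1, q.2 + s) := by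
  have hπ := hf.cont.self_of_nhds
  have hD : ∀ (p : P) (x s : ℂ), AnalyticAt ℂ δ (p, x + s) →
      deriv (fun s => δ (p, x + s)) s = fderiv ℂ δ (p, x + s) (0, 1) := fun p x s hq =>
    (HasFDerivAt.comp_hasDerivAt (f := fun s : ℂ => (p, x + s)) s hq.differentiableAt.hasFDerivAt
      ((hasDerivAt_const _ _).prodMk ((hasDerivAt_id s).const_add x))).deriv
  obtain ⟨l₁, e₁⟩ := exists_dual_of_li hb.imm ![1, 0]
  obtain ⟨l₂, e₂⟩ := exists_dual_of_li hb.imm ![0, 1]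
  let W : V M → V M → ℂ := fun u v => l₁ (u o) * l₂ (v o) - l₂ (u o) * l₁ (v o)
  have aW : ∀ {u v : P × ℂ → V M}, AnalyticAt ℂ u (π t₀, 0) → AnalyticAt ℂ v (π t₀, 0) →
      AnalyticAt ℂ (fun q => W (u q) (v q)) (π t₀, 0) := fun hu hv =>
    (((l₁.toContinuousLinearMap.analyticAt _).comp (analyticAt_pi_iff.1 hu o)).mul
      ((l₂.toContinuousLinearMap.analyticAt _).comp (analyticAt_pi_iff.1 hv o))).sub
      (((l₂.toContinuousLinearMap.analyticAt _).comp (analyticAt_pi_iff.1 hu o)).mul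
        ((l₁.toContinuousLinearMap.analyticAt _).comp (analyticAt_pi_iff.1 hv o)))
  have hW : ∀ (u v : V M) (α : ι → ℂ) (x : ℂ), W u (α • u + x • v) = x * W u v := by
    intro u v α x
    simp only [W, Pi.add_apply, Pi.smul_apply, Pi.smul_apply', map_add, map_smul, smul_eq_mul]
    ring
  have aD := an_apply hδ.fderiv (analyticAt_const (v := ((0 : P), (1 : ℂ))))
  have w0 : W (δ (π t₀, 0)) (fderiv ℂ δ (π t₀, 0) (0, 1)) ≠ 0 := by
    have k := hD (π t₀) 0 0 (by simpa using hδ)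
    have k1 := e₁ 0
    have k2 := e₁ 1
    have k3 := e₂ 0
    have k4 := e₂ 1
    simp only [zero_add] at k
    simp only [Matrix.cons_val_zero, Matrix.cons_val_one, k] at k1 k2 k3 k4
    simp [W, k1, k2, k3, k4]
  obtain ⟨ξ', a1, a2⟩ := h.loc _ hb.mem.self_of_nhds
  have t1 := tendsto_pm hπ (0 : ℂ)
  refine ⟨fun q => W (δ q) (ξ' (q.1, δ q)) / W (δ q) (fderiv ℂ δ q (0, 1)),
    (aW hδ (a1.comp_of_eq (analyticAt_fst.prod hδ) rfl)).div (aW hδ aD) w0, ?_⟩
  filter_upwards [(hm.and ((t1.eventually (hδ.eventually_analyticAt.and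
    ((aW hδ aD).continuousAt.eventually_ne w0))).and ((continuousAt_fst.tendsto.prodMk_nhds
      (hδ.continuousAt.tendsto.comp t1)).eventually a2))).eventually_nhds,
    continuousAt_fst.tendsto.eventually h.vf] with q k1 k2
  have t2 : Tendsto (fun s : ℂ => (q.1, q.2 + s)) (𝓝 0) (𝓝 q) :=
    Continuous.tendsto' (by fun_prop) _ _ (by simp)
  have k3 := t2.eventually k1
  have k4 := k3.self_of_nhds
  have hγ : IsBranch o (C q.1) fun s => δ (π q.1, q.2 + s) := by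
    refine ⟨k4.2.1.1.comp_of_eq (analyticAt_const.prod (analyticAt_const.add analyticAt_id)) rfl,
      k3.mono fun s hs => hs.1, ?_⟩
    rw [hD _ _ _ k4.2.1.1]
    refine li_pair (fun e => k4.2.1.2 ?_) fun e s he => ?_
    · simp only [W, e, map_zero, zero_mul, sub_zero]
    · refine (mul_eq_zero.1 ?_).resolve_right k4.2.1.2
      have k5 := congrArg l₁ he
      have k6 := congrArg l₂ he
      simp only [map_smul, smul_eq_mul] at k5 k6
      simp only [W]
      linear_combination l₁ (δ (π q.1, q.2 + 0) o) * k6 - l₂ (δ (π q.1, q.2 + 0) o) * k5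
  obtain ⟨φ', k5⟩ := k2.along hγ
  refine ⟨hγ, k5.congr .rfl ?_⟩
  filter_upwards [k3, k5.2] with s ⟨k6, k7, k8⟩ ⟨α, k9⟩
  obtain ⟨α', k10⟩ := k8 k6
  rw [hD _ _ _ k7.1] at k9
  rw [eq_div_iff k7.2, ← hW _ _ α, ← k9]
  exact (congrArg _ (k10.trans (by rw [one_smul]; rfl))).trans ((hW _ _ α' 1).trans (one_mul _))

theorem VFam.comp {T' P' : Type*} [TopologicalSpace T'] [NormedAddCommGroup P']
    [NormedSpace ℂ P'] {u : T' → T} {t' : T'} {π' : T' → P'} {k : P' → P} {ξ : P → V M → V M}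
    {z : P → κ → V M} (h : VFam o C π (u t') w ξ z) (hu : ContinuousAt u t')
    (hk : AnalyticAt ℂ k (π' t')) (he : ∀ᶠ t in 𝓝 t', π (u t) = k (π' t)) :
    VFam o (fun t => C (u t)) π' t' w (fun p => ξ (k p)) fun p => z (k p) := by
  have e0 := he.self_of_nhds
  refine ⟨fun j => (h.an j).comp_of_eq hk e0.symm, ?_, fun c hc => ?_⟩
  · filter_upwards [hu.eventually h.vf, he] with t h1 h2
    rwa [← h2]
  · obtain ⟨ξ', h1, h2⟩ := h.loc c hc
    refine ⟨fun q => ξ' (k q.1, q.2), h1.comp_of_eq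
      ((hk.comp_of_eq analyticAt_fst rfl).prod analyticAt_snd) (by rw [e0]), ?_⟩
    filter_upwards [(tendsto_pm hu c).eventually h2, continuousAt_fst.eventually he] with q h3 h4
    simpa only [← h4] using h3

theorem VFam.congr {C' : T → Set (V M)} {ξ : P → V M → V M} {z : P → κ → V M}
    (h : VFam o C π t₀ w ξ z) (he : ∀ᶠ t in 𝓝 t₀, C' t = C t) : VFam o C' π t₀ w ξ z := by
  refine ⟨h.an, ?_, fun c hc => ?_⟩
  · filter_upwards [h.vf, he] with t h1 h2
    rwa [h2]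
  · obtain ⟨ξ', h1, h2⟩ := h.loc c (he.self_of_nhds ▸ hc)
    refine ⟨ξ', h1, ?_⟩
    filter_upwards [h2, continuousAt_fst.eventually he] with q h3 h4
    rwa [h4]

theorem LocFam.congr {C' : T → Set (V M)} (h : LocFam o C π t₀)
    (he : ∀ᶠ t in 𝓝 t₀, C' t = C t) : LocFam o C' π t₀ := by
  have h0 : ∀ c : V M, ∀ᶠ q : T × V M in 𝓝 (t₀, c), q.2 ∈ C' q.1 ↔ q.2 ∈ C q.1 := fun c =>
    (continuousAt_fst.eventually he).mono fun q hq => by rw [hq]
  have hπ := h.cont.self_of_nhds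
  refine ⟨h.cont, (h.ne_zero.and he).mono fun t ht => ht.2 ▸ ht.1,
    (h.cone.and he).mono fun t ht => ht.2 ▸ ht.1, fun c hc hn => ?_, fun c hc => ?_⟩
  · filter_upwards [h.usc c hc (he.self_of_nhds ▸ hn), h0 c] with q h1 h2
    rwa [h2]
  · exact (h.chart c (he.self_of_nhds ▸ hc)).imp
      (fun ⟨σ, h1, h2⟩ => ⟨σ, h1, h2.congr hπ (h0 _)⟩)
      fun ⟨τ, σ, h1, h2, h3, h4⟩ => ⟨τ, σ, h1, h2, h3, h4.congr hπ (h0 _)⟩

theorem VFam.mul {ξ : P → V M → V M} {z : P → κ → V M} (h : VFam o C π t₀ w ξ z)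
    (hf : LocFam o C π t₀) (h0 : IsCurve o g m (C t₀)) {p : P → ν → V M}
    (hp : AnalyticAt ℂ p (π t₀)) (hm : ∀ᶠ t in 𝓝 t₀, ∀ n, p (π t) n ∈ C t)
    (hn : ∀ n, ¬IsNode o (C t₀) (p (π t₀) n))
    (hi : ∀ n n', Orb (p (π t₀) n) (p (π t₀) n') → n = n')
    (hz : ∀ n j, ¬Orb (z (π t₀) j) (p (π t₀) n)) (B : ℕ) :
    ∃ (b : ι → ℕ) (r : ℕ) (G : P → Tens M b) (R : P → Fin r → V M), (∀ i, B ≤ b i) ∧
      (r + Fintype.card ν : ℤ) = dg m b ∧ VFam o C π t₀ (w + b) (fun y c => val (G y) c • ξ y c)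
        fun y => Sum.elim (Sum.elim (z y) (R y)) (p y) := by
  have hπ := hf.cont.self_of_nhds
  have hC := h0.nod
  have hp0 := fun n => hC.ne_zero _ (hm.self_of_nhds n)
  obtain ⟨μ, m1, m2, m3⟩ := hC.exists_simp_through hm.self_of_nhds hn hi
    (fun j => hC.ne_zero _ (h.vf.self_of_nhds.mem j).1) hz (le_max_right B _)
  obtain ⟨S, hS⟩ := exists_rightInv (surjective_evP hp0 hi
    (le_trans (Nat.le_succ _) (le_max_right B (Fintype.card ν + 1))))
  obtain ⟨g1, g2⟩ := exists_proj_ker ((analyticAt_evP _).comp hp) hS μ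
  obtain ⟨G, aG, G0, G1⟩ : ∃ G : P → Tens M fun _ => max B (Fintype.card ν + 1),
      AnalyticAt ℂ G (π t₀) ∧ G (π t₀) = μ ∧ ∀ᶠ y in 𝓝 (π t₀), ∀ n, val (G y) (p y n) = 0 := by
    refine ⟨_, analyticAt_const.sub ((S.analyticAt _).comp g1), ?_,
      g2.mono fun y hy => congrFun hy⟩
    have : evP _ (p (π t₀)) μ = 0 := funext m1
    simp [this]
  subst G0
  have ho : ∀ {c c' : V M}, Orb c c' → (val (G (π t₀)) c' = 0 ↔ val (G (π t₀)) c = 0) := fun k =>
    (Pol.hm (val_mem _)).orb (mem_univ _) k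
  obtain ⟨r, R₀, hR⟩ := hC.exists_reps
    (p := fun c => val (G (π t₀)) c = 0 ∧ ∀ n, ¬Orb (p (π t₀) n) c)
    (fun c _ y k1 k2 => ⟨(ho k2).2 k1.1, fun n k => k1.2 n (k.trans k2.symm)⟩) fun c hc =>
      ((nzd_of_simp hC (Pol.isSec (val_mem _)) m2).eventually_orb hC (Pol.isSec (val_mem _))
        hc).mono fun y hy k => hy k.1
  have hZ : Reps (C t₀) (fun c => val (G (π t₀)) c = 0) (Sum.elim R₀ (p (π t₀))) := by
    refine ⟨?_, ?_, fun c hc k => ?_, ?_⟩
    · rintro (k | k)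
      exacts [hR.mem k, hm.self_of_nhds k]
    · rintro (k | k)
      exacts [(hR.prop k).1, m1 k]
    · by_cases k1 : ∃ n, Orb (p (π t₀) n) c
      · exact ⟨.inr k1.choose, k1.choose_spec⟩
      · obtain ⟨l, hl⟩ := hR.ex c hc ⟨k, not_exists.1 k1⟩
        exact ⟨.inl l, hl⟩
    · rintro (k | k) (k' | k') e
      exacts [congrArg _ (hR.inj _ _ e), absurd e.symm ((hR.prop k).2 k'),
        absurd e ((hR.prop k').2 k), congrArg _ (hi _ _ e)]
  have hs := fun k => m2 _ (hZ.mem k) (hZ.prop k)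
  obtain ⟨σ, s1, s2⟩ := hf.zeros aG hZ hs
  have a1 : ∀ k, AnalyticAt ℂ (fun y => σ k (y, 0)) (π t₀) := fun k =>
    (s1 k).2.an.comp_of_eq (analyticAt_id.prod analyticAt_const) rfl
  have a2 := analyticAt_pi_iff.1 hp
  refine ⟨_, r, G, fun y k => σ (.inl k) (y, 0), fun _ => le_max_left _ _,
    by simpa using h0.card_simp (val_mem _) hZ hs, ?_, ?_, fun c hc => ?_⟩
  · rintro ((j | j) | j)
    exacts [h.an j, a1 _, a2 j]
  · have e1 : ∀ᶠ t in 𝓝 t₀, ∀ n k, Orb (σ k (π t, 0)) (p (π t) n) → k = .inr n :=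
      eventually_all.2 fun n => eventually_all.2 fun k => by
        by_cases e : k = .inr n
        · exact .of_forall fun _ _ => e
        · exact (ev_not_orb ((a1 k).continuousAt.tendsto.comp hπ)
            ((a2 n).continuousAt.tendsto.comp hπ) ((s1 k).1 ▸ hC.ne_zero _ (hZ.mem k)) (hp0 n)
            ((s1 k).1 ▸ fun k1 => e (hZ.inj k (.inr n) k1))).mono fun t ht k1 => absurd k1 ht
    filter_upwards [s2, e1, hm, hπ.eventually G1, h.vf, hf.eventually, hπ.eventually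
      (eventually_all.2 fun j => (an_val aG (h.an j)).continuousAt.eventually_ne (m3 j))]
      with t k1 k2 k3 k4 k5 k6 k7
    have k8 : ∀ k, Orb (σ k (π t, 0)) (Sum.elim (fun k => σ (.inl k) (π t, 0)) (p (π t)) k) := by
      rintro (k | n)
      · exact .refl _
      · obtain ⟨k, hk⟩ := k1.1.ex _ (k3 n) (k4 n)
        obtain rfl := k2 n k hk
        exact hk
    have k9 := (k5.mul k6.nod (val_mem _) (k1.1.congr k6.nod (by
        rintro (k | n)
        exacts [k1.1.prop _, k4 n]) k8)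
      (fun k => (k1.2 k).orb k6.nod (Pol.hm (val_mem _)) (k8 k)) k7).reindex
        (Equiv.sumAssoc κ (Fin r) ν)
    convert k9 using 2 with j
    rcases j with (j | j) | j <;> rfl
  · obtain ⟨ξ', h1, h2⟩ := h.loc c hc
    refine ⟨fun q => val (G q.1) q.2 • ξ' q,
      (an_val (aG.comp_of_eq analyticAt_fst rfl) analyticAt_snd).fun_smul h1,
      h2.mono fun q hq k => ?_⟩
    obtain ⟨α, e⟩ := hq k
    exact ⟨val (G (π q.1)) q.2 • α, by rw [e, smul_add, smul_assoc]⟩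

end Vale.Agent.P269.Base
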